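import Mathlib
import Crest.Agent.R059.AltDefs_599

-- ▼ part R059/Hilb_568
section

/-!
# Row 59, leaf HILB: Hilbert series of symmetric / alternating polynomials in blocks
(owner helper568)
-/

set_option autoImplicit false

namespace Crest.Agent.R059.Hilb568

open MvPolynomial

/-! ## equivariant functions on a finite set -/

section equiv

variable {K : Type*} [Field K] {G X : Type*} [Group G] [MulAction G X]

/-- functions with `f (g x) = χ g * f x` -/
def equi (K : Type*) [Field K] {G X : Type*} [Group G] [MulAction G X] (χ : G →* Kˣ) :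
    Submodule K (X → K) where
  carrier := {f | ∀ g x, f (g • x) = (χ g : K) * f x}
  add_mem' {a b} ha hb g x := by
    simp only [Set.mem_ofPred_eq, Pi.add_apply] at *
    rw [ha, hb, mul_add]
  zero_mem' g x := by simp
  smul_mem' c a ha g x := by
    simp only [Set.mem_ofPred_eq, Pi.smul_apply, smul_eq_mul] at *
    rw [ha]; ring

theorem mem_equi {χ : G →* Kˣ} {f : X → K} :
    f ∈ equi K χ ↔ ∀ g x, f (g • x) = (χ g : K) * f x := Iff.rfl

/-- restriction to a set of representatives is bijective -/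
theorem equi_restrict_bijective (χ : G →* Kˣ) (S : Set X)
    (h1 : ∀ x, (∃ g : G, g • x = x ∧ (χ g : K) ≠ 1) ∨ ∃ g : G, g • x ∈ S)
    (h2 : ∀ x ∈ S, ∀ g : G, g • x ∈ S → g • x = x ∧ χ g = 1) :
    Function.Bijective
      ((LinearMap.funLeft K K ((↑) : S → X)).domRestrict (equi K χ) :
        equi K χ →ₗ[K] (S → K)) := by
  classical
  constructor
  · rw [← LinearMap.ker_eq_bot, LinearMap.ker_eq_bot']
    rintro ⟨f, hf⟩ h
    have hS : ∀ x ∈ S, f x = 0 := fun x hx => congrFun h ⟨x, hx⟩
    refine Subtype.ext (funext fun x => ?_)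
    change f x = 0
    rcases h1 x with ⟨g, hg, hχ⟩ | ⟨g, hg⟩
    · have := hf g x
      rw [hg] at this
      have h3 : ((χ g : K) - 1) * f x = 0 := by rw [sub_mul, one_mul, ← this, sub_self]
      rcases mul_eq_zero.1 h3 with h3 | h3
      · exact absurd (sub_eq_zero.1 h3) hχ
      · exact h3
    · have := hf g x
      rw [hS _ hg] at this
      rcases mul_eq_zero.1 this.symm with h3 | h3
      · exact absurd h3 (χ g).ne_zero
      · exact h3
  · intro φ
    let f : X → K := fun x =>
      if h : ∃ g : G, g • x ∈ S then ((χ h.choose)⁻¹ : Kˣ) * φ ⟨h.choose • x, h.choose_spec⟩ else 0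
    have key : ∀ (x : X) (g : G) (hg : g • x ∈ S), f x = ((χ g)⁻¹ : Kˣ) * φ ⟨g • x, hg⟩ := by
      intro x g hg
      have h : ∃ g : G, g • x ∈ S := ⟨g, hg⟩
      have e : f x = ((χ h.choose)⁻¹ : Kˣ) * φ ⟨h.choose • x, h.choose_spec⟩ := dif_pos h
      rw [e]
      have hg' : h.choose • x ∈ S := h.choose_spec
      have h3 := h2 (g • x) hg (h.choose * g⁻¹)
        (by rw [smul_smul, mul_assoc, inv_mul_cancel, mul_one]; exact hg')
      rw [smul_smul, mul_assoc, inv_mul_cancel, mul_one] at h3
      have h4 : χ h.choose = χ g := by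
        have := h3.2
        rw [map_mul, map_inv, mul_inv_eq_one] at this
        exact this
      have h5 : (⟨h.choose • x, hg'⟩ : S) = ⟨g • x, hg⟩ := Subtype.ext h3.1
      rw [h4]
      exact congrArg (fun y => (((χ g)⁻¹ : Kˣ) : K) * φ y) h5
    refine ⟨⟨f, ?_⟩, ?_⟩
    · intro g x
      by_cases h : ∃ g : G, g • x ∈ S
      · obtain ⟨g', hg'⟩ := h
        rw [key x g' hg']
        have hg'' : (g' * g⁻¹) • (g • x) ∈ S := by
          rw [smul_smul, mul_assoc, inv_mul_cancel, mul_one]; exact hg'
        rw [key (g • x) (g' * g⁻¹) hg'']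
        have h5 : (⟨(g' * g⁻¹) • (g • x), hg''⟩ : S) = ⟨g' • x, hg'⟩ :=
          Subtype.ext (by
            change (g' * g⁻¹) • (g • x) = g' • x
            rw [smul_smul, mul_assoc, inv_mul_cancel, mul_one])
        rw [h5, map_mul, map_inv, mul_inv_rev, inv_inv, Units.val_mul, mul_assoc]
      · have h' : ¬ ∃ g' : G, g' • (g • x) ∈ S := by
          rintro ⟨g', hg'⟩
          exact h ⟨g' * g, by rw [mul_smul]; exact hg'⟩
        have e1 : f x = 0 := dif_neg h
        have e2 : f (g • x) = 0 := dif_neg h'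
        rw [e1, e2, mul_zero]
    · funext s
      change f s = φ s
      have hs : (1 : G) • (s : X) ∈ S := by rw [one_smul]; exact s.2
      rw [key s 1 hs]
      have h5 : (⟨(1 : G) • (s : X), hs⟩ : S) = s := Subtype.ext (one_smul _ _)
      rw [h5, map_one, inv_one, Units.val_one, one_mul]

theorem finrank_equi (χ : G →* Kˣ) (S : Set X) [Finite S]
    (h1 : ∀ x, (∃ g : G, g • x = x ∧ (χ g : K) ≠ 1) ∨ ∃ g : G, g • x ∈ S)
    (h2 : ∀ x ∈ S, ∀ g : G, g • x ∈ S → g • x = x ∧ χ g = 1) :
    Module.finrank K (equi K χ : Submodule K (X → K)) = Nat.card S := by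
  have : Fintype S := Fintype.ofFinite S
  rw [(LinearEquiv.ofBijective _ (equi_restrict_bijective χ S h1 h2)).finrank_eq,
    Module.finrank_fintype_fun_eq_card, Nat.card_eq_fintype_card]

end equiv

/-! ## exponents -/

section exponents

variable {V : Type*} [Fintype V] (d : V → ℕ)

/-- the variables: `d i` of them in the block `i` -/
abbrev Vars : Type _ := Σ i, Fin (d i)

/-- the group permuting the variables inside the blocks -/
abbrev Grp : Type _ := ∀ i, Equiv.Perm (Fin (d i))

/-- exponent vectors of total degree `m` -/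
def Ex (m : ℕ) : Type _ := {a : Vars d → ℕ // ∑ x, a x = m}

variable {d}

theorem sum_comp_sigma (w : Grp d) (a : Vars d → ℕ) :
    ∑ x, a (Equiv.Perm.sigmaCongrRight w x) = ∑ x, a x :=
  Equiv.sum_comp (Equiv.Perm.sigmaCongrRight w) a

instance (m : ℕ) : MulAction (Grp d) (Ex d m) where
  smul w a := ⟨fun x => a.1 (Equiv.Perm.sigmaCongrRight w⁻¹ x), by
    rw [sum_comp_sigma]; exact a.2⟩
  one_smul a := Subtype.ext (funext fun x => by
    change a.1 (Equiv.Perm.sigmaCongrRight (1 : Grp d)⁻¹ x) = a.1 x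
    rw [inv_one, Equiv.Perm.sigmaCongrRight_one]; rfl)
  mul_smul w w' a := Subtype.ext (funext fun x => by
    change a.1 (Equiv.Perm.sigmaCongrRight (w * w')⁻¹ x) =
      a.1 (Equiv.Perm.sigmaCongrRight w'⁻¹ (Equiv.Perm.sigmaCongrRight w⁻¹ x))
    rw [mul_inv_rev, ← Equiv.Perm.sigmaCongrRight_mul]; rfl)

theorem smul_apply {m : ℕ} (w : Grp d) (a : Ex d m) (i : V) (k : Fin (d i)) :
    (w • a).1 ⟨i, k⟩ = a.1 ⟨i, (w i)⁻¹ k⟩ := rfl


instance (m : ℕ) : Finite (Ex d m) := by
  have : Function.Injective
      (fun a : Ex d m => fun x : Vars d => (⟨a.1 x, by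
        have h := Finset.single_le_sum (f := a.1) (fun _ _ => Nat.zero_le _) (Finset.mem_univ x)
        rw [a.2] at h
        omega⟩ : Fin (m + 1))) := by
    intro a b h
    refine Subtype.ext (funext fun x => ?_)
    exact congrArg Fin.val (congrFun h x)
  exact Finite.of_injective _ this

/-- exponents strictly decreasing in every block -/
def SA (d : V → ℕ) (m : ℕ) : Set (Ex d m) := {a | ∀ i, StrictAnti fun k : Fin (d i) => a.1 ⟨i, k⟩}


/-- sorting -/
theorem exists_sort {m : ℕ} (a : Ex d m) :
    ∃ w : Grp d, ∀ i, Antitone fun k : Fin (d i) => (w • a).1 ⟨i, k⟩ := by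
  refine ⟨fun i => (Tuple.sort (fun k => a.1 ⟨i, k⟩) * Fin.revPerm)⁻¹, fun i => ?_⟩
  have h := Tuple.monotone_sort (fun k : Fin (d i) => a.1 ⟨i, k⟩)
  intro k l hkl
  have e : (((Tuple.sort (fun k : Fin (d i) => a.1 ⟨i, k⟩) * Fin.revPerm :
      Equiv.Perm (Fin (d i)))⁻¹)⁻¹ : Equiv.Perm (Fin (d i))) =
      Tuple.sort (fun k : Fin (d i) => a.1 ⟨i, k⟩) * Fin.revPerm := inv_inv _
  change a.1 ⟨i, (((Tuple.sort (fun k : Fin (d i) => a.1 ⟨i, k⟩) * Fin.revPerm :
      Equiv.Perm (Fin (d i)))⁻¹)⁻¹ : Equiv.Perm (Fin (d i))) l⟩ ≤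
    a.1 ⟨i, (((Tuple.sort (fun k : Fin (d i) => a.1 ⟨i, k⟩) * Fin.revPerm :
      Equiv.Perm (Fin (d i)))⁻¹)⁻¹ : Equiv.Perm (Fin (d i))) k⟩
  rw [e]
  exact h (Fin.rev_le_rev.2 hkl)

theorem perm_eq_one_of_strictMono {n : ℕ} (w : Equiv.Perm (Fin n)) (h : StrictMono w) : w = 1 := by
  have h' : StrictMono ⇑w.symm := by
    intro a b hab
    by_contra hc
    push Not at hc
    have := h.monotone hc
    rw [w.apply_symm_apply, w.apply_symm_apply] at this
    exact absurd hab (not_lt.2 this)
  ext k
  have h1 : k ≤ w k := h.le_apply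
  have h2 : w k ≤ w.symm (w k) := h'.le_apply
  rw [w.symm_apply_apply] at h2
  rw [le_antisymm h2 h1]; rfl

theorem eq_one_of_SA {m : ℕ} {a : Ex d m} (ha : a ∈ SA d m) {w : Grp d} (hw : w • a ∈ SA d m) :
    w = 1 := by
  funext i
  have h1 : StrictAnti fun k : Fin (d i) => a.1 ⟨i, k⟩ := ha i
  have h2 : StrictAnti fun k : Fin (d i) => a.1 ⟨i, (w i)⁻¹ k⟩ := hw i
  have h3 : StrictMono ⇑((w i)⁻¹ : Equiv.Perm (Fin (d i))) :=
    fun k l hkl => h1.lt_iff_gt.1 (h2 hkl)
  have := perm_eq_one_of_strictMono _ h3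
  rw [inv_eq_one] at this
  exact this


end exponents

/-! ## the sign character -/

section sign

variable {V : Type*} [Fintype V] {d : V → ℕ}

/-- the sign of a block permutation -/
def sg (d : V → ℕ) : Grp d →* ℤˣ where
  toFun w := ∏ i, Equiv.Perm.sign (w i)
  map_one' := by simp
  map_mul' a b := by simp [Finset.prod_mul_distrib]

theorem sg_apply (w : Grp d) : sg d w = ∏ i, Equiv.Perm.sign (w i) := rfl

/-- the sign character with values in `K` -/
def sgK (K : Type*) [Field K] (d : V → ℕ) : Grp d →* Kˣ :=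
  (Units.map (Int.castRingHom K).toMonoidHom).comp (sg d)

theorem sgK_coe (K : Type*) [Field K] (w : Grp d) : (sgK K d w : K) = ((sg d w : ℤ) : K) := rfl

variable [DecidableEq V]

theorem sg_mulSingle (i : V) (w : Equiv.Perm (Fin (d i))) :
    sg d (Pi.mulSingle i w) = Equiv.Perm.sign w := by
  rw [sg_apply, Finset.prod_eq_single i]
  · rw [Pi.mulSingle_eq_same]
  · intro j _ hj
    rw [Pi.mulSingle_eq_of_ne hj, map_one]
  · intro h; exact absurd (Finset.mem_univ i) h

theorem finrank_alt_exponents (K : Type*) [Field K] (h2 : (2 : K) ≠ 0) (m : ℕ) :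
    Module.finrank K (equi K (sgK K d) : Submodule K (Ex d m → K)) = Nat.card (SA d m) := by
  refine finrank_equi (sgK K d) (SA d m) ?_ ?_
  · intro a
    by_cases h : ∀ i, Function.Injective fun k : Fin (d i) => a.1 ⟨i, k⟩
    · right
      obtain ⟨w, hw⟩ := exists_sort a
      refine ⟨w, fun i => (hw i).strictAnti_of_injective ?_⟩
      intro k l hkl
      have : (w i)⁻¹ k = (w i)⁻¹ l := h i hkl
      exact (w i)⁻¹.injective this
    · left
      push Not at h
      obtain ⟨i, hi⟩ := h
      rw [Function.Injective] at hi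
      push Not at hi
      obtain ⟨k, l, hkl, hne⟩ := hi
      refine ⟨Pi.mulSingle i (Equiv.swap k l), ?_, ?_⟩
      · refine Subtype.ext (funext fun x => ?_)
        obtain ⟨j, t⟩ := x
        rw [smul_apply]
        by_cases hj : j = i
        · subst hj
          rw [Pi.mulSingle_eq_same, Equiv.swap_inv]
          by_cases h1 : t = k
          · subst h1; rw [Equiv.swap_apply_left]; exact hkl.symm
          · by_cases h2 : t = l
            · subst h2; rw [Equiv.swap_apply_right]; exact hkl
            · rw [Equiv.swap_apply_of_ne_of_ne h1 h2]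
        · rw [Pi.mulSingle_eq_of_ne hj, inv_one]; rfl
      · rw [sgK_coe, sg_mulSingle, Equiv.Perm.sign_swap hne]
        simp only [Units.val_neg, Units.val_one, Int.cast_neg, Int.cast_one]
        intro h
        apply h2
        have : (-1 : K) + 1 = 1 + 1 := by rw [h]
        rw [neg_add_cancel] at this
        rw [← one_add_one_eq_two, ← this]
  · intro a ha w hw
    have := eq_one_of_SA ha hw
    subst this
    exact ⟨one_smul _ _, map_one _⟩


end sign

/-! ## polynomials -/

section poly

variable {V : Type*} [Fintype V] {d : V → ℕ} {K : Type*} [Field K]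

/-- polynomials with `rename w F = χ w • F`, homogeneous of degree `m` -/
def iso (χ : Grp d →* Kˣ) (m : ℕ) : Submodule K (MvPolynomial (Vars d) K) where
  carrier := {F | F.IsHomogeneous m ∧
    ∀ w : Grp d, rename (Equiv.Perm.sigmaCongrRight w) F = (χ w : K) • F}
  add_mem' {F G} hF hG := ⟨hF.1.add hG.1, fun w => by rw [map_add, hF.2, hG.2, smul_add]⟩
  zero_mem' := ⟨isHomogeneous_zero _ _ _, fun w => by simp⟩
  smul_mem' c F hF := ⟨(homogeneousSubmodule (Vars d) K m).smul_mem c hF.1, fun w => by
    rw [map_smul, hF.2, smul_comm]⟩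

omit [Fintype V] in
theorem mem_iso {χ : Grp d →* Kˣ} {m : ℕ} {F : MvPolynomial (Vars d) K} :
    F ∈ iso χ m ↔ F.IsHomogeneous m ∧
      ∀ w : Grp d, rename (Equiv.Perm.sigmaCongrRight w) F = (χ w : K) • F := Iff.rfl

/-- exponent as a finsupp -/
noncomputable def ex {m : ℕ} (a : Ex d m) : Vars d →₀ ℕ := Finsupp.equivFunOnFinite.symm a.1

theorem ex_injective {m : ℕ} : Function.Injective (ex : Ex d m → _) := fun _ _ h =>
  Subtype.ext (Finsupp.equivFunOnFinite.symm.injective h)

theorem degree_ex {m : ℕ} (a : Ex d m) : (ex a).degree = m := by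
  rw [Finsupp.degree_eq_sum]; exact a.2

theorem exists_ex {m : ℕ} {e : Vars d →₀ ℕ} (h : e.degree = m) : ∃ a : Ex d m, ex a = e := by
  rw [Finsupp.degree_eq_sum] at h
  exact ⟨⟨e, h⟩, Finsupp.ext fun _ => rfl⟩

theorem mapDomain_ex {m : ℕ} (w : Grp d) (a : Ex d m) :
    (ex a).mapDomain (Equiv.Perm.sigmaCongrRight w) = ex (w • a) := by
  ext x
  rw [Finsupp.mapDomain_equiv_apply]
  rfl

theorem coeff_rename_ex {m : ℕ} (w : Grp d) (a : Ex d m) (F : MvPolynomial (Vars d) K) :
    coeff (ex (w • a)) (rename (Equiv.Perm.sigmaCongrRight w) F) = coeff (ex a) F := by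
  rw [← mapDomain_ex]
  exact coeff_rename_mapDomain _ (Equiv.Perm.sigmaCongrRight w).injective _ _

/-- the coefficient map -/
noncomputable def cf (d : V → ℕ) (K : Type*) [Field K] (m : ℕ) :
    MvPolynomial (Vars d) K →ₗ[K] (Ex d m → K) :=
  LinearMap.pi fun a => lcoeff K (ex a)

@[simp] theorem cf_apply {m : ℕ} (F : MvPolynomial (Vars d) K) (a : Ex d m) :
    cf d K m F a = coeff (ex a) F := rfl

theorem eq_of_cf {m : ℕ} {F G : MvPolynomial (Vars d) K} (hF : F.IsHomogeneous m)
    (hG : G.IsHomogeneous m) (h : cf d K m F = cf d K m G) : F = G := by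
  ext e
  by_cases he : e.degree = m
  · obtain ⟨a, rfl⟩ := exists_ex he
    exact congrFun h a
  · rw [hF.coeff_eq_zero he, hG.coeff_eq_zero he]

theorem exists_cf {m : ℕ} (f : Ex d m → K) :
    ∃ F : MvPolynomial (Vars d) K, F.IsHomogeneous m ∧ cf d K m F = f := by
  classical
  have : Fintype (Ex d m) := Fintype.ofFinite _
  refine ⟨∑ a, monomial (ex a) (f a), IsHomogeneous.sum _ _ _ fun a _ =>
    isHomogeneous_monomial _ (degree_ex a), ?_⟩
  funext b
  rw [cf_apply, coeff_sum, Finset.sum_eq_single b]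
  · rw [coeff_monomial, if_pos rfl]
  · intro a _ hab
    rw [coeff_monomial, if_neg fun h => hab (ex_injective h)]
  · intro h; exact absurd (Finset.mem_univ b) h

theorem mem_iso_iff {χ : Grp d →* Kˣ} {m : ℕ} {F : MvPolynomial (Vars d) K}
    (hF : F.IsHomogeneous m) : F ∈ iso χ m ↔ cf d K m F ∈ equi K χ⁻¹ := by
  rw [mem_iso, mem_equi]
  constructor
  · rintro ⟨_, h⟩ w a
    have h1 := coeff_rename_ex w a F
    rw [h w, coeff_smul, smul_eq_mul] at h1
    rw [cf_apply, cf_apply, ← h1, MonoidHom.inv_apply, ← mul_assoc, Units.inv_mul, one_mul]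
  · intro h
    refine ⟨hF, fun w => ?_⟩
    have hF' : (rename (Equiv.Perm.sigmaCongrRight w) F).IsHomogeneous m :=
      hF.rename_isHomogeneous
    refine eq_of_cf hF' ((homogeneousSubmodule (Vars d) K m).smul_mem _ hF) ?_
    funext b
    obtain ⟨a, rfl⟩ : ∃ a : Ex d m, w • a = b := ⟨w⁻¹ • b, smul_inv_smul _ _⟩
    rw [cf_apply, coeff_rename_ex, map_smul, Pi.smul_apply, h w a, cf_apply, smul_eq_mul,
      MonoidHom.inv_apply, ← mul_assoc, Units.mul_inv, one_mul]

/-- the coefficient map on isotypic polynomials -/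
noncomputable def isoEquiv (χ : Grp d →* Kˣ) (m : ℕ) :
    iso χ m ≃ₗ[K] (equi K χ⁻¹ : Submodule K (Ex d m → K)) :=
  LinearEquiv.ofBijective
    (((cf d K m).domRestrict (iso χ m)).codRestrict (equi K χ⁻¹)
      fun F => (mem_iso_iff F.2.1).1 F.2) (by
    constructor
    · intro F G h
      refine Subtype.ext (eq_of_cf F.2.1 G.2.1 ?_)
      exact congrArg Subtype.val h
    · rintro ⟨f, hf⟩
      obtain ⟨F, hF, hFf⟩ := exists_cf f
      refine ⟨⟨F, (mem_iso_iff hF).2 (by rw [hFf]; exact hf)⟩, Subtype.ext hFf⟩)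

theorem sgK_inv : (sgK K d)⁻¹ = sgK K d := by
  refine MonoidHom.ext fun w => ?_
  rw [MonoidHom.inv_apply, inv_eq_iff_mul_eq_one, ← sq]
  change (Units.map _ (sg d w)) ^ 2 = 1
  rw [← map_pow, Int.units_sq, map_one]

/-- **(H1)**, alternating -/
theorem finrank_alt [DecidableEq V] (h2 : (2 : K) ≠ 0) (m : ℕ) :
    Module.finrank K (iso (sgK K d) m) = Nat.card (SA d m) := by
  rw [(isoEquiv (sgK K d) m).finrank_eq, sgK_inv, finrank_alt_exponents K h2]


end poly

/-! ## counting exponents: generating functions -/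

section count

/-- sequences with gaps at least `e` and `sum + s = m` -/
def T (e n s m : ℕ) : Type :=
  {a : Fin n → ℕ // (∀ k l, k < l → a l + e ≤ a k) ∧ ∑ k, a k + s = m}

instance (e n s m : ℕ) : Finite (T e n s m) := by
  have : Function.Injective
      (fun a : T e n s m => fun x : Fin n => (⟨a.1 x, by
        have h := Finset.single_le_sum (f := a.1) (fun _ _ => Nat.zero_le _) (Finset.mem_univ x)
        have := a.2.2
        omega⟩ : Fin (m + 1))) := by
    intro a b h
    refine Subtype.ext (funext fun x => ?_)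
    exact congrArg Fin.val (congrFun h x)
  exact Finite.of_injective _ this

theorem card_T_shift (e n s m : ℕ) :
    Nat.card (T e n s m) = if s ≤ m then Nat.card (T e n 0 (m - s)) else 0 := by
  split_ifs with h
  · refine Nat.card_congr ⟨fun a => ⟨a.1, a.2.1, ?_⟩, fun a => ⟨a.1, a.2.1, ?_⟩,
      fun a => rfl, fun a => rfl⟩
    · have := a.2.2; omega
    · have := a.2.2; omega
  · have : IsEmpty (T e n s m) := ⟨fun a => h (by have := a.2.2; omega)⟩
    exact Nat.card_of_isEmpty

/-- the last entry is zero, or subtract one everywhere -/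
def stepFun (e n m : ℕ) : T e n (e * n) m ⊕ T e (n + 1) (n + 1) m → T e (n + 1) 0 m
  | Sum.inl b => ⟨Fin.snoc (α := fun _ => ℕ) (fun k => b.1 k + e) 0, by
      refine ⟨fun k l hkl => ?_, ?_⟩
      · induction l using Fin.lastCases with
        | last =>
          induction k using Fin.lastCases with
          | last => exact absurd hkl (lt_irrefl _)
          | cast k => rw [Fin.snoc_last, Fin.snoc_castSucc]; omega
        | cast l =>
          induction k using Fin.lastCases with
          | last => exact absurd hkl (not_lt.2 (Fin.le_last _))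
          | cast k =>
            rw [Fin.snoc_castSucc, Fin.snoc_castSucc]
            have := b.2.1 k l (Fin.castSucc_lt_castSucc_iff.1 hkl)
            omega
      · rw [Fin.sum_univ_castSucc]
        simp only [Fin.snoc_castSucc, Fin.snoc_last, Finset.sum_add_distrib, Finset.sum_const,
          Finset.card_univ, Fintype.card_fin, smul_eq_mul]
        have h1 := b.2.2
        have h2 := mul_comm e n
        omega⟩
  | Sum.inr b => ⟨fun k => b.1 k + 1, by
      refine ⟨fun k l hkl => ?_, ?_⟩
      · have := b.2.1 k l hkl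
        change b.1 l + 1 + e ≤ b.1 k + 1
        omega
      · simp only [Finset.sum_add_distrib, Finset.sum_const,
          Finset.card_univ, Fintype.card_fin, smul_eq_mul, mul_one]
        exact b.2.2⟩

theorem stepFun_bijective (e n m : ℕ) : Function.Bijective (stepFun e n m) := by
  constructor
  · rintro (b | b) (c | c) h
    · have h' := congrArg Subtype.val h
      refine congrArg Sum.inl (Subtype.ext (funext fun k => ?_))
      have := congrFun h' k.castSucc
      simp only [stepFun, Fin.snoc_castSucc] at this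
      omega
    · exfalso
      have := congrFun (congrArg Subtype.val h) (Fin.last n)
      simp only [stepFun, Fin.snoc_last] at this
      omega
    · exfalso
      have := congrFun (congrArg Subtype.val h) (Fin.last n)
      simp only [stepFun, Fin.snoc_last] at this
      omega
    · refine congrArg Sum.inr (Subtype.ext (funext fun k => ?_))
      have := congrFun (congrArg Subtype.val h) k
      simp only [stepFun] at this
      omega
  · rintro ⟨a, ha1, ha2⟩
    by_cases h0 : a (Fin.last n) = 0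
    · have hk : ∀ k : Fin n, e ≤ a k.castSucc := fun k => by
        have := ha1 k.castSucc (Fin.last n) (Fin.castSucc_lt_last k)
        omega
      refine ⟨Sum.inl ⟨fun k => a k.castSucc - e, ?_, ?_⟩, ?_⟩
      · intro k l hkl
        have := ha1 k.castSucc l.castSucc (Fin.castSucc_lt_castSucc_iff.2 hkl)
        have := hk l
        change a l.castSucc - e + e ≤ a k.castSucc - e
        omega
      · have h1 : ∑ k : Fin n, a k.castSucc = ∑ k : Fin n, (a k.castSucc - e) + e * n := by
          have : ∑ k : Fin n, a k.castSucc = ∑ k : Fin n, ((a k.castSucc - e) + e) :=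
            Finset.sum_congr rfl fun k _ => by have := hk k; omega
          rw [this, Finset.sum_add_distrib, Finset.sum_const, Finset.card_univ,
            Fintype.card_fin, smul_eq_mul, mul_comm n e]
        rw [Fin.sum_univ_castSucc, h0] at ha2
        change ∑ k : Fin n, (a k.castSucc - e) + e * n = m
        omega
      · refine Subtype.ext (funext fun k => ?_)
        induction k using Fin.lastCases with
        | last => simp only [stepFun, Fin.snoc_last]; exact h0.symm
        | cast k =>
          simp only [stepFun, Fin.snoc_castSucc]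
          have := hk k
          omega
    · have hk : ∀ k : Fin (n + 1), 1 ≤ a k := fun k => by
        rcases eq_or_lt_of_le (Fin.le_last k) with h | h
        · rw [h]; omega
        · have := ha1 k (Fin.last n) h
          omega
      refine ⟨Sum.inr ⟨fun k => a k - 1, ?_, ?_⟩, ?_⟩
      · intro k l hkl
        have := ha1 k l hkl
        have := hk l
        change a l - 1 + e ≤ a k - 1
        omega
      · have h1 : ∑ k : Fin (n + 1), a k = ∑ k : Fin (n + 1), (a k - 1) + (n + 1) := by
          have : ∑ k : Fin (n + 1), a k = ∑ k : Fin (n + 1), ((a k - 1) + 1) :=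
            Finset.sum_congr rfl fun k _ => by have := hk k; omega
          rw [this, Finset.sum_add_distrib, Finset.sum_const, Finset.card_univ,
            Fintype.card_fin, smul_eq_mul, mul_one]
        change ∑ k : Fin (n + 1), (a k - 1) + (n + 1) = m
        omega
      · refine Subtype.ext (funext fun k => ?_)
        simp only [stepFun]
        have := hk k
        omega

theorem card_T_succ (e n m : ℕ) : Nat.card (T e (n + 1) 0 m) =
    (if e * n ≤ m then Nat.card (T e n 0 (m - e * n)) else 0) +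
      (if n + 1 ≤ m then Nat.card (T e (n + 1) 0 (m - (n + 1))) else 0) := by
  rw [← Nat.card_congr (Equiv.ofBijective _ (stepFun_bijective e n m)), Nat.card_sum,
    card_T_shift, card_T_shift e (n + 1)]

variable (R : Type*) [CommRing R]

/-- the generating function of one block -/
noncomputable def gf (e n : ℕ) : PowerSeries R := PowerSeries.mk fun m => (Nat.card (T e n 0 m) : R)

theorem gf_zero (e : ℕ) : gf R e 0 = 1 := by
  ext m
  rw [gf, PowerSeries.coeff_mk, PowerSeries.coeff_one]
  split_ifs with h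
  · subst h
    have : Unique (T e 0 0 0) :=
      { default := ⟨fun k => k.elim0, fun k => k.elim0, by simp⟩
        uniq := fun a => Subtype.ext (funext fun k => k.elim0) }
    rw [Nat.card_unique, Nat.cast_one]
  · have : IsEmpty (T e 0 0 m) := ⟨fun a => h (by have := a.2.2; simp at this; exact this.symm)⟩
    rw [Nat.card_of_isEmpty, Nat.cast_zero]

theorem gf_succ (e n : ℕ) :
    gf R e (n + 1) = PowerSeries.X ^ (e * n) * gf R e n + PowerSeries.X ^ (n + 1) * gf R e (n + 1) := by
  ext m
  rw [map_add, PowerSeries.coeff_X_pow_mul', PowerSeries.coeff_X_pow_mul', gf, gf,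
    PowerSeries.coeff_mk, card_T_succ, Nat.cast_add]
  congr 1
  · split_ifs
    · rw [PowerSeries.coeff_mk]
    · rw [Nat.cast_zero]
  · split_ifs
    · rw [PowerSeries.coeff_mk]
    · rw [Nat.cast_zero]

theorem gf_mul_prod (e n : ℕ) :
    gf R e n * ∏ k ∈ Finset.range n, (1 - PowerSeries.X ^ (k + 1)) =
      PowerSeries.X ^ (e * n.choose 2) := by
  induction n with
  | zero => simp [gf_zero]
  | succ n ih =>
    have h : gf R e (n + 1) * (1 - PowerSeries.X ^ (n + 1)) = PowerSeries.X ^ (e * n) * gf R e n := by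
      have := gf_succ R e n
      linear_combination this
    have hc : (n + 1).choose 2 = n + n.choose 2 := by
      rw [Nat.choose_succ_succ' n 1, Nat.choose_one_right]
    have hp : (PowerSeries.X : PowerSeries R) ^ (e * (n + n.choose 2)) =
        PowerSeries.X ^ (e * n) * PowerSeries.X ^ (e * n.choose 2) := by rw [mul_add, pow_add]
    rw [Finset.prod_range_succ, hc, hp, ← ih]
    linear_combination (∏ k ∈ Finset.range n, (1 - PowerSeries.X ^ (k + 1))) * h


variable {V : Type*} [Fintype V]

/-- exponent vectors with gaps at least `e` in every block -/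
def GA (e : ℕ) (d : V → ℕ) (m : ℕ) : Set (Ex d m) :=
  {a | ∀ i, ∀ k l : Fin (d i), k < l → a.1 ⟨i, l⟩ + e ≤ a.1 ⟨i, k⟩}

theorem SA_eq (d : V → ℕ) (m : ℕ) : SA d m = GA 1 d m := by
  ext a
  exact ⟨fun h i k l hkl => h i hkl, fun h i k l hkl => h i k l hkl⟩


variable [DecidableEq V]

theorem sig_ext {e : ℕ} {d : V → ℕ} {m : ℕ}
    {q q' : Σ p : {p : V →₀ ℕ // p ∈ Finset.finsuppAntidiag Finset.univ m},
      ∀ i, T e (d i) 0 (p.1 i)} (h : ∀ i k, (q.2 i).1 k = (q'.2 i).1 k) : q = q' := by
  obtain ⟨⟨p, hp⟩, q⟩ := q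
  obtain ⟨⟨p', hp'⟩, q'⟩ := q'
  have hpp : p = p' := by
    ext i
    have h1 := (q i).2.2
    have h2 := (q' i).2.2
    change ∑ k, (q i).1 k + 0 = p i at h1
    change ∑ k, (q' i).1 k + 0 = p' i at h2
    rw [← h1, ← h2]
    exact congrArg (· + 0) (Finset.sum_congr rfl fun k _ => h i k)
  subst hpp
  have hq : q = q' := funext fun i => Subtype.ext (funext fun k => h i k)
  rw [hq]

/-- a block exponent vector is a family of exponent vectors -/
noncomputable def gaEquiv (e : ℕ) (d : V → ℕ) (m : ℕ) :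
    GA e d m ≃ Σ p : {p : V →₀ ℕ // p ∈ Finset.finsuppAntidiag Finset.univ m},
      ∀ i, T e (d i) 0 (p.1 i) where
  toFun a := ⟨⟨Finsupp.equivFunOnFinite.symm fun i => ∑ k, a.1.1 ⟨i, k⟩, by
      rw [Finset.mem_finsuppAntidiag]
      refine ⟨?_, Finset.subset_univ _⟩
      have := a.1.2
      rw [Fintype.sum_sigma] at this
      exact this⟩, fun i => ⟨fun k => a.1.1 ⟨i, k⟩, a.2 i, rfl⟩⟩
  invFun q := ⟨⟨fun x => (q.2 x.1).1 x.2, by
      have h := (Finset.mem_finsuppAntidiag.1 q.1.2).1
      rw [Fintype.sum_sigma]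
      refine Eq.trans (Finset.sum_congr rfl fun i _ => ?_) h
      exact (q.2 i).2.2⟩, fun i => (q.2 i).2.1⟩
  left_inv a := rfl
  right_inv q := sig_ext fun i k => rfl

theorem card_GA (e : ℕ) (d : V → ℕ) (m : ℕ) : Nat.card (GA e d m) =
    ∑ p ∈ Finset.finsuppAntidiag (Finset.univ : Finset V) m,
      ∏ i, Nat.card (T e (d i) 0 (p i)) := by
  rw [Nat.card_congr (gaEquiv e d m), Nat.card_sigma,
    ← Finset.sum_coe_sort (Finset.finsuppAntidiag (Finset.univ : Finset V) m)]
  exact Finset.sum_congr rfl fun p _ => Nat.card_pi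

theorem mk_card_GA (e : ℕ) (d : V → ℕ) :
    (PowerSeries.mk fun m => (Nat.card (GA e d m) : R)) = ∏ i, gf R e (d i) := by
  ext m
  rw [PowerSeries.coeff_mk, PowerSeries.coeff_prod, card_GA, Nat.cast_sum]
  refine Finset.sum_congr rfl fun p _ => ?_
  rw [Nat.cast_prod]
  exact Finset.prod_congr rfl fun i _ => by rw [gf, PowerSeries.coeff_mk]

/-- the generating function of the exponents with gaps `≥ e` -/
theorem mk_card_GA_mul (e : ℕ) (d : V → ℕ) :
    (PowerSeries.mk fun m => (Nat.card (GA e d m) : R)) *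
      ∏ i, ∏ k ∈ Finset.range (d i), (1 - PowerSeries.X ^ (k + 1)) =
        PowerSeries.X ^ (e * ∑ i, (d i).choose 2) := by
  rw [mk_card_GA, ← Finset.prod_mul_distrib, Finset.mul_sum, ← Finset.prod_pow_eq_pow_sum]
  exact Finset.prod_congr rfl fun i _ => gf_mul_prod R e (d i)

/-- **(H2)**, alternating -/
theorem hilb_alt {K : Type*} [Field K] (h2 : (2 : K) ≠ 0) (d : V → ℕ) :
    (PowerSeries.mk fun m => (Module.finrank K (iso (sgK K d) m) : R)) *
      ∏ i, ∏ k ∈ Finset.range (d i), (1 - PowerSeries.X ^ (k + 1)) =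
        PowerSeries.X ^ (∑ i, (d i).choose 2) := by
  rw [← one_mul (∑ i, (d i).choose 2), ← mk_card_GA_mul R 1 d]
  congr 2
  funext m
  rw [finrank_alt h2, SA_eq]


end count

end Crest.Agent.R059.Hilb568
private theorem rz_77977d7618 : type_of% @_root_.Crest.Agent.R059.Hilb568.stepFun.eq_1 := @_root_.Crest.Agent.R059.Hilb568.stepFun.eq_1 -- L475
end

-- ▼ part R059/Hilb2_568

/-!
# Row 59, leaf HILB, second file: the Hilbert series of 599's alternating polynomials `H c A`
(owner helper568)
-/

set_option autoImplicit false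

namespace Crest.Agent.R059.Hilb568

open MvPolynomial

/-! ## sign of a block permutation -/

section sign

variable {V : Type*} [Fintype V] [DecidableEq V] {d : V → ℕ}

/-- one block as a subtype -/
def fib (d : V → ℕ) (i : V) : Fin (d i) ≃ {x : Vars d // x.1 = i} where
  toFun k := ⟨⟨i, k⟩, rfl⟩
  invFun x := Fin.cast (congrArg d x.2) x.1.2
  left_inv k := rfl
  right_inv x := by
    obtain ⟨⟨j, k⟩, hj⟩ := x
    change j = i at hj
    subst hj
    rfl

theorem sign_single (i : V) (w : Equiv.Perm (Fin (d i))) :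
    Equiv.Perm.sign (Equiv.Perm.sigmaCongrRight (Pi.mulSingle i w : Grp d)) =
      Equiv.Perm.sign w := by
  rw [← Equiv.Perm.sign_extendDomain w (fib d i)]
  congr 1
  ext1 x
  obtain ⟨j, k⟩ := x
  by_cases hj : j = i
  · subst hj
    have h1 := Equiv.Perm.extendDomain_apply_image w (fib d j) k
    change w.extendDomain (fib d j) ⟨j, k⟩ = ⟨j, w k⟩ at h1
    rw [h1]
    change (⟨j, (Pi.mulSingle j w : Grp d) j k⟩ : Vars d) = ⟨j, w k⟩
    rw [Pi.mulSingle_eq_same]
  · rw [Equiv.Perm.extendDomain_apply_not_subtype w (fib d i) (b := ⟨j, k⟩) hj]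
    change (⟨j, (Pi.mulSingle i w : Grp d) j k⟩ : Vars d) = ⟨j, k⟩
    rw [Pi.mulSingle_eq_of_ne hj]
    rfl

theorem sign_sigmaCongrRight (w : Grp d) :
    Equiv.Perm.sign (Equiv.Perm.sigmaCongrRight w) = sg d w := by
  have h : (Equiv.Perm.sign (α := Vars d)).comp
      (Equiv.Perm.sigmaCongrRightHom fun i => Fin (d i)) = sg d := by
    refine MonoidHom.pi_ext fun i w => ?_
    rw [sg_mulSingle]
    exact sign_single i w
  exact DFunLike.congr_fun h w

end sign

/-! ## `H c A` -/

open Alt599

variable {V I : Type*} [Fintype V] [DecidableEq V] [DecidableEq I] (c : V → I) (A : Finset V)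

/-- number of particles of colour `i` in `A` -/
def dA (i : I) : ℕ := (A.filter (fun v => c v = i)).card

variable {c A}

omit [Fintype V] [DecidableEq V] [DecidableEq I] in
theorem G_mem {w : Equiv.Perm V} (hw : w ∈ G c A) {v : V} : w v ∈ A ↔ v ∈ A := by
  constructor
  · intro h
    by_contra h'
    rw [hw.2 v h'] at h
    exact h' h
  · intro h
    by_contra h'
    have := hw.2 _ h'
    have := w.injective this
    rw [this] at h'
    exact h' h

omit [Fintype V] [DecidableEq I] in
theorem sgG_mul (w w' : Equiv.Perm V) [Fintype V] : Alt599.sg (w * w') = Alt599.sg w * Alt599.sg w' := by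
  simp [Alt599.sg]

theorem sgG_sq (w : Equiv.Perm V) : Alt599.sg w * Alt599.sg w = 1 := by
  unfold Alt599.sg
  rcases Int.units_eq_one_or (Equiv.Perm.sign w) with h | h <;> rw [h] <;> norm_num

omit [Fintype V] [DecidableEq I] in
theorem rename_mem_RA {w : Equiv.Perm V} (hw : w ∈ G c A) {F : MvPolynomial V ℚ}
    (hF : F ∈ RA A) : rename w F ∈ RA A := by
  have hF' : F ∈ supported ℚ (A : Set V) := hF
  change rename w F ∈ supported ℚ (A : Set V)
  rw [mem_supported] at hF' ⊢
  intro v hv
  have h1 := vars_rename w F (Finset.mem_coe.1 hv)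
  rw [Finset.mem_image] at h1
  obtain ⟨u, hu, rfl⟩ := h1
  exact (G_mem hw).2 (hF' hu)

theorem Alt_apply (F : MvPolynomial V ℚ) :
    Alt c A F = ∑ w : G c A, Alt599.sg (w : Equiv.Perm V) • rename (w : Equiv.Perm V) F := by
  rw [Alt, LinearMap.sum_apply]
  rfl

theorem rename_Alt (F : MvPolynomial V ℚ) {w : Equiv.Perm V} (hw : w ∈ G c A) :
    rename w (Alt c A F) = Alt599.sg w • Alt c A F := by
  rw [Alt_apply, map_sum, Finset.smul_sum]
  refine Fintype.sum_equiv (Equiv.mulLeft (⟨w, hw⟩ : G c A)) _ _ fun u => ?_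
  rw [map_smul, rename_rename, smul_smul]
  have h1 : ((Equiv.mulLeft (⟨w, hw⟩ : G c A) u : G c A) : Equiv.Perm V) = w * u := rfl
  rw [h1, sgG_mul, ← mul_assoc, sgG_sq, one_mul]
  rfl

theorem mem_H_iff {F : MvPolynomial V ℚ} :
    F ∈ H c A ↔ F ∈ RA A ∧ ∀ w ∈ G c A, rename w F = Alt599.sg w • F := by
  constructor
  · rintro ⟨r, hr, rfl⟩
    refine ⟨?_, fun w hw => rename_Alt r hw⟩
    rw [Alt_apply]
    exact Submodule.sum_mem _ fun w _ => Submodule.smul_mem _ _ (rename_mem_RA w.2 hr)
  · rintro ⟨h1, h2⟩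
    have h3 : Alt c A F = (Fintype.card (G c A) : ℚ) • F := by
      rw [Alt_apply]
      have : ∀ w : G c A, Alt599.sg (w : Equiv.Perm V) • rename (w : Equiv.Perm V) F = F := by
        intro w
        rw [h2 _ w.2, smul_smul, sgG_sq, one_smul]
      rw [Finset.sum_congr rfl fun w _ => this w, Finset.sum_const, Finset.card_univ,
        Nat.cast_smul_eq_nsmul]
    have h4 : (Fintype.card (G c A) : ℚ) ≠ 0 := by
      exact_mod_cast Fintype.card_ne_zero
    refine ⟨(Fintype.card (G c A) : ℚ)⁻¹ • F, Submodule.smul_mem _ _ h1, ?_⟩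
    rw [map_smul, h3, smul_smul, inv_mul_cancel₀ h4, one_smul]

/-! ### transport to blocks -/

variable (c A)

/-- the enumeration of the particles of colour `i` in `A` -/
noncomputable def enA (i : I) : {v // v ∈ A.filter (fun v => c v = i)} ≃ Fin (dA c A i) :=
  (A.filter (fun v => c v = i)).equivFin

/-- the enumeration of the particles in `A` -/
noncomputable def embA (x : Vars (dA c A)) : V := ((enA c A x.1).symm x.2).1

omit [Fintype V] [DecidableEq V] in
theorem embA_mem' (x : Vars (dA c A)) : embA c A x ∈ A.filter (fun v => c v = x.1) :=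
  ((enA c A x.1).symm x.2).2

omit [Fintype V] [DecidableEq V] in
theorem embA_mem (x : Vars (dA c A)) : embA c A x ∈ A := (Finset.mem_filter.1 (embA_mem' c A x)).1

omit [Fintype V] [DecidableEq V] in
theorem c_embA (x : Vars (dA c A)) : c (embA c A x) = x.1 :=
  (Finset.mem_filter.1 (embA_mem' c A x)).2

theorem embA_injective : Function.Injective (embA c A) := by
  rintro ⟨i, k⟩ ⟨j, l⟩ h
  have hij : i = j := by
    have h1 := c_embA c A ⟨i, k⟩
    have h2 := c_embA c A ⟨j, l⟩
    rw [h] at h1
    exact h1.symm.trans h2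
  subst hij
  have : k = l := (enA c A i).symm.injective (Subtype.ext h)
  rw [this]

omit [Fintype V] [DecidableEq V] in
theorem embA_surj {v : V} (hv : v ∈ A) : ∃ x, embA c A x = v := by
  refine ⟨⟨c v, enA c A (c v) ⟨v, Finset.mem_filter.2 ⟨hv, rfl⟩⟩⟩, ?_⟩
  rw [embA]
  simp only [Equiv.symm_apply_apply]

/-- the enumeration of the particles in `A` -/
noncomputable def eA : Vars (dA c A) ≃ {v // v ∈ A} :=
  Equiv.ofBijective (fun x => ⟨embA c A x, embA_mem c A x⟩)
    ⟨fun _ _ h => embA_injective c A (congrArg Subtype.val h),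
      fun v => by
        obtain ⟨x, hx⟩ := embA_surj c A v.2
        exact ⟨x, Subtype.ext hx⟩⟩


/-- extension of a block permutation by the identity -/
noncomputable def extA (w : Grp (dA c A)) : Equiv.Perm V :=
  (Equiv.Perm.sigmaCongrRight w).extendDomain (eA c A)

theorem extA_embA (w : Grp (dA c A)) (x : Vars (dA c A)) :
    extA c A w (embA c A x) = embA c A (Equiv.Perm.sigmaCongrRight w x) :=
  Equiv.Perm.extendDomain_apply_image (Equiv.Perm.sigmaCongrRight w) (eA c A) x

theorem extA_of_notMem (w : Grp (dA c A)) {v : V} (hv : v ∉ A) : extA c A w v = v :=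
  Equiv.Perm.extendDomain_apply_not_subtype _ _ hv

theorem extA_mem (w : Grp (dA c A)) : extA c A w ∈ G c A := by
  refine ⟨fun v => ?_, fun v hv => extA_of_notMem c A w hv⟩
  by_cases hv : v ∈ A
  · obtain ⟨x, rfl⟩ := embA_surj c A hv
    rw [extA_embA, c_embA c A, c_embA c A]
    rfl
  · rw [extA_of_notMem c A w hv]

theorem extA_surj {w : Equiv.Perm V} (hw : w ∈ G c A) : ∃ w', extA c A w' = w := by
  have hs : ∀ i v, w v ∈ A.filter (fun v => c v = i) ↔ v ∈ A.filter (fun v => c v = i) := by
    intro i v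
    rw [Finset.mem_filter, Finset.mem_filter, G_mem hw, hw.1]
  refine ⟨fun i => (enA c A i).permCongr
    (w.subtypePerm (p := (· ∈ A.filter (fun v => c v = i))) (hs i)), ?_⟩
  ext1 v
  by_cases hv : v ∈ A
  · obtain ⟨⟨i, k⟩, rfl⟩ := embA_surj c A hv
    rw [extA_embA]
    change ((enA c A i).symm ((enA c A i) _)).1 = _
    rw [Equiv.symm_apply_apply]
    rfl
  · rw [extA_of_notMem c A _ hv, hw.2 v hv]

variable [Fintype I]

theorem sg_extA (w : Grp (dA c A)) : Alt599.sg (extA c A w) = (sgK ℚ (dA c A) w : ℚ) := by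
  rw [sgK_coe, Alt599.sg, extA, Equiv.Perm.sign_extendDomain, sign_sigmaCongrRight]

theorem map_iso (n : ℕ) : (iso (sgK ℚ (dA c A)) n).map (rename (embA c A)).toLinearMap =
    H c A ⊓ homogeneousSubmodule V ℚ n := by
  ext F
  constructor
  · rintro ⟨F₀, hF₀, rfl⟩
    refine ⟨?_, hF₀.1.rename_isHomogeneous⟩
    rw [SetLike.mem_coe, mem_H_iff]
    constructor
    · change rename (embA c A) F₀ ∈ supported ℚ (A : Set V)
      rw [mem_supported]
      intro v hv
      have h1 := vars_rename _ _ (Finset.mem_coe.1 hv)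
      rw [Finset.mem_image] at h1
      obtain ⟨u, hu, rfl⟩ := h1
      exact embA_mem c A u
    · intro w hw
      obtain ⟨w', rfl⟩ := extA_surj c A hw
      change rename (extA c A w') (rename (embA c A) F₀) =
        Alt599.sg (extA c A w') • rename (embA c A) F₀
      rw [rename_rename, sg_extA, ← map_smul, ← hF₀.2 w', rename_rename]
      congr 2
      funext x
      exact extA_embA c A w' x
  · rintro ⟨h1, h2⟩
    rw [SetLike.mem_coe, mem_H_iff] at h1
    obtain ⟨h1, h3⟩ := h1
    have h1' : F ∈ supported ℚ (A : Set V) := h1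
    rw [supported_eq_range_rename] at h1'
    obtain ⟨F₁, rfl⟩ := h1'
    have h4 : rename (Subtype.val : {v // v ∈ (A : Set V)} → V) F₁ =
        rename (embA c A) (rename (eA c A).symm F₁) := by
      rw [rename_rename]
      congr 2
      funext v
      change (v : V) = ((eA c A) ((eA c A).symm v) : {v // v ∈ A}).1
      rw [Equiv.apply_symm_apply]
    change (rename (Subtype.val : {v // v ∈ (A : Set V)} → V) F₁).IsHomogeneous n at h2
    change ∀ w ∈ G c A, rename w (rename (Subtype.val : {v // v ∈ (A : Set V)} → V) F₁) =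
      Alt599.sg w • rename (Subtype.val : {v // v ∈ (A : Set V)} → V) F₁ at h3
    rw [h4] at h2 h3
    refine ⟨rename (eA c A).symm F₁, ⟨(IsHomogeneous.rename_isHomogeneous_iff
      (embA_injective c A)).1 h2, fun w => ?_⟩, h4.symm⟩
    apply rename_injective _ (embA_injective c A)
    have h5 := h3 _ (extA_mem c A w)
    rw [map_smul, ← sg_extA, ← h5, rename_rename, rename_rename _ (extA c A w)]
    congr 2
    funext x
    exact (extA_embA c A w x).symm

/-- the dimensions of `H c A` -/
theorem hd_H (n : ℕ) : hd (H c A) n = Module.finrank ℚ (iso (sgK ℚ (dA c A)) n) := by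
  rw [hd, ← map_iso]
  exact ((Submodule.equivMapOfInjective _ (rename_injective _ (embA_injective c A)) _).finrank_eq).symm

/-- **HILB** for `H c A` -/
theorem hilb_H (R : Type*) [CommRing R] :
    (PowerSeries.mk fun n => (hd (H c A) n : R)) *
      ∏ i, ∏ k ∈ Finset.range (dA c A i), (1 - PowerSeries.X ^ (k + 1)) =
        PowerSeries.X ^ (∑ i, (dA c A i).choose 2) := by
  rw [← hilb_alt R (K := ℚ) two_ne_zero (dA c A)]
  congr 2
  funext n
  rw [hd_H]

end Crest.Agent.R059.Hilb568
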