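import Crest.Agent.R059.AltDefs_599
import Crest.Agent.R059.Hilb2_568

-- ▼ part R059/AltApi_599
section

/-!
# API for the alternating form of the shuffle algebra (row 59)
-/

set_option autoImplicit false

open MvPolynomial

namespace Crest.Agent.R059.Alt599

variable {V I : Type*} [Fintype V] [DecidableEq V] [DecidableEq I]

/-! ### signs -/

omit [DecidableEq I] in
theorem sg_mul (a b : Equiv.Perm V) : sg (a * b) = sg a * sg b := by
  simp [sg]

theorem sg_one : sg (1 : Equiv.Perm V) = 1 := by simp [sg]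

theorem sg_mul_self (a : Equiv.Perm V) : sg a * sg a = 1 := by
  unfold sg
  rcases Int.units_eq_one_or (Equiv.Perm.sign a) with h | h <;> simp [h]



/-! ### the groups -/

omit [Fintype V] [DecidableEq V] [DecidableEq I] in
theorem G_mono (c : V → I) {A B : Finset V} (h : A ⊆ B) : G c A ≤ G c B :=
  fun _ hw => ⟨hw.1, fun v hv => hw.2 v fun hA => hv (h hA)⟩

omit [Fintype V] [DecidableEq V] [DecidableEq I] in
theorem G_maps {c : V → I} {A : Finset V} {w : Equiv.Perm V} (hw : w ∈ G c A) {v : V}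
    (hv : v ∈ A) : w v ∈ A := by
  by_contra h
  have h1 := hw.2 (w v) h
  have h2 : w v = v := w.injective h1
  rw [h2] at h
  exact h hv

omit [Fintype V] [DecidableEq I] in
theorem map_of_mem_G {c : V → I} {A : Finset V} {w : Equiv.Perm V} (hw : w ∈ G c A)
    {B : Finset V} (hB : A ⊆ B) : B.map w.toEmbedding = B := by
  apply Finset.eq_of_subset_of_card_le
  · intro v hv
    obtain ⟨u, hu, rfl⟩ := Finset.mem_map.1 hv
    exact G_maps (G_mono c hB hw) hu
  · rw [Finset.card_map]

omit [Fintype V] [DecidableEq I] in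
theorem map_of_mem_G_disjoint {c : V → I} {A : Finset V} {w : Equiv.Perm V} (hw : w ∈ G c A)
    {B : Finset V} (hB : Disjoint A B) : B.map w.toEmbedding = B := by
  apply Finset.eq_of_subset_of_card_le
  · intro v hv
    obtain ⟨u, hu, rfl⟩ := Finset.mem_map.1 hv
    have : w u = u := hw.2 u (fun h => (Finset.disjoint_left.1 hB h) hu)
    simp only [Equiv.coe_toEmbedding, this, hu]
  · rw [Finset.card_map]

/-! ### the antisymmetriser -/

theorem Alt_apply (c : V → I) (A : Finset V) (f : MvPolynomial V ℚ) :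
    Alt c A f = ∑ w : G c A, sg (w : Equiv.Perm V) • rename (w : Equiv.Perm V) f := by
  simp [Alt, LinearMap.sum_apply]

theorem rename_Alt {c : V → I} {A : Finset V} {g : Equiv.Perm V} (hg : g ∈ G c A)
    (f : MvPolynomial V ℚ) : rename g (Alt c A f) = sg g • Alt c A f := by
  rw [Alt_apply, map_sum, Finset.smul_sum]
  refine Fintype.sum_equiv (Equiv.mulLeft (⟨g, hg⟩ : G c A)) _ _ fun w => ?_
  simp only [map_smul, Equiv.coe_mulLeft, Subgroup.coe_mul, sg_mul, smul_smul]
  rw [← mul_assoc, sg_mul_self, one_mul, rename_rename]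
  rfl

theorem Alt_rename {c : V → I} {A : Finset V} {g : Equiv.Perm V} (hg : g ∈ G c A)
    (f : MvPolynomial V ℚ) : Alt c A (rename g f) = sg g • Alt c A f := by
  rw [Alt_apply, Alt_apply, Finset.smul_sum]
  refine Fintype.sum_equiv (Equiv.mulRight (⟨g, hg⟩ : G c A)) _ _ fun w => ?_
  simp only [Equiv.coe_mulRight, Subgroup.coe_mul, sg_mul, smul_smul]
  rw [mul_comm (sg (w : Equiv.Perm V)) (sg g), ← mul_assoc, sg_mul_self, one_mul, rename_rename]
  rfl

theorem Alt_mul_left {c : V → I} {A : Finset V} {s : MvPolynomial V ℚ}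
    (hs : ∀ w ∈ G c A, rename w s = s) (f : MvPolynomial V ℚ) :
    Alt c A (s * f) = s * Alt c A f := by
  rw [Alt_apply, Alt_apply, Finset.mul_sum]
  refine Finset.sum_congr rfl fun w _ => ?_
  rw [map_mul, hs _ w.2, mul_smul_comm]

/-- number of elements of `G c A` as a rational number -/
noncomputable def nG (c : V → I) (A : Finset V) : ℚ := (Fintype.card (G c A) : ℚ)

theorem nG_pos (c : V → I) (A : Finset V) : 0 < nG c A := by
  unfold nG
  exact_mod_cast Fintype.card_pos

theorem nG_ne_zero (c : V → I) (A : Finset V) : nG c A ≠ 0 := (nG_pos c A).ne'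

theorem Alt_Alt_of_subset {c : V → I} {A A' : Finset V} (h : A' ⊆ A) (f : MvPolynomial V ℚ) :
    Alt c A (Alt c A' f) = nG c A' • Alt c A f := by
  rw [Alt_apply c A' f, map_sum]
  have : ∀ w : G c A', Alt c A (sg (w : Equiv.Perm V) • rename (w : Equiv.Perm V) f)
      = Alt c A f := by
    intro w
    rw [map_smul, Alt_rename (G_mono c h w.2), smul_smul, sg_mul_self, one_smul]
  rw [Finset.sum_congr rfl fun w _ => this w, Finset.sum_const, Finset.card_univ, nG,
    ← Nat.cast_smul_eq_nsmul ℚ]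

theorem Alt_eq_smul {c : V → I} {A : Finset V} {f : MvPolynomial V ℚ}
    (hf : ∀ w ∈ G c A, rename w f = sg w • f) : Alt c A f = nG c A • f := by
  rw [Alt_apply]
  have : ∀ w : G c A, sg (w : Equiv.Perm V) • rename (w : Equiv.Perm V) f = f := by
    intro w
    rw [hf _ w.2, smul_smul, sg_mul_self, one_smul]
  rw [Finset.sum_congr rfl fun w _ => this w, Finset.sum_const, Finset.card_univ, nG,
    ← Nat.cast_smul_eq_nsmul ℚ]


theorem rename_Alt_comm {c : V → I} {A B : Finset V} (hAB : Disjoint A B) {g : Equiv.Perm V}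
    (hg : g ∈ G c A) (f : MvPolynomial V ℚ) :
    rename g (Alt c B f) = Alt c B (rename g f) := by
  rw [Alt_apply, Alt_apply, map_sum]
  refine Finset.sum_congr rfl fun w _ => ?_
  rw [map_smul, rename_rename, rename_rename]
  have key : (⇑g ∘ ⇑(w : Equiv.Perm V)) = (⇑(w : Equiv.Perm V) ∘ ⇑g) := ?_
  · rw [key]
  funext v
  simp only [Function.comp_apply]
  by_cases hA : v ∈ A
  · have hB : v ∉ B := Finset.disjoint_left.1 hAB hA
    have hgB : g v ∉ B := Finset.disjoint_left.1 hAB (G_maps hg hA)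
    rw [w.2.2 v hB, w.2.2 _ hgB]
  · by_cases hB : v ∈ B
    · have hwB := G_maps w.2 hB
      rw [hg.2 v hA, hg.2 _ (Finset.disjoint_right.1 hAB hwB)]
    · rw [hg.2 v hA, w.2.2 v hB, hg.2 v hA]


/-! ### polynomials in the variables of a set -/

omit [Fintype V] [DecidableEq V] in
theorem mem_RA {A : Finset V} {f : MvPolynomial V ℚ} :
    f ∈ RA A ↔ (f.vars : Set V) ⊆ (A : Set V) := by
  unfold RA
  rw [Subalgebra.mem_toSubmodule, mem_supported]

omit [Fintype V] [DecidableEq V] in
theorem mem_RA' {A : Finset V} {f : MvPolynomial V ℚ} :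
    f ∈ RA A ↔ f ∈ supported ℚ (A : Set V) := by
  unfold RA
  rw [Subalgebra.mem_toSubmodule]

omit [Fintype V] [DecidableEq V] in
theorem RA_mono {A B : Finset V} (h : A ⊆ B) : RA (V := V) A ≤ RA B := fun f hf => by
  rw [mem_RA] at *
  exact hf.trans (by exact_mod_cast h)

omit [Fintype V] [DecidableEq V] in
theorem mul_mem_RA {A : Finset V} {f g : MvPolynomial V ℚ} (hf : f ∈ RA A) (hg : g ∈ RA A) :
    f * g ∈ RA A := by
  rw [mem_RA'] at *
  exact mul_mem hf hg

omit [DecidableEq V] in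
theorem RA_univ : RA (V := V) Finset.univ = ⊤ := by
  ext f
  simp [mem_RA]

omit [Fintype V] in
theorem rename_mem_RA {A : Finset V} {w : Equiv.Perm V} {f : MvPolynomial V ℚ} (hf : f ∈ RA A) :
    rename w f ∈ RA (A.map w.toEmbedding) := by
  rw [mem_RA] at *
  intro v hv
  have := vars_rename w f
  obtain ⟨u, hu, rfl⟩ := Finset.mem_image.1 (this hv)
  simp only [Finset.coe_map, Equiv.coe_toEmbedding, Set.mem_image, Finset.mem_coe]
  exact ⟨u, hf hu, rfl⟩

omit [Fintype V] [DecidableEq V] in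
theorem rename_eq_self {A : Finset V} {w : V → V} (hw : ∀ v ∈ A, w v = v)
    {f : MvPolynomial V ℚ} (hf : f ∈ RA A) : rename w f = f := by
  rw [mem_RA', supported_eq_range_rename] at hf
  obtain ⟨g, rfl⟩ := hf
  change rename w (rename _ g) = rename _ g
  rw [rename_rename]
  congr 1
  congr 1
  funext v
  exact hw v v.2

theorem Alt_mem_RA {c : V → I} {A B : Finset V} (hAB : A ⊆ B) {f : MvPolynomial V ℚ}
    (hf : f ∈ RA B) : Alt c A f ∈ RA B := by
  rw [Alt_apply]
  refine Submodule.sum_mem _ fun w _ => Submodule.smul_mem _ _ ?_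
  have := rename_mem_RA (w := (w : Equiv.Perm V)) hf
  rwa [map_of_mem_G w.2 hAB] at this

omit [Fintype V] [DecidableEq I] in
theorem rename_eq_self_of_disjoint {c : V → I} {A B : Finset V} (hAB : Disjoint A B)
    {w : Equiv.Perm V} (hw : w ∈ G c A) {f : MvPolynomial V ℚ} (hf : f ∈ RA B) :
    rename w f = f :=
  rename_eq_self (fun v hv => hw.2 v (Finset.disjoint_right.1 hAB hv)) hf

theorem H_le_RA (c : V → I) (A : Finset V) : H c A ≤ RA A := by
  rintro _ ⟨f, hf, rfl⟩
  exact Alt_mem_RA (Finset.Subset.refl _) hf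

/-- elements of `H c A` are alternating -/
theorem rename_of_mem_H {c : V → I} {A : Finset V} {f : MvPolynomial V ℚ} (hf : f ∈ H c A)
    {w : Equiv.Perm V} (hw : w ∈ G c A) : rename w f = sg w • f := by
  obtain ⟨g, _, rfl⟩ := hf
  exact rename_Alt hw g

theorem Alt_of_mem_H {c : V → I} {A : Finset V} {f : MvPolynomial V ℚ} (hf : f ∈ H c A) :
    Alt c A f = nG c A • f := Alt_eq_smul fun _ hw => rename_of_mem_H hf hw

theorem Alt_mem_H {c : V → I} {A : Finset V} {f : MvPolynomial V ℚ} (hf : f ∈ RA A) :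
    Alt c A f ∈ H c A := ⟨f, hf, rfl⟩

theorem Alt_Alt_mul {c : V → I} {A B : Finset V} (hAB : Disjoint A B) {f g : MvPolynomial V ℚ}
    (hf : f ∈ RA A) (hg : g ∈ RA B) : Alt c A (Alt c B (f * g)) = Alt c A f * Alt c B g := by
  rw [Alt_mul_left fun w hw => rename_eq_self_of_disjoint hAB.symm hw hf, mul_comm,
    Alt_mul_left fun w hw => rename_eq_self_of_disjoint hAB hw
      (Alt_mem_RA (Finset.Subset.refl B) hg), mul_comm]


/-! ### the kernel -/

omit [Fintype V] [DecidableEq V] [DecidableEq I] in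
theorem K_mem_RA (k : I → I → ℕ) (c : V → I) [DecidableEq V] {A B D : Finset V} (hA : A ⊆ D)
    (hB : B ⊆ D) : K k c A B ∈ RA D := by
  rw [mem_RA']
  unfold K
  refine Subalgebra.prod_mem _ fun a ha => Subalgebra.prod_mem _ fun b hb => ?_
  refine Subalgebra.pow_mem _ (Subalgebra.sub_mem _ ?_ ?_) _
  · exact X_mem_supported.2 (hB hb)
  · exact X_mem_supported.2 (hA ha)

omit [Fintype V] [DecidableEq I] in
theorem K_union_left (k : I → I → ℕ) (c : V → I) {A A' B : Finset V} (h : Disjoint A A') :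
    K k c (A ∪ A') B = K k c A B * K k c A' B := by
  unfold K
  rw [Finset.prod_union h]

omit [Fintype V] [DecidableEq I] in
theorem K_union_right (k : I → I → ℕ) (c : V → I) {A B B' : Finset V} (h : Disjoint B B') :
    K k c A (B ∪ B') = K k c A B * K k c A B' := by
  unfold K
  rw [← Finset.prod_mul_distrib]
  exact Finset.prod_congr rfl fun a _ => Finset.prod_union h

omit [Fintype V] [DecidableEq V] [DecidableEq I] in
theorem rename_K (k : I → I → ℕ) {c : V → I} {w : Equiv.Perm V} (hw : ∀ v, c (w v) = c v)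
    (A B : Finset V) :
    rename w (K k c A B) = K k c (A.map w.toEmbedding) (B.map w.toEmbedding) := by
  unfold K
  rw [map_prod, Finset.prod_map]
  refine Finset.prod_congr rfl fun a _ => ?_
  rw [map_prod, Finset.prod_map]
  refine Finset.prod_congr rfl fun b _ => ?_
  simp [hw]

omit [Fintype V] [DecidableEq I] in
theorem rename_K_self (k : I → I → ℕ) {c : V → I} {w : Equiv.Perm V} {A B D : Finset V}
    (hw : w ∈ G c D) (hA : D ⊆ A ∨ Disjoint D A) (hB : D ⊆ B ∨ Disjoint D B) :
    rename w (K k c A B) = K k c A B := by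
  have h : ∀ E : Finset V, (D ⊆ E ∨ Disjoint D E) → E.map w.toEmbedding = E := by
    rintro E (h | h)
    · exact map_of_mem_G hw h
    · exact map_of_mem_G_disjoint hw h
  rw [rename_K k hw.1, h A hA, h B hB]

/-! ### products span -/

omit [Fintype V] in
theorem monomial_mem_RA {A : Finset V} {m : V →₀ ℕ} (hm : m.support ⊆ A) (r : ℚ) :
    monomial m r ∈ RA A := by
  by_cases hr : r = 0
  · rw [hr, monomial_zero]
    exact zero_mem _
  · rw [mem_RA, vars_monomial hr]
    exact_mod_cast hm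

omit [Fintype V] in
theorem support_subset_of_mem_RA {A : Finset V} {f : MvPolynomial V ℚ} (hf : f ∈ RA A)
    {m : V →₀ ℕ} (hm : m ∈ f.support) : m.support ⊆ A := by
  intro v hv
  rw [mem_RA] at hf
  have : v ∈ f.vars := (mem_vars_iff_mem_support v).2 ⟨m, hm, hv⟩
  exact_mod_cast hf this

omit [Fintype V] in
theorem RA_union (A B : Finset V) :
    RA (V := V) (A ∪ B) = RA A * RA B := by
  apply le_antisymm
  · intro f hf
    rw [f.as_sum]
    refine Submodule.sum_mem _ fun m hm => ?_
    have hmv : m.support ⊆ A ∪ B := support_subset_of_mem_RA hf hm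
    have h1 : monomial m (coeff m f)
        = monomial (m.filter (· ∈ A)) (coeff m f) * monomial (m.filter (· ∉ A)) 1 := by
      rw [monomial_mul, mul_one, Finsupp.filter_add_filter_not]
    rw [h1]
    refine Submodule.mul_mem_mul (monomial_mem_RA ?_ _) (monomial_mem_RA ?_ _)
    · intro v hv
      rw [Finsupp.support_filter, Finset.mem_filter] at hv
      exact hv.2
    · intro v hv
      rw [Finsupp.support_filter, Finset.mem_filter] at hv
      exact (Finset.mem_union.1 (hmv hv.1)).resolve_left hv.2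
  · rw [Submodule.mul_le]
    intro f hf g hg
    exact mul_mem_RA (RA_mono Finset.subset_union_left hf) (RA_mono Finset.subset_union_right hg)

omit [Fintype V] in
/-- induction over the monomials of a polynomial in the variables of `A` -/
theorem RA_induction {A : Finset V} {P : MvPolynomial V ℚ → Prop}
    (hmon : ∀ m : V →₀ ℕ, m.support ⊆ A → P (monomial m 1))
    (hzero : P 0) (hadd : ∀ f g, P f → P g → P (f + g)) (hsmul : ∀ (r : ℚ) f, P f → P (r • f))
    {f : MvPolynomial V ℚ} (hf : f ∈ RA A) : P f := by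
  rw [f.as_sum]
  refine Finset.sum_induction _ P hadd hzero fun m hm => ?_
  have : monomial m (coeff m f) = coeff m f • monomial m (1 : ℚ) := by
    rw [smul_monomial, smul_eq_mul, mul_one]
  rw [this]
  exact hsmul _ _ (hmon m (support_subset_of_mem_RA hf hm))

/-- the "product" of two linear functionals (the first one on the variables of `A`, the second one
on the other variables) -/
noncomputable def prodFun {W₁ W₂ W₃ : Type*} [AddCommGroup W₁] [Module ℚ W₁] [AddCommGroup W₂]
    [Module ℚ W₂] [AddCommGroup W₃] [Module ℚ W₃] (A : Finset V) (b : W₁ →ₗ[ℚ] W₂ →ₗ[ℚ] W₃)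
    (φ : MvPolynomial V ℚ →ₗ[ℚ] W₁) (ψ : MvPolynomial V ℚ →ₗ[ℚ] W₂) :
    MvPolynomial V ℚ →ₗ[ℚ] W₃ :=
  (basisMonomials V ℚ).constr ℚ fun m =>
    b (φ (monomial (m.filter (· ∈ A)) 1)) (ψ (monomial (m.filter (· ∉ A)) 1))

omit [Fintype V] in
theorem prodFun_mul {W₁ W₂ W₃ : Type*} [AddCommGroup W₁] [Module ℚ W₁] [AddCommGroup W₂]
    [Module ℚ W₂] [AddCommGroup W₃] [Module ℚ W₃] {A B : Finset V} (hAB : Disjoint A B)
    (b : W₁ →ₗ[ℚ] W₂ →ₗ[ℚ] W₃)
    (φ : MvPolynomial V ℚ →ₗ[ℚ] W₁) (ψ : MvPolynomial V ℚ →ₗ[ℚ] W₂)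
    {f g : MvPolynomial V ℚ} (hf : f ∈ RA A) (hg : g ∈ RA B) :
    prodFun A b φ ψ (f * g) = b (φ f) (ψ g) := by
  refine RA_induction (A := A) (P := fun f => prodFun A b φ ψ (f * g) = b (φ f) (ψ g))
    ?_ ?_ ?_ ?_ hf
  · intro m hm
    refine RA_induction (A := B)
      (P := fun g => prodFun A b φ ψ (monomial m 1 * g) = b (φ (monomial m 1)) (ψ g))
      ?_ ?_ ?_ ?_ hg
    · intro m' hm'
      rw [monomial_mul, one_mul]
      have h0 := (basisMonomials V ℚ).constr_basis ℚ (fun m =>
        b (φ (monomial (m.filter (· ∈ A)) 1)) (ψ (monomial (m.filter (· ∉ A)) 1))) (m + m')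
      rw [coe_basisMonomials] at h0
      unfold prodFun
      rw [h0]
      have e1 : (m + m').filter (· ∈ A) = m := by
        ext v
        by_cases hv : v ∈ A
        · rw [Finsupp.filter_apply_pos _ _ hv, Finsupp.add_apply]
          have : m' v = 0 := by
            by_contra h
            exact Finset.disjoint_left.1 hAB hv (hm' (Finsupp.mem_support_iff.2 h))
          omega
        · rw [Finsupp.filter_apply_neg _ _ hv]
          by_contra h
          exact hv (hm (Finsupp.mem_support_iff.2 (Ne.symm h)))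
      have e2 : (m + m').filter (· ∉ A) = m' := by
        ext v
        by_cases hv : v ∈ A
        · rw [Finsupp.filter_apply_neg (· ∉ A) _ (not_not.2 hv)]
          by_contra h
          exact Finset.disjoint_left.1 hAB hv (hm' (Finsupp.mem_support_iff.2 (Ne.symm h)))
        · rw [Finsupp.filter_apply_pos (· ∉ A) _ hv, Finsupp.add_apply]
          have : m v = 0 := by
            by_contra h
            exact hv (hm (Finsupp.mem_support_iff.2 h))
          omega
      rw [e1, e2]
    · simp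
    · intro g₁ g₂ h₁ h₂
      simp only [mul_add, map_add, h₁, h₂]
    · intro r g₁ h₁
      simp only [mul_smul_comm, map_smul, h₁]
  · simp
  · intro g₁ g₂ h₁ h₂
    simp only [add_mul, map_add, h₁, h₂, LinearMap.add_apply]
  · intro r g₁ h₁
    simp only [smul_mul_assoc, map_smul, h₁, LinearMap.smul_apply]

end Crest.Agent.R059.Alt599
end

-- ▼ part R059/AltInd_599
section

/-!
# Theorem A'' (independence part)
-/

set_option autoImplicit false

open MvPolynomial

namespace Crest.Agent.R059.Alt599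

variable {V I : Type*} [Fintype V] [DecidableEq V] [DecidableEq I]

/-! ### weights -/

omit [Fintype V] [DecidableEq V] [DecidableEq I] in
theorem wt_map (θ : I → ℤ) {c : V → I} {w : Equiv.Perm V} (hw : ∀ v, c (w v) = c v)
    (A : Finset V) : wt θ c (A.map w.toEmbedding) = wt θ c A := by
  unfold wt
  rw [Finset.sum_map]
  simp [hw]

omit [Fintype V] [DecidableEq I] in
theorem wt_sdiff_add (θ : I → ℤ) (c : V → I) {A B : Finset V} (h : B ⊆ A) :
    wt θ c (A \ B) + wt θ c B = wt θ c A := by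
  unfold wt
  exact Finset.sum_sdiff h

omit [Fintype V] [DecidableEq I] in
theorem wt_exchange (θ : I → ℤ) (c : V → I) (A B : Finset V) :
    wt θ c B + wt θ c (A \ B) = wt θ c A + wt θ c (B \ A) := by
  unfold wt
  rw [add_comm (∑ a ∈ B, _), add_comm (∑ a ∈ A, _)]
  rw [← Finset.sum_union Finset.sdiff_disjoint, ← Finset.sum_union Finset.sdiff_disjoint]
  congr 1
  rw [Finset.sdiff_union_self_eq_union, Finset.sdiff_union_self_eq_union, Finset.union_comm]

/-! ### the two sided ideal `NN A B = I^>_A H_B + H_A I^≤_B` -/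

/-- the two sided ideal of the pair of blocks `(A, B)` -/
noncomputable def NN (k : I → I → ℕ) (c : V → I) (θ : I → ℤ) (A B : Finset V) :
    Submodule ℚ (MvPolynomial V ℚ) :=
  (⨆ A₂ ∈ A.powerset.filter (fun A₂ => A₂.Nonempty ∧ wt θ c A₂ ≤ 0),
    (⊤ : Submodule ℚ (MvPolynomial V ℚ)).map
      (((Alt c A).comp (Alt c B)).comp (LinearMap.mulLeft ℚ (K k c (A \ A₂) A₂)))) ⊔
  (⨆ B₁ ∈ B.powerset.filter (fun B₁ => B₁.Nonempty ∧ 0 < wt θ c B₁),
    (⊤ : Submodule ℚ (MvPolynomial V ℚ)).map
      (((Alt c A).comp (Alt c B)).comp (LinearMap.mulLeft ℚ (K k c B₁ (B \ B₁)))))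

theorem NN_left {k : I → I → ℕ} {c : V → I} {θ : I → ℤ} {A B A₂ : Finset V} (h : A₂ ⊆ A)
    (hne : A₂.Nonempty) (hwt : wt θ c A₂ ≤ 0) (r : MvPolynomial V ℚ) :
    Alt c A (Alt c B (K k c (A \ A₂) A₂ * r)) ∈ NN k c θ A B := by
  refine Submodule.mem_sup_left ?_
  refine Submodule.mem_iSup_of_mem A₂ (Submodule.mem_iSup_of_mem ?_ ⟨r, trivial, rfl⟩)
  simp [h, hne, hwt]

theorem NN_right {k : I → I → ℕ} {c : V → I} {θ : I → ℤ} {A B B₁ : Finset V} (h : B₁ ⊆ B)
    (hne : B₁.Nonempty) (hwt : 0 < wt θ c B₁) (r : MvPolynomial V ℚ) :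
    Alt c A (Alt c B (K k c B₁ (B \ B₁) * r)) ∈ NN k c θ A B := by
  refine Submodule.mem_sup_right ?_
  refine Submodule.mem_iSup_of_mem B₁ (Submodule.mem_iSup_of_mem ?_ ⟨r, trivial, rfl⟩)
  simp [h, hne, hwt]

theorem NN_le {k : I → I → ℕ} {c : V → I} {θ : I → ℤ} {A B : Finset V}
    {W : Submodule ℚ (MvPolynomial V ℚ)}
    (h1 : ∀ A₂ ⊆ A, A₂.Nonempty → wt θ c A₂ ≤ 0 → ∀ r,
      Alt c A (Alt c B (K k c (A \ A₂) A₂ * r)) ∈ W)
    (h2 : ∀ B₁ ⊆ B, B₁.Nonempty → 0 < wt θ c B₁ → ∀ r,
      Alt c A (Alt c B (K k c B₁ (B \ B₁) * r)) ∈ W) : NN k c θ A B ≤ W := by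
  refine sup_le (iSup₂_le fun A₂ h => ?_) (iSup₂_le fun B₁ h => ?_)
  · rw [Finset.mem_filter, Finset.mem_powerset] at h
    rintro _ ⟨r, _, rfl⟩
    exact h1 A₂ h.1 h.2.1 h.2.2 r
  · rw [Finset.mem_filter, Finset.mem_powerset] at h
    rintro _ ⟨r, _, rfl⟩
    exact h2 B₁ h.1 h.2.1 h.2.2 r

/-- `s` is invariant under `G_A` and `G_B` -/
def Inv2 (c : V → I) (A B : Finset V) (s : MvPolynomial V ℚ) : Prop :=
  (∀ w ∈ G c A, rename w s = s) ∧ ∀ w ∈ G c B, rename w s = s

theorem NN_mul {k : I → I → ℕ} {c : V → I} {θ : I → ℤ} {A B : Finset V}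
    {s : MvPolynomial V ℚ} (hs : Inv2 c A B s) {x : MvPolynomial V ℚ} (hx : x ∈ NN k c θ A B) :
    s * x ∈ NN k c θ A B := by
  have : NN k c θ A B ≤ (NN k c θ A B).comap (LinearMap.mulLeft ℚ s) := by
    refine NN_le ?_ ?_
    · intro A₂ h hne hwt r
      rw [Submodule.mem_comap, LinearMap.mulLeft_apply, ← Alt_mul_left hs.1, ← Alt_mul_left hs.2,
        mul_left_comm]
      exact NN_left h hne hwt _
    · intro B₁ h hne hwt r
      rw [Submodule.mem_comap, LinearMap.mulLeft_apply, ← Alt_mul_left hs.1, ← Alt_mul_left hs.2,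
        mul_left_comm]
      exact NN_right h hne hwt _
  exact this hx

/-! ### the shift -/

/-- shift of the variables of `B` by a parameter -/
noncomputable def sh (B : Finset V) : MvPolynomial V ℚ →ₐ[ℚ] Polynomial (MvPolynomial V ℚ) :=
  aeval (fun v => Polynomial.C (X v) + if v ∈ B then Polynomial.X else 0)

theorem sh_X (B : Finset V) (v : V) :
    sh B (X v) = Polynomial.C (X v) + if v ∈ B then Polynomial.X else 0 := by
  simp [sh]

/-- the coefficients of the shift -/
noncomputable def shc (B : Finset V) (n : ℕ) : MvPolynomial V ℚ →ₗ[ℚ] MvPolynomial V ℚ :=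
  ((Polynomial.lcoeff (MvPolynomial V ℚ) n).restrictScalars ℚ).comp (sh B).toLinearMap

theorem shc_apply (B : Finset V) (n : ℕ) (f : MvPolynomial V ℚ) :
    shc B n f = (sh B f).coeff n := rfl

theorem sh_rename {B : Finset V} {w : Equiv.Perm V} (hw : ∀ v, w v ∈ B ↔ v ∈ B)
    (f : MvPolynomial V ℚ) :
    sh B (rename w f) = Polynomial.map (rename w : MvPolynomial V ℚ →ₐ[ℚ] _).toRingHom (sh B f) := by
  have : (sh B).comp (rename w) = (Polynomial.mapAlgHom (rename w)).comp (sh B) := by
    refine MvPolynomial.algHom_ext fun v => ?_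
    rw [AlgHom.comp_apply, AlgHom.comp_apply, rename_X, sh_X, sh_X]
    by_cases h : v ∈ B
    · have h' := (hw v).2 h
      simp [h, h']
    · have h' : w v ∉ B := fun h'' => h ((hw v).1 h'')
      simp [h, h']
  have := congrArg (fun F => F f) this
  simpa using this

theorem shc_rename {B : Finset V} {w : Equiv.Perm V} (hw : ∀ v, w v ∈ B ↔ v ∈ B) (n : ℕ)
    (f : MvPolynomial V ℚ) : shc B n (rename w f) = rename w (shc B n f) := by
  rw [shc_apply, sh_rename hw, Polynomial.coeff_map]
  rfl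


omit [Fintype V] [DecidableEq I] in
theorem G_mem_iff {c : V → I} {A B : Finset V} {w : Equiv.Perm V} (hw : w ∈ G c A)
    (hAB : A ⊆ B ∨ Disjoint A B) (v : V) : w v ∈ B ↔ v ∈ B := by
  have h : B.map w.toEmbedding = B := by
    rcases hAB with h | h
    · exact map_of_mem_G hw h
    · exact map_of_mem_G_disjoint hw h
  constructor
  · intro hv
    rw [← h] at hv
    obtain ⟨u, hu, huv⟩ := Finset.mem_map.1 hv
    have := w.injective huv
    rwa [this] at hu
  · intro hv
    rw [← h]
    exact Finset.mem_map.2 ⟨v, hv, rfl⟩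

theorem shc_Alt {c : V → I} {A B : Finset V} (hAB : A ⊆ B ∨ Disjoint A B) (n : ℕ)
    (f : MvPolynomial V ℚ) : shc B n (Alt c A f) = Alt c A (shc B n f) := by
  rw [Alt_apply, Alt_apply, map_sum]
  refine Finset.sum_congr rfl fun w _ => ?_
  rw [map_smul, shc_rename (G_mem_iff w.2 hAB)]

omit [DecidableEq I] in
theorem sh_K_same (k : I → I → ℕ) (c : V → I) {A₁ A₂ B : Finset V}
    (h : ∀ a ∈ A₁, ∀ b ∈ A₂, (a ∈ B ↔ b ∈ B)) :
    sh B (K k c A₁ A₂) = Polynomial.C (K k c A₁ A₂) := by
  unfold K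
  rw [map_prod, map_prod]
  refine Finset.prod_congr rfl fun a ha => ?_
  rw [map_prod, map_prod]
  refine Finset.prod_congr rfl fun b hb => ?_
  rw [map_pow, map_pow, map_sub, map_sub, sh_X, sh_X]
  congr 1
  by_cases hB : a ∈ B
  · have hb' := (h a ha b hb).1 hB
    simp [hB, hb']
  · have hb' : b ∉ B := fun h' => hB ((h a ha b hb).2 h')
    simp [hB, hb']

omit [DecidableEq I] in
theorem shc_K_mul (k : I → I → ℕ) (c : V → I) {A₁ A₂ B : Finset V}
    (h : ∀ a ∈ A₁, ∀ b ∈ A₂, (a ∈ B ↔ b ∈ B)) (n : ℕ) (f : MvPolynomial V ℚ) :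
    shc B n (K k c A₁ A₂ * f) = K k c A₁ A₂ * shc B n f := by
  rw [shc_apply, map_mul, sh_K_same k c h, Polynomial.coeff_C_mul]
  rfl

theorem NN_shc {k : I → I → ℕ} {c : V → I} {θ : I → ℤ} {A B : Finset V} (hAB : Disjoint A B)
    (n : ℕ) {x : MvPolynomial V ℚ} (hx : x ∈ NN k c θ A B) : shc B n x ∈ NN k c θ A B := by
  have : NN k c θ A B ≤ (NN k c θ A B).comap (shc B n) := by
    refine NN_le ?_ ?_
    · intro A₂ h hne hwt r
      rw [Submodule.mem_comap, shc_Alt (Or.inr hAB), shc_Alt (Or.inl (Finset.Subset.refl B)),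
        shc_K_mul]
      · exact NN_left h hne hwt _
      · intro a ha b hb
        have ha' : a ∉ B := Finset.disjoint_left.1 hAB (Finset.mem_sdiff.1 ha).1
        have hb' : b ∉ B := Finset.disjoint_left.1 hAB (h hb)
        simp [ha', hb']
    · intro B₁ h hne hwt r
      rw [Submodule.mem_comap, shc_Alt (Or.inr hAB), shc_Alt (Or.inl (Finset.Subset.refl B)),
        shc_K_mul]
      · exact NN_right h hne hwt _
      · intro a ha b hb
        simp [h ha, (Finset.mem_sdiff.1 hb).1]
  exact this hx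

omit [DecidableEq I] in
theorem sh_K_monic (k : I → I → ℕ) (c : V → I) {A B : Finset V} (hAB : Disjoint A B) :
    (sh B (K k c A B)).Monic := by
  unfold K
  rw [map_prod]
  refine Polynomial.monic_prod_of_monic _ _ fun a ha => ?_
  rw [map_prod]
  refine Polynomial.monic_prod_of_monic _ _ fun b hb => ?_
  rw [map_pow]
  refine Polynomial.Monic.pow ?_ _
  rw [map_sub, sh_X, sh_X, if_pos hb, if_neg (Finset.disjoint_left.1 hAB ha), add_zero]
  have : Polynomial.C (X b) + Polynomial.X - Polynomial.C (X a : MvPolynomial V ℚ)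
      = Polynomial.X + Polynomial.C (X b - X a) := by
    rw [map_sub]; ring
  rw [this]
  exact Polynomial.monic_X_add_C _

theorem shc_inv {c : V → I} {A B : Finset V} (hAB : Disjoint A B) {s : MvPolynomial V ℚ}
    (hs : Inv2 c A B s) (n : ℕ) : Inv2 c A B (shc B n s) := by
  refine ⟨fun w hw => ?_, fun w hw => ?_⟩
  · rw [← shc_rename (G_mem_iff hw (Or.inr hAB)), hs.1 w hw]
  · rw [← shc_rename (G_mem_iff hw (Or.inl (Finset.Subset.refl B))), hs.2 w hw]

omit [DecidableEq I] in
theorem shc_zero (B : Finset V) (f : MvPolynomial V ℚ) : shc B 0 f = f := by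
  have : (Polynomial.aeval (R := MvPolynomial V ℚ) (0 : MvPolynomial V ℚ)).toRingHom.comp
      (sh B).toRingHom = RingHom.id _ := by
    refine MvPolynomial.ringHom_ext (fun r => ?_) (fun v => ?_)
    · simp
    · change Polynomial.aeval (R := MvPolynomial V ℚ) (0 : MvPolynomial V ℚ) (sh B (X v)) = X v
      rw [sh_X]
      by_cases h : v ∈ B <;> simp [h]
  have := congrArg (fun F => F f) this
  rw [shc_apply, Polynomial.coeff_zero_eq_aeval_zero]
  exact this

/-- the kernel is a non zero divisor modulo `NN A B` -/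
theorem NN_nzd {k : I → I → ℕ} {c : V → I} {θ : I → ℤ} {A B : Finset V} (hAB : Disjoint A B)
    {τ : MvPolynomial V ℚ} (h : K k c A B * τ ∈ NN k c θ A B) : τ ∈ NN k c θ A B := by
  set s := K k c A B with hsdef
  have hinv : Inv2 c A B s := by
    refine ⟨fun w hw => ?_, fun w hw => ?_⟩
    · exact rename_K_self k hw (Or.inl (Finset.Subset.refl A)) (Or.inr hAB)
    · exact rename_K_self k hw (Or.inr hAB.symm) (Or.inl (Finset.Subset.refl B))
  have hmonic : (sh B s).Monic := sh_K_monic k c hAB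
  set D := (sh B s).natDegree with hD
  set M := (sh B τ).natDegree with hM
  have key : ∀ m : ℕ, ∀ n : ℕ, M < n + m → shc B n τ ∈ NN k c θ A B := by
    intro m
    induction m with
    | zero =>
      intro n hn
      rw [shc_apply, Polynomial.coeff_eq_zero_of_natDegree_lt (by omega)]
      exact zero_mem _
    | succ m ih =>
      intro n hn
      have h1 : shc B (D + n) (s * τ) ∈ NN k c θ A B := NN_shc hAB _ h
      rw [shc_apply, map_mul, Polynomial.coeff_mul] at h1
      have h2 : ∑ x ∈ Finset.HasAntidiagonal.antidiagonal (D + n), (sh B s).coeff x.1 * (sh B τ).coeff x.2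
          = (sh B s).coeff D * (sh B τ).coeff n
            + ∑ x ∈ (Finset.HasAntidiagonal.antidiagonal (D + n)).erase (D, n),
              (sh B s).coeff x.1 * (sh B τ).coeff x.2 := by
        exact (Finset.add_sum_erase (Finset.HasAntidiagonal.antidiagonal (D + n))
          (fun x : ℕ × ℕ => (sh B s).coeff x.1 * (sh B τ).coeff x.2) (a := (D, n))
          (Finset.HasAntidiagonal.mem_antidiagonal.2 rfl)).symm
      rw [h2, hmonic.coeff_natDegree, one_mul] at h1
      have h3 : ∑ x ∈ (Finset.HasAntidiagonal.antidiagonal (D + n)).erase (D, n),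
              (sh B s).coeff x.1 * (sh B τ).coeff x.2 ∈ NN k c θ A B := by
        refine Submodule.sum_mem _ fun x hx => ?_
        rw [Finset.mem_erase, Finset.HasAntidiagonal.mem_antidiagonal] at hx
        by_cases hx1 : D < x.1
        · rw [Polynomial.coeff_eq_zero_of_natDegree_lt hx1, zero_mul]
          exact zero_mem _
        · have hx2 : n < x.2 := by
            rcases Nat.lt_or_ge n x.2 with h' | h'
            · exact h'
            · exfalso
              apply hx.1
              have e1 : x.1 = D := by omega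
              have e2 : x.2 = n := by omega
              exact Prod.ext e1 e2
          exact NN_mul (shc_inv hAB hinv x.1) (ih x.2 (by omega))
      have := Submodule.sub_mem _ h1 h3
      rwa [add_sub_cancel_right] at this
  have := key (M + 1) 0 (by omega)
  rwa [shc_zero] at this


/-! ### the terms of a product restricted to the blocks -/

/-- a term `K(X, Xᶜ) r` with `X ≠ A` not below `A` dies -/
theorem term_mem {k : I → I → ℕ} {c : V → I} {θ : I → ℤ} {A X : Finset V} (hX : X ≠ A)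
    (hmin : wt θ c A < wt θ c X ∨ (wt θ c A = wt θ c X ∧ X.card ≤ A.card))
    (r : MvPolynomial V ℚ) :
    Alt c A (Alt c Aᶜ (K k c X Xᶜ * r)) ∈ NN k c θ A Aᶜ := by
  have hex := wt_exchange θ c A X
  -- wt X + wt (A \ X) = wt A + wt (X \ A)
  have hK1 : ∃ r', K k c X Xᶜ = K k c (A \ (A \ X)) (A \ X) * r' := by
    have e1 : X = (A \ (A \ X)) ∪ (X \ A) := by
      ext v; simp only [Finset.mem_union, Finset.mem_sdiff]; tauto
    have d1 : Disjoint (A \ (A \ X)) (X \ A) := by
      rw [Finset.disjoint_left]; intro v; simp only [Finset.mem_sdiff]; tauto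
    have e2 : Xᶜ = (A \ X) ∪ (Aᶜ \ X) := by
      ext v; simp only [Finset.mem_union, Finset.mem_sdiff, Finset.mem_compl]; tauto
    have d2 : Disjoint (A \ X) (Aᶜ \ X) := by
      rw [Finset.disjoint_left]; intro v; simp only [Finset.mem_sdiff, Finset.mem_compl]; tauto
    refine ⟨K k c (X \ A) (A \ X) * K k c X (Aᶜ \ X), ?_⟩
    rw [← mul_assoc, ← K_union_left k c d1, ← e1, ← K_union_right k c d2, ← e2]
  have hK2 : ∃ r', K k c X Xᶜ = K k c (X \ A) (Aᶜ \ (X \ A)) * r' := by
    have e1 : X = (X \ A) ∪ (X ∩ A) := by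
      ext v; simp only [Finset.mem_union, Finset.mem_sdiff, Finset.mem_inter]; tauto
    have d1 : Disjoint (X \ A) (X ∩ A) := by
      rw [Finset.disjoint_left]; intro v; simp only [Finset.mem_sdiff, Finset.mem_inter]; tauto
    have e2 : Xᶜ = (Aᶜ \ (X \ A)) ∪ (A \ X) := by
      ext v; simp only [Finset.mem_union, Finset.mem_sdiff, Finset.mem_compl]; tauto
    have d2 : Disjoint (Aᶜ \ (X \ A)) (A \ X) := by
      rw [Finset.disjoint_left]; intro v; simp only [Finset.mem_sdiff, Finset.mem_compl]; tauto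
    refine ⟨K k c (X ∩ A) (Aᶜ \ (X \ A)) * K k c X (A \ X), ?_⟩
    rw [← mul_assoc, ← K_union_left k c d1, ← e1, ← K_union_right k c d2, ← e2]
  by_cases h1 : (A \ X).Nonempty ∧ wt θ c (A \ X) ≤ 0
  · obtain ⟨r', hr'⟩ := hK1
    rw [hr', mul_assoc]
    exact NN_left Finset.sdiff_subset h1.1 h1.2 _
  by_cases h2 : (X \ A).Nonempty ∧ 0 < wt θ c (X \ A)
  · obtain ⟨r', hr'⟩ := hK2
    rw [hr', mul_assoc]
    refine NN_right ?_ h2.1 h2.2 _
    intro v hv
    rw [Finset.mem_compl]
    exact (Finset.mem_sdiff.1 hv).2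
  exfalso
  have h1' : 0 ≤ wt θ c (A \ X) := by
    rcases (A \ X).eq_empty_or_nonempty with h | h
    · rw [h]; simp [wt]
    · by_contra h'
      exact h1 ⟨h, by omega⟩
  have h2' : wt θ c (X \ A) ≤ 0 := by
    rcases (X \ A).eq_empty_or_nonempty with h | h
    · rw [h]; simp [wt]
    · by_contra h'
      exact h2 ⟨h, by omega⟩
  rcases hmin with h | ⟨h, hc⟩
  · omega
  · have h3 : wt θ c (A \ X) = 0 := by omega
    have h4 : A \ X = ∅ := by
      by_contra h'
      exact h1 ⟨Finset.nonempty_iff_ne_empty.2 h', by omega⟩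
    have h5 : A ⊆ X := Finset.sdiff_eq_empty_iff_subset.1 h4
    exact hX (Finset.eq_of_subset_of_card_le h5 hc).symm

/-- decomposition of a permutation preserving `A` -/
theorem exists_decomp {c : V → I} {A : Finset V} {w : Equiv.Perm V}
    (hw : ∀ v, c (w v) = c v) (hA : A.map w.toEmbedding = A) :
    ∃ w₁ ∈ G c A, ∃ w₂ ∈ G c Aᶜ, w = w₁ * w₂ := by
  have hmem : ∀ v, v ∈ A ↔ w v ∈ A := by
    intro v
    constructor
    · intro hv
      rw [← hA]
      exact Finset.mem_map.2 ⟨v, hv, rfl⟩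
    · intro hv
      rw [← hA] at hv
      obtain ⟨u, hu, huv⟩ := Finset.mem_map.1 hv
      have := w.injective huv
      rwa [this] at hu
  let w₁ : Equiv.Perm V := Equiv.Perm.ofSubtype (w.subtypePerm (p := (· ∈ A)) (fun v => (hmem v).symm))
  have h1 : ∀ v ∈ A, w₁ v = w v := by
    intro v hv
    exact Equiv.Perm.ofSubtype_apply_of_mem _ hv
  have h1' : ∀ v, v ∉ A → w₁ v = v := by
    intro v hv
    exact Equiv.Perm.ofSubtype_apply_of_not_mem _ hv
  have hw₁ : w₁ ∈ G c A := by
    refine ⟨fun v => ?_, h1'⟩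
    by_cases hv : v ∈ A
    · rw [h1 v hv, hw]
    · rw [h1' v hv]
  refine ⟨w₁, hw₁, w₁⁻¹ * w, ⟨fun v => ?_, fun v hv => ?_⟩, ?_⟩
  · rw [Equiv.Perm.mul_apply, (inv_mem hw₁).1, hw]
  · rw [Finset.mem_compl, not_not] at hv
    rw [Equiv.Perm.mul_apply, Equiv.Perm.inv_eq_iff_eq]
    exact (h1 v hv).symm
  · rw [mul_inv_cancel_left]

theorem Alt2_rename {c : V → I} {A : Finset V} {w : Equiv.Perm V}
    (hw : ∀ v, c (w v) = c v) (hA : A.map w.toEmbedding = A) (f : MvPolynomial V ℚ) :
    Alt c A (Alt c Aᶜ (rename w f)) = sg w • Alt c A (Alt c Aᶜ f) := by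
  obtain ⟨w₁, h₁, w₂, h₂, rfl⟩ := exists_decomp hw hA
  have : rename (⇑(w₁ * w₂)) f = rename w₁ (rename w₂ f) := by
    rw [rename_rename]; rfl
  rw [this, ← rename_Alt_comm disjoint_compl_right h₁, Alt_rename h₁, Alt_rename h₂, map_smul,
    smul_smul, sg_mul]


theorem map_compl (w : Equiv.Perm V) (X : Finset V) :
    Xᶜ.map w.toEmbedding = (X.map w.toEmbedding)ᶜ := by
  ext v
  simp only [Finset.mem_map, Finset.mem_compl, Equiv.coe_toEmbedding]
  constructor
  · rintro ⟨u, hu, rfl⟩ ⟨u', hu', h⟩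
    exact hu (w.injective h ▸ hu')
  · intro h
    refine ⟨w⁻¹ v, fun h' => h ⟨_, h', ?_⟩, ?_⟩ <;>
    · rw [← Equiv.Perm.mul_apply, mul_inv_cancel, Equiv.Perm.one_apply]

/-- Restricting a relation to the blocks `(A, Aᶜ)`, where `A` is minimal. -/
theorem key_rel {k : I → I → ℕ} {c : V → I} {θ : I → ℤ} {A : Finset V} {S : Finset (Finset V)}
    (hAS : A ∈ S) (τ : Finset V → MvPolynomial V ℚ)
    (hrep : ∀ X ∈ S, X ≠ A → ∀ w : Equiv.Perm V, (∀ v, c (w v) = c v) →
      X.map w.toEmbedding ≠ A)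
    (hmin : ∀ X ∈ S, τ X ≠ 0 →
      wt θ c A < wt θ c X ∨ (wt θ c A = wt θ c X ∧ X.card ≤ A.card))
    (hrel : ∑ X ∈ S, Alt c Finset.univ (K k c X Xᶜ * τ X) = 0)
    (hτ : Alt c A (Alt c Aᶜ (τ A)) = (nG c A * nG c Aᶜ) • τ A) :
    τ A ∈ NN k c θ A Aᶜ := by
  classical
  set L : MvPolynomial V ℚ →ₗ[ℚ] MvPolynomial V ℚ := (Alt c A).comp (Alt c Aᶜ) with hL
  have hLx : ∀ f, L f = Alt c A (Alt c Aᶜ f) := fun f => rfl
  -- a generic term
  have hterm : ∀ X ∈ S, ∀ w : G c (Finset.univ : Finset V),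
      X.map (w : Equiv.Perm V).toEmbedding ≠ A →
      sg (w : Equiv.Perm V) • L (rename (w : Equiv.Perm V) (K k c X Xᶜ * τ X))
        ∈ NN k c θ A Aᶜ := by
    intro X hX w hne
    refine Submodule.smul_mem _ _ ?_
    by_cases h0 : τ X = 0
    · rw [h0, mul_zero, map_zero, map_zero]
      exact zero_mem _
    rw [map_mul, rename_K k w.2.1, map_compl, hLx]
    refine term_mem hne ?_ _
    rw [wt_map θ w.2.1, Finset.card_map]
    exact hmin X hX h0
  have hAlt : ∀ X, L (Alt c Finset.univ (K k c X Xᶜ * τ X))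
      = ∑ w : G c (Finset.univ : Finset V),
        sg (w : Equiv.Perm V) • L (rename (w : Equiv.Perm V) (K k c X Xᶜ * τ X)) := by
    intro X
    rw [Alt_apply, map_sum]
    exact Finset.sum_congr rfl fun w _ => by rw [map_smul]
  have hrel2 : ∑ X ∈ S, L (Alt c Finset.univ (K k c X Xᶜ * τ X)) = 0 := by
    rw [← map_sum, hrel, map_zero]
  rw [← Finset.add_sum_erase _ _ hAS] at hrel2
  have hrest : ∑ X ∈ S.erase A, L (Alt c Finset.univ (K k c X Xᶜ * τ X)) ∈ NN k c θ A Aᶜ := by
    refine Submodule.sum_mem _ fun X hX => ?_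
    rw [Finset.mem_erase] at hX
    rw [hAlt]
    exact Submodule.sum_mem _ fun w _ => hterm X hX.2 w (hrep X hX.2 hX.1 w w.2.1)
  have hA : L (Alt c Finset.univ (K k c A Aᶜ * τ A)) ∈ NN k c θ A Aᶜ := by
    have := Submodule.neg_mem _ hrest
    rwa [← eq_neg_iff_add_eq_zero.2 hrel2] at this
  rw [hAlt] at hA
  set P : Finset (G c (Finset.univ : Finset V)) :=
    Finset.univ.filter (fun w => A.map (w : Equiv.Perm V).toEmbedding = A) with hP
  rw [← Finset.sum_filter_add_sum_filter_not Finset.univ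
    (fun w : G c (Finset.univ : Finset V) => A.map (w : Equiv.Perm V).toEmbedding = A)] at hA
  have hnot : ∑ w ∈ Finset.univ.filter (fun w : G c (Finset.univ : Finset V) =>
      ¬ A.map (w : Equiv.Perm V).toEmbedding = A),
      sg (w : Equiv.Perm V) • L (rename (w : Equiv.Perm V) (K k c A Aᶜ * τ A))
        ∈ NN k c θ A Aᶜ :=
    Submodule.sum_mem _ fun w hw => hterm A hAS w (Finset.mem_filter.1 hw).2
  have hyes := Submodule.sub_mem _ hA hnot
  rw [add_sub_cancel_right] at hyes
  have hinvA : ∀ w ∈ G c A, rename w (K k c A Aᶜ) = K k c A Aᶜ := fun w hw =>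
    rename_K_self k hw (Or.inl (Finset.Subset.refl A)) (Or.inr disjoint_compl_right)
  have hinvB : ∀ w ∈ G c Aᶜ, rename w (K k c A Aᶜ) = K k c A Aᶜ := fun w hw =>
    rename_K_self k hw (Or.inr disjoint_compl_left) (Or.inl (Finset.Subset.refl Aᶜ))
  have heach : ∀ w ∈ P, sg (w : Equiv.Perm V) •
      L (rename (w : Equiv.Perm V) (K k c A Aᶜ * τ A))
        = (nG c A * nG c Aᶜ) • (K k c A Aᶜ * τ A) := by
    intro w hw
    rw [hLx, Alt2_rename w.2.1 (Finset.mem_filter.1 hw).2, smul_smul, sg_mul_self, one_smul,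
      Alt_mul_left hinvB, Alt_mul_left hinvA, hτ, mul_smul_comm]
  rw [← hP, Finset.sum_congr rfl heach, Finset.sum_const, ← Nat.cast_smul_eq_nsmul ℚ,
    smul_smul] at hyes
  have hne : ((P.card : ℚ) * (nG c A * nG c Aᶜ)) ≠ 0 := by
    refine mul_ne_zero ?_ (mul_ne_zero (nG_ne_zero c A) (nG_ne_zero c Aᶜ))
    rw [Nat.cast_ne_zero]
    refine Finset.card_ne_zero_of_mem (a := (1 : G c (Finset.univ : Finset V))) ?_
    rw [hP, Finset.mem_filter]
    exact ⟨Finset.mem_univ _, map_of_mem_G (c := c) (one_mem (G c A)) (Finset.Subset.refl A)⟩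
  have := Submodule.smul_mem _ ((P.card : ℚ) * (nG c A * nG c Aᶜ))⁻¹ hyes
  rw [smul_smul, inv_mul_cancel₀ hne, one_smul] at this
  exact NN_nzd disjoint_compl_right this


/-! ### linear algebra -/

/-- `c` is independent modulo `W` -/
def IndMod {ι : Type*} (W : Submodule ℚ (MvPolynomial V ℚ)) (b : ι → MvPolynomial V ℚ) : Prop :=
  ∀ l : ι →₀ ℚ, Finsupp.linearCombination ℚ b l ∈ W → l = 0

omit [Fintype V] [DecidableEq V] in
theorem IndMod.exists_dual {ι : Type*} {W : Submodule ℚ (MvPolynomial V ℚ)}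
    {b : ι → MvPolynomial V ℚ} (h : IndMod W b) :
    ∃ φ : MvPolynomial V ℚ →ₗ[ℚ] (ι →₀ ℚ), (∀ x ∈ W, φ x = 0) ∧
      ∀ i, φ (b i) = Finsupp.single i 1 := by
  have hinj : LinearMap.ker (W.mkQ.comp (Finsupp.linearCombination ℚ b)) = ⊥ := by
    rw [LinearMap.ker_eq_bot']
    intro l hl
    refine h l ?_
    rwa [LinearMap.comp_apply, Submodule.mkQ_apply, Submodule.Quotient.mk_eq_zero] at hl
  obtain ⟨g, hg⟩ := LinearMap.exists_leftInverse_of_injective _ hinj
  refine ⟨g.comp W.mkQ, fun x hx => ?_, fun i => ?_⟩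
  · rw [LinearMap.comp_apply, Submodule.mkQ_apply, (Submodule.Quotient.mk_eq_zero _).2 hx,
      map_zero]
  · have := congrArg (fun F => F (Finsupp.single i 1)) hg
    simpa using this

theorem NN_le_mul (k : I → I → ℕ) (c : V → I) (θ : I → ℤ) (A : Finset V) :
    NN k c θ A Aᶜ ≤ Igt k c θ A * H c Aᶜ ⊔ H c A * Ile k c θ Aᶜ := by
  have hspan : ∀ r : MvPolynomial V ℚ, r ∈ RA A * RA Aᶜ := by
    intro r
    rw [← RA_union, Finset.union_compl, RA_univ]
    trivial
  refine NN_le ?_ ?_
  · intro A₂ h hne hwt r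
    refine Submodule.mem_sup_left ?_
    refine Submodule.mul_induction_on (hspan r) ?_ ?_
    · intro f hf g hg
      have hK : K k c (A \ A₂) A₂ ∈ RA A := K_mem_RA k c Finset.sdiff_subset h
      rw [← mul_assoc, Alt_Alt_mul disjoint_compl_right (mul_mem_RA hK hf) hg]
      refine Submodule.mul_mem_mul ?_ (Alt_mem_H hg)
      refine Submodule.mem_iSup_of_mem A₂ (Submodule.mem_iSup_of_mem ?_ ?_)
      · simp [h, hne, hwt]
      · refine ⟨f, ?_, ?_⟩
        · rw [Finset.sdiff_union_of_subset h]; exact hf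
        · rw [Finset.sdiff_union_of_subset h]; rfl
    · intro f g hf hg
      rw [mul_add, map_add, map_add]
      exact add_mem hf hg
  · intro B₁ h hne hwt r
    refine Submodule.mem_sup_right ?_
    refine Submodule.mul_induction_on (hspan r) ?_ ?_
    · intro f hf g hg
      have hK : K k c B₁ (Aᶜ \ B₁) ∈ RA Aᶜ := K_mem_RA k c h Finset.sdiff_subset
      rw [mul_left_comm, Alt_Alt_mul disjoint_compl_right hf (mul_mem_RA hK hg)]
      refine Submodule.mul_mem_mul (Alt_mem_H hf) ?_
      refine Submodule.mem_iSup_of_mem B₁ (Submodule.mem_iSup_of_mem ?_ ?_)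
      · simp [h, hne, hwt]
      · refine ⟨g, ?_, ?_⟩
        · rw [Finset.union_sdiff_of_subset h]; exact hg
        · rw [Finset.union_sdiff_of_subset h]; rfl
    · intro f g hf hg
      rw [mul_add, map_add, map_add]
      exact add_mem hf hg

theorem J_le_H (k : I → I → ℕ) (c : V → I) (A₁ A₂ : Finset V) :
    J k c A₁ A₂ ≤ H c (A₁ ∪ A₂) := by
  rintro _ ⟨r, hr, rfl⟩
  exact Alt_mem_H (mul_mem_RA (K_mem_RA k c Finset.subset_union_left Finset.subset_union_right) hr)

theorem Igt_le_H (k : I → I → ℕ) (c : V → I) (θ : I → ℤ) (A : Finset V) :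
    Igt k c θ A ≤ H c A := by
  refine iSup₂_le fun A₂ h => ?_
  rw [Finset.mem_filter, Finset.mem_powerset] at h
  have := J_le_H k c (A \ A₂) A₂
  rwa [Finset.sdiff_union_of_subset h.1] at this

theorem Ile_le_H (k : I → I → ℕ) (c : V → I) (θ : I → ℤ) (A : Finset V) :
    Ile k c θ A ≤ H c A := by
  refine iSup₂_le fun A₂ h => ?_
  rw [Finset.mem_filter, Finset.mem_powerset] at h
  have := J_le_H k c A₂ (A \ A₂)
  rwa [Finset.union_sdiff_of_subset h.1] at this

/-- products of elements which are independent modulo the ideals are independent modulo `NN` -/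
theorem indep_pair {k : I → I → ℕ} {c : V → I} {θ : I → ℤ} {A : Finset V} {ι κ : Type*}
    {b : ι → MvPolynomial V ℚ} {d : κ → MvPolynomial V ℚ}
    (hb : ∀ i, b i ∈ H c A) (hd : ∀ j, d j ∈ H c Aᶜ)
    (hbI : IndMod (Igt k c θ A) b) (hdI : IndMod (Ile k c θ Aᶜ) d)
    {l : ι × κ →₀ ℚ}
    (hl : Finsupp.linearCombination ℚ (fun p : ι × κ => b p.1 * d p.2) l ∈ NN k c θ A Aᶜ) :
    l = 0 := by
  classical
  obtain ⟨φ, hφ, hφb⟩ := hbI.exists_dual
  obtain ⟨ψ, hψ, hψd⟩ := hdI.exists_dual
  ext ⟨i, j⟩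
  let bil : ((ι →₀ ℚ)) →ₗ[ℚ] (κ →₀ ℚ) →ₗ[ℚ] ℚ :=
    LinearMap.mk₂ ℚ (fun x y => x i * y j) (by intros; simp [add_mul]) (by intros; simp [mul_assoc])
      (by intros; simp [mul_add]) (by intros; simp [mul_left_comm])
  have hbil : ∀ x y, bil x y = x i * y j := fun _ _ => rfl
  set Φ := prodFun A bil φ ψ with hΦ
  have hmul : ∀ f ∈ RA A, ∀ g ∈ RA Aᶜ, Φ (f * g) = φ f i * ψ g j := by
    intro f hf g hg
    rw [hΦ, prodFun_mul disjoint_compl_right bil φ ψ hf hg, hbil]
  have hzero : ∀ x ∈ NN k c θ A Aᶜ, Φ x = 0 := by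
    have hle : NN k c θ A Aᶜ ≤ LinearMap.ker Φ := by
      refine (NN_le_mul k c θ A).trans (sup_le ?_ ?_)
      · rw [Submodule.mul_le]
        intro f hf g hg
        rw [LinearMap.mem_ker, hmul f (H_le_RA c A (Igt_le_H k c θ A hf)) g (H_le_RA c _ hg),
          hφ f hf]
        simp
      · rw [Submodule.mul_le]
        intro f hf g hg
        rw [LinearMap.mem_ker, hmul f (H_le_RA c A hf) g (H_le_RA c _ (Ile_le_H k c θ _ hg)),
          hψ g hg]
        simp
    exact fun x hx => hle hx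
  have h1 := hzero _ hl
  rw [Finsupp.linearCombination_apply, Finsupp.sum, map_sum] at h1
  have h2 : ∀ p ∈ l.support, Φ (l p • (b p.1 * d p.2)) = if p = (i, j) then l (i, j) else 0 := by
    rintro ⟨i', j'⟩ _
    rw [map_smul, hmul _ (H_le_RA c A (hb i')) _ (H_le_RA c _ (hd j')), hφb, hψd, smul_eq_mul]
    by_cases hi : i' = i
    · by_cases hj : j' = j
      · subst hi; subst hj; simp
      · rw [Finsupp.single_eq_of_ne (a' := j) (Ne.symm hj), if_neg (by simp [hj])]; simp
    · rw [Finsupp.single_eq_of_ne (a' := i) (Ne.symm hi), if_neg (by simp [hi])]; simp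
  rw [Finset.sum_congr rfl h2, Finset.sum_ite_eq'] at h1
  rw [Finsupp.coe_zero, Pi.zero_apply]
  by_cases hmem : (i, j) ∈ l.support
  · rwa [if_pos hmem] at h1
  · exact Finsupp.notMem_support_iff.1 hmem


/-- **Independence**: the products of elements which are independent modulo the ideals, for pairwise
non conjugate blocks, are linearly independent. -/
theorem indep_all {k : I → I → ℕ} {c : V → I} {θ : I → ℤ} {S : Finset (Finset V)}
    {ι κ : S → Type*}
    (hrep : ∀ X ∈ S, ∀ Y ∈ S, X ≠ Y → ∀ w : Equiv.Perm V, (∀ v, c (w v) = c v) →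
      X.map w.toEmbedding ≠ Y)
    (b : ∀ A : S, ι A → MvPolynomial V ℚ) (d : ∀ A : S, κ A → MvPolynomial V ℚ)
    (hb : ∀ (A : S) (i : ι A), b A i ∈ H c (A : Finset V))
    (hd : ∀ (A : S) (j : κ A), d A j ∈ H c (A : Finset V)ᶜ)
    (hbI : ∀ A : S, IndMod (Igt k c θ A) (b A)) (hdI : ∀ A : S, IndMod (Ile k c θ (A : Finset V)ᶜ) (d A)) :
    LinearIndependent ℚ (fun p : Σ A : S, ι A × κ A =>
      Alt c Finset.univ (K k c (p.1 : Finset V) (p.1 : Finset V)ᶜ * (b p.1 p.2.1 * d p.1 p.2.2))) := by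
  classical
  rw [linearIndependent_iff]
  intro l hl
  by_contra hne
  let lc : ∀ A : S, MvPolynomial V ℚ := fun A =>
    Finsupp.linearCombination ℚ (fun p : ι A × κ A => b A p.1 * d A p.2) (l.split A)
  let τ : Finset V → MvPolynomial V ℚ := fun X => if h : X ∈ S then lc ⟨X, h⟩ else 0
  have hτ : ∀ A : S, τ A = lc A := fun A => by
    simp only [τ]
    rw [dif_pos A.2]
  -- the nonempty set of indices with a nonzero part
  have hS' : (Finset.univ.filter (fun A : S => l.split A ≠ 0)).Nonempty := by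
    by_contra h
    rw [Finset.not_nonempty_iff_eq_empty, Finset.filter_eq_empty_iff] at h
    apply hne
    ext ⟨A, x⟩
    have h1 := h (Finset.mem_univ A)
    rw [not_not] at h1
    have h2 : l.split A x = 0 := by rw [h1]; rfl
    simpa [Finsupp.split_apply] using h2
  obtain ⟨A, hA, hAmin⟩ := Finset.exists_min_image _
    (fun A : S => toLex (wt θ c (A : Finset V), -((A : Finset V).card : ℤ))) hS'
  rw [Finset.mem_filter] at hA
  have hlcmem : ∀ A : S, lc A ∈ H c (A : Finset V) * H c (A : Finset V)ᶜ := by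
    intro A
    simp only [lc]
    rw [Finsupp.linearCombination_apply]
    exact Submodule.sum_mem _ fun p _ => Submodule.smul_mem _ _
      (Submodule.mul_mem_mul (hb A p.1) (hd A p.2))
  have hAlt : ∀ x ∈ H c (A : Finset V) * H c (A : Finset V)ᶜ,
      Alt c A (Alt c (A : Finset V)ᶜ x) = (nG c A * nG c (A : Finset V)ᶜ) • x := by
    intro x hx
    refine Submodule.mul_induction_on hx ?_ ?_
    · intro f hf g hg
      rw [Alt_Alt_mul disjoint_compl_right (H_le_RA c _ hf) (H_le_RA c _ hg), Alt_of_mem_H hf,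
        Alt_of_mem_H hg, smul_mul_smul_comm]
    · intro f g hf hg
      rw [map_add, map_add, hf, hg, smul_add]
  have hkey : τ A ∈ NN k c θ (A : Finset V) (A : Finset V)ᶜ := by
    refine key_rel (S := S) A.2 τ ?_ ?_ ?_ ?_
    · intro X hX hXA w hw
      exact hrep X hX A A.2 hXA w hw
    · intro X hX h0
      have h1 : l.split ⟨X, hX⟩ ≠ 0 := by
        intro h1
        apply h0
        rw [hτ ⟨X, hX⟩]
        simp only [lc]
        rw [h1, map_zero]
      have h2 := hAmin ⟨X, hX⟩ (Finset.mem_filter.2 ⟨Finset.mem_univ _, h1⟩)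
      rw [Prod.Lex.le_iff] at h2
      simp only [ofLex_toLex] at h2
      rcases h2 with h2 | ⟨h2, h3⟩
      · exact Or.inl h2
      · refine Or.inr ⟨h2, ?_⟩
        have : ((X.card : ℕ) : ℤ) ≤ (A : Finset V).card := by linarith
        exact_mod_cast this
    · rw [← hl, Finsupp.linearCombination_apply, Finsupp.sigma_sum]
      rw [← Finset.sum_coe_sort S]
      rw [← Finset.sum_subset (Finset.subset_univ (Finsupp.splitSupport l))]
      · refine Finset.sum_congr rfl fun X _ => ?_
        rw [hτ]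
        simp only [lc]
        rw [Finsupp.linearCombination_apply, Finsupp.sum, Finset.mul_sum, map_sum, Finsupp.sum]
        refine Finset.sum_congr rfl fun p _ => ?_
        rw [mul_smul_comm, map_smul]
      · intro X _ hX
        rw [hτ]
        have : l.split X = 0 := by
          by_contra h
          exact hX ((Finsupp.mem_splitSupport_iff_nonzero l X).2 h)
        simp only [lc]
        rw [this, map_zero, mul_zero, map_zero]
    · rw [hτ]
      exact hAlt _ (hlcmem A)
  rw [hτ] at hkey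
  exact hA.2 (indep_pair (hb A) (hd A) (hbI A) (hdI A) hkey)

end Crest.Agent.R059.Alt599
end

-- ▼ part R059/AltSpan_599
section

/-!
# Theorem A'' (spanning part)
-/

set_option autoImplicit false

open MvPolynomial

namespace Crest.Agent.R059.Alt599

variable {V I : Type*} [Fintype V] [DecidableEq V] [DecidableEq I]

/-- moving the `I^>` part to an earlier product -/
theorem move_left {k : I → I → ℕ} {c : V → I} {θ : I → ℤ} {A : Finset V}
    {U : Submodule ℚ (MvPolynomial V ℚ)}
    (hU : ∀ A₂ ⊆ A, A₂.Nonempty → wt θ c A₂ ≤ 0 → ∀ r,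
      Alt c Finset.univ (K k c (A \ A₂) (A \ A₂)ᶜ * r) ∈ U)
    {x y : MvPolynomial V ℚ} (hx : x ∈ Igt k c θ A) (hy : y ∈ RA Aᶜ) :
    Alt c Finset.univ (K k c A Aᶜ * (x * y)) ∈ U := by
  have hle : Igt k c θ A ≤ U.comap ((Alt c Finset.univ).comp
      ((LinearMap.mulLeft ℚ (K k c A Aᶜ)).comp (LinearMap.mulRight ℚ y))) := by
    refine iSup₂_le fun A₂ h => ?_
    rw [Finset.mem_filter, Finset.mem_powerset] at h
    rintro _ ⟨r, _, rfl⟩
    rw [Submodule.mem_comap]
    simp only [LinearMap.comp_apply, LinearMap.mulLeft_apply, LinearMap.mulRight_apply]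
    rw [Finset.sdiff_union_of_subset h.1]
    have hinvK : ∀ w ∈ G c A, rename w (K k c A Aᶜ) = K k c A Aᶜ := fun w hw =>
      rename_K_self k hw (Or.inl (Finset.Subset.refl A)) (Or.inr disjoint_compl_right)
    have hinvy : ∀ w ∈ G c A, rename w y = y := fun w hw =>
      rename_eq_self_of_disjoint disjoint_compl_right hw hy
    rw [mul_comm (Alt c A _) y, ← Alt_mul_left hinvy, ← Alt_mul_left hinvK,
      Alt_Alt_of_subset (Finset.subset_univ A)]
    refine Submodule.smul_mem _ _ ?_
    have e1 : K k c A Aᶜ * (y * (K k c (A \ A₂) A₂ * r))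
        = K k c (A \ A₂) (A \ A₂)ᶜ * (K k c A₂ Aᶜ * (y * r)) := by
      have h1 : K k c A Aᶜ = K k c (A \ A₂) Aᶜ * K k c A₂ Aᶜ := by
        rw [← K_union_left k c Finset.sdiff_disjoint, Finset.sdiff_union_of_subset h.1]
      have h2 : K k c (A \ A₂) (A \ A₂)ᶜ = K k c (A \ A₂) Aᶜ * K k c (A \ A₂) A₂ := by
        rw [← K_union_right]
        · congr 1
          ext v
          simp only [Finset.mem_compl, Finset.mem_sdiff, Finset.mem_union]
          have := @h.1 v
          tauto
        · rw [Finset.disjoint_left]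
          intro v hv hv'
          exact (Finset.mem_compl.1 hv) (h.1 hv')
      rw [h1, h2]
      ring
    rw [e1]
    exact hU A₂ h.1 h.2.1 h.2.2 _
  exact hle hx

/-- moving the `I^≤` part to an earlier product -/
theorem move_right {k : I → I → ℕ} {c : V → I} {θ : I → ℤ} {A : Finset V}
    {U : Submodule ℚ (MvPolynomial V ℚ)}
    (hU : ∀ B₁ ⊆ Aᶜ, B₁.Nonempty → 0 < wt θ c B₁ → ∀ r,
      Alt c Finset.univ (K k c (A ∪ B₁) (A ∪ B₁)ᶜ * r) ∈ U)
    {x y : MvPolynomial V ℚ} (hx : x ∈ RA A) (hy : y ∈ Ile k c θ Aᶜ) :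
    Alt c Finset.univ (K k c A Aᶜ * (x * y)) ∈ U := by
  have hle : Ile k c θ Aᶜ ≤ U.comap ((Alt c Finset.univ).comp
      ((LinearMap.mulLeft ℚ (K k c A Aᶜ)).comp (LinearMap.mulLeft ℚ x))) := by
    refine iSup₂_le fun B₁ h => ?_
    rw [Finset.mem_filter, Finset.mem_powerset] at h
    rintro _ ⟨r, _, rfl⟩
    rw [Submodule.mem_comap]
    simp only [LinearMap.comp_apply, LinearMap.mulLeft_apply]
    rw [Finset.union_sdiff_of_subset h.1]
    have hinvK : ∀ w ∈ G c Aᶜ, rename w (K k c A Aᶜ) = K k c A Aᶜ := fun w hw =>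
      rename_K_self k hw (Or.inr disjoint_compl_left) (Or.inl (Finset.Subset.refl Aᶜ))
    have hinvx : ∀ w ∈ G c Aᶜ, rename w x = x := fun w hw =>
      rename_eq_self_of_disjoint disjoint_compl_left hw hx
    rw [← Alt_mul_left hinvx, ← Alt_mul_left hinvK,
      Alt_Alt_of_subset (Finset.subset_univ Aᶜ)]
    refine Submodule.smul_mem _ _ ?_
    have hd : Disjoint A B₁ := by
      rw [Finset.disjoint_left]
      intro v hv hv'
      exact (Finset.mem_compl.1 (h.1 hv')) hv
    have e0 : (A ∪ B₁)ᶜ = Aᶜ \ B₁ := by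
      ext v
      simp only [Finset.mem_compl, Finset.mem_sdiff, Finset.mem_union]
      tauto
    have e1 : K k c A Aᶜ * (x * (K k c B₁ (Aᶜ \ B₁) * r))
        = K k c (A ∪ B₁) (A ∪ B₁)ᶜ * (K k c A B₁ * (x * r)) := by
      have h1 : K k c A Aᶜ = K k c A B₁ * K k c A (Aᶜ \ B₁) := by
        rw [← K_union_right k c Finset.disjoint_sdiff, Finset.union_sdiff_of_subset h.1]
      rw [e0, K_union_left k c hd, h1]
      ring
    rw [e1]
    exact hU B₁ h.1 h.2.1 h.2.2 _
  exact hle hy

/-- **Spanning** -/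
theorem span_all {k : I → I → ℕ} {c : V → I} {θ : I → ℤ} {S : Finset (Finset V)}
    {ι κ : S → Type*}
    (hrep : ∀ X : Finset V, ∃ A ∈ S, ∃ w : Equiv.Perm V, (∀ v, c (w v) = c v) ∧
      A.map w.toEmbedding = X)
    (b : ∀ A : S, ι A → MvPolynomial V ℚ) (d : ∀ A : S, κ A → MvPolynomial V ℚ)
    (hbs : ∀ A : S, H c (A : Finset V) ≤ Submodule.span ℚ (Set.range (b A)) ⊔ Igt k c θ A)
    (hds : ∀ A : S, H c (A : Finset V)ᶜ ≤
      Submodule.span ℚ (Set.range (d A)) ⊔ Ile k c θ (A : Finset V)ᶜ) :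
    H c Finset.univ ≤ Submodule.span ℚ (Set.range (fun p : Σ A : S, ι A × κ A =>
      Alt c Finset.univ (K k c (p.1 : Finset V) (p.1 : Finset V)ᶜ *
        (b p.1 p.2.1 * d p.1 p.2.2)))) := by
  set U := Submodule.span ℚ (Set.range (fun p : Σ A : S, ι A × κ A =>
      Alt c Finset.univ (K k c (p.1 : Finset V) (p.1 : Finset V)ᶜ *
        (b p.1 p.2.1 * d p.1 p.2.2)))) with hUdef
  -- a bound for the weights
  obtain ⟨M, hM⟩ : ∃ M : ℤ, ∀ X : Finset V, wt θ c X ≤ M := by
    obtain ⟨M, hM⟩ := (Set.finite_range (fun X : Finset V => wt θ c X)).bddAbove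
    exact ⟨M, fun X => hM ⟨X, rfl⟩⟩
  let m : Finset V → ℕ := fun X => (M - wt θ c X).toNat * (Fintype.card V + 1) + X.card
  have main : ∀ n : ℕ, ∀ X : Finset V, m X < n → ∀ r,
      Alt c Finset.univ (K k c X Xᶜ * r) ∈ U := by
    intro n
    induction n with
    | zero => intro X hX; omega
    | succ n ih =>
      intro X hX r
      obtain ⟨A, hAS, w, hw, rfl⟩ := hrep X
      have hmA : m A < n + 1 := by
        simp only [m] at hX ⊢
        rwa [wt_map θ hw, Finset.card_map] at hX
      -- reduction to the representative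
      have hwG : w ∈ G c (Finset.univ : Finset V) := ⟨hw, fun v hv => absurd (Finset.mem_univ v) hv⟩
      have e1 : K k c (A.map w.toEmbedding) (A.map w.toEmbedding)ᶜ * r
          = rename w (K k c A Aᶜ * rename (⇑w⁻¹) r) := by
        rw [map_mul, rename_K k hw, map_compl, rename_rename]
        have : (⇑w ∘ ⇑w⁻¹) = id := by
          funext v
          rw [Function.comp_apply, ← Equiv.Perm.mul_apply, mul_inv_cancel]
          rfl
        rw [this, rename_id_apply]
      rw [e1, Alt_rename hwG]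
      refine Submodule.smul_mem _ _ ?_
      generalize rename (⇑w⁻¹) r = r'
      -- the two moves
      have hL : ∀ A₂ ⊆ A, A₂.Nonempty → wt θ c A₂ ≤ 0 → ∀ r,
          Alt c Finset.univ (K k c (A \ A₂) (A \ A₂)ᶜ * r) ∈ U := by
        intro A₂ h hne hwt r
        refine ih _ ?_ r
        have h1 := wt_sdiff_add θ c h
        have h2 := Finset.card_sdiff_add_card_eq_card h
        have h3 := hne.card_pos
        simp only [m] at hmA ⊢
        have h4 : (M - wt θ c (A \ A₂)).toNat ≤ (M - wt θ c A).toNat := by omega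
        have h5 := Nat.mul_le_mul_right (Fintype.card V + 1) h4
        omega
      have hR : ∀ B₁ ⊆ Aᶜ, B₁.Nonempty → 0 < wt θ c B₁ → ∀ r,
          Alt c Finset.univ (K k c (A ∪ B₁) (A ∪ B₁)ᶜ * r) ∈ U := by
        intro B₁ h hne hwt r
        refine ih _ ?_ r
        have hd : Disjoint A B₁ := by
          rw [Finset.disjoint_left]
          intro v hv hv'
          exact (Finset.mem_compl.1 (h hv')) hv
        have h1 : wt θ c (A ∪ B₁) = wt θ c A + wt θ c B₁ := by
          unfold wt
          exact Finset.sum_union hd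
        have h2 : (A ∪ B₁).card ≤ Fintype.card V := Finset.card_le_univ _
        have h3 := hM (A ∪ B₁)
        simp only [m] at hmA ⊢
        have h4 : (M - wt θ c (A ∪ B₁)).toNat + 1 ≤ (M - wt θ c A).toNat := by omega
        have h5 := Nat.mul_le_mul_right (Fintype.card V + 1) h4
        rw [add_mul, one_mul] at h5
        omega
      -- elements of `H A`, `H Aᶜ`
      have hxy : ∀ x ∈ H c A, ∀ y ∈ H c Aᶜ, Alt c Finset.univ (K k c A Aᶜ * (x * y)) ∈ U := by
        intro x hx y hy
        obtain ⟨x₁, hx₁, x₂, hx₂, rfl⟩ := Submodule.mem_sup.1 (hbs ⟨A, hAS⟩ hx)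
        have hx₁R : x₁ ∈ RA A := by
          have h1 := H_le_RA c A hx
          have h2 := H_le_RA c A (Igt_le_H k c θ A hx₂)
          have := Submodule.sub_mem _ h1 h2
          rwa [add_sub_cancel_right] at this
        have hyR := H_le_RA c Aᶜ hy
        obtain ⟨y₁, hy₁, y₂, hy₂, rfl⟩ := Submodule.mem_sup.1 (hds ⟨A, hAS⟩ hy)
        have e2 : K k c A Aᶜ * ((x₁ + x₂) * (y₁ + y₂))
            = K k c A Aᶜ * (x₁ * y₁) + (K k c A Aᶜ * (x₁ * y₂)
              + K k c A Aᶜ * (x₂ * (y₁ + y₂))) := by ring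
        rw [e2, map_add, map_add]
        refine add_mem ?_ (add_mem (move_right hR hx₁R hy₂) (move_left hL hx₂ hyR))
        have hle : Submodule.span ℚ (Set.range (b ⟨A, hAS⟩)) ≤
            U.comap ((Alt c Finset.univ).comp
              ((LinearMap.mulLeft ℚ (K k c A Aᶜ)).comp (LinearMap.mulRight ℚ y₁))) := by
          rw [Submodule.span_le]
          rintro _ ⟨i, rfl⟩
          have hle2 : Submodule.span ℚ (Set.range (d ⟨A, hAS⟩)) ≤
              U.comap ((Alt c Finset.univ).comp
                ((LinearMap.mulLeft ℚ (K k c A Aᶜ)).comp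
                  (LinearMap.mulLeft ℚ (b ⟨A, hAS⟩ i)))) := by
            rw [Submodule.span_le]
            rintro _ ⟨j, rfl⟩
            exact Submodule.subset_span ⟨⟨⟨A, hAS⟩, (i, j)⟩, rfl⟩
          exact hle2 hy₁
        exact hle hx₁
      -- general elements
      have hr' : r' ∈ RA A * RA Aᶜ := by
        rw [← RA_union, Finset.union_compl, RA_univ]
        trivial
      refine Submodule.mul_induction_on hr' ?_ ?_
      · intro f hf g hg
        have hinvA : ∀ w ∈ G c A, rename w (K k c A Aᶜ) = K k c A Aᶜ := fun w hw =>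
          rename_K_self k hw (Or.inl (Finset.Subset.refl A)) (Or.inr disjoint_compl_right)
        have hinvB : ∀ w ∈ G c Aᶜ, rename w (K k c A Aᶜ) = K k c A Aᶜ := fun w hw =>
          rename_K_self k hw (Or.inr disjoint_compl_left) (Or.inl (Finset.Subset.refl Aᶜ))
        have h1 := hxy _ (Alt_mem_H (c := c) hf) _ (Alt_mem_H (c := c) hg)
        rw [← Alt_Alt_mul disjoint_compl_right hf hg, ← Alt_mul_left hinvA, ← Alt_mul_left hinvB,
          Alt_Alt_of_subset (Finset.subset_univ A), Alt_Alt_of_subset (Finset.subset_univ Aᶜ),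
          smul_smul] at h1
        have h2 := Submodule.smul_mem _ (nG c A * nG c Aᶜ)⁻¹ h1
        rwa [smul_smul, inv_mul_cancel₀ (mul_ne_zero (nG_ne_zero c A) (nG_ne_zero c Aᶜ)),
          one_smul] at h2
      · intro f g hf hg
        rw [mul_add, map_add]
        exact add_mem hf hg
  rintro _ ⟨r, _, rfl⟩
  have h1 := main (m ∅ + 1) ∅ (Nat.lt_succ_self _) r
  have h2 : K k c ∅ (∅ : Finset V)ᶜ = 1 := by simp [K]
  rwa [h2, one_mul] at h1

end Crest.Agent.R059.Alt599
end

-- ▼ part R059/AltGr_599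
section

/-!
# Gradings, graded complements, dimension counts
-/

set_option autoImplicit false

open MvPolynomial

namespace Crest.Agent.R059.Alt599

variable {V I : Type*} [Fintype V] [DecidableEq V] [DecidableEq I]

/-- a homogeneous submodule -/
def Graded (W : Submodule ℚ (MvPolynomial V ℚ)) : Prop :=
  ∀ f ∈ W, ∀ n, homogeneousComponent n f ∈ W

omit [Fintype V] [DecidableEq V] in
theorem graded_iSup {ι : Sort*} {W : ι → Submodule ℚ (MvPolynomial V ℚ)}
    (h : ∀ i, Graded (W i)) : Graded (⨆ i, W i) := by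
  intro f hf n
  have hle : (⨆ i, W i) ≤ (⨆ i, W i).comap (homogeneousComponent n) := by
    refine iSup_le fun i g hg => ?_
    exact Submodule.mem_iSup_of_mem i (h i g hg n)
  exact hle hf

omit [Fintype V] in
theorem graded_RA (A : Finset V) : Graded (RA A) := by
  intro f hf n
  rw [homogeneousComponent_apply]
  refine Submodule.sum_mem _ fun m hm => ?_
  exact monomial_mem_RA (support_subset_of_mem_RA hf (Finset.mem_filter.1 hm).1) _

theorem Alt_homogeneousComponent (c : V → I) (A : Finset V) (n : ℕ) (f : MvPolynomial V ℚ) :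
    homogeneousComponent n (Alt c A f) = Alt c A (homogeneousComponent n f) := by
  rw [Alt_apply, Alt_apply, map_sum]
  refine Finset.sum_congr rfl fun w _ => ?_
  rw [map_smul, rename_homogeneousComponent]

/-- degree of the kernel -/
def kd (k : I → I → ℕ) (c : V → I) (A B : Finset V) : ℕ := ∑ a ∈ A, ∑ b ∈ B, k (c a) (c b)

omit [Fintype V] [DecidableEq V] [DecidableEq I] in
theorem K_homogeneous (k : I → I → ℕ) (c : V → I) (A B : Finset V) :
    (K k c A B).IsHomogeneous (kd k c A B) := by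
  unfold K kd
  refine IsHomogeneous.prod _ _ _ fun a _ => IsHomogeneous.prod _ _ _ fun b _ => ?_
  have := ((isHomogeneous_X ℚ b).sub (isHomogeneous_X ℚ a)).pow (k (c a) (c b))
  rwa [one_mul] at this

omit [Fintype V] [DecidableEq V] in
theorem homogeneousComponent_mul_left {s : MvPolynomial V ℚ} {p : ℕ} (hs : s.IsHomogeneous p)
    (f : MvPolynomial V ℚ) (n : ℕ) :
    homogeneousComponent n (s * f) = if p ≤ n then s * homogeneousComponent (n - p) f else 0 := by
  conv_lhs => rw [← sum_homogeneousComponent f, Finset.mul_sum, map_sum]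
  have h1 : ∀ i ∈ Finset.range (f.totalDegree + 1),
      homogeneousComponent n (s * homogeneousComponent i f)
        = if p + i = n then s * homogeneousComponent i f else 0 := by
    intro i _
    have := hs.mul (homogeneousComponent_isHomogeneous i f)
    rw [homogeneousComponent_of_mem ((mem_homogeneousSubmodule _ _).2 this)]
    by_cases h : n = p + i
    · rw [if_pos h, if_pos h.symm]
    · rw [if_neg h, if_neg (fun h' => h h'.symm)]
  rw [Finset.sum_congr rfl h1]
  split_ifs with h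
  · by_cases h2 : n - p ∈ Finset.range (f.totalDegree + 1)
    · rw [Finset.sum_eq_single_of_mem (n - p) h2, if_pos (by omega)]
      intro i _ hi
      rw [if_neg (by omega)]
    · rw [Finset.sum_eq_zero, homogeneousComponent_eq_zero, mul_zero]
      · rw [Finset.mem_range] at h2; omega
      · intro i hi
        rw [if_neg]
        rintro rfl
        apply h2
        rwa [Nat.add_sub_cancel_left]
  · exact Finset.sum_eq_zero fun i _ => if_neg (by omega)

theorem graded_J (k : I → I → ℕ) (c : V → I) (A₁ A₂ : Finset V) : Graded (J k c A₁ A₂) := by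
  rintro _ ⟨r, hr, rfl⟩ n
  rw [LinearMap.comp_apply, LinearMap.mulLeft_apply, Alt_homogeneousComponent,
    homogeneousComponent_mul_left (K_homogeneous k c A₁ A₂)]
  split_ifs with h
  · exact ⟨_, graded_RA _ _ hr _, rfl⟩
  · rw [map_zero]; exact zero_mem _

theorem graded_H (c : V → I) (A : Finset V) : Graded (H c A) := by
  rintro _ ⟨r, hr, rfl⟩ n
  rw [Alt_homogeneousComponent]
  exact ⟨_, graded_RA _ _ hr _, rfl⟩

theorem graded_Igt (k : I → I → ℕ) (c : V → I) (θ : I → ℤ) (A : Finset V) :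
    Graded (Igt k c θ A) :=
  graded_iSup fun _ => graded_iSup fun _ => graded_J _ _ _ _

theorem graded_Ile (k : I → I → ℕ) (c : V → I) (θ : I → ℤ) (A : Finset V) :
    Graded (Ile k c θ A) :=
  graded_iSup fun _ => graded_iSup fun _ => graded_J _ _ _ _

theorem fin_hom (n : ℕ) : Module.Finite ℚ ↥(homogeneousSubmodule V ℚ n) :=
  Module.Finite.iff_fg.2 (homogeneousSubmodule_fg V ℚ n)

theorem fin_inf (W : Submodule ℚ (MvPolynomial V ℚ)) (n : ℕ) :
    Module.Finite ℚ ↥(W ⊓ homogeneousSubmodule V ℚ n) :=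
  haveI := fin_hom (V := V) n
  Submodule.finiteDimensional_of_le (S₂ := homogeneousSubmodule V ℚ n) inf_le_right

/-- linear algebra: a basis of a complement -/
theorem exists_compl_gen {E : Type*} [AddCommGroup E] [Module ℚ E] (W W' : Submodule ℚ E)
    [FiniteDimensional ℚ W] (hle : W' ≤ W) :
    ∃ b : Fin (Module.finrank ℚ W - Module.finrank ℚ W') → E,
      (∀ i, b i ∈ W) ∧ (W ≤ Submodule.span ℚ (Set.range b) ⊔ W') ∧
      (∀ l : Fin (Module.finrank ℚ W - Module.finrank ℚ W') → ℚ, ∑ i, l i • b i ∈ W' → l = 0) := by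
  obtain ⟨C, hC⟩ := (Submodule.comap W.subtype W').exists_isCompl
  have hrankU : Module.finrank ℚ (Submodule.comap W.subtype W') = Module.finrank ℚ W' :=
    (Submodule.comapSubtypeEquivOfLe hle).finrank_eq
  have hrank : Module.finrank ℚ C = Module.finrank ℚ W - Module.finrank ℚ W' := by
    have h1 := Submodule.finrank_add_eq_of_isCompl hC
    omega
  let bC := Module.finBasisOfFinrankEq ℚ C hrank
  refine ⟨fun i => ((bC i : C) : W), fun i => ((bC i : C) : W).2, ?_, ?_⟩
  · intro x hx
    have hx' : (⟨x, hx⟩ : W) ∈ (Submodule.comap W.subtype W') ⊔ C := by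
      rw [hC.sup_eq_top]; trivial
    obtain ⟨u, hu, z, hz, huz⟩ := Submodule.mem_sup.1 hx'
    have hx2 : x = (z : E) + (u : E) := by
      have := congrArg (fun y : W => (y : E)) huz
      simp only [Submodule.coe_add] at this
      rw [← this, add_comm]
    rw [hx2]
    refine Submodule.add_mem_sup ?_ hu
    have hz' : (⟨z, hz⟩ : C) ∈ Submodule.span ℚ (Set.range bC) := by
      rw [bC.span_eq]; trivial
    have hmap : ((Submodule.span ℚ (Set.range bC)).map (W.subtype.comp C.subtype))
        = Submodule.span ℚ (Set.range fun i => (((bC i : C) : W) : E)) := by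
      rw [Submodule.map_span, ← Set.range_comp]
      rfl
    rw [← hmap]
    exact ⟨⟨z, hz⟩, hz', rfl⟩
  · intro l hl
    have h1 : (∑ i, l i • bC i : C) = 0 := by
      have h2 : ((∑ i, l i • bC i : C) : W) ∈ (Submodule.comap W.subtype W') ⊓ C := by
        refine ⟨?_, (∑ i, l i • bC i : C).2⟩
        have h3 : W.subtype ((∑ i, l i • bC i : C) : W)
            = ∑ i, l i • (((bC i : C) : W) : E) := by
          simp
        change W.subtype _ ∈ W'
        rw [h3]
        exact hl
      rw [hC.inf_eq_bot, Submodule.mem_bot] at h2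
      exact Subtype.ext h2
    have h2 := (Fintype.linearIndependent_iff.1 bC.linearIndependent) l h1
    funext i
    exact h2 i

/-- a complement in degree `n` -/
theorem exists_compl_degree {W W' : Submodule ℚ (MvPolynomial V ℚ)} (hle : W' ≤ W) (n : ℕ) :
    ∃ b : Fin (hd W n - hd W' n) → MvPolynomial V ℚ,
      (∀ i, b i ∈ W ⊓ homogeneousSubmodule V ℚ n) ∧
      (W ⊓ homogeneousSubmodule V ℚ n ≤
        Submodule.span ℚ (Set.range b) ⊔ (W' ⊓ homogeneousSubmodule V ℚ n)) ∧
      (∀ l : Fin (hd W n - hd W' n) → ℚ, ∑ i, l i • b i ∈ W' → l = 0) := by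
  haveI := fin_inf W n
  obtain ⟨b, h1, h2, h3⟩ := exists_compl_gen (W ⊓ homogeneousSubmodule V ℚ n)
    (W' ⊓ homogeneousSubmodule V ℚ n) (inf_le_inf_right _ hle)
  exact ⟨b, h1, h2, fun l hl => h3 l ⟨hl, Submodule.sum_mem _ fun i _ =>
    Submodule.smul_mem _ _ (h1 i).2⟩⟩

/-- a graded complement -/
theorem exists_compl {W W' : Submodule ℚ (MvPolynomial V ℚ)} (hle : W' ≤ W)
    (hW : Graded W) (hW' : Graded W') :
    ∃ b : (Σ n : ℕ, Fin (hd W n - hd W' n)) → MvPolynomial V ℚ,
      (∀ i, b i ∈ W) ∧ (∀ i, (b i).IsHomogeneous i.1) ∧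
      W ≤ Submodule.span ℚ (Set.range b) ⊔ W' ∧ IndMod W' b := by
  have hex := fun n => exists_compl_degree hle n
  choose b hb1 hb2 hb3 using hex
  refine ⟨fun i => b i.1 i.2, fun i => (hb1 i.1 i.2).1, fun i => (hb1 i.1 i.2).2, ?_, ?_⟩
  · intro f hf
    rw [← sum_homogeneousComponent f]
    refine Submodule.sum_mem _ fun n _ => ?_
    have h1 : homogeneousComponent n f ∈ W ⊓ homogeneousSubmodule V ℚ n :=
      ⟨hW f hf n, homogeneousComponent_mem n f⟩
    have h2 := hb2 n h1
    have h3 : Submodule.span ℚ (Set.range (b n)) ≤ Submodule.span ℚ (Set.range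
        (fun i : (Σ n : ℕ, Fin (hd W n - hd W' n)) => b i.1 i.2)) := by
      refine Submodule.span_mono ?_
      rintro _ ⟨i, rfl⟩
      exact ⟨⟨n, i⟩, rfl⟩
    exact (sup_le_sup h3 (inf_le_left (a := W') (b := homogeneousSubmodule V ℚ n))) h2
  · intro l hl
    ext ⟨n, i⟩
    have h1 := hW' _ hl n
    have h2 : homogeneousComponent n (Finsupp.linearCombination ℚ (fun i : (Σ n : ℕ,
        Fin (hd W n - hd W' n)) => b i.1 i.2) l) = ∑ i, l ⟨n, i⟩ • b n i := by
      rw [Finsupp.linearCombination_apply, Finsupp.sum, map_sum]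
      have h3 : ∀ x ∈ l.support, homogeneousComponent n (l x • b x.1 x.2)
          = if x.1 = n then l x • b x.1 x.2 else 0 := by
        intro x _
        rw [map_smul, homogeneousComponent_of_mem (hb1 x.1 x.2).2]
        by_cases h : n = x.1
        · rw [if_pos h, if_pos h.symm]
        · rw [if_neg h, if_neg (fun h' => h h'.symm), smul_zero]
      rw [Finset.sum_congr rfl h3, ← Finset.sum_filter]
      symm
      refine Finset.sum_bij_ne_zero (fun i _ _ => (⟨n, i⟩ : Σ n : ℕ, Fin (hd W n - hd W' n)))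
        ?_ ?_ ?_ ?_
      · intro i _ hi
        rw [Finset.mem_filter, Finsupp.mem_support_iff]
        refine ⟨fun h => hi ?_, rfl⟩
        rw [h, zero_smul]
      · intro i _ _ j _ _ hij
        simpa using hij
      · rintro ⟨m, j⟩ hj _
        rw [Finset.mem_filter] at hj
        obtain ⟨hj1, rfl⟩ := hj
        exact ⟨j, Finset.mem_univ _, by assumption, rfl⟩
      · intro i _ _
        rfl
    rw [h2] at h1
    have := hb3 n _ h1
    exact congrFun this i

end Crest.Agent.R059.Alt599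
end

-- ▼ part R059/AltTr_568

/-!
# Row 59: transport of 599's spaces `H`, `J`, `Igt`, `Ile` along a colour preserving embedding
(owner helper568)
-/

set_option autoImplicit false

open MvPolynomial

namespace Crest.Agent.R059.AltTr568

open Alt599

section tr

variable {V V' I : Type*} [Fintype V] [DecidableEq V] [Fintype V'] [DecidableEq V']
  [DecidableEq I] (e : V' ↪ V) (c : V → I)

/-! ### the groups -/

omit [Fintype V] [DecidableEq I] [DecidableEq V'] in
theorem ext_mem {A : Finset V'} {w : Equiv.Perm V'} (hw : w ∈ G (c ∘ e) A) :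
    w.viaFintypeEmbedding e ∈ G c (A.map e) := by
  have h1 : ∀ v, v ∉ Set.range e → w.viaFintypeEmbedding e v = v := fun v hv =>
    Equiv.Perm.viaFintypeEmbedding_apply_notMem_range w e hv
  constructor
  · intro v
    by_cases hv : v ∈ Set.range e
    · obtain ⟨u, rfl⟩ := hv
      rw [Equiv.Perm.viaFintypeEmbedding_apply_image]
      exact hw.1 u
    · rw [h1 v hv]
  · intro v hv
    by_cases hv' : v ∈ Set.range e
    · obtain ⟨u, rfl⟩ := hv'
      rw [Equiv.Perm.viaFintypeEmbedding_apply_image]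
      rw [hw.2 u fun h => hv (Finset.mem_map_of_mem e h)]
    · exact h1 v hv'

omit [Fintype V] [DecidableEq I] [DecidableEq V'] in
theorem ext_surj {A : Finset V'} {w : Equiv.Perm V} (hw : w ∈ G c (A.map e)) :
    ∃ w' ∈ G (c ∘ e) A, w'.viaFintypeEmbedding e = w := by
  have hr : ∀ v, w v ∈ Set.range e ↔ v ∈ Set.range e := by
    intro v
    by_cases hv : v ∈ A.map e
    · have h1 := G_maps hw hv
      obtain ⟨a, _, ha⟩ := Finset.mem_map.1 hv
      obtain ⟨b, _, hb⟩ := Finset.mem_map.1 h1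
      exact ⟨fun _ => ⟨a, ha⟩, fun _ => ⟨b, hb⟩⟩
    · rw [hw.2 v hv]
  let w' : Equiv.Perm V' := e.toEquivRange.symm.permCongr (w.subtypePerm hr)
  have key : ∀ u, e (w' u) = w (e u) := by
    intro u
    have h2 : e.toEquivRange (w' u) = w.subtypePerm hr (e.toEquivRange u) := by
      simp [w', Equiv.permCongr_apply]
    have h3 := congrArg Subtype.val h2
    exact h3
  refine ⟨w', ⟨fun u => ?_, fun u hu => ?_⟩, ?_⟩
  · change c (e (w' u)) = c (e u)
    rw [key, hw.1]
  · apply e.injective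
    rw [key, hw.2 _ fun h => hu ((Finset.mem_map' e).1 h)]
  · ext1 v
    by_cases hv : v ∈ Set.range e
    · obtain ⟨u, rfl⟩ := hv
      rw [Equiv.Perm.viaFintypeEmbedding_apply_image, key]
    · rw [Equiv.Perm.viaFintypeEmbedding_apply_notMem_range w' e hv]
      refine (hw.2 v fun h => hv ?_).symm
      obtain ⟨a, _, ha⟩ := Finset.mem_map.1 h
      exact ⟨a, ha⟩

/-- the groups are isomorphic -/
noncomputable def gE (A : Finset V') : G (c ∘ e) A ≃ G c (A.map e) :=
  Equiv.ofBijective (fun w => ⟨(w : Equiv.Perm V').viaFintypeEmbedding e, ext_mem e c w.2⟩) (by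
    constructor
    · intro w w' h
      have h1 := congrArg Subtype.val h
      refine Subtype.ext (Equiv.ext fun u => e.injective ?_)
      have h2 := congrArg (fun p : Equiv.Perm V => p (e u)) h1
      simpa only [Equiv.Perm.viaFintypeEmbedding_apply_image] using h2
    · intro w
      obtain ⟨w', hw', h⟩ := ext_surj e c w.2
      exact ⟨⟨w', hw'⟩, Subtype.ext h⟩)

theorem gE_coe (A : Finset V') (w : G (c ∘ e) A) :
    (gE e c A w : Equiv.Perm V) = (w : Equiv.Perm V').viaFintypeEmbedding e := rfl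

omit [DecidableEq V'] in
theorem sg_ext [DecidableEq V'] (w : Equiv.Perm V') : sg (w.viaFintypeEmbedding e) = sg w := by
  unfold sg
  rw [Equiv.Perm.viaFintypeEmbedding_sign]

/-! ### the antisymmetriser and the spaces -/

theorem rename_Alt_tr (A : Finset V') (F : MvPolynomial V' ℚ) :
    rename e (Alt (c ∘ e) A F) = Alt c (A.map e) (rename e F) := by
  rw [Alt_apply, Alt_apply, map_sum]
  refine Fintype.sum_equiv (gE e c A) _ _ fun w => ?_
  rw [map_smul, gE_coe, sg_ext, rename_rename, rename_rename]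
  congr 3
  funext u
  exact (Equiv.Perm.viaFintypeEmbedding_apply_image _ e u).symm

omit [Fintype V] [Fintype V'] [DecidableEq V'] in
theorem map_RA (A : Finset V') :
    (RA A).map (rename e).toLinearMap = RA (A.map e) := by
  ext F
  constructor
  · rintro ⟨F₀, hF₀, rfl⟩
    rw [SetLike.mem_coe, mem_RA] at hF₀
    rw [mem_RA]
    intro v hv
    obtain ⟨u, hu, rfl⟩ := Finset.mem_image.1 (vars_rename e F₀ (Finset.mem_coe.1 hv))
    exact Finset.mem_coe.2 (Finset.mem_map_of_mem e (hF₀ hu))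
  · intro hF
    rw [mem_RA', supported_eq_range_rename] at hF
    obtain ⟨F₁, rfl⟩ := hF
    have hch : ∀ v : {v // v ∈ (↑(A.map e) : Set V)}, ∃ u ∈ A, e u = v.1 := fun v =>
      Finset.mem_map.1 (Finset.mem_coe.1 v.2)
    choose g hgA hg using hch
    refine ⟨rename g F₁, ?_, ?_⟩
    · rw [SetLike.mem_coe, mem_RA]
      intro u hu
      classical
      obtain ⟨v, _, rfl⟩ := Finset.mem_image.1 (vars_rename g F₁ (Finset.mem_coe.1 hu))
      exact hgA v
    · change rename e (rename g F₁) = rename _ F₁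
      rw [rename_rename]
      congr 2
      funext v
      exact hg v

omit [Fintype V] [DecidableEq V] [Fintype V'] [DecidableEq V'] [DecidableEq I] in
theorem rename_K_tr (k : I → I → ℕ) (A B : Finset V') :
    rename e (K k (c ∘ e) A B) = K k c (A.map e) (B.map e) := by
  unfold K
  rw [map_prod, Finset.prod_map]
  refine Finset.prod_congr rfl fun a _ => ?_
  rw [map_prod, Finset.prod_map]
  refine Finset.prod_congr rfl fun b _ => ?_
  simp

omit [Fintype V] [DecidableEq V] [Fintype V'] [DecidableEq V'] [DecidableEq I] in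
theorem wt_tr (θ : I → ℤ) (A : Finset V') : wt θ c (A.map e) = wt θ (c ∘ e) A := by
  unfold wt
  rw [Finset.sum_map]
  rfl

theorem map_H (A : Finset V') :
    (H (c ∘ e) A).map (rename e).toLinearMap = H c (A.map e) := by
  unfold H
  rw [← map_RA, ← Submodule.map_comp, ← Submodule.map_comp]
  congr 1
  exact LinearMap.ext fun F => rename_Alt_tr e c A F

theorem map_J (k : I → I → ℕ) (A B : Finset V') :
    (J k (c ∘ e) A B).map (rename e).toLinearMap = J k c (A.map e) (B.map e) := by
  unfold J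
  rw [← Finset.map_union, ← map_RA, ← Submodule.map_comp, ← Submodule.map_comp]
  congr 1
  refine LinearMap.ext fun F => ?_
  change rename e (Alt (c ∘ e) (A ∪ B) (K k (c ∘ e) A B * F)) =
    Alt c ((A ∪ B).map e) (K k c (A.map e) (B.map e) * rename e F)
  rw [rename_Alt_tr, map_mul, rename_K_tr]

omit [Fintype V] [Fintype V'] [DecidableEq V'] in
theorem exists_map_of_subset {A : Finset V'} {B : Finset V} (h : B ⊆ A.map e) :
    ∃ B' ⊆ A, B'.map e = B := by
  refine ⟨A.filter fun u => e u ∈ B, Finset.filter_subset _ _, ?_⟩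
  ext v
  rw [Finset.mem_map]
  constructor
  · rintro ⟨u, hu, rfl⟩
    exact (Finset.mem_filter.1 hu).2
  · intro hv
    obtain ⟨u, hu, rfl⟩ := Finset.mem_map.1 (h hv)
    exact ⟨u, Finset.mem_filter.2 ⟨hu, hv⟩, rfl⟩

omit [Fintype V] [Fintype V'] in
theorem map_sdiff_tr (A B : Finset V') : (A \ B).map e = A.map e \ B.map e := by
  rw [Finset.map_eq_image, Finset.map_eq_image, Finset.map_eq_image,
    Finset.image_sdiff _ _ e.injective]

theorem map_Igt (k : I → I → ℕ) (θ : I → ℤ) (A : Finset V') :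
    (Igt k (c ∘ e) θ A).map (rename e).toLinearMap = Igt k c θ (A.map e) := by
  unfold Igt
  rw [Submodule.map_iSup]
  apply le_antisymm
  · refine iSup_le fun A₂ => ?_
    rw [Submodule.map_iSup]
    refine iSup_le fun h => ?_
    rw [map_J, map_sdiff_tr]
    rw [Finset.mem_filter, Finset.mem_powerset] at h
    refine le_iSup₂_of_le (A₂.map e) ?_ le_rfl
    rw [Finset.mem_filter, Finset.mem_powerset, wt_tr]
    exact ⟨Finset.map_subset_map.2 h.1, h.2.1.map, h.2.2⟩
  · refine iSup₂_le fun B h => ?_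
    rw [Finset.mem_filter, Finset.mem_powerset] at h
    obtain ⟨B', hB', rfl⟩ := exists_map_of_subset e h.1
    rw [← map_sdiff_tr, ← map_J]
    refine le_iSup_of_le B' ?_
    rw [Submodule.map_iSup]
    refine le_iSup_of_le ?_ le_rfl
    rw [Finset.mem_filter, Finset.mem_powerset]
    rw [wt_tr] at h
    exact ⟨hB', Finset.map_nonempty.1 h.2.1, h.2.2⟩

theorem map_Ile (k : I → I → ℕ) (θ : I → ℤ) (A : Finset V') :
    (Ile k (c ∘ e) θ A).map (rename e).toLinearMap = Ile k c θ (A.map e) := by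
  unfold Ile
  rw [Submodule.map_iSup]
  apply le_antisymm
  · refine iSup_le fun A₂ => ?_
    rw [Submodule.map_iSup]
    refine iSup_le fun h => ?_
    rw [map_J, map_sdiff_tr]
    rw [Finset.mem_filter, Finset.mem_powerset] at h
    refine le_iSup₂_of_le (A₂.map e) ?_ le_rfl
    rw [Finset.mem_filter, Finset.mem_powerset, wt_tr]
    exact ⟨Finset.map_subset_map.2 h.1, h.2.1.map, h.2.2⟩
  · refine iSup₂_le fun B h => ?_
    rw [Finset.mem_filter, Finset.mem_powerset] at h
    obtain ⟨B', hB', rfl⟩ := exists_map_of_subset e h.1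
    rw [← map_sdiff_tr, ← map_J]
    refine le_iSup_of_le B' ?_
    rw [Submodule.map_iSup]
    refine le_iSup_of_le ?_ le_rfl
    rw [Finset.mem_filter, Finset.mem_powerset]
    rw [wt_tr] at h
    exact ⟨hB', Finset.map_nonempty.1 h.2.1, h.2.2⟩

/-! ### dimensions -/

omit [Fintype V] [DecidableEq V] [Fintype V'] [DecidableEq V'] in
theorem map_inf_homogeneous (W : Submodule ℚ (MvPolynomial V' ℚ)) (n : ℕ) :
    W.map (rename e).toLinearMap ⊓ homogeneousSubmodule V ℚ n =
      (W ⊓ homogeneousSubmodule V' ℚ n).map (rename e).toLinearMap := by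
  ext F
  constructor
  · rintro ⟨⟨F₀, hF₀, rfl⟩, h⟩
    exact ⟨F₀, ⟨hF₀, (IsHomogeneous.rename_isHomogeneous_iff e.injective).1 h⟩, rfl⟩
  · rintro ⟨F₀, ⟨hF₀, h⟩, rfl⟩
    exact ⟨⟨F₀, hF₀, rfl⟩, IsHomogeneous.rename_isHomogeneous h⟩

omit [Fintype V] [DecidableEq V] [Fintype V'] [DecidableEq V'] in
theorem hd_map (W : Submodule ℚ (MvPolynomial V' ℚ)) (n : ℕ) :
    hd (W.map (rename e).toLinearMap) n = hd W n := by
  unfold hd
  rw [map_inf_homogeneous]
  exact ((Submodule.equivMapOfInjective _ (rename_injective _ e.injective) _).finrank_eq).symm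

theorem hd_H_tr (A : Finset V') (n : ℕ) : hd (H c (A.map e)) n = hd (H (c ∘ e) A) n := by
  rw [← map_H, hd_map]

theorem hd_Igt_tr (k : I → I → ℕ) (θ : I → ℤ) (A : Finset V') (n : ℕ) :
    hd (Igt k c θ (A.map e)) n = hd (Igt k (c ∘ e) θ A) n := by
  rw [← map_Igt, hd_map]

theorem hd_Ile_tr (k : I → I → ℕ) (θ : I → ℤ) (A : Finset V') (n : ℕ) :
    hd (Ile k c θ (A.map e)) n = hd (Ile k (c ∘ e) θ A) n := by
  rw [← map_Ile, hd_map]

end tr

/-! ### the standard model `V_d = Σ i, Fin (d i)` -/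

section std

open Hilb568

variable {V I : Type*} [Fintype V] [DecidableEq V] [Fintype I] [DecidableEq I] (c : V → I)
  (A : Finset V)

/-- the particles in `A`, numbered colour by colour -/
noncomputable def emb : Vars (dA c A) ↪ V := ⟨embA c A, embA_injective c A⟩

theorem c_emb : c ∘ emb c A = Sigma.fst := funext fun x => c_embA c A x

theorem map_emb : (Finset.univ : Finset (Vars (dA c A))).map (emb c A) = A := by
  ext v
  rw [Finset.mem_map]
  constructor
  · rintro ⟨x, _, rfl⟩
    exact embA_mem c A x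
  · intro hv
    obtain ⟨x, rfl⟩ := embA_surj c A hv
    exact ⟨x, Finset.mem_univ _, rfl⟩

/-- `H` depends only on the colour counts -/
theorem hd_H_std (n : ℕ) :
    hd (H c A) n = hd (H (Sigma.fst : Vars (dA c A) → I) Finset.univ) n := by
  conv_lhs => rw [← map_emb c A]
  rw [hd_H_tr, c_emb]

/-- `Igt` depends only on the colour counts -/
theorem hd_Igt_std (k : I → I → ℕ) (θ : I → ℤ) (n : ℕ) :
    hd (Igt k c θ A) n = hd (Igt k (Sigma.fst : Vars (dA c A) → I) θ Finset.univ) n := by
  conv_lhs => rw [← map_emb c A]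
  rw [hd_Igt_tr, c_emb]

/-- `Ile` depends only on the colour counts -/
theorem hd_Ile_std (k : I → I → ℕ) (θ : I → ℤ) (n : ℕ) :
    hd (Ile k c θ A) n = hd (Ile k (Sigma.fst : Vars (dA c A) → I) θ Finset.univ) n := by
  conv_lhs => rw [← map_emb c A]
  rw [hd_Ile_tr, c_emb]

end std

end Crest.Agent.R059.AltTr568
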