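import Crest.Agent.R059.TPS_883

set_option autoImplicit false

/-!
Row 59 (S0081), leaf F6: the trace property, degree derivations and the logarithmic derivative
`lam`.  Inverses are always explicit (`a * a' = 1`, `a' * a = 1`).
-/

namespace Crest.Agent.R059.Tr201

open Finset TPS

section pairing

variable {M : Type*} [AddCommMonoid M] {R : Type*} [CommRing R]

/-- the commutator pairing `com d a = β d a - β a d`. -/
def com (T : Tw M R) : M →+ M →+ ℤ := T.β - T.β.flip

theorem com_apply (T : Tw M R) (d a : M) : com T d a = T.β d a - T.β a d := rfl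

theorem com_self (T : Tw M R) (d : M) : com T d d = 0 := by simp [com_apply]


theorem com_add_left (T : Tw M R) (d e a : M) : com T (d + e) a = com T d a + com T e a := by
  simp


/-- the kernel of `com d`. -/
def comKer (T : Tw M R) (d : M) : AddSubmonoid M := AddMonoidHom.mker (com T d)

theorem mem_comKer {T : Tw M R} {d a : M} : a ∈ comKer T d ↔ com T d a = 0 := Iff.rfl


theorem wt_comm_of_com {T : Tw M R} {a b : M} (h : com T (a + b) a = 0) :
    wt T a b = wt T b a := by
  have h1 : com T b a = 0 := by
    rw [com_add_left, com_self, zero_add] at h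
    exact h
  have h2 : T.β a b = T.β b a := by
    rw [com_apply] at h1
    omega
  rw [wt, wt, h2]

end pairing

section supp

variable {M : Type*} [AddCommMonoid M] {R : Type*} [CommRing R] {T : Tw M R}

/-- support contained in a submonoid. -/
def SuppIn (S : AddSubmonoid M) (f : TPS T) : Prop := ∀ a, f.co a ≠ 0 → a ∈ S

theorem SuppIn.zero_of_not {S : AddSubmonoid M} {f : TPS T} (h : SuppIn S f) {a : M}
    (ha : a ∉ S) : f.co a = 0 := by
  by_contra h0
  exact ha (h a h0)


theorem SuppIn.add {S : AddSubmonoid M} {f g : TPS T} (hf : SuppIn S f) (hg : SuppIn S g) :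
    SuppIn S (f + g) := by
  intro a h
  by_contra ha
  apply h
  rw [co_add, hf.zero_of_not ha, hg.zero_of_not ha, add_zero]

theorem SuppIn.neg {S : AddSubmonoid M} {f : TPS T} (hf : SuppIn S f) : SuppIn S (-f) := by
  intro a h
  apply hf
  intro h0
  apply h
  rw [co_neg, h0, neg_zero]

theorem SuppIn.sub {S : AddSubmonoid M} {f g : TPS T} (hf : SuppIn S f) (hg : SuppIn S g) :
    SuppIn S (f - g) := by
  rw [sub_eq_add_neg]
  exact hf.add hg.neg


theorem SuppIn.le {S S' : AddSubmonoid M} {f : TPS T} (hf : SuppIn S f) (h : S ≤ S') :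
    SuppIn S' f := fun a ha => h (hf a ha)


variable [HasAntidiagonal M]

theorem SuppIn.mul {S : AddSubmonoid M} {f g : TPS T} (hf : SuppIn S f) (hg : SuppIn S g) :
    SuppIn S (f * g) := by
  intro d h
  rw [co_mul] at h
  obtain ⟨p, hp, hne⟩ := Finset.exists_ne_zero_of_sum_ne_zero h
  rw [HasAntidiagonal.mem_antidiagonal] at hp
  rw [← hp]
  refine S.add_mem (hf _ ?_) (hg _ ?_)
  · intro h0; apply hne; rw [h0]; simp
  · intro h0; apply hne; rw [h0]; simp

end supp

section trace

variable {M : Type*} [AddCommMonoid M] {R : Type*} [CommRing R] {T : Tw M R}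
variable [HasAntidiagonal M]

/-- **(TR1)** `[Y^d]` is a trace as soon as one factor is supported on `ker (com d)`. -/
theorem co_mul_comm {d : M} {f : TPS T} (hf : SuppIn (comKer T d) f) (g : TPS T) :
    (f * g).co d = (g * f).co d := by
  rw [co_mul, co_mul]
  refine Finset.sum_nbij' Prod.swap Prod.swap ?_ ?_ ?_ ?_ ?_
  · rintro ⟨a, b⟩ hp
    rw [HasAntidiagonal.mem_antidiagonal] at hp ⊢
    simp only [Prod.swap] at hp ⊢
    rw [add_comm]; exact hp
  · rintro ⟨a, b⟩ hp
    rw [HasAntidiagonal.mem_antidiagonal] at hp ⊢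
    simp only [Prod.swap] at hp ⊢
    rw [add_comm]; exact hp
  · intro p _; simp
  · intro p _; simp
  · rintro ⟨a, b⟩ hp
    rw [HasAntidiagonal.mem_antidiagonal] at hp
    simp only [Prod.swap] at hp ⊢
    by_cases h0 : f.co a = 0
    · rw [h0]; simp
    · have h1 : com T (a + b) a = 0 := by
        rw [hp]; exact hf a h0
      rw [wt_comm_of_com h1]
      ring

/-- **(TR2)** conjugation by a series supported on `ker (com d)` does not change `[Y^d]`. -/
theorem co_conj {d : M} {z z' : TPS T} (hz' : SuppIn (comKer T d) z') (h : z * z' = 1)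
    (g : TPS T) : (z' * g * z).co d = g.co d := by
  rw [mul_assoc, co_mul_comm hz', mul_assoc, h, mul_one]

/-- **(TR2')** the other side. -/
theorem co_conj' {d : M} {z z' : TPS T} (hz : SuppIn (comKer T d) z) (h : z * z' = 1)
    (g : TPS T) : (z' * g * z).co d = g.co d := by
  rw [← co_mul_comm hz, ← mul_assoc, h, one_mul]

/-- degree derivation. -/
def der (h : M →+ R) : TPS T →ₗ[R] TPS T where
  toFun f := ⟨fun d => h d * f.co d⟩
  map_add' f g := by ext d; simp only [co_add]; ring
  map_smul' r f := by ext d; simp only [co_smul, RingHom.id_apply]; ring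

@[simp] theorem co_der (h : M →+ R) (f : TPS T) (d : M) : (der h f).co d = h d * f.co d := rfl

theorem co_der_zero (h : M →+ R) (f : TPS T) : (der h f).co 0 = 0 := by simp

/-- **(TR3)** Leibniz. -/
theorem der_mul (h : M →+ R) (f g : TPS T) : der h (f * g) = der h f * g + f * der h g := by
  ext d
  rw [co_add, co_der, co_mul, co_mul, co_mul, Finset.mul_sum, ← Finset.sum_add_distrib]
  refine Finset.sum_congr rfl (fun p hp => ?_)
  rw [HasAntidiagonal.mem_antidiagonal] at hp
  rw [co_der, co_der, ← hp, map_add]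
  ring

theorem der_one (h : M →+ R) : der h (1 : TPS T) = 0 := by
  ext d
  rw [co_der]
  by_cases hd : d = 0
  · rw [hd]; simp
  · rw [co_one_ne hd]; simp

theorem SuppIn.der {S : AddSubmonoid M} {f : TPS T} (h : M →+ R) (hf : SuppIn S f) :
    SuppIn S (Tr201.der h f) := by
  intro a ha
  apply hf
  intro h0
  apply ha
  rw [co_der, h0, mul_zero]

/-- logarithmic derivative, coefficient `d`; `a'` is the inverse of `a`. -/
noncomputable def lam (h : M →+ R) (d : M) (a a' : TPS T) : R := (der h a * a').co d

theorem lam_one (h : M →+ R) (d : M) : lam h d (1 : TPS T) 1 = 0 := by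
  rw [lam, der_one]; simp

/-- **(TR4)** additivity; only the left factor has to be supported on `ker (com d)`. -/
theorem lam_mul (h : M →+ R) {d : M} {a a' b b' : TPS T} (ha : SuppIn (comKer T d) a)
    (haa' : a' * a = 1) (hbb : b * b' = 1) :
    lam h d (a * b) (b' * a') = lam h d a a' + lam h d b b' := by
  have h1 : der h (a * b) * (b' * a') = der h a * a' + a * (der h b * b' * a') := by
    rw [der_mul, add_mul]
    congr 1
    · rw [mul_assoc, ← mul_assoc b, hbb, one_mul]
    · rw [mul_assoc, mul_assoc]
  rw [lam, lam, lam, h1, co_add]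
  congr 1
  rw [co_mul_comm ha, mul_assoc, haa', mul_one]


/-- support condition with a sign: everything except `0` satisfies `P`. -/
def SuppOn (P : M → Prop) (f : TPS T) : Prop := ∀ a, f.co a ≠ 0 → a = 0 ∨ P a

/-- `lam` vanishes on series supported on `{x > 0}`. -/
theorem lam_pos {V : Type*} [AddCommGroup V] [LinearOrder V] [IsOrderedAddMonoid V]
    (x : M →+ V) (h : M →+ R) {d : M} (hd : x d = 0) {a a' : TPS T}
    (ha : SuppOn (fun e => 0 < x e) a) (ha' : SuppOn (fun e => 0 < x e) a') :
    lam h d a a' = 0 := by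
  rw [lam, co_mul]
  apply Finset.sum_eq_zero
  rintro ⟨e, f⟩ hp
  rw [HasAntidiagonal.mem_antidiagonal] at hp
  simp only at hp ⊢
  by_contra hne
  have h1 : a.co e ≠ 0 := by intro h0; apply hne; rw [co_der, h0]; simp
  have h2 : a'.co f ≠ 0 := by intro h0; apply hne; rw [h0]; simp
  rcases ha e h1 with rfl | h3
  · apply hne; rw [co_der_zero]; simp
  · have h4 : 0 ≤ x f := by
      rcases ha' f h2 with rfl | h5
      · simp
      · exact h5.le
    have h6 : x d = x e + x f := by rw [← hp, map_add]
    rw [hd] at h6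
    exact absurd h6 (ne_of_lt (add_pos_of_pos_of_nonneg h3 h4))

theorem lam_neg {V : Type*} [AddCommGroup V] [LinearOrder V] [IsOrderedAddMonoid V]
    (x : M →+ V) (h : M →+ R) {d : M} (hd : x d = 0) {a a' : TPS T}
    (ha : SuppOn (fun e => x e < 0) a) (ha' : SuppOn (fun e => x e < 0) a') :
    lam h d a a' = 0 := by
  refine lam_pos (-x) h (by simp [hd]) (fun e he => ?_) (fun e he => ?_)
  · rcases ha e he with h1 | h1
    · exact Or.inl h1
    · exact Or.inr (by simpa using h1)
  · rcases ha' e he with h1 | h1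
    · exact Or.inl h1
    · exact Or.inr (by simpa using h1)

/-- **(TR5)** the attractor coefficient does not depend on the perturbation. -/
theorem lam_parts {V : Type*} [AddCommGroup V] [LinearOrder V] [IsOrderedAddMonoid V]
    (x : M →+ V) (h : M →+ R) {d : M} (hd : x d = 0) {p p' z z' n n' : TPS T}
    (hpk : SuppIn (comKer T d) p) (hzk : SuppIn (comKer T d) z)
    (hp : SuppOn (fun e => 0 < x e) p) (hp' : SuppOn (fun e => 0 < x e) p')
    (hn : SuppOn (fun e => x e < 0) n) (hn' : SuppOn (fun e => x e < 0) n')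
    (hpp' : p' * p = 1) (hzz : z * z' = 1) (hzz' : z' * z = 1) (hnn : n * n' = 1) :
    lam h d (p * z * n) (n' * (z' * p')) = lam h d z z' := by
  have hk : SuppIn (comKer T d) (p * z) := hpk.mul hzk
  have h2 : (z' * p') * (p * z) = 1 := by
    rw [mul_assoc, ← mul_assoc p', hpp', one_mul, hzz']
  rw [lam_mul h hk h2 hnn, lam_neg x h hd hn hn', add_zero, lam_mul h hpk hpp' hzz,
    lam_pos x h hd hp hp', zero_add]





end trace

end Crest.Agent.R059.Tr201
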