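import Crest.Agent.R059.Fac_150
import Crest.Agent.R059.Tr_201

set_option autoImplicit false
set_option linter.unusedSectionVars false

/-!
Row 59 (S0081), leaf ATT: attractor data `dat h a d = lam h d (zer (T.β d) a)`; existence and
uniqueness of the series with prescribed attractor data; independence of the perturbation;
restriction to a face; supports.
The form `T.β` is skew (`hs`), the attractor functional of `d` is `T.β d`.
-/

namespace Crest.Agent.R059.Att201

open Finset TPS Tr201

section general

variable {M : Type*} [AddCommMonoid M] [PartialOrder M] [IsOrderedCancelAddMonoid M]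
  [CanonicallyOrderedAdd M] [WellFoundedLT M] [HasAntidiagonal M]
variable {R : Type*} [CommRing R] {T : Tw M R}
variable {V : Type*} [AddCommGroup V] [LinearOrder V] [IsOrderedAddMonoid V]
variable {W : Type*} [AddCommGroup W] [LinearOrder W] [IsOrderedAddMonoid W]

/-- logarithmic derivative of a series with constant term `1` (inverse of `Fac_150`). -/
noncomputable def lamI (h : M →+ R) (d : M) (a : TPS T) : R := lam h d a (inv a)

/-- the attractor datum of `a` in degree `d`. -/
noncomputable def dat (h : M →+ R) (a : TPS T) (d : M) : R := lamI h d (zer (T.β d) a)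


/-! ### locality -/


theorem lamI_sub (h : M →+ R) {d : M} {a b : TPS T}
    (hab : ∀ e < d, a.co e = b.co e) :
    lamI h d a - lamI h d b = h d * (a.co d - b.co d) := by
  rw [lamI, lamI, lam, lam, co_mul, co_mul, ← Finset.sum_sub_distrib,
    Finset.sum_eq_single (d, 0)]
  · simp only [co_der, wt_zero_right, TPS.inv_zero]
    ring
  · rintro ⟨x, y⟩ hp hne
    by_cases hx : x = 0
    · subst hx
      simp only [co_der_zero]; ring
    · have hy : y ≠ 0 := by
        intro hy
        rw [HasAntidiagonal.mem_antidiagonal] at hp
        simp only at hp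
        apply hne
        rw [hy, add_zero] at hp
        rw [hp, hy]
      have h1 : x < d := fst_lt_of_mem hp hy
      have h2 : y < d := snd_lt_of_mem hp hx
      simp only [co_der]
      rw [hab x h1, co_inv_congr_le y (fun e he => hab e (he.trans_lt h2))]
      ring
  · intro h4
    exact absurd (by simp [HasAntidiagonal.mem_antidiagonal]) h4

theorem unk_congr_le {P : M → Prop} {a b : TPS T} (d : M) (hab : ∀ e ≤ d, a.co e = b.co e) :
    unk P a d = unk P b d := by
  classical
  induction d using WellFoundedLT.induction with
  | ind d ih =>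
    rw [unk_eq, unk_eq, hab d le_rfl]
    congr 1
    apply Finset.sum_congr rfl
    intro p hp
    by_cases hh : p.1 ≠ 0 ∧ p.2 ≠ 0
    · rw [if_pos hh, if_pos hh]
      have h1 := fst_lt_of_mem hp hh.2
      have h2 := snd_lt_of_mem hp hh.1
      rw [ih p.1 h1 (fun e he => hab e (he.trans h1.le)),
        ih p.2 h2 (fun e he => hab e (he.trans h2.le))]
    · rw [if_neg hh, if_neg hh]

theorem unk_sub {P : M → Prop} {a b : TPS T} (d : M) (hab : ∀ e < d, a.co e = b.co e) :
    unk P a d - unk P b d = a.co d - b.co d := by
  classical
  rw [unk_eq, unk_eq]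
  have : (∑ p ∈ HasAntidiagonal.antidiagonal d,
      if p.1 ≠ 0 ∧ p.2 ≠ 0 then
        wt T p.1 p.2 * ((if P p.1 then unk P a p.1 else 0) *
          (if P p.2 then 0 else unk P a p.2)) else 0) =
      ∑ p ∈ HasAntidiagonal.antidiagonal d,
      if p.1 ≠ 0 ∧ p.2 ≠ 0 then
        wt T p.1 p.2 * ((if P p.1 then unk P b p.1 else 0) *
          (if P p.2 then 0 else unk P b p.2)) else 0 := by
    apply Finset.sum_congr rfl
    intro p hp
    by_cases hh : p.1 ≠ 0 ∧ p.2 ≠ 0
    · rw [if_pos hh, if_pos hh]
      have h1 := fst_lt_of_mem hp hh.2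
      have h2 := snd_lt_of_mem hp hh.1
      rw [unk_congr_le p.1 (fun e he => hab e (he.trans_lt h1)),
        unk_congr_le p.2 (fun e he => hab e (he.trans_lt h2))]
    · rw [if_neg hh, if_neg hh]
  rw [this]; ring

theorem rgt_sub {P : M → Prop} {a b : TPS T} {d : M} (hd : d ≠ 0) (hP : ¬ P d)
    (hab : ∀ e < d, a.co e = b.co e) :
    (rgt P a).co d - (rgt P b).co d = a.co d - b.co d := by
  simp only [rgt, if_neg hd, if_neg hP]
  exact unk_sub d hab

theorem lft_sub {P : M → Prop} {a b : TPS T} {d : M} (hd : d ≠ 0) (hP : P d)
    (hab : ∀ e < d, a.co e = b.co e) :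
    (lft P a).co d - (lft P b).co d = a.co d - b.co d := by
  simp only [lft, if_neg hd, if_pos hP]
  exact unk_sub d hab

/-- changing `a` in degree `d` changes `zer x a` in degree `d` by the same amount. -/
theorem zer_sub (x : M →+ V) {a b : TPS T} {d : M} (hd : d ≠ 0) (hx : x d = 0)
    (ha : a.co 0 = 1) (hab : ∀ e < d, a.co e = b.co e) :
    (zer x a).co d - (zer x b).co d = a.co d - b.co d := by
  have h1 : ∀ e < d, (npos x a).co e = (npos x b).co e := fun e he =>
    (pos_congr x x ha e (fun c hc => hab c (hc.trans_lt he)) (fun _ _ => Iff.rfl)).2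
  rw [zer, zer, lft_sub hd hx h1, npos, npos, rgt_sub hd (by rw [hx]; exact lt_irrefl _) hab]

theorem zer_congr_lt (x : M →+ V) {a b : TPS T} (ha : a.co 0 = 1) (d : M)
    (hab : ∀ e ≤ d, a.co e = b.co e) : (zer x a).co d = (zer x b).co d :=
  (zer_congr x x ha d hab (fun _ _ => Iff.rfl) (fun _ _ => Iff.rfl)).1


theorem beta_self (hs : ∀ a b, T.β a b = - T.β b a) (d : M) : T.β d d = 0 := by
  have := hs d d
  omega

/-- **(AT0)** changing `a` in degree `d` changes the datum in degree `d` by `h d` times the
change. -/
theorem dat_sub (hs : ∀ a b, T.β a b = - T.β b a) (h : M →+ R) {a b : TPS T}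
    (ha : a.co 0 = 1) {d : M} (hd : d ≠ 0) (hab : ∀ e < d, a.co e = b.co e) :
    dat h a d - dat h b d = h d * (a.co d - b.co d) := by
  rw [dat, dat, lamI_sub h, zer_sub _ hd (beta_self hs d) ha hab]
  intro e he
  exact zer_congr_lt _ ha e (fun c hc => hab c (hc.trans_lt he))

/-! ### uniqueness -/



/-! ### existence -/

open Classical in
/-- the series with prescribed lower coefficients. -/
noncomputable def below (d : M) (rec : ∀ e, e < d → R) : TPS T :=
  ⟨fun e => if e = 0 then 1 else if he : e < d then rec e he else 0⟩

open Classical in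
/-- coefficients of the series with attractor data `c`. -/
noncomputable def attrCo (T : Tw M R) (h : M →+ R) (c : M → R) : M → R :=
  WellFounded.fix (wellFounded_lt : WellFounded ((· < ·) : M → M → Prop))
    fun d rec => if d = 0 then 1 else
      Ring.inverse (h d) * (c d - dat h (below (T := T) d rec) d)

/-- **the series with attractor data `c`.** -/
noncomputable def attr (T : Tw M R) (h : M →+ R) (c : M → R) : TPS T := ⟨attrCo T h c⟩

open Classical in
theorem attrCo_eq (h : M →+ R) (c : M → R) (d : M) :
    attrCo T h c d = if d = 0 then 1 else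
      Ring.inverse (h d) * (c d - dat h (below (T := T) d (fun e _ => attrCo T h c e)) d) := by
  unfold attrCo
  rw [WellFounded.fix_eq]

theorem attr_zero (h : M →+ R) (c : M → R) : (attr T h c).co 0 = 1 := by
  change attrCo T h c 0 = 1
  rw [attrCo_eq, if_pos rfl]

/-- **(AT1) existence.** -/
theorem dat_attr (hs : ∀ a b, T.β a b = - T.β b a) (h : M →+ R) (c : M → R) {d : M}
    (hd : d ≠ 0) (hu : IsUnit (h d)) : dat h (attr T h c) d = c d := by
  classical
  set b : TPS T := below d (fun e _ => attrCo T h c e) with hb
  have hb0 : b.co 0 = 1 := by simp [hb, below]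
  have hbd : b.co d = 0 := by simp [hb, below, hd]
  have hab : ∀ e < d, (attr T h c).co e = b.co e := by
    intro e he
    by_cases h0 : e = 0
    · rw [h0, attr_zero, hb0]
    · simp [hb, below, h0, he, attr]
  have h1 := dat_sub hs h (attr_zero h c) hd hab
  have h2 : (attr T h c).co d = Ring.inverse (h d) * (c d - dat h b d) := by
    change attrCo T h c d = _
    rw [attrCo_eq, if_neg hd]
  rw [hbd, sub_zero, h2, ← mul_assoc, Ring.mul_inverse_cancel _ hu, one_mul] at h1
  have h3 := sub_eq_iff_eq_add.1 h1
  rw [h3]; ring



/-! ### additivity and independence of the perturbation -/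













/-! ### supports -/







/-! ### restriction to a face -/

/-- a face: additively closed, and summands of elements of the face are in the face. -/
structure IsFace (S : M → Prop) : Prop where
  zero : S 0
  add : ∀ a b, S a → S b → S (a + b)
  left : ∀ a b, S (a + b) → S a
  right : ∀ a b, S (a + b) → S b

















end general

end Crest.Agent.R059.Att201
namespace Crest.Agent.R059.Att201.In1
end Crest.Agent.R059.Att201.In1
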