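import Mathlib
import Crest.Agent.R059.AltDefs_599
import Crest.Agent.R059.Thin0_613

-- ▼ part R059/CntA_231
section

/-!
# Row 59, Theorem B, CNT part 1 (helper231): sorted words and multisets
-/

set_option autoImplicit false
set_option linter.unusedSectionVars false

namespace Crest.Agent.R059.Cnt231

open Finset

section sorted

variable {α : Type*} [LinearOrder α]

theorem count_ofFn {m : ℕ} (φ : Fin m → α) (y : α) :
    (univ.val.map φ).count y = (univ.filter fun r => φ r = y).card := by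
  rw [Multiset.count_map, Finset.card_def, Finset.filter_val]
  congr 1
  exact Multiset.filter_congr fun r _ => eq_comm

/-- two sorted words with the same multiset are equal -/
theorem sorted_eq {m m' : ℕ} {φ : Fin m → α} {φ' : Fin m' → α} (h : Monotone φ)
    (h' : Monotone φ') (he : (univ.val.map φ) = (univ.val.map φ')) :
    (⟨m, φ⟩ : Σ m : ℕ, Fin m → α) = ⟨m', φ'⟩ := by
  have hm : m = m' := by
    have := congrArg Multiset.card he
    simpa using this
  subst hm
  have h1 : List.ofFn φ = List.ofFn φ' := by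
    have hp : (List.ofFn φ).Perm (List.ofFn φ') := by
      rw [← Multiset.coe_eq_coe]
      have e1 : ∀ ψ : Fin m → α, ((List.ofFn ψ : List α) : Multiset α) = univ.val.map ψ := by
        intro ψ
        rw [List.ofFn_eq_map, ← Multiset.map_coe]
        rfl
      rw [e1, e1, he]
    have hs : ∀ ψ : Fin m → α, Monotone ψ → (List.ofFn ψ).Pairwise (· ≤ ·) := by
      intro ψ hψ
      rw [List.pairwise_ofFn]
      intro i j hij
      exact hψ hij.le
    exact hp.eq_of_pairwise (fun a b _ _ h1 h2 => le_antisymm h1 h2) (hs _ h) (hs _ h')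
  rw [List.ofFn_injective h1]

/-- every multiset is the multiset of a sorted word -/
theorem exists_sorted (M : Multiset α) :
    ∃ φ : Fin (Multiset.card M) → α, Monotone φ ∧ univ.val.map φ = M := by
  let l := M.sort (· ≤ ·)
  have hl : l.length = Multiset.card M := Multiset.length_sort _
  refine ⟨fun r => l.get (r.cast hl.symm), ?_, ?_⟩
  · intro i j hij
    have hp : l.Pairwise (· ≤ ·) := Multiset.pairwise_sort M (· ≤ ·)
    rcases hij.eq_or_lt with h | h
    · rw [h]
    · exact List.pairwise_iff_get.1 hp _ _ h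
  · have h2 : (univ : Finset (Fin (Multiset.card M))).val.map
        (fun r => l.get (r.cast hl.symm)) = ((List.ofFn l.get : List α) : Multiset α) := by
      rw [List.ofFn_eq_map, ← Multiset.map_coe]
      have : ((List.finRange l.length : List (Fin l.length)) : Multiset (Fin l.length)) =
          (univ : Finset (Fin (Multiset.card M))).val.map (Fin.cast hl.symm) := by
        have h3 := Finset.map_univ_equiv (finCongr hl.symm)
        have h4 := congrArg Finset.val h3
        rw [Finset.map_val] at h4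
        exact h4.symm
      rw [this, Multiset.map_map]
      rfl
    rw [h2, List.ofFn_get]
    exact Multiset.sort_eq M _

end sorted

section family

variable {T : Type*} [Fintype T] [DecidableEq T] {α : T → Type*} [∀ t, LinearOrder (α t)]
  {B : Type*} [DecidableEq B]

/-- the multiset of a family of words -/
def ms (E : (Σ t, α t) → B) {m : T → ℕ} (φ : ∀ t, Fin (m t) → α t) : Multiset B :=
  (univ : Finset (Σ t, Fin (m t))).val.map fun j => E ⟨j.1, φ j.1 j.2⟩

variable {E : (Σ t, α t) → B}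

omit [DecidableEq T] [∀ t, LinearOrder (α t)] [DecidableEq B] in
theorem sum_ms {M : Type*} [AddCommMonoid M] (f : B → M) {m : T → ℕ}
    (φ : ∀ t, Fin (m t) → α t) :
    ((ms E φ).map f).sum = ∑ j : Σ t, Fin (m t), f (E ⟨j.1, φ j.1 j.2⟩) := by
  rw [ms, Multiset.map_map]
  rfl

omit [DecidableEq T] [∀ t, LinearOrder (α t)] [DecidableEq B] in
theorem mem_ms {m : T → ℕ} {φ : ∀ t, Fin (m t) → α t} {b : B} :
    b ∈ ms E φ ↔ ∃ j : Σ t, Fin (m t), E ⟨j.1, φ j.1 j.2⟩ = b := by
  rw [ms, Multiset.mem_map]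
  constructor
  · rintro ⟨j, _, h⟩
    exact ⟨j, h⟩
  · rintro ⟨j, h⟩
    exact ⟨j, Finset.mem_univ _, h⟩

theorem count_ms (hE : Function.Injective E) {m : T → ℕ} (φ : ∀ t, Fin (m t) → α t) (t : T)
    (y : α t) : (ms E φ).count (E ⟨t, y⟩) = (univ.val.map (φ t)).count y := by
  rw [count_ofFn, ms, Multiset.count_map]
  have h1 : Multiset.card (Multiset.filter (fun j : Σ t, Fin (m t) =>
      E ⟨t, y⟩ = E ⟨j.1, φ j.1 j.2⟩) univ.val) =
      (univ.filter fun j : Σ t, Fin (m t) => E ⟨t, y⟩ = E ⟨j.1, φ j.1 j.2⟩).card := rfl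
  rw [h1]
  symm
  refine Finset.card_bij (fun r _ => ⟨t, r⟩) ?_ ?_ ?_
  · intro r hr
    rw [Finset.mem_filter] at hr ⊢
    refine ⟨Finset.mem_univ _, ?_⟩
    rw [hr.2]
  · intro a _ b _ h
    simpa using h
  · rintro ⟨t', r⟩ hr
    rw [Finset.mem_filter] at hr
    have h2 := hE hr.2
    obtain ⟨rfl, h3⟩ := Sigma.mk.inj_iff.1 h2
    refine ⟨r, ?_, rfl⟩
    rw [Finset.mem_filter]
    exact ⟨Finset.mem_univ _, (eq_of_heq h3).symm⟩

theorem ms_inj (hE : Function.Injective E) {m m' : T → ℕ} {φ : ∀ t, Fin (m t) → α t}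
    {φ' : ∀ t, Fin (m' t) → α t} (h : ∀ t, Monotone (φ t)) (h' : ∀ t, Monotone (φ' t))
    (he : ms E φ = ms E φ') :
    (⟨m, φ⟩ : Σ m : T → ℕ, ∀ t, Fin (m t) → α t) = ⟨m', φ'⟩ := by
  have h1 : ∀ t, (⟨m t, φ t⟩ : Σ m : ℕ, Fin m → α t) = ⟨m' t, φ' t⟩ := by
    intro t
    apply sorted_eq (h t) (h' t)
    ext y
    rw [← count_ms hE, ← count_ms hE, he]
  have hm : m = m' := funext fun t => congrArg Sigma.fst (h1 t)
  subst hm
  congr 1
  funext t
  exact eq_of_heq (Sigma.mk.inj_iff.1 (h1 t)).2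

theorem exists_multi (s : Multiset (Σ t, α t)) :
    ∃ M : ∀ t, Multiset (α t), ∀ t y, (M t).count y = s.count ⟨t, y⟩ := by
  induction s using Multiset.induction with
  | empty => exact ⟨fun _ => 0, fun t y => by simp⟩
  | cons x s ih =>
    obtain ⟨M, hM⟩ := ih
    obtain ⟨t0, y0⟩ := x
    refine ⟨Function.update M t0 (y0 ::ₘ M t0), fun t y => ?_⟩
    by_cases ht : t = t0
    · subst ht
      rw [Function.update_self, Multiset.count_cons, Multiset.count_cons, hM]
      congr 1
      by_cases hy : y = y0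
      · subst hy; simp
      · rw [if_neg hy, if_neg]
        intro h
        exact hy (eq_of_heq (Sigma.mk.inj_iff.1 h).2)
    · rw [Function.update_of_ne ht, Multiset.count_cons, hM, if_neg, Nat.add_zero]
      intro h
      exact ht (Sigma.mk.inj_iff.1 h).1

theorem ms_surj (hE : Function.Injective E) (s : Multiset B) (hs : ∀ b ∈ s, ∃ x, E x = b) :
    ∃ (m : T → ℕ) (φ : ∀ t, Fin (m t) → α t), (∀ t, Monotone (φ t)) ∧ ms E φ = s := by
  classical
  obtain ⟨s', rfl⟩ : ∃ s' : Multiset (Σ t, α t), s'.map E = s := by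
    clear hE
    induction s using Multiset.induction with
    | empty => exact ⟨0, rfl⟩
    | cons b s ih =>
      obtain ⟨s', h'⟩ := ih (fun b hb => hs b (Multiset.mem_cons_of_mem hb))
      obtain ⟨x, hx⟩ := hs b (Multiset.mem_cons_self b s)
      exact ⟨x ::ₘ s', by rw [Multiset.map_cons, hx, h']⟩
  obtain ⟨M, hM⟩ := exists_multi s'
  choose φ h1 h2 using fun t => exists_sorted (M t)
  refine ⟨fun t => Multiset.card (M t), φ, h1, ?_⟩
  ext b
  by_cases hb : ∃ x, E x = b
  · obtain ⟨⟨t, y⟩, rfl⟩ := hb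
    rw [count_ms hE, h2, hM, Multiset.count_map_eq_count' E s' hE]
  · rw [Multiset.count_eq_zero_of_notMem, Multiset.count_eq_zero_of_notMem]
    · intro h
      obtain ⟨x, _, hx⟩ := Multiset.mem_map.1 h
      exact hb ⟨x, hx⟩
    · intro h
      obtain ⟨j, hj⟩ := mem_ms.1 h
      exact hb ⟨_, hj⟩

theorem inj_iff_count {α : Type*} [LinearOrder α] {m : ℕ} (φ : Fin m → α) :
    Function.Injective φ ↔ ∀ y, (univ.val.map φ).count y ≤ 1 := by
  constructor
  · intro h y
    rw [count_ofFn, Finset.card_le_one]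
    intro a ha b hb
    rw [Finset.mem_filter] at ha hb
    exact h (ha.2.trans hb.2.symm)
  · intro h a b hab
    have := h (φ b)
    rw [count_ofFn, Finset.card_le_one] at this
    exact this a (by simp [hab]) b (by simp)

end family

end Crest.Agent.R059.Cnt231
end

-- ▼ part R059/ThinA_313
section

/-!
# Row 59, Theorem A in the thin model (helper313)

`E a A B = ∏ i ∈ A, ∏ j ∈ B, (X j - X i) ^ (a i j)` in `MvPolynomial ι K`.

* `Lid a θ A`  : ideal generated by `E (A \ B) B`, `∅ ≠ B ⊆ A`, `θ(B) ≤ 0`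
* `Jid a θ T`  : ideal generated by `E A (T \ A)`, `∅ ≠ A ⊆ T`, `0 < θ(A)`
* `Fid a T 𝒮`  : ideal generated by `E A (T \ A)`, `A ∈ 𝒮`

`colon` : `g * E A (T \ A) ∈ Fid a T 𝒮 ↔ g ∈ Lid a θ A ⊔ Jid a θ (T \ A)` for every `𝒮`
between "earlier than A" and "not later than A, different from A".
-/

set_option autoImplicit false
set_option linter.unusedSectionVars false

namespace Crest.Agent.R059.ThinA

open MvPolynomial Finset

variable {ι : Type*} [DecidableEq ι] {K : Type*} [CommRing K]

/-- the kernel polynomial -/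
noncomputable def E (K : Type*) [CommRing K] (a : ι → ι → ℕ) (A B : Finset ι) :
    MvPolynomial ι K :=
  ∏ i ∈ A, ∏ j ∈ B, (X j - X i) ^ (a i j)

variable (K) (a : ι → ι → ℕ)

@[simp] lemma E_empty_left (B : Finset ι) : E K a ∅ B = 1 := by simp [E]

@[simp] lemma E_empty_right (A : Finset ι) : E K a A ∅ = 1 := by simp [E]




variable {G : Type*} [AddCommGroup G] [LinearOrder G] [IsOrderedAddMonoid G] (θ : ι → G)


/-- the destabilizing ideal -/
noncomputable def Jid (T : Finset ι) : Ideal (MvPolynomial ι K) :=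
  Ideal.span {f | ∃ A : Finset ι, A ⊆ T ∧ A ≠ ∅ ∧ 0 < ∑ i ∈ A, θ i ∧ f = E K a A (T \ A)}







/-- the shift `x_j ↦ x_j + ζ` for `j ∈ C` -/
noncomputable def shift (C : Finset ι) : MvPolynomial ι K →+* Polynomial (MvPolynomial ι K) :=
  MvPolynomial.eval₂Hom (Polynomial.C.comp MvPolynomial.C)
    (fun i => Polynomial.C (X i) + if i ∈ C then Polynomial.X else 0)








end Crest.Agent.R059.ThinA
end

-- ▼ part R059/Bridge_830

/-!
# Row 59: the alternating form (599) and the thin form (313, 613) speak about the same spaces (helper830)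

* `J0_eq_Jid`   : `Thin613.J0 = ThinA.Jid`
* `H_univ_eq`   : `Alt599.H c univ = AltSub c` (all sign-alternating polynomials)
* `Ile_univ_eq` : `Alt599.Ile k c θ univ = AltSub c ⊓ Jid univ`
* `Igt_univ_eq` : `Alt599.Igt k c θ univ = AltSub c ⊓ Lid univ`
-/

set_option autoImplicit false

namespace Crest.Agent.R059.Bridge830

open MvPolynomial Finset

section J0

variable {P : Type*} [Fintype P] [DecidableEq P] {F : Type*} [CommRing F]
variable {V : Type*} [AddCommGroup V] [LinearOrder V] [IsOrderedAddMonoid V]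


theorem J0_eq_Jid (arr : P → P → ℕ) (th : P → V) (A : Finset P) :
    Thin613.J0 F arr th A = ThinA.Jid F arr th A := by
  unfold Thin613.J0 ThinA.Jid
  congr 1
  ext f
  constructor
  · rintro ⟨T, hT, hw, rfl⟩
    refine ⟨T, hT, ?_, hw, rfl⟩
    rintro rfl
    simp [Thin613.wt] at hw
  · rintro ⟨T, hT, _, hw, rfl⟩
    exact ⟨T, hT, hw, rfl⟩

end J0

section Alt

variable {V I : Type*} [Fintype V] [DecidableEq V] [DecidableEq I]

/-- all polynomials which are sign-alternating under the colour preserving permutations -/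
def AltSub (c : V → I) : Submodule ℚ (MvPolynomial V ℚ) where
  carrier := {f | ∀ s : Equiv.Perm V, (∀ x, c (s x) = c x) →
    rename s f = ((Equiv.Perm.sign s : ℤ) : ℚ) • f}
  add_mem' := by
    intro f g hf hg s hs
    rw [map_add, hf s hs, hg s hs, smul_add]
  zero_mem' := by
    intro s _
    simp
  smul_mem' := by
    intro a f hf s hs
    rw [map_smul, hf s hs, smul_comm]


theorem mem_G_univ {c : V → I} {w : Equiv.Perm V} :
    w ∈ Alt599.G c univ ↔ ∀ v, c (w v) = c v := by
  rw [Alt599.mem_G]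
  simp

theorem Alt_apply (c : V → I) (A : Finset V) (f : MvPolynomial V ℚ) :
    Alt599.Alt c A f = ∑ w : Alt599.G c A, Alt599.sg (w : Equiv.Perm V) •
      rename (w : Equiv.Perm V) f := by
  simp [Alt599.Alt, LinearMap.sum_apply]

theorem Alt_mem (c : V → I) (f : MvPolynomial V ℚ) :
    Alt599.Alt c univ f ∈ AltSub c := by
  intro s hs
  rw [Alt_apply, map_sum, Finset.smul_sum]
  have hsG : s ∈ Alt599.G c univ := mem_G_univ.2 hs
  refine Fintype.sum_equiv (Equiv.mulLeft (⟨s, hsG⟩ : Alt599.G c univ)) _ _ ?_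
  intro w
  rw [map_smul, rename_rename, Equiv.coe_mulLeft, smul_smul]
  congr 1
  · simp only [Alt599.sg, Subgroup.coe_mul, map_mul, Units.val_mul, Int.cast_mul]
    rw [← mul_assoc]
    have h1 : ((Equiv.Perm.sign s : ℤ) : ℚ) * ((Equiv.Perm.sign s : ℤ) : ℚ) = 1 := by
      rcases Int.units_eq_one_or (Equiv.Perm.sign s) with h | h <;> rw [h] <;> norm_num
    rw [h1, one_mul]

theorem Alt_of_mem {c : V → I} {f : MvPolynomial V ℚ} (hf : f ∈ AltSub c) :
    Alt599.Alt c univ f = (Fintype.card (Alt599.G c univ) : ℚ) • f := by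
  rw [Alt_apply]
  have h1 : ∀ w : Alt599.G c univ, Alt599.sg (w : Equiv.Perm V) •
      rename (w : Equiv.Perm V) f = f := by
    intro w
    rw [hf w (mem_G_univ.1 w.2), smul_smul]
    have : Alt599.sg (w : Equiv.Perm V) * ((Equiv.Perm.sign (w : Equiv.Perm V) : ℤ) : ℚ) = 1 := by
      unfold Alt599.sg
      rcases Int.units_eq_one_or (Equiv.Perm.sign (w : Equiv.Perm V)) with h | h <;>
        rw [h] <;> norm_num
    rw [this, one_smul]
  rw [Finset.sum_congr rfl fun w _ => h1 w, Finset.sum_const, Finset.card_univ]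
  simp [Nat.cast_smul_eq_nsmul]

theorem card_ne_zero (c : V → I) : (Fintype.card (Alt599.G c univ) : ℚ) ≠ 0 := by
  have : 0 < Fintype.card (Alt599.G c univ) := Fintype.card_pos
  exact_mod_cast this.ne'

/-- an alternating member of `W` is in the image of `W` under `Alt` and conversely, if `W` is stable -/
theorem map_Alt_eq (c : V → I) (W : Submodule ℚ (MvPolynomial V ℚ))
    (hW : ∀ s : Equiv.Perm V, (∀ x, c (s x) = c x) → ∀ f ∈ W, rename s f ∈ W) :
    W.map (Alt599.Alt c univ) = AltSub c ⊓ W := by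
  apply le_antisymm
  · rintro _ ⟨f, hf, rfl⟩
    refine ⟨Alt_mem c f, ?_⟩
    rw [Alt_apply]
    exact Submodule.sum_mem _ fun w _ =>
      Submodule.smul_mem _ _ (hW w (mem_G_univ.1 w.2) f hf)
  · rintro f ⟨hf, hfW⟩
    refine ⟨(Fintype.card (Alt599.G c univ) : ℚ)⁻¹ • f, Submodule.smul_mem _ _ hfW, ?_⟩
    rw [map_smul, Alt_of_mem hf, smul_smul, inv_mul_cancel₀ (card_ne_zero c), one_smul]

theorem RA_univ : Alt599.RA (univ : Finset V) = ⊤ := by
  unfold Alt599.RA
  rw [Finset.coe_univ, supported_univ]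
  rfl

theorem H_univ_eq (c : V → I) : Alt599.H c univ = AltSub c := by
  unfold Alt599.H
  rw [RA_univ, map_Alt_eq c ⊤ (fun _ _ _ _ => Submodule.mem_top), inf_top_eq]

variable (k : I → I → ℕ) (c : V → I) (θ : I → ℤ)


theorem rename_E (s : Equiv.Perm V) (hs : ∀ x, c (s x) = c x) (A B : Finset V) :
    rename s (ThinA.E ℚ (fun i j => k (c i) (c j)) A B) =
      ThinA.E ℚ (fun i j => k (c i) (c j)) (A.map s.toEmbedding) (B.map s.toEmbedding) := by
  simp only [ThinA.E, map_prod, map_pow, map_sub, rename_X, Finset.prod_map,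
    Equiv.coe_toEmbedding, hs]

theorem map_sdiff_univ (s : Equiv.Perm V) (A : Finset V) :
    (univ \ A).map s.toEmbedding = univ \ A.map s.toEmbedding := by
  ext v
  simp only [mem_map_equiv, mem_sdiff, mem_univ, true_and]

theorem sum_map_th (s : Equiv.Perm V) (hs : ∀ x, c (s x) = c x) (A : Finset V) :
    ∑ i ∈ A.map s.toEmbedding, θ (c i) = ∑ i ∈ A, θ (c i) := by
  simp [Finset.sum_map, hs]

theorem rename_Jid (s : Equiv.Perm V) (hs : ∀ x, c (s x) = c x) :
    ∀ f ∈ ThinA.Jid ℚ (fun i j => k (c i) (c j)) (fun i => θ (c i)) (univ : Finset V),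
      rename s f ∈ ThinA.Jid ℚ (fun i j => k (c i) (c j)) (fun i => θ (c i)) univ := by
  intro f hf
  have h : ThinA.Jid ℚ (fun i j => k (c i) (c j)) (fun i => θ (c i)) (univ : Finset V) ≤
      (ThinA.Jid ℚ (fun i j => k (c i) (c j)) (fun i => θ (c i)) univ).comap
        (rename s : MvPolynomial V ℚ →ₐ[ℚ] MvPolynomial V ℚ) := by
    unfold ThinA.Jid
    rw [Ideal.span_le]
    rintro _ ⟨A, _, hA, hw, rfl⟩
    rw [SetLike.mem_coe, Ideal.mem_comap]
    apply Ideal.subset_span
    refine ⟨A.map s.toEmbedding, subset_univ _, ?_, ?_, ?_⟩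
    · simpa using hA
    · rw [sum_map_th c θ s hs]; exact hw
    · rw [← map_sdiff_univ]
      exact rename_E k c s hs A (univ \ A)
  exact h hf


/-- the ideal generated by a set, as a `ℚ`-space, is the supremum of the principal multiples -/
theorem span_restrict (S : Set (MvPolynomial V ℚ)) :
    (Ideal.span S).restrictScalars ℚ =
      ⨆ g ∈ S, (⊤ : Submodule ℚ (MvPolynomial V ℚ)).map (LinearMap.mulLeft ℚ g) := by
  apply le_antisymm
  · intro f hf
    rw [Submodule.restrictScalars_mem] at hf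
    induction hf using Submodule.span_induction with
    | mem x hx =>
      refine Submodule.mem_iSup_of_mem x (Submodule.mem_iSup_of_mem hx ?_)
      exact ⟨1, Submodule.mem_top, by simp⟩
    | zero => exact zero_mem _
    | add x y _ _ hx hy => exact add_mem hx hy
    | smul a x _ hx =>
      have hle : (⨆ g ∈ S, (⊤ : Submodule ℚ (MvPolynomial V ℚ)).map (LinearMap.mulLeft ℚ g)) ≤
          (⨆ g ∈ S, (⊤ : Submodule ℚ (MvPolynomial V ℚ)).map (LinearMap.mulLeft ℚ g)).comap
            (LinearMap.mulLeft ℚ a) := by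
        refine iSup₂_le fun g hg => ?_
        rintro _ ⟨y, _, rfl⟩
        rw [Submodule.mem_comap]
        refine Submodule.mem_iSup_of_mem g (Submodule.mem_iSup_of_mem hg ?_)
        refine ⟨a * y, Submodule.mem_top, ?_⟩
        simp only [LinearMap.mulLeft_apply]
        ring
      exact hle hx
  · refine iSup₂_le fun g hg => ?_
    rintro _ ⟨y, _, rfl⟩
    rw [Submodule.restrictScalars_mem, LinearMap.mulLeft_apply, mul_comm]
    exact Ideal.mul_mem_left _ _ (Ideal.subset_span hg)

theorem Ile_univ_eq :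
    Alt599.Ile k c θ univ = AltSub c ⊓
      (ThinA.Jid ℚ (fun i j => k (c i) (c j)) (fun i => θ (c i)) univ).restrictScalars ℚ := by
  rw [← map_Alt_eq c _ (fun s hs f hf => rename_Jid k c θ s hs f hf)]
  unfold Alt599.Ile ThinA.Jid
  rw [span_restrict]
  simp only [Submodule.map_iSup]
  apply le_antisymm
  · refine iSup₂_le fun A hA => ?_
    rw [Finset.mem_filter] at hA
    refine le_iSup₂_of_le (ThinA.E ℚ (fun i j => k (c i) (c j)) A (univ \ A))
      ⟨A, subset_univ _, hA.2.1.ne_empty, hA.2.2, rfl⟩ ?_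
    unfold Alt599.J
    rw [Finset.union_sdiff_of_subset (subset_univ A), RA_univ, Submodule.map_comp]
    exact le_rfl
  · refine iSup₂_le fun g hg => ?_
    obtain ⟨A, _, hA, hw, rfl⟩ := hg
    refine le_iSup₂_of_le A (by
      rw [Finset.mem_filter]
      exact ⟨Finset.mem_powerset.2 (subset_univ _), Finset.nonempty_iff_ne_empty.2 hA, hw⟩) ?_
    unfold Alt599.J
    rw [Finset.union_sdiff_of_subset (subset_univ A), RA_univ, Submodule.map_comp]
    exact le_rfl


end Alt

end Crest.Agent.R059.Bridge830
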