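import Crest.Agent.R059.TPS_883

set_option autoImplicit false

/-!
Row 59 (S0081).  Topology on twisted power series (product topology over a topological ring `R`),
continuity of the factorisations, and closure ("t-adic limit") lemmas.
-/

namespace Crest.Agent.R059

open Finset Topology

namespace TPS

section top

variable {M : Type*} [AddCommMonoid M] {R : Type*} [CommRing R] {T : Tw M R}
variable [TopologicalSpace R]

/-- product topology (coefficientwise). -/
instance : TopologicalSpace (TPS T) := TopologicalSpace.induced TPS.co inferInstance

theorem continuous_co (d : M) : Continuous (fun f : TPS T => f.co d) :=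
  (continuous_apply d).comp continuous_induced_dom

theorem continuous_iff_co {X : Type*} [TopologicalSpace X] {F : X → TPS T} :
    Continuous F ↔ ∀ d, Continuous (fun x => (F x).co d) := by
  rw [continuous_induced_rng, continuous_pi_iff]
  rfl

theorem isClosed_co_eq [T1Space R] (d : M) (r : R) : IsClosed {f : TPS T | f.co d = r} :=
  isClosed_singleton.preimage (continuous_co (T := T) d)


variable [IsTopologicalRing R]

instance : ContinuousAdd (TPS T) :=
  ⟨continuous_iff_co.2 fun d => by
    simp only [co_add]
    exact ((continuous_co d).comp continuous_fst).add ((continuous_co d).comp continuous_snd)⟩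

instance : ContinuousNeg (TPS T) :=
  ⟨continuous_iff_co.2 fun d => by
    simp only [co_neg]
    exact (continuous_co d).neg⟩

variable [HasAntidiagonal M]

instance : ContinuousMul (TPS T) :=
  ⟨continuous_iff_co.2 fun d => by
    simp only [co_mul]
    exact continuous_finsetSum _ fun p _ => continuous_const.mul
      (((continuous_co p.1).comp continuous_fst).mul ((continuous_co p.2).comp continuous_snd))⟩

instance : IsTopologicalRing (TPS T) where

end top

section factor

variable {M : Type*} [AddCommMonoid M] [HasAntidiagonal M] {R : Type*} [CommRing R] {T : Tw M R}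
variable [TopologicalSpace R] [IsTopologicalRing R]
variable {X : Type*} [TopologicalSpace X]




end factor

end TPS

section closure

variable {ι : Type*} {X Y : Type*} [TopologicalSpace X] [TopologicalSpace Y]

/-- limits in several variables. -/
theorem map_closure_pi {X : ι → Type*} [∀ i, TopologicalSpace (X i)] {D : ∀ i, Set (X i)}
    {E : Set Y} {Φ : (∀ i, X i) → Y}
    (hΦ : Continuous Φ) (h : ∀ u, (∀ i, u i ∈ D i) → Φ u ∈ closure E) :
    ∀ u, (∀ i, u i ∈ closure (D i)) → Φ u ∈ closure E := by
  intro u hu
  have hmem : u ∈ closure (Set.univ.pi D) := by
    rw [closure_pi_set]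
    exact fun i _ => hu i
  have hm : Set.MapsTo Φ (Set.univ.pi D) (closure E) := fun w hw => h w fun i => hw i trivial
  have := hm.closure hΦ hmem
  rwa [closure_closure] at this

end closure

section laurent

open LaurentSeries

/-- the coefficients of Laurent series are continuous (also for the discrete topology). -/
theorem continuous_lcoeff (F : Type*) [Field F] [TopologicalSpace F] (n : ℤ) :
    Continuous (fun f : LaurentSeries F => f.coeff n) := by
  let _ : UniformSpace F := ⊥
  have h1 : @Continuous (LaurentSeries F) F _ ⊥ (fun f : LaurentSeries F => f.coeff n) := by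
    have := (LaurentSeries.uniformContinuous_coeff (K := F) n).continuous
    exact this
  exact continuous_le_dom le_rfl (continuous_le_rng bot_le h1)

/-- a condition on one coefficient is closed. -/
theorem isClosed_lcoeff (F : Type*) [Field F] (n : ℤ) (S : Set F) :
    IsClosed {f : LaurentSeries F | f.coeff n ∈ S} := by
  let _ : TopologicalSpace F := ⊥
  have : DiscreteTopology F := ⟨rfl⟩
  exact (isClosed_discrete S).preimage (continuous_lcoeff F n)

/-- conditions on all coefficients are closed. -/
theorem isClosed_lcoeff_all (F : Type*) [Field F] (S : ℤ → Set F) :
    IsClosed {f : LaurentSeries F | ∀ n, f.coeff n ∈ S n} := by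
  have : {f : LaurentSeries F | ∀ n, f.coeff n ∈ S n} = ⋂ n, {f | f.coeff n ∈ S n} := by
    ext f; simp
  rw [this]
  exact isClosed_iInter fun n => isClosed_lcoeff F n (S n)

end laurent

end Crest.Agent.R059
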