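import Mathlib

/-!
# Row 59: dilogarithm calculus, power series part

`P q = ∑ X^k / ((q-1)(q^2-1)…(q^k-1))` over any commutative ring `R` with a unit `q`
such that all `q^k - 1`, `k ≥ 1`, are units.
-/

namespace Crest.Agent.R059.Dilog344

open PowerSeries Finset

variable {R : Type*} [CommRing R]

/-- `(q-1)(q^2-1)...(q^k-1)` -/
def qpr (q : R) (k : ℕ) : R := ∏ i ∈ range k, (q ^ (i + 1) - 1)

/-- the coefficients of the dilogarithm -/
noncomputable def dc (q : R) (k : ℕ) : R := Ring.inverse (qpr q k)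

/-- all `q^k - 1` are units -/
def QReg (q : R) : Prop := ∀ k : ℕ, IsUnit (q ^ (k + 1) - 1)

/-- the quantum dilogarithm -/
noncomputable def P (q : R) : R⟦X⟧ := PowerSeries.mk (dc q)

/-- its inverse -/
noncomputable def Pinv (q : R) : R⟦X⟧ :=
  PowerSeries.mk (fun k => (-1) ^ k * q ^ (k * (k - 1) / 2) * dc q k)

@[simp] theorem qpr_zero (q : R) : qpr q 0 = 1 := by simp [qpr]

theorem qpr_succ (q : R) (k : ℕ) : qpr q (k + 1) = qpr q k * (q ^ (k + 1) - 1) := by
  simp [qpr, prod_range_succ]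

theorem isUnit_qpr {q : R} (hq : QReg q) (k : ℕ) : IsUnit (qpr q k) := by
  induction k with
  | zero => simp
  | succ k ih => rw [qpr_succ]; exact ih.mul (hq k)

@[simp] theorem dc_zero (q : R) : dc q 0 = 1 := by simp [dc]

theorem qpr_mul_dc {q : R} (hq : QReg q) (k : ℕ) : qpr q k * dc q k = 1 :=
  Ring.mul_inverse_cancel _ (isUnit_qpr hq k)

theorem dc_succ {q : R} (hq : QReg q) (k : ℕ) :
    (q ^ (k + 1) - 1) * dc q (k + 1) = dc q k := by
  have h1 := qpr_mul_dc hq (k + 1)
  rw [qpr_succ] at h1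
  have hu := isUnit_qpr hq k
  apply hu.mul_left_cancel
  rw [qpr_mul_dc hq k, ← mul_assoc, h1]


@[simp] theorem coeff_P (q : R) (k : ℕ) : coeff k (P q) = dc q k := by simp [P]

@[simp] theorem constantCoeff_P (q : R) : constantCoeff (P q) = 1 := by
  rw [← coeff_zero_eq_constantCoeff_apply]; simp

@[simp] theorem coeff_Pinv (q : R) (k : ℕ) :
    coeff k (Pinv q) = (-1) ^ k * q ^ (k * (k - 1) / 2) * dc q k := by simp [Pinv]

@[simp] theorem constantCoeff_Pinv (q : R) : constantCoeff (Pinv q) = 1 := by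
  rw [← coeff_zero_eq_constantCoeff_apply]; simp

/-- `P(qX) = (1+X) P(X)`. -/
theorem rescale_P {q : R} (hq : QReg q) : rescale q (P q) = (1 + X) * P q := by
  ext k
  rw [coeff_rescale, add_mul, one_mul, map_add]
  cases k with
  | zero => simp
  | succ k =>
    rw [coeff_succ_X_mul, coeff_P, coeff_P, ← dc_succ hq k]; ring

/-- `(1+X) Pinv(qX) = Pinv(X)`. -/
theorem rescale_Pinv {q : R} (hq : QReg q) : (1 + X) * rescale q (Pinv q) = Pinv q := by
  ext k
  rw [add_mul, one_mul, map_add]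
  cases k with
  | zero => simp
  | succ k =>
    rw [coeff_succ_X_mul, coeff_rescale, coeff_rescale, coeff_Pinv, coeff_Pinv,
      ← dc_succ hq k]
    have h : (k + 1) * (k + 1 - 1) / 2 = k * (k - 1) / 2 + k := by
      have := Nat.triangle_succ k
      simpa using this
    rw [h, pow_add, pow_succ (-1 : R)]
    ring

/-- Uniqueness for `q`-difference equations `f(qX) = h(X) f(X)`. -/
theorem eq_of_rescale {q : R} (hq : QReg q) {f g h : R⟦X⟧} (hh : constantCoeff h = 1)
    (hf : rescale q f = h * f) (hg : rescale q g = h * g)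
    (h0 : constantCoeff f = constantCoeff g) : f = g := by
  have key : ∀ k, coeff k f = coeff k g := by
    intro k
    induction k using Nat.strong_induction_on with
    | _ k ih =>
      cases k with
      | zero => simpa using h0
      | succ k =>
        have e1 := congrArg (coeff (k + 1)) hf
        have e2 := congrArg (coeff (k + 1)) hg
        rw [coeff_rescale, coeff_mul, Finset.Nat.sum_antidiagonal_succ] at e1 e2
        simp only [coeff_zero_eq_constantCoeff, hh, one_mul] at e1 e2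
        have e3 : ∑ p ∈ antidiagonal k, coeff (p.1 + 1) h * coeff p.2 f
            = ∑ p ∈ antidiagonal k, coeff (p.1 + 1) h * coeff p.2 g := by
          apply Finset.sum_congr rfl
          intro p hp
          rw [Finset.HasAntidiagonal.mem_antidiagonal] at hp
          rw [ih p.2 (by omega)]
        have hu := hq k
        apply hu.mul_left_cancel
        linear_combination e1 - e2 + e3
  ext k; exact key k

@[simp] theorem rescale_C' (a b : R) : rescale a (C b : R⟦X⟧) = C b := by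
  ext k
  rw [coeff_rescale, coeff_C]
  split_ifs with h
  · simp [h]
  · simp


/-- a `q`-invariant power series is constant -/
theorem const_of_rescale {q : R} (hq : QReg q) {f : R⟦X⟧}
    (hf : rescale q f = f) : f = C (constantCoeff f) :=
  eq_of_rescale hq (h := 1) (by simp) (by simpa using hf) (by simp) (by simp)

theorem P_mul_Pinv {q : R} (hq : QReg q) : P q * Pinv q = 1 := by
  have h := const_of_rescale hq (f := P q * Pinv q) (by
    rw [map_mul, rescale_P hq]
    calc (1 + X) * P q * rescale q (Pinv q) = P q * ((1 + X) * rescale q (Pinv q)) := by ring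
      _ = _ := by rw [rescale_Pinv hq])
  rw [h]; simp

theorem Pinv_mul_P {q : R} (hq : QReg q) : Pinv q * P q = 1 := by
  rw [mul_comm, P_mul_Pinv hq]

/-! ### powers of the rescaling -/

/-- `∏_{i<K} (1 + q^i c X)` -/
noncomputable def oddF (q c : R) (K : ℕ) : R⟦X⟧ := ∏ i ∈ range K, (1 + C (q ^ i * c) * X)

/-- `∏_{i<K} 1/(1 - q^i c X)` as `∏ ∑_j (q^i c)^j X^j`. -/
noncomputable def evenF (q c : R) (K : ℕ) : R⟦X⟧ :=
  ∏ i ∈ range K, PowerSeries.mk (fun j => (q ^ i * c) ^ j)

theorem geom_mul (c : R) : (1 - C c * X) * PowerSeries.mk (fun j => c ^ j) = 1 := by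
  ext k
  rw [sub_mul, one_mul, map_sub, mul_assoc, coeff_C_mul]
  cases k with
  | zero => simp
  | succ k => rw [coeff_succ_X_mul]; simp [coeff_one, pow_succ, mul_comm]

theorem evenF_mul (q c : R) (K : ℕ) : oddF q (-c) K * evenF q c K = 1 := by
  rw [oddF, evenF, ← Finset.prod_mul_distrib]
  apply Finset.prod_eq_one
  intro i _
  have h := geom_mul (q ^ i * c)
  rwa [show (1 - C (q ^ i * c) * X : R⟦X⟧) = 1 + C (q ^ i * -c) * X by
    rw [mul_neg, map_neg]; ring] at h

@[simp] theorem oddF_zero (q c : R) : oddF q c 0 = 1 := by simp [oddF]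
@[simp] theorem evenF_zero (q c : R) : evenF q c 0 = 1 := by simp [evenF]

@[simp] theorem constantCoeff_oddF (q c : R) (K : ℕ) : constantCoeff (oddF q c K) = 1 := by
  simp [oddF, map_prod]

@[simp] theorem constantCoeff_mk' (f : ℕ → R) : constantCoeff (PowerSeries.mk f) = f 0 := by
  rw [← coeff_zero_eq_constantCoeff_apply]; simp

@[simp] theorem constantCoeff_evenF (q c : R) (K : ℕ) : constantCoeff (evenF q c K) = 1 := by
  simp [evenF, map_prod]

theorem rescale_oddF (q c a : R) (K : ℕ) : rescale a (oddF q c K) = oddF q (a * c) K := by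
  simp only [oddF, map_prod, map_add, map_one, map_mul, rescale_X, rescale_C']
  apply Finset.prod_congr rfl
  intro i _
  ring

/-- `P(q^K X) = P(X) ∏_{i<K} (1+q^i X)` -/
theorem rescale_pow_P {q : R} (hq : QReg q) (K : ℕ) :
    rescale (q ^ K) (P q) = P q * oddF q 1 K := by
  induction K with
  | zero => simp
  | succ K ih =>
    have h : rescale (q ^ (K + 1)) (P q) = rescale (q ^ K) (rescale q (P q)) := by
      rw [rescale_rescale, pow_succ']
    rw [h, rescale_P hq, map_mul, ih, oddF, oddF, prod_range_succ]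
    simp only [map_add, map_one, rescale_X, mul_one]
    ring



/-! ### positivity of coefficients -/

/-- power series with coefficients in a subsemiring -/
def posPS (S : Subsemiring R) : Subsemiring R⟦X⟧ where
  carrier := {f | ∀ k, coeff k f ∈ S}
  mul_mem' := by
    intro f g hf hg k
    rw [coeff_mul]
    exact S.sum_mem fun p _ => S.mul_mem (hf _) (hg _)
  one_mem' := by
    intro k
    rw [coeff_one]
    split_ifs
    · exact S.one_mem
    · exact S.zero_mem
  add_mem' := by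
    intro f g hf hg k
    rw [map_add]; exact S.add_mem (hf k) (hg k)
  zero_mem' := by intro k; rw [map_zero]; exact S.zero_mem


theorem oddF_mem {S : Subsemiring R} {q c : R} (hq : q ∈ S) (hc : c ∈ S) (K : ℕ) :
    oddF q c K ∈ posPS S := by
  apply Subsemiring.prod_mem
  intro i _ k
  rw [map_add, mul_comm, coeff_one]
  apply S.add_mem
  · split_ifs
    · exact S.one_mem
    · exact S.zero_mem
  · cases k with
    | zero => simp
    | succ k =>
      rw [coeff_succ_X_mul, coeff_C]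
      split_ifs
      · exact S.mul_mem (S.pow_mem hq _) hc
      · exact S.zero_mem

theorem evenF_mem {S : Subsemiring R} {q c : R} (hq : q ∈ S) (hc : c ∈ S) (K : ℕ) :
    evenF q c K ∈ posPS S := by
  apply Subsemiring.prod_mem
  intro i _ k
  rw [coeff_mk]
  exact S.pow_mem (S.mul_mem (S.pow_mem hq _) hc) _

theorem coeff_oddF_top (q c : R) (K : ℕ) :
    coeff K (oddF q c K) = ∏ i ∈ range K, (q ^ i * c) := by
  induction K with
  | zero => simp
  | succ K ih =>
    have hdeg : ∀ j, K < j → coeff j (oddF q c K) = 0 := by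
      clear ih
      induction K with
      | zero => intro j hj; simp [coeff_one]; omega
      | succ K ih =>
        intro j hj
        rw [oddF, prod_range_succ, mul_add, mul_one, map_add, ← oddF, ih j (by omega)]
        obtain ⟨j, rfl⟩ : ∃ j', j = j' + 1 := ⟨j - 1, by omega⟩
        rw [mul_comm (oddF q c K), mul_assoc, coeff_C_mul, coeff_succ_X_mul, ih j (by omega)]
        simp
    rw [oddF, prod_range_succ, mul_add, mul_one, map_add, ← oddF, hdeg _ (by omega),
      mul_comm (oddF q c K), mul_assoc, coeff_C_mul, coeff_succ_X_mul, ih, prod_range_succ]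
    ring


/-! ### the dilogarithms `Eo = ∏ (1+Q^i X)`, `Ee = ∏ 1/(1-Q^i X)` as formal series -/

/-- `(1-q)(1-q^2)...(1-q^k)` -/
def qp1 (q : R) (k : ℕ) : R := ∏ i ∈ range k, (1 - q ^ (i + 1))

/-- `1/((1-q)(1-q^2)...(1-q^k))` -/
noncomputable def ec (q : R) (k : ℕ) : R := Ring.inverse (qp1 q k)

/-- odd dilogarithm `∑ q^{k(k-1)/2} X^k/((1-q)...(1-q^k))` -/
noncomputable def Eo (q : R) : R⟦X⟧ := PowerSeries.mk (fun k => q ^ (k * (k - 1) / 2) * ec q k)

/-- even dilogarithm `∑ X^k/((1-q)...(1-q^k))` -/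
noncomputable def Ee (q : R) : R⟦X⟧ := PowerSeries.mk (ec q)

@[simp] theorem qp1_zero (q : R) : qp1 q 0 = 1 := by simp [qp1]

theorem qp1_succ (q : R) (k : ℕ) : qp1 q (k + 1) = qp1 q k * (1 - q ^ (k + 1)) := by
  simp [qp1, prod_range_succ]

theorem qp1_eq (q : R) (k : ℕ) : qp1 q k = (-1) ^ k * qpr q k := by
  induction k with
  | zero => simp
  | succ k ih => rw [qp1_succ, qpr_succ, ih, pow_succ]; ring

theorem isUnit_qp1 {q : R} (hq : QReg q) (k : ℕ) : IsUnit (qp1 q k) := by
  rw [qp1_eq]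
  exact ((isUnit_one.neg).pow k).mul (isUnit_qpr hq k)

theorem qp1_mul_ec {q : R} (hq : QReg q) (k : ℕ) : qp1 q k * ec q k = 1 :=
  Ring.mul_inverse_cancel _ (isUnit_qp1 hq k)

theorem ec_eq {q : R} (hq : QReg q) (k : ℕ) : ec q k = (-1) ^ k * dc q k := by
  apply (isUnit_qp1 hq k).mul_left_cancel
  rw [qp1_mul_ec hq, qp1_eq]
  have h := qpr_mul_dc hq k
  have h2 : ((-1 : R) ^ k) * (-1) ^ k = 1 := by rw [← mul_pow]; simp
  calc (1 : R) = ((-1) ^ k * (-1) ^ k) * (qpr q k * dc q k) := by rw [h, h2, one_mul]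
    _ = _ := by ring

@[simp] theorem ec_zero (q : R) : ec q 0 = 1 := by simp [ec]

theorem Eo_eq_Pinv {q : R} (hq : QReg q) : Eo q = Pinv q := by
  ext k
  rw [Eo, coeff_mk, coeff_Pinv, ec_eq hq]; ring

theorem Ee_eq_P {q : R} (hq : QReg q) : Ee q = rescale (-1) (P q) := by
  ext k
  rw [Ee, coeff_mk, coeff_rescale, coeff_P, ec_eq hq]

@[simp] theorem constantCoeff_Eo (q : R) : constantCoeff (Eo q) = 1 := by simp [Eo]
@[simp] theorem constantCoeff_Ee (q : R) : constantCoeff (Ee q) = 1 := by simp [Ee]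
@[simp] theorem coeff_Ee (q : R) (k : ℕ) : coeff k (Ee q) = ec q k := by simp [Ee]
@[simp] theorem coeff_Eo (q : R) (k : ℕ) :
    coeff k (Eo q) = q ^ (k * (k - 1) / 2) * ec q k := by simp [Eo]



/-- `Eo(-X) Ee(X) = 1` -/
theorem Eo_mul_Ee {q : R} (hq : QReg q) : rescale (-1) (Eo q) * Ee q = 1 := by
  rw [Eo_eq_Pinv hq, Ee_eq_P hq, ← map_mul, Pinv_mul_P hq, map_one]

/-! ### the general factor `EE v p a = E_p(v^a X)`, with `Q = v^2` -/

variable (v : Rˣ)

/-- `E_odd(v^a X)` for `p = true`, `E_even(v^a X)` for `p = false`, with `Q = v^2`. -/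
noncomputable def EE (p : Bool) (a : ℤ) : R⟦X⟧ :=
  rescale ((v ^ a : Rˣ) : R) (cond p (Eo ((v : R) ^ 2)) (Ee ((v : R) ^ 2)))

/-- the inverse of `EE` -/
noncomputable def EEi (p : Bool) (a : ℤ) : R⟦X⟧ :=
  rescale (-((v ^ a : Rˣ) : R)) (cond p (Ee ((v : R) ^ 2)) (Eo ((v : R) ^ 2)))

/-- the crossing factor: `∏_{i<K} (1 + v^{a-2(i+1)} X)` for `p = true`,
`∏_{i<K} 1/(1 - v^{a-2(i+1)} X)` for `p = false`. -/
noncomputable def XF (p : Bool) (a : ℤ) (K : ℕ) : R⟦X⟧ :=
  cond p (oddF ((v : R) ^ 2) ((v ^ (a - 2 * K) : Rˣ) : R) K)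
    (evenF ((v : R) ^ 2) ((v ^ (a - 2 * K) : Rˣ) : R) K)

/-- the inverse of the crossing factor. -/
noncomputable def XFi (p : Bool) (a : ℤ) (K : ℕ) : R⟦X⟧ :=
  cond p (evenF ((v : R) ^ 2) (-((v ^ (a - 2 * K) : Rˣ) : R)) K)
    (oddF ((v : R) ^ 2) (-((v ^ (a - 2 * K) : Rˣ) : R)) K)

variable {v}

theorem EE_mul_EEi (hq : QReg ((v : R) ^ 2)) (p : Bool) (a : ℤ) : EE v p a * EEi v p a = 1 := by
  have e1 : ∀ f : R⟦X⟧, rescale (-((v ^ a : Rˣ) : R)) f
      = rescale ((v ^ a : Rˣ) : R) (rescale (-1) f) := by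
    intro f; rw [rescale_rescale]; congr 2; ring
  cases p
  · simp only [EE, EEi, cond_false]
    rw [e1, ← map_mul, mul_comm, Eo_mul_Ee hq, map_one]
  · simp only [EE, EEi, cond_true]
    rw [e1, ← map_mul]
    have h := congrArg (rescale (-1 : R)) (Eo_mul_Ee hq)
    rw [map_mul, rescale_rescale] at h
    simp only [mul_neg, mul_one, neg_neg, rescale_one, RingHom.id_apply, map_one] at h
    rw [h, map_one]

theorem EEi_mul_EE (hq : QReg ((v : R) ^ 2)) (p : Bool) (a : ℤ) : EEi v p a * EE v p a = 1 := by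
  rw [mul_comm, EE_mul_EEi hq]



@[simp] theorem constantCoeff_EE (p : Bool) (a : ℤ) : constantCoeff (EE v p a) = 1 := by
  cases p <;> simp [EE, ← coeff_zero_eq_constantCoeff_apply, coeff_rescale]

@[simp] theorem constantCoeff_EEi (p : Bool) (a : ℤ) : constantCoeff (EEi v p a) = 1 := by
  cases p <;> simp [EEi, ← coeff_zero_eq_constantCoeff_apply, coeff_rescale]

@[simp] theorem constantCoeff_XF (p : Bool) (a : ℤ) (K : ℕ) :
    constantCoeff (XF v p a K) = 1 := by
  cases p <;> simp [XF]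

@[simp] theorem constantCoeff_XFi (p : Bool) (a : ℤ) (K : ℕ) :
    constantCoeff (XFi v p a K) = 1 := by
  cases p <;> simp [XFi]

theorem rescale_zpow_EE (p : Bool) (a b : ℤ) :
    rescale ((v ^ b : Rˣ) : R) (EE v p a) = EE v p (a + b) := by
  rw [EE, rescale_rescale, ← Units.val_mul, ← zpow_add, EE]

theorem rescale_zpow_EEi (p : Bool) (a b : ℤ) :
    rescale ((v ^ b : Rˣ) : R) (EEi v p a) = EEi v p (a + b) := by
  rw [EEi, rescale_rescale, EEi, zpow_add, Units.val_mul, neg_mul]

/-- `Eo(cX) = Eo(q^K c X) ∏_{i<K}(1+q^i c X)` -/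
theorem Eo_shift {q : R} (hq : QReg q) (c : R) (K : ℕ) :
    rescale c (Eo q) = rescale (q ^ K * c) (Eo q) * oddF q c K := by
  have h0 : Eo q = rescale (q ^ K) (Eo q) * oddF q 1 K := by
    have h1 := rescale_pow_P hq K
    have h2 := P_mul_Pinv hq
    have h3 : rescale (q ^ K) (P q) * rescale (q ^ K) (Pinv q) = 1 := by
      rw [← map_mul, h2, map_one]
    rw [Eo_eq_Pinv hq]
    calc Pinv q = Pinv q * (rescale (q ^ K) (P q) * rescale (q ^ K) (Pinv q)) := by
          rw [h3, mul_one]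
      _ = (P q * Pinv q) * (rescale (q ^ K) (Pinv q) * oddF q 1 K) := by rw [h1]; ring
      _ = _ := by rw [h2, one_mul]
  calc rescale c (Eo q) = rescale c (rescale (q ^ K) (Eo q) * oddF q 1 K) := by rw [← h0]
    _ = _ := by rw [map_mul, rescale_rescale, rescale_oddF, mul_one]

/-- `Ee(cX) = Ee(q^K c X) ∏_{i<K} 1/(1-q^i c X)` -/
theorem Ee_shift {q : R} (hq : QReg q) (c : R) (K : ℕ) :
    rescale c (Ee q) = rescale (q ^ K * c) (Ee q) * evenF q c K := by
  have h1 : rescale (-c) (Eo q) = rescale (q ^ K * -c) (Eo q) * oddF q (-c) K :=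
    Eo_shift hq (-c) K
  have h2 : ∀ a : R, rescale (-a) (Eo q) * rescale a (Ee q) = 1 := by
    intro a
    have h := congrArg (rescale a) (Eo_mul_Ee hq)
    rw [map_mul, rescale_rescale, map_one] at h
    rwa [show (-1 : R) * a = -a by ring] at h
  have h3 := evenF_mul q c K
  have h4 := h2 c
  have h5 := h2 (q ^ K * c)
  rw [show -(q ^ K * c) = q ^ K * -c by ring] at h5
  calc rescale c (Ee q)
      = (rescale (q ^ K * -c) (Eo q) * rescale (q ^ K * c) (Ee q)) *
          (oddF q (-c) K * evenF q c K) * rescale c (Ee q) := by rw [h5, h3]; ring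
    _ = (rescale (-c) (Eo q) * rescale c (Ee q)) *
          (rescale (q ^ K * c) (Ee q) * evenF q c K) := by rw [h1]; ring
    _ = _ := by rw [h4, one_mul]

/-- `E(v^{a-2K} X) = E(v^a X) * XF` : the crossing factor. -/
theorem EE_shift (hq : QReg ((v : R) ^ 2)) (p : Bool) (a : ℤ) (K : ℕ) :
    EE v p (a - 2 * K) = EE v p a * XF v p a K := by
  have e : ((v : R) ^ 2) ^ K * ((v ^ (a - 2 * K) : Rˣ) : R) = ((v ^ a : Rˣ) : R) := by
    rw [← pow_mul, ← Units.val_pow_eq_pow_val, ← Units.val_mul, ← zpow_natCast, ← zpow_add]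
    congr 2; push_cast; ring
  cases p
  · simp only [EE, XF, cond_false]
    rw [Ee_shift hq _ K, e]
  · simp only [EE, XF, cond_true]
    rw [Eo_shift hq _ K, e]

theorem EEi_shift (hq : QReg ((v : R) ^ 2)) (p : Bool) (a : ℤ) (K : ℕ) :
    EEi v p a = EEi v p (a - 2 * K) * XF v p a K := by
  have h1 := EE_shift hq p a K
  have h2 := EEi_mul_EE hq p a
  have h3 := EEi_mul_EE hq p (a - 2 * K)
  calc EEi v p a = (EEi v p (a - 2 * K) * EE v p (a - 2 * K)) * EEi v p a := by rw [h3, one_mul]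
    _ = (EEi v p a * EE v p a) * (EEi v p (a - 2 * K) * XF v p a K) := by rw [h1]; ring
    _ = _ := by rw [h2, one_mul]

theorem XF_mem {S : Subsemiring R} (h1 : (v : R) ∈ S) (h2 : ((v⁻¹ : Rˣ) : R) ∈ S)
    (p : Bool) (a : ℤ) (K : ℕ) : XF v p a K ∈ posPS S := by
  have hz : ∀ b : ℤ, ((v ^ b : Rˣ) : R) ∈ S := by
    intro b
    obtain ⟨n, rfl | rfl⟩ := b.eq_nat_or_neg
    · rw [zpow_natCast, Units.val_pow_eq_pow_val]; exact S.pow_mem h1 n
    · rw [zpow_neg, zpow_natCast, ← inv_pow, Units.val_pow_eq_pow_val]; exact S.pow_mem h2 n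
  cases p
  · exact evenF_mem (S.pow_mem h1 2) (hz _) K
  · exact oddF_mem (S.pow_mem h1 2) (hz _) K

theorem prod_zpow_aux (v : Rˣ) (c : ℤ) (K : ℕ) :
    ∃ b : ℤ, ∏ i ∈ range K, (((v : R) ^ 2) ^ i * ((v ^ c : Rˣ) : R)) = ((v ^ b : Rˣ) : R) := by
  induction K with
  | zero => exact ⟨0, by simp⟩
  | succ K ih =>
    obtain ⟨b, hb⟩ := ih
    refine ⟨b + (((2 * K : ℕ) : ℤ) + c), ?_⟩
    rw [prod_range_succ, hb, zpow_add, Units.val_mul, zpow_add, Units.val_mul, ← pow_mul,
      zpow_natCast, Units.val_pow_eq_pow_val]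

/-- the full bend coefficient of an odd factor is a power of `v` -/
theorem coeff_XF_top (a : ℤ) (K : ℕ) :
    ∃ b : ℤ, coeff K (XF v true a K) = ((v ^ b : Rˣ) : R) := by
  simp only [XF, cond_true]
  rw [coeff_oddF_top]
  exact prod_zpow_aux v _ K

/-! ### rescaling the crossing factors, comparison with `P` -/





@[simp] theorem XF_zero (p : Bool) (a : ℤ) : XF v p a 0 = 1 := by
  cases p <;> simp [XF]

@[simp] theorem XFi_zero (p : Bool) (a : ℤ) : XFi v p a 0 = 1 := by
  cases p <;> simp [XFi]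

/-- one more factor: `XF true a 1 = 1 + v^{a-2} X`. -/
theorem XF_true_one (a : ℤ) : XF v true a 1 = 1 + C ((v ^ (a - 2) : Rˣ) : R) * X := by
  simp [XF, oddF]




/-! ### naturality -/


theorem QReg.map {R' : Type*} [CommRing R'] (φ : R →+* R') {q : R} (hq : QReg q) :
    QReg (φ q) := by
  intro k
  have := (hq k).map φ
  simpa using this






end Crest.Agent.R059.Dilog344
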