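import Mathlib

set_option autoImplicit false

/-!
Row 59 (S0081).  Twisted power series.

`M` = monoid of exponents with finite antidiagonals (think `I →₀ ℕ`), `T : Tw M R` = coefficient
ring `R`, a unit `v : Rˣ` and a biadditive form `β : M →+ M →+ ℤ`.
`TPS T` = all functions `M → R` with product `(f * g) d = ∑_{a+b=d} v^{β a b} f a g b`.
-/

namespace Crest.Agent.R059

open Finset

/-- twist datum. -/
structure Tw (M : Type*) [AddCommMonoid M] (R : Type*) [CommRing R] where
  /-- the square root of `q` (up to sign). -/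
  v : Rˣ
  /-- the form; `Y_a Y_b = v^{β a b} Y_{a+b}`. -/
  β : M →+ M →+ ℤ

/-- twisted power series. -/
@[ext] structure TPS {M : Type*} [AddCommMonoid M] {R : Type*} [CommRing R] (T : Tw M R) where
  /-- the coefficients. -/
  co : M → R

namespace TPS

section ring

variable {M : Type*} [AddCommMonoid M] {R : Type*} [CommRing R] {T : Tw M R}

instance : Zero (TPS T) := ⟨⟨fun _ => 0⟩⟩
instance : Add (TPS T) := ⟨fun f g => ⟨fun d => f.co d + g.co d⟩⟩
instance : Neg (TPS T) := ⟨fun f => ⟨fun d => - f.co d⟩⟩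
instance : Sub (TPS T) := ⟨fun f g => ⟨fun d => f.co d - g.co d⟩⟩
instance : SMul R (TPS T) := ⟨fun r f => ⟨fun d => r * f.co d⟩⟩
instance : SMul ℕ (TPS T) := ⟨fun r f => ⟨fun d => r • f.co d⟩⟩
instance : SMul ℤ (TPS T) := ⟨fun r f => ⟨fun d => r • f.co d⟩⟩

@[simp] theorem co_zero (d : M) : (0 : TPS T).co d = 0 := rfl
@[simp] theorem co_add (f g : TPS T) (d : M) : (f + g).co d = f.co d + g.co d := rfl
@[simp] theorem co_neg (f : TPS T) (d : M) : (-f).co d = - f.co d := rfl
@[simp] theorem co_sub (f g : TPS T) (d : M) : (f - g).co d = f.co d - g.co d := rfl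
@[simp] theorem co_smul (r : R) (f : TPS T) (d : M) : (r • f).co d = r * f.co d := rfl
@[simp] theorem co_nsmul (r : ℕ) (f : TPS T) (d : M) : (r • f).co d = r • f.co d := rfl
@[simp] theorem co_zsmul (r : ℤ) (f : TPS T) (d : M) : (r • f).co d = r • f.co d := rfl

theorem co_injective : Function.Injective (TPS.co : TPS T → M → R) := fun f g h => by
  cases f; cases g; congr

instance : AddCommGroup (TPS T) :=
  co_injective.addCommGroup _ rfl (fun _ _ => rfl) (fun _ => rfl) (fun _ _ => rfl)
    (fun _ _ => rfl) (fun _ _ => rfl)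

variable (T) in
/-- the monomial `r Y_m`. -/
noncomputable def mono (m : M) (r : R) : TPS T := by
  classical exact ⟨fun d => if d = m then r else 0⟩

variable (T) in
/-- the monomial `Y_m`. -/
noncomputable def Y (m : M) : TPS T := mono T m 1

theorem co_mono [DecidableEq M] (m : M) (r : R) (d : M) :
    (mono T m r).co d = if d = m then r else 0 := by
  unfold mono; simp only; congr

theorem co_mono_self (m : M) (r : R) : (mono T m r).co m = r := by
  classical rw [co_mono, if_pos rfl]

theorem co_mono_ne {m d : M} (h : d ≠ m) (r : R) : (mono T m r).co d = 0 := by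
  classical rw [co_mono, if_neg h]

noncomputable instance : One (TPS T) := ⟨mono T 0 1⟩

theorem one_def : (1 : TPS T) = mono T 0 1 := rfl

theorem co_one [DecidableEq M] (d : M) : (1 : TPS T).co d = if d = 0 then 1 else 0 :=
  co_mono 0 1 d

@[simp] theorem co_one_zero : (1 : TPS T).co 0 = 1 := co_mono_self 0 1

theorem co_one_ne {d : M} (h : d ≠ 0) : (1 : TPS T).co d = 0 := co_mono_ne h 1

/-- the weight `v^{β a b}`. -/
def wt (T : Tw M R) (a b : M) : R := ((T.v ^ (T.β a b) : Rˣ) : R)

theorem wt_zero_left (b : M) : wt T 0 b = 1 := by simp [wt]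
theorem wt_zero_right (a : M) : wt T a 0 = 1 := by simp [wt]
theorem wt_add_left (a b c : M) : wt T (a + b) c = wt T a c * wt T b c := by
  simp [wt, zpow_add]
theorem wt_add_right (a b c : M) : wt T a (b + c) = wt T a b * wt T a c := by
  simp [wt, zpow_add]

variable [HasAntidiagonal M]

noncomputable instance : Mul (TPS T) :=
  ⟨fun f g => ⟨fun d => ∑ p ∈ HasAntidiagonal.antidiagonal d, wt T p.1 p.2 * (f.co p.1 * g.co p.2)⟩⟩

theorem co_mul (f g : TPS T) (d : M) :
    (f * g).co d = ∑ p ∈ HasAntidiagonal.antidiagonal d, wt T p.1 p.2 * (f.co p.1 * g.co p.2) := rfl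

protected theorem mul_assoc' (f g h : TPS T) : f * g * h = f * (g * h) := by
  classical
  ext d
  simp only [co_mul, Finset.sum_mul, Finset.mul_sum, Finset.sum_sigma']
  apply Finset.sum_nbij' (fun ⟨⟨_i, j⟩, ⟨k, l⟩⟩ ↦ ⟨(k, l + j), (l, j)⟩)
    (fun ⟨⟨i, _j⟩, ⟨k, l⟩⟩ ↦ ⟨(i + k, l), (i, k)⟩)
  · rintro ⟨⟨i, j⟩, ⟨k, l⟩⟩ hx
    simp only [mem_sigma, HasAntidiagonal.mem_antidiagonal] at hx ⊢
    obtain ⟨h1, h2⟩ := hx
    subst h2
    exact ⟨by rw [← h1, add_assoc], trivial⟩
  · rintro ⟨⟨i, j⟩, ⟨k, l⟩⟩ hx
    simp only [mem_sigma, HasAntidiagonal.mem_antidiagonal] at hx ⊢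
    obtain ⟨h1, h2⟩ := hx
    subst h2
    exact ⟨by rw [← h1, add_assoc], trivial⟩
  · rintro ⟨⟨i, j⟩, ⟨k, l⟩⟩ hx
    simp only [mem_sigma, HasAntidiagonal.mem_antidiagonal] at hx
    obtain ⟨h1, h2⟩ := hx
    subst h2
    rfl
  · rintro ⟨⟨i, j⟩, ⟨k, l⟩⟩ hx
    simp only [mem_sigma, HasAntidiagonal.mem_antidiagonal] at hx
    obtain ⟨h1, h2⟩ := hx
    subst h2
    rfl
  · rintro ⟨⟨i, j⟩, ⟨k, l⟩⟩ hx
    simp only [mem_sigma, HasAntidiagonal.mem_antidiagonal] at hx
    obtain ⟨h1, h2⟩ := hx
    subst h2
    simp only [wt_add_left, wt_add_right]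
    ring

protected theorem one_mul' (f : TPS T) : 1 * f = f := by
  classical
  ext d
  rw [co_mul, Finset.sum_eq_single (0, d)]
  · simp [wt_zero_left]
  · rintro ⟨a, b⟩ hp hne
    rw [HasAntidiagonal.mem_antidiagonal] at hp
    have : a ≠ 0 := by
      rintro rfl
      apply hne
      simp only [zero_add] at hp
      rw [hp]
    simp [co_one_ne this]
  · intro h; exact absurd (by simp [HasAntidiagonal.mem_antidiagonal]) h

protected theorem mul_one' (f : TPS T) : f * 1 = f := by
  classical
  ext d
  rw [co_mul, Finset.sum_eq_single (d, 0)]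
  · simp [wt_zero_right]
  · rintro ⟨a, b⟩ hp hne
    rw [HasAntidiagonal.mem_antidiagonal] at hp
    have : b ≠ 0 := by
      rintro rfl
      apply hne
      simp only [add_zero] at hp
      rw [hp]
    simp [co_one_ne this]
  · intro h; exact absurd (by simp [HasAntidiagonal.mem_antidiagonal]) h

noncomputable instance : Ring (TPS T) :=
  { (inferInstance : AddCommGroup (TPS T)) with
    mul := (· * ·)
    one := 1
    mul_assoc := TPS.mul_assoc'
    one_mul := TPS.one_mul'
    mul_one := TPS.mul_one'
    zero_mul := fun f => by ext d; simp [co_mul]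
    mul_zero := fun f => by ext d; simp [co_mul]
    left_distrib := fun f g h => by
      ext d; simp only [co_mul, co_add, mul_add, Finset.sum_add_distrib]
    right_distrib := fun f g h => by
      ext d; simp only [co_mul, co_add, mul_add, add_mul, Finset.sum_add_distrib] }

noncomputable instance : Module R (TPS T) :=
  { smul := (· • ·)
    one_smul := fun f => by ext d; simp
    mul_smul := fun r s f => by ext d; simp [mul_assoc]
    smul_zero := fun r => by ext d; simp
    smul_add := fun r f g => by ext d; simp [mul_add]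
    add_smul := fun r s f => by ext d; simp [add_mul]
    zero_smul := fun f => by ext d; simp }

theorem smul_mul' (r : R) (f g : TPS T) : (r • f) * g = r • (f * g) := by
  ext d
  simp only [co_mul, co_smul, Finset.mul_sum]
  exact Finset.sum_congr rfl (fun p _ => by ring)

theorem mul_smul'' (r : R) (f g : TPS T) : f * (r • g) = r • (f * g) := by
  ext d
  simp only [co_mul, co_smul, Finset.mul_sum]
  exact Finset.sum_congr rfl (fun p _ => by ring)

noncomputable instance : Algebra R (TPS T) :=
  Algebra.ofModule smul_mul' mul_smul''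

/-- product of two monomials. -/
theorem mono_mul_mono (a b : M) (r s : R) :
    mono T a r * mono T b s = mono T (a + b) (wt T a b * (r * s)) := by
  classical
  ext d
  rw [co_mul]
  by_cases h : d = a + b
  · subst h
    rw [Finset.sum_eq_single (a, b), co_mono_self, co_mono_self, co_mono_self]
    · rintro ⟨a', b'⟩ _ hne
      by_cases ha : a' = a
      · have hb : b' ≠ b := fun hb => hne (by rw [ha, hb])
        simp [co_mono_ne hb]
      · simp [co_mono_ne ha]
    · intro h; exact absurd (by simp [HasAntidiagonal.mem_antidiagonal]) h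
  · rw [co_mono_ne h]
    apply Finset.sum_eq_zero
    rintro ⟨a', b'⟩ hp
    rw [HasAntidiagonal.mem_antidiagonal] at hp
    by_cases ha : a' = a
    · have hb : b' ≠ b := fun hb => h (by rw [← hp, ha, hb])
      simp [co_mono_ne hb]
    · simp [co_mono_ne ha]


omit [HasAntidiagonal M] in
theorem smul_mono (r s : R) (m : M) : r • mono T m s = mono T m (r * s) := by
  classical
  ext d; simp only [co_smul, co_mono]; split_ifs <;> simp

omit [HasAntidiagonal M] in
theorem mono_eq_smul (r : R) (m : M) : mono T m r = r • Y T m := by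
  rw [Y, smul_mono, mul_one]

/-- the constant coefficient of a product when `0 = a + b` forces `a = b = 0`. -/
theorem co_mul_zero (h0 : ∀ a b : M, a + b = 0 → a = 0 ∧ b = 0) (f g : TPS T) :
    (f * g).co 0 = f.co 0 * g.co 0 := by
  classical
  rw [co_mul, Finset.sum_eq_single (0, 0)]
  · simp [wt_zero_left]
  · rintro ⟨a, b⟩ hp hne
    rw [HasAntidiagonal.mem_antidiagonal] at hp
    obtain ⟨ha, hb⟩ := h0 a b hp
    exact absurd (by simp only [ha, hb]) hne
  · intro h; exact absurd (by simp [HasAntidiagonal.mem_antidiagonal]) h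

end ring

end TPS

end Crest.Agent.R059
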