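import Mathlib
import Crest.Agent.R059.TPS_883
import Crest.Agent.R059.DilogPS_344

set_option autoImplicit false
set_option linter.unusedSectionVars false

/-!
Row 59.  Dilogarithm calculus in the twisted power series ring `TPS T`:
`ev T c f = ∑ f_k Y_c^k`, commutation with monomials, conjugations.
-/

namespace Crest.Agent.R059

open Finset PowerSeries

namespace TPS

variable {M : Type*} [AddCommMonoid M] {R : Type*} [CommRing R] {T : Tw M R}

variable (T) in
/-- `Y_c ^ k = pw T c k • Y_{k c}`; `pw = v^{β(c,c) k(k-1)/2}`. -/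
def pw (c : M) : ℕ → R
  | 0 => 1
  | k + 1 => pw c k * wt T (k • c) c

theorem wt_nsmul_left (a b : M) (k : ℕ) : wt T (k • a) b = wt T a b ^ k := by
  induction k with
  | zero => simp [wt_zero_left]
  | succ k ih => rw [add_nsmul, one_nsmul, wt_add_left, ih, pow_succ]

theorem wt_nsmul_right (a b : M) (k : ℕ) : wt T a (k • b) = wt T a b ^ k := by
  induction k with
  | zero => simp [wt_zero_right]
  | succ k ih => rw [add_nsmul, one_nsmul, wt_add_right, ih, pow_succ]

theorem pw_add (c : M) (i j : ℕ) :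
    pw T c (i + j) = pw T c i * pw T c j * wt T (i • c) (j • c) := by
  induction j with
  | zero => simp [pw, wt_zero_right]
  | succ j ih =>
    rw [← add_assoc, pw, ih, pw, add_nsmul c j 1, one_nsmul, wt_add_right, add_nsmul c i j,
      wt_add_left]
    ring

theorem pw_one_of (c : M) (h : T.β c c = 0) (k : ℕ) : pw T c k = 1 := by
  induction k with
  | zero => rfl
  | succ k ih => rw [pw, ih, wt_nsmul_left]; simp [wt, h]

variable (T) in
/-- `ev T c f = ∑ f_k Y_c^k`. -/
noncomputable def ev (c : M) (f : R⟦X⟧) : TPS T :=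
  ⟨Function.extend (fun k : ℕ => k • c) (fun k => coeff k f * pw T c k) 0⟩

/-- in `ι →₀ ℕ` every nonzero class has injective multiples. -/
theorem nsmul_inj {ι : Type*} {c : ι →₀ ℕ} (hc : c ≠ 0) :
    Function.Injective (fun k : ℕ => k • c) := by
  obtain ⟨i, hi⟩ : ∃ i, c i ≠ 0 := by
    by_contra h
    push Not at h
    exact hc (Finsupp.ext h)
  intro a b hab
  have h := DFunLike.congr_fun hab i
  simp only [Finsupp.coe_smul, Pi.smul_apply, smul_eq_mul] at h
  exact Nat.eq_of_mul_eq_mul_right (Nat.pos_of_ne_zero hi) h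

variable {c : M}

theorem co_ev_nsmul (hc : Function.Injective (fun k : ℕ => k • c)) (f : R⟦X⟧) (k : ℕ) :
    (ev T c f).co (k • c) = coeff k f * pw T c k := by
  have h := hc.extend_apply (fun k => coeff k f * pw T c k) (0 : M → R) k
  exact h

theorem co_ev_zero (hc : Function.Injective (fun k : ℕ => k • c)) (f : R⟦X⟧) :
    (ev T c f).co 0 = constantCoeff f := by
  have h := co_ev_nsmul (T := T) hc f 0
  simpa [pw] using h

theorem co_ev_of_not (f : R⟦X⟧) {d : M} (hd : ∀ k : ℕ, d ≠ k • c) :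
    (ev T c f).co d = 0 := by
  have : ¬ ∃ k : ℕ, k • c = d := by rintro ⟨k, hk⟩; exact hd k hk.symm
  simp [ev, Function.extend_apply' _ _ _ this]

theorem exists_of_co_ev_ne {f : R⟦X⟧} {d : M} (h : (ev T c f).co d ≠ 0) :
    ∃ k : ℕ, d = k • c := by
  by_contra hcon
  push Not at hcon
  exact h (co_ev_of_not f hcon)

theorem ev_add (hc : Function.Injective (fun k : ℕ => k • c)) (f g : R⟦X⟧) :
    ev T c (f + g) = ev T c f + ev T c g := by
  ext d
  by_cases hd : ∃ k : ℕ, d = k • c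
  · obtain ⟨k, rfl⟩ := hd
    rw [co_add, co_ev_nsmul hc, co_ev_nsmul hc, co_ev_nsmul hc, map_add, add_mul]
  · push Not at hd
    rw [co_add, co_ev_of_not _ hd, co_ev_of_not _ hd, co_ev_of_not _ hd, add_zero]

theorem ev_zero (hc : Function.Injective (fun k : ℕ => k • c)) : ev T c (0 : R⟦X⟧) = 0 := by
  ext d
  by_cases hd : ∃ k : ℕ, d = k • c
  · obtain ⟨k, rfl⟩ := hd
    rw [co_ev_nsmul hc]; simp
  · push Not at hd
    rw [co_ev_of_not _ hd]; simp

theorem ev_one (hc : Function.Injective (fun k : ℕ => k • c)) : ev T c (1 : R⟦X⟧) = 1 := by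
  ext d
  by_cases hd : ∃ k : ℕ, d = k • c
  · obtain ⟨k, rfl⟩ := hd
    rw [co_ev_nsmul hc, coeff_one]
    split_ifs with h
    · subst h; simp [pw]
    · rw [co_one_ne, zero_mul]
      intro h0
      exact h (hc (by simpa using h0))
  · push Not at hd
    rw [co_ev_of_not _ hd, co_one_ne]
    intro h0; exact hd 0 (by simp [h0])

theorem ev_C_mul (hc : Function.Injective (fun k : ℕ => k • c)) (r : R) (f : R⟦X⟧) :
    ev T c (C r * f) = r • ev T c f := by
  ext d
  by_cases hd : ∃ k : ℕ, d = k • c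
  · obtain ⟨k, rfl⟩ := hd
    rw [co_smul, co_ev_nsmul hc, co_ev_nsmul hc, coeff_C_mul, mul_assoc]
  · push Not at hd
    rw [co_smul, co_ev_of_not _ hd, co_ev_of_not _ hd, mul_zero]

variable [HasAntidiagonal M]

theorem ev_mul (hc : Function.Injective (fun k : ℕ => k • c)) (f g : R⟦X⟧) :
    ev T c (f * g) = ev T c f * ev T c g := by
  classical
  ext d
  by_cases hd : ∃ k : ℕ, d = k • c
  · obtain ⟨k, rfl⟩ := hd
    rw [co_ev_nsmul hc, co_mul, coeff_mul, Finset.sum_mul]
    apply Finset.sum_of_injOn (fun p : ℕ × ℕ => (p.1 • c, p.2 • c))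
    · rintro ⟨i, j⟩ _ ⟨i', j'⟩ _ h
      simp only [Prod.mk.injEq] at h
      rw [hc h.1, hc h.2]
    · rintro ⟨i, j⟩ hp
      have hp' : i + j = k := by simpa [HasAntidiagonal.mem_antidiagonal] using hp
      show (i • c, j • c) ∈ _
      simp only [Finset.mem_coe, HasAntidiagonal.mem_antidiagonal]
      rw [← add_nsmul, hp']
    · rintro ⟨a, b⟩ hab hn
      rw [HasAntidiagonal.mem_antidiagonal] at hab
      by_contra hne
      have h1 : (ev T c f).co a ≠ 0 := by
        intro h; apply hne; simp [h]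
      have h2 : (ev T c g).co b ≠ 0 := by
        intro h; apply hne; simp [h]
      obtain ⟨i, rfl⟩ := exists_of_co_ev_ne h1
      obtain ⟨j, rfl⟩ := exists_of_co_ev_ne h2
      apply hn
      refine ⟨(i, j), ?_, rfl⟩
      simp only [Finset.mem_coe, HasAntidiagonal.mem_antidiagonal]
      apply hc
      show (i + j) • c = k • c
      rw [add_nsmul]; exact hab
    · rintro ⟨i, j⟩ hp
      rw [HasAntidiagonal.mem_antidiagonal] at hp
      simp only at hp ⊢
      rw [co_ev_nsmul hc, co_ev_nsmul hc, ← hp, pw_add]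
      ring
  · push Not at hd
    rw [co_ev_of_not _ hd, co_mul]
    symm
    apply Finset.sum_eq_zero
    rintro ⟨a, b⟩ hab
    rw [HasAntidiagonal.mem_antidiagonal] at hab
    by_contra hne
    have h1 : (ev T c f).co a ≠ 0 := by
      intro h; apply hne; simp [h]
    have h2 : (ev T c g).co b ≠ 0 := by
      intro h; apply hne; simp [h]
    obtain ⟨i, rfl⟩ := exists_of_co_ev_ne h1
    obtain ⟨j, rfl⟩ := exists_of_co_ev_ne h2
    apply hd (i + j)
    rw [add_nsmul]; exact hab.symm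

variable (T) in
/-- `ev` as a ring homomorphism. -/
noncomputable def evHom (c : M) (hc : Function.Injective (fun k : ℕ => k • c)) :
    R⟦X⟧ →+* TPS T where
  toFun := ev T c
  map_one' := ev_one hc
  map_mul' := ev_mul hc
  map_zero' := ev_zero hc
  map_add' := ev_add hc

@[simp] theorem evHom_apply (hc : Function.Injective (fun k : ℕ => k • c)) (f : R⟦X⟧) :
    evHom T c hc f = ev T c f := rfl

/-- `g * f(Y_c) = f(v^K Y_c) * g` if `g` is supported on `{a : β a c - β c a = K}`. -/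
theorem mul_ev_of_supp (hc : Function.Injective (fun k : ℕ => k • c)) {g : TPS T} {K : ℤ}
    (hg : ∀ a, g.co a ≠ 0 → T.β a c - T.β c a = K) (f : R⟦X⟧) :
    g * ev T c f = ev T c (rescale ((T.v ^ K : Rˣ) : R) f) * g := by
  classical
  ext d
  rw [co_mul, co_mul]
  apply Finset.sum_nbij' (fun p => (p.2, p.1)) (fun p => (p.2, p.1))
  · rintro ⟨a, b⟩ h
    simp only [HasAntidiagonal.mem_antidiagonal] at h ⊢
    rw [add_comm]; exact h
  · rintro ⟨a, b⟩ h
    simp only [HasAntidiagonal.mem_antidiagonal] at h ⊢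
    rw [add_comm]; exact h
  · intro _ _; rfl
  · intro _ _; rfl
  · rintro ⟨a, b⟩ _
    simp only
    by_cases ha : g.co a = 0
    · simp [ha]
    by_cases hb : ∃ k : ℕ, b = k • c
    · obtain ⟨k, rfl⟩ := hb
      have hK := hg a ha
      rw [co_ev_nsmul hc, co_ev_nsmul hc, coeff_rescale, wt_nsmul_left, wt_nsmul_right]
      have h1 : wt T a c = wt T c a * ((T.v ^ K : Rˣ) : R) := by
        rw [wt, wt, ← hK, ← Units.val_mul, ← zpow_add]
        congr 2; ring
      rw [h1, mul_pow]; ring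
    · push Not at hb
      rw [co_ev_of_not _ hb, co_ev_of_not _ hb]; simp

/-- `Y_m * f(Y_c) = f(v^{com} Y_c) * Y_m`. -/
theorem mono_mul_ev (hc : Function.Injective (fun k : ℕ => k • c)) (m : M) (r : R) (f : R⟦X⟧) :
    mono T m r * ev T c f
      = ev T c (rescale ((T.v ^ (T.β m c - T.β c m) : Rˣ) : R) f) * mono T m r := by
  apply mul_ev_of_supp hc
  intro a ha
  by_cases h : a = m
  · rw [h]
  · exact absurd (co_mono_ne h r) ha

/-- `f(Y_c) * g = g * f(v^K Y_c)` if `g` is supported on `{a : β c a - β a c = K}`. -/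
theorem ev_mul_of_supp (hc : Function.Injective (fun k : ℕ => k • c)) {g : TPS T} {K : ℤ}
    (hg : ∀ a, g.co a ≠ 0 → T.β c a - T.β a c = K) (f : R⟦X⟧) :
    ev T c f * g = g * ev T c (rescale ((T.v ^ K : Rˣ) : R) f) := by
  rw [mul_ev_of_supp hc (K := -K) (fun a ha => by rw [← hg a ha]; ring), rescale_rescale,
    ← Units.val_mul, ← zpow_add]
  simp

theorem ev_mul_mono (hc : Function.Injective (fun k : ℕ => k • c)) (m : M) (r : R) (f : R⟦X⟧) :
    ev T c f * mono T m r
      = mono T m r * ev T c (rescale ((T.v ^ (T.β c m - T.β m c) : Rˣ) : R) f) := by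
  apply ev_mul_of_supp hc
  intro a ha
  by_cases h : a = m
  · rw [h]
  · exact absurd (co_mono_ne h r) ha


/-! ### dilogarithm factors -/

open Dilog344

variable (T) in
/-- the dilogarithm factor `E_p(v^a Y_c)`; `p = true` odd, `p = false` even. -/
noncomputable def dil (c : M) (p : Bool) (a : ℤ) : TPS T := ev T c (EE T.v p a)

variable (T) in
/-- its inverse -/
noncomputable def dili (c : M) (p : Bool) (a : ℤ) : TPS T := ev T c (EEi T.v p a)

theorem dil_mul_dili (hc : Function.Injective (fun k : ℕ => k • c)) (hq : QReg ((T.v : R) ^ 2))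
    (p : Bool) (a : ℤ) : dil T c p a * dili T c p a = 1 := by
  rw [dil, dili, ← ev_mul hc, EE_mul_EEi hq, ev_one hc]


theorem co_dil_zero (hc : Function.Injective (fun k : ℕ => k • c)) (p : Bool) (a : ℤ) :
    (dil T c p a).co 0 = 1 := by
  rw [dil, co_ev_zero hc, constantCoeff_EE]


/-- (X1) `E g E⁻¹ = g · XF(Y_c)` if `g` is supported on `{m : β m c - β c m = 2K}`, `K ≥ 0`. -/
theorem dil_mul_mul_dili (hc : Function.Injective (fun k : ℕ => k • c))
    (hq : QReg ((T.v : R) ^ 2)) (p : Bool) (a : ℤ) {g : TPS T} {K : ℕ}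
    (hg : ∀ m, g.co m ≠ 0 → T.β m c - T.β c m = 2 * K) :
    dil T c p a * g * dili T c p a = g * ev T c (XF T.v p a K) := by
  rw [dil, dili, ev_mul_of_supp hc (K := -(2 * K)) (fun m hm => by rw [← hg m hm]; ring),
    rescale_zpow_EE, mul_assoc, ← ev_mul hc]
  congr 2
  rw [← sub_eq_add_neg, EE_shift hq]
  calc EE T.v p a * XF T.v p a K * EEi T.v p a
      = (EE T.v p a * EEi T.v p a) * XF T.v p a K := by ring
    _ = _ := by rw [EE_mul_EEi hq, one_mul]



/-- (X4) `E⁻¹ g E = g · XF(v^{2K}Y_c)` if `g` is supported on `{m : β m c - β c m = -2K}`. -/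
theorem dili_mul_mul_dil' (hc : Function.Injective (fun k : ℕ => k • c))
    (hq : QReg ((T.v : R) ^ 2)) (p : Bool) (a : ℤ) {g : TPS T} {K : ℕ}
    (hg : ∀ m, g.co m ≠ 0 → T.β m c - T.β c m = -(2 * K)) :
    dili T c p a * g * dil T c p a = g * ev T c (XF T.v p (a + 2 * K) K) := by
  rw [dil, dili, ev_mul_of_supp hc (K := 2 * K) (fun m hm => by
      have := hg m hm; linarith),
    rescale_zpow_EEi, mul_assoc, ← ev_mul hc]
  congr 2
  have h1 := EEi_shift hq p (a + 2 * K) K
  rw [show a + 2 * (K : ℤ) - 2 * K = a by ring] at h1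
  rw [h1]
  calc EEi T.v p a * XF T.v p (a + 2 * K) K * EE T.v p a
      = (EEi T.v p a * EE T.v p a) * XF T.v p (a + 2 * K) K := by ring
    _ = _ := by rw [EEi_mul_EE hq, one_mul]


/-- a monomial is supported at one point. -/
theorem supp_mono_com {m : M} {r : R} {L : ℤ} (h : T.β m c - T.β c m = L) :
    ∀ a, (mono T m r).co a ≠ 0 → T.β a c - T.β c a = L := by
  intro a ha
  by_cases hm : a = m
  · rw [hm]; exact h
  · exact absurd (co_mono_ne hm r) ha

/-! ### positivity -/

variable (T) in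
/-- twisted series with coefficients in a subsemiring containing `v^{±1}` -/
def posTPS (S : Subsemiring R) (h1 : (T.v : R) ∈ S) (h2 : ((T.v⁻¹ : Rˣ) : R) ∈ S) :
    Subsemiring (TPS T) where
  carrier := {f | ∀ d, f.co d ∈ S}
  mul_mem' := by
    intro f g hf hg d
    rw [co_mul]
    apply S.sum_mem
    intro p _
    apply S.mul_mem
    · rw [wt]
      obtain ⟨n, hn | hn⟩ := (T.β p.1 p.2).eq_nat_or_neg
      · rw [hn, zpow_natCast, Units.val_pow_eq_pow_val]; exact S.pow_mem h1 n
      · rw [hn, zpow_neg, zpow_natCast, ← inv_pow, Units.val_pow_eq_pow_val]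
        exact S.pow_mem h2 n
    · exact S.mul_mem (hf _) (hg _)
  one_mem' := by
    classical
    intro d
    rw [co_one]
    split_ifs
    · exact S.one_mem
    · exact S.zero_mem
  add_mem' := by
    intro f g hf hg d
    rw [co_add]; exact S.add_mem (hf d) (hg d)
  zero_mem' := by intro d; rw [co_zero]; exact S.zero_mem


theorem wt_mem {S : Subsemiring R} (h1 : (T.v : R) ∈ S) (h2 : ((T.v⁻¹ : Rˣ) : R) ∈ S)
    (a b : M) : wt T a b ∈ S := by
  rw [wt]
  obtain ⟨n, hn | hn⟩ := (T.β a b).eq_nat_or_neg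
  · rw [hn, zpow_natCast, Units.val_pow_eq_pow_val]; exact S.pow_mem h1 n
  · rw [hn, zpow_neg, zpow_natCast, ← inv_pow, Units.val_pow_eq_pow_val]
    exact S.pow_mem h2 n

theorem pw_mem {S : Subsemiring R} (h1 : (T.v : R) ∈ S) (h2 : ((T.v⁻¹ : Rˣ) : R) ∈ S)
    (c : M) (k : ℕ) : pw T c k ∈ S := by
  induction k with
  | zero => exact S.one_mem
  | succ k ih => exact S.mul_mem ih (wt_mem h1 h2 _ _)

theorem ev_mem {S : Subsemiring R} {h1 : (T.v : R) ∈ S} {h2 : ((T.v⁻¹ : Rˣ) : R) ∈ S}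
    (hc : Function.Injective (fun k : ℕ => k • c)) {f : R⟦X⟧} (hf : f ∈ posPS S) :
    ev T c f ∈ posTPS T S h1 h2 := by
  intro d
  by_cases hd : ∃ k : ℕ, d = k • c
  · obtain ⟨k, rfl⟩ := hd
    rw [co_ev_nsmul hc]
    exact S.mul_mem (hf k) (pw_mem h1 h2 c k)
  · push Not at hd
    rw [co_ev_of_not _ hd]; exact S.zero_mem

/-- positivity of the crossing factor -/
theorem ev_XF_mem {S : Subsemiring R} {h1 : (T.v : R) ∈ S} {h2 : ((T.v⁻¹ : Rˣ) : R) ∈ S}
    (hc : Function.Injective (fun k : ℕ => k • c)) (p : Bool) (a : ℤ) (K : ℕ) :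
    ev T c (XF T.v p a K) ∈ posTPS T S h1 h2 :=
  ev_mem hc (XF_mem h1 h2 p a K)

/-- positivity, `K ≥ 0`: `E g E⁻¹` has coefficients in `S` if `g` has. -/
theorem dil_conj_mem {S : Subsemiring R} {h1 : (T.v : R) ∈ S} {h2 : ((T.v⁻¹ : Rˣ) : R) ∈ S}
    (hc : Function.Injective (fun k : ℕ => k • c)) (hq : QReg ((T.v : R) ^ 2))
    (p : Bool) (a : ℤ) {g : TPS T} {K : ℕ} (hgS : g ∈ posTPS T S h1 h2)
    (hg : ∀ m, g.co m ≠ 0 → T.β m c - T.β c m = 2 * K) :
    dil T c p a * g * dili T c p a ∈ posTPS T S h1 h2 := by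
  rw [dil_mul_mul_dili hc hq p a hg]
  exact (posTPS T S h1 h2).mul_mem hgS (ev_XF_mem hc p a K)

/-- positivity, `K ≤ 0`: `E⁻¹ g E` has coefficients in `S` if `g` has. -/
theorem dili_conj_mem {S : Subsemiring R} {h1 : (T.v : R) ∈ S} {h2 : ((T.v⁻¹ : Rˣ) : R) ∈ S}
    (hc : Function.Injective (fun k : ℕ => k • c)) (hq : QReg ((T.v : R) ^ 2))
    (p : Bool) (a : ℤ) {g : TPS T} {K : ℕ} (hgS : g ∈ posTPS T S h1 h2)
    (hg : ∀ m, g.co m ≠ 0 → T.β m c - T.β c m = -(2 * K)) :
    dili T c p a * g * dil T c p a ∈ posTPS T S h1 h2 := by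
  rw [dili_mul_mul_dil' hc hq p a hg]
  exact (posTPS T S h1 h2).mul_mem hgS (ev_XF_mem hc p _ K)

/-! ### the plain dilogarithm `P(v^{-a} Y_c)` of 227 with `q = v^{-2}` -/

variable (T) in
/-- `P_q(v^{-1} Y_c)`, `q = v^{-2}`: the plain wall of a node `c`. -/
noncomputable def plain (c : M) : TPS T :=
  ev T c (rescale ((T.v ^ (-1 : ℤ) : Rˣ) : R) (P (((T.v ^ (-2 : ℤ) : Rˣ)) : R)))


end TPS

end Crest.Agent.R059
private theorem rz_784dfe38f5 : type_of% @_root_.Crest.Agent.R059.TPS.pw.eq_def := @_root_.Crest.Agent.R059.TPS.pw.eq_def -- L23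
private theorem rz_e34aa3792e : type_of% @_root_.Crest.Agent.R059.TPS.pw.eq_1 := @_root_.Crest.Agent.R059.TPS.pw.eq_1 -- L23
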