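import Crest.Agent.R059.TPS_883

set_option autoImplicit false

/-!
Row 59 (S0081).  Unique factorisation in the ring of twisted power series.

`M` is a canonically ordered, cancellative, well founded monoid with finite antidiagonals
(e.g. `ι →₀ ℕ`).
For a predicate `P` on exponents every series `a` with constant term `1` is uniquely
`lft P a * rgt P a`, `lft P a` supported on `{0} ∪ P`, `rgt P a` supported on `{0} ∪ Pᶜ`.
For an additive functional `x : M →+ V` (`V` linearly ordered) this gives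
`a = pos x a * zer x a * neg x a`.
-/

namespace Crest.Agent.R059

open Finset HasAntidiagonal

namespace TPS

section basic

variable {M : Type*} [AddCommMonoid M] [PartialOrder M] [IsOrderedCancelAddMonoid M]
  [CanonicallyOrderedAdd M] [WellFoundedLT M] [HasAntidiagonal M]
variable {R : Type*} [CommRing R] {T : Tw M R}

omit [WellFoundedLT M] in
theorem fst_lt_of_mem {d : M} {p : M × M} (h : p ∈ antidiagonal d) (h2 : p.2 ≠ 0) : p.1 < d := by
  rw [HasAntidiagonal.mem_antidiagonal] at h
  rw [← h]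
  exact lt_add_of_pos_right _ (pos_iff_ne_zero.mpr h2)

omit [WellFoundedLT M] in
theorem snd_lt_of_mem {d : M} {p : M × M} (h : p ∈ antidiagonal d) (h2 : p.1 ≠ 0) : p.2 < d := by
  rw [HasAntidiagonal.mem_antidiagonal] at h
  rw [← h]
  exact lt_add_of_pos_left _ (pos_iff_ne_zero.mpr h2)

omit [IsOrderedCancelAddMonoid M] [WellFoundedLT M] in
theorem fst_le_of_mem {d : M} {p : M × M} (h : p ∈ antidiagonal d) : p.1 ≤ d := by
  rw [HasAntidiagonal.mem_antidiagonal] at h
  rw [← h]
  exact le_self_add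

omit [IsOrderedCancelAddMonoid M] [WellFoundedLT M] in
theorem snd_le_of_mem {d : M} {p : M × M} (h : p ∈ antidiagonal d) : p.2 ≤ d := by
  rw [HasAntidiagonal.mem_antidiagonal] at h
  rw [← h]
  exact le_add_self

omit [IsOrderedCancelAddMonoid M] [WellFoundedLT M] in
/-- constant coefficient of a product. -/
theorem co_mul_zero' (f g : TPS T) : (f * g).co 0 = f.co 0 * g.co 0 :=
  co_mul_zero (fun a b h => by simpa using (add_eq_zero (a := a) (b := b)).1 h) f g

open Classical in
/-- the new unknown in degree `d` of the factorisation of `a` along the predicate `P` -/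
noncomputable def unk (P : M → Prop) (a : TPS T) : M → R :=
  WellFounded.fix (wellFounded_lt : WellFounded ((· < ·) : M → M → Prop))
    fun d rec => a.co d - ∑ p ∈ (antidiagonal d).attach,
      if h : p.1.1 ≠ 0 ∧ p.1.2 ≠ 0 then
        wt T p.1.1 p.1.2 * ((if P p.1.1 then rec p.1.1 (fst_lt_of_mem p.2 h.2) else 0) *
          (if P p.1.2 then 0 else rec p.1.2 (snd_lt_of_mem p.2 h.1))) else 0

open Classical in
theorem unk_eq (P : M → Prop) (a : TPS T) (d : M) :
    unk P a d = a.co d - ∑ p ∈ antidiagonal d,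
      if p.1 ≠ 0 ∧ p.2 ≠ 0 then
        wt T p.1 p.2 * ((if P p.1 then unk P a p.1 else 0) *
          (if P p.2 then 0 else unk P a p.2)) else 0 := by
  unfold unk
  rw [WellFounded.fix_eq]
  congr 1
  rw [← sum_attach (antidiagonal d)]
  apply sum_congr rfl
  intro p _
  by_cases h : p.1.1 ≠ 0 ∧ p.1.2 ≠ 0
  · rw [dif_pos h, if_pos h]
  · rw [dif_neg h, if_neg h]

open Classical in
/-- left factor: supported on `P` -/
noncomputable def lft (P : M → Prop) (a : TPS T) : TPS T :=
  ⟨fun d => if d = 0 then 1 else if P d then unk P a d else 0⟩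

open Classical in
/-- right factor: supported off `P` -/
noncomputable def rgt (P : M → Prop) (a : TPS T) : TPS T :=
  ⟨fun d => if d = 0 then 1 else if P d then 0 else unk P a d⟩

open Classical in
omit [WellFoundedLT M] [PartialOrder M] [IsOrderedCancelAddMonoid M] [CanonicallyOrderedAdd M] in
/-- splitting off the two extreme terms of a product of series with constant term 1 -/
theorem co_mul_split {f g : TPS T} (hf : f.co 0 = 1) (hg : g.co 0 = 1) {d : M} (hd : d ≠ 0) :
    (f * g).co d = f.co d + g.co d + ∑ p ∈ antidiagonal d,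
      if p.1 ≠ 0 ∧ p.2 ≠ 0 then wt T p.1 p.2 * (f.co p.1 * g.co p.2) else 0 := by
  rw [co_mul]
  have key : ∀ p ∈ antidiagonal d, wt T p.1 p.2 * (f.co p.1 * g.co p.2) =
      (if p = (d, 0) then f.co d else 0) + (if p = (0, d) then g.co d else 0) +
      (if p.1 ≠ 0 ∧ p.2 ≠ 0 then wt T p.1 p.2 * (f.co p.1 * g.co p.2) else 0) := by
    rintro ⟨a, b⟩ hp
    rw [HasAntidiagonal.mem_antidiagonal] at hp
    simp only at hp
    by_cases ha : a = 0
    · subst ha
      rw [zero_add] at hp
      subst hp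
      simp [hd, wt_zero_left, hf]
    · by_cases hb : b = 0
      · subst hb
        rw [add_zero] at hp
        subst hp
        simp [hd, wt_zero_right, hg]
      · simp [ha, hb]
  rw [sum_congr rfl key, sum_add_distrib, sum_add_distrib, sum_ite_eq', sum_ite_eq']
  simp [HasAntidiagonal.mem_antidiagonal]

@[simp] theorem lft_zero (P : M → Prop) (a : TPS T) : (lft P a).co 0 = 1 := by
  simp [lft]

@[simp] theorem rgt_zero (P : M → Prop) (a : TPS T) : (rgt P a).co 0 = 1 := by
  simp [rgt]

theorem lft_of_not {P : M → Prop} (a : TPS T) {d : M} (hd : d ≠ 0) (hP : ¬ P d) :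
    (lft P a).co d = 0 := by
  simp [lft, hd, hP]

theorem rgt_of {P : M → Prop} (a : TPS T) {d : M} (hd : d ≠ 0) (hP : P d) :
    (rgt P a).co d = 0 := by
  simp [rgt, hd, hP]

theorem lft_mul_rgt (P : M → Prop) {a : TPS T} (ha : a.co 0 = 1) :
    lft P a * rgt P a = a := by
  classical
  ext d
  by_cases hd : d = 0
  · subst hd
    rw [co_mul_zero', lft_zero, rgt_zero, ha, one_mul]
  · rw [co_mul_split (lft_zero _ _) (rgt_zero _ _) hd]
    have h1 : (lft P a).co d + (rgt P a).co d = unk P a d := by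
      by_cases hP : P d <;> simp [lft, rgt, hd, hP]
    rw [h1, unk_eq, sub_add_eq_add_sub, sub_eq_iff_eq_add]
    congr 1
    apply sum_congr rfl
    intro p hp
    by_cases h : p.1 ≠ 0 ∧ p.2 ≠ 0
    · rw [if_pos h, if_pos h]
      simp only [lft, rgt, if_neg h.1, if_neg h.2]
    · rw [if_neg h, if_neg h]

/-- local uniqueness of the two-fold factorisation -/
theorem fac_unique_le {P : M → Prop} {f g f' g' : TPS T}
    (hf0 : f.co 0 = 1) (hg0 : g.co 0 = 1) (hf0' : f'.co 0 = 1) (hg0' : g'.co 0 = 1) (d : M)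
    (hf : ∀ e ≤ d, e ≠ 0 → ¬ P e → f.co e = 0) (hg : ∀ e ≤ d, e ≠ 0 → P e → g.co e = 0)
    (hf' : ∀ e ≤ d, e ≠ 0 → ¬ P e → f'.co e = 0) (hg' : ∀ e ≤ d, e ≠ 0 → P e → g'.co e = 0)
    (h : ∀ e ≤ d, (f * g).co e = (f' * g').co e) :
    f.co d = f'.co d ∧ g.co d = g'.co d := by
  classical
  induction d using WellFoundedLT.induction with
  | ind d ih =>
    by_cases hd : d = 0
    · subst hd; simp [hf0, hg0, hf0', hg0']
    · have h1 := h d le_rfl
      rw [co_mul_split hf0 hg0 hd, co_mul_split hf0' hg0' hd] at h1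
      have h2 : (∑ p ∈ antidiagonal d,
            if p.1 ≠ 0 ∧ p.2 ≠ 0 then wt T p.1 p.2 * (f.co p.1 * g.co p.2) else 0) =
          ∑ p ∈ antidiagonal d,
            if p.1 ≠ 0 ∧ p.2 ≠ 0 then wt T p.1 p.2 * (f'.co p.1 * g'.co p.2) else 0 := by
        apply sum_congr rfl
        intro p hp
        by_cases hh : p.1 ≠ 0 ∧ p.2 ≠ 0
        · rw [if_pos hh, if_pos hh]
          have hlt1 := fst_lt_of_mem hp hh.2
          have hlt2 := snd_lt_of_mem hp hh.1
          have e1 := (ih p.1 hlt1 (fun e he => hf e (he.trans hlt1.le))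
            (fun e he => hg e (he.trans hlt1.le)) (fun e he => hf' e (he.trans hlt1.le))
            (fun e he => hg' e (he.trans hlt1.le)) (fun e he => h e (he.trans hlt1.le))).1
          have e2 := (ih p.2 hlt2 (fun e he => hf e (he.trans hlt2.le))
            (fun e he => hg e (he.trans hlt2.le)) (fun e he => hf' e (he.trans hlt2.le))
            (fun e he => hg' e (he.trans hlt2.le)) (fun e he => h e (he.trans hlt2.le))).2
          rw [e1, e2]
        · rw [if_neg hh, if_neg hh]
      rw [h2] at h1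
      have h3 : f.co d + g.co d = f'.co d + g'.co d := add_right_cancel h1
      by_cases hP : P d
      · have a1 := hg d le_rfl hd hP
        have a2 := hg' d le_rfl hd hP
        rw [a1, a2] at h3 ⊢
        simpa using h3
      · have a1 := hf d le_rfl hd hP
        have a2 := hf' d le_rfl hd hP
        rw [a1, a2] at h3 ⊢
        simpa using h3

theorem fac_unique {P : M → Prop} {a f g : TPS T}
    (hf0 : f.co 0 = 1) (hg0 : g.co 0 = 1)
    (hf : ∀ e, e ≠ 0 → ¬ P e → f.co e = 0) (hg : ∀ e, e ≠ 0 → P e → g.co e = 0)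
    (h : f * g = a) : f = lft P a ∧ g = rgt P a := by
  have ha : a.co 0 = 1 := by
    rw [← h, co_mul_zero', hf0, hg0, one_mul]
  have key : ∀ d, f.co d = (lft P a).co d ∧ g.co d = (rgt P a).co d := fun d =>
    fac_unique_le hf0 hg0 (lft_zero _ _) (rgt_zero _ _) d
      (fun e _ => hf e) (fun e _ => hg e) (fun e _ => lft_of_not a)
      (fun e _ => rgt_of a) (fun e _ => by rw [h, lft_mul_rgt P ha])
  exact ⟨TPS.ext (funext fun d => (key d).1), TPS.ext (funext fun d => (key d).2)⟩

/-- the factors in degree `d` only depend on `a` and `P` in degrees `≤ d` -/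
theorem lft_rgt_congr {P P' : M → Prop} {a a' : TPS T} (ha : a.co 0 = 1) (d : M)
    (haa : ∀ e ≤ d, a.co e = a'.co e) (hP : ∀ e ≤ d, e ≠ 0 → (P e ↔ P' e)) :
    (lft P a).co d = (lft P' a').co d ∧ (rgt P a).co d = (rgt P' a').co d := by
  have ha' : a'.co 0 = 1 := by rw [← haa 0 zero_le, ha]
  refine fac_unique_le (P := P) (lft_zero _ _) (rgt_zero _ _) (lft_zero _ _)
    (rgt_zero _ _) d (fun e _ => lft_of_not a) (fun e _ => rgt_of a)
    (fun e he h0 hPe => lft_of_not a' h0 (by rwa [← hP e he h0]))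
    (fun e he h0 hPe => rgt_of a' h0 (by rwa [← hP e he h0])) ?_
  intro e he
  rw [lft_mul_rgt P ha, lft_mul_rgt P' ha', haa e he]

/-! ### supports -/

/-- constant term `1`, all other exponents of the support satisfy `P`. -/
structure In1 {M : Type*} [AddCommMonoid M] {R : Type*} [CommRing R] {T : Tw M R}
    (P : M → Prop) (f : TPS T) : Prop where
  one : f.co 0 = 1
  supp : ∀ d, d ≠ 0 → ¬ P d → f.co d = 0

omit [PartialOrder M] [IsOrderedCancelAddMonoid M] [CanonicallyOrderedAdd M] [WellFoundedLT M]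
  [HasAntidiagonal M] in
theorem In1.mono {P Q : M → Prop} {f : TPS T} (h : In1 P f) (hPQ : ∀ d, d ≠ 0 → P d → Q d) :
    In1 Q f := ⟨h.one, fun d hd hQ => h.supp d hd (fun hP => hQ (hPQ d hd hP))⟩

omit [PartialOrder M] [IsOrderedCancelAddMonoid M] [CanonicallyOrderedAdd M] [WellFoundedLT M]
  [HasAntidiagonal M] in
theorem In1.eq_zero_or {P : M → Prop} {f : TPS T} (h : In1 P f) {d : M} (hd : f.co d ≠ 0) :
    d = 0 ∨ P d := by
  by_contra hc
  push Not at hc
  exact hd (h.supp d hc.1 hc.2)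

omit [PartialOrder M] [IsOrderedCancelAddMonoid M] [CanonicallyOrderedAdd M] [WellFoundedLT M]
  [HasAntidiagonal M] in
theorem in1_one (P : M → Prop) : In1 P (1 : TPS T) := ⟨co_one_zero, fun _ hd _ => co_one_ne hd⟩

omit [IsOrderedCancelAddMonoid M] [WellFoundedLT M] in
theorem In1.mul {P : M → Prop} (hP : ∀ a b, P a → P b → P (a + b)) {f g : TPS T}
    (hf : In1 P f) (hg : In1 P g) : In1 P (f * g) := by
  refine ⟨by rw [co_mul_zero', hf.one, hg.one, one_mul], fun d hd hPd => ?_⟩
  rw [co_mul]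
  apply sum_eq_zero
  intro p hp
  rw [HasAntidiagonal.mem_antidiagonal] at hp
  by_contra hc
  have h1 : f.co p.1 ≠ 0 := fun h => hc (by rw [h]; ring)
  have h2 : g.co p.2 ≠ 0 := fun h => hc (by rw [h]; ring)
  rcases hf.eq_zero_or h1 with e1 | e1 <;> rcases hg.eq_zero_or h2 with e2 | e2
  · apply hd; rw [← hp, e1, e2, add_zero]
  · apply hPd; rw [← hp, e1, zero_add]; exact e2
  · apply hPd; rw [← hp, e2, add_zero]; exact e1
  · apply hPd; rw [← hp]; exact hP _ _ e1 e2

/-- all exponents of `f` satisfy `P` (no exception for `0`). -/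
def Supp {M : Type*} [AddCommMonoid M] {R : Type*} [CommRing R] {T : Tw M R}
    (P : M → Prop) (f : TPS T) : Prop := ∀ d, ¬ P d → f.co d = 0

omit [PartialOrder M] [IsOrderedCancelAddMonoid M] [CanonicallyOrderedAdd M] [WellFoundedLT M] in
theorem Supp.mul {A B C : M → Prop} {f g : TPS T} (hf : Supp A f) (hg : Supp B g)
    (h : ∀ a b, A a → B b → C (a + b)) : Supp C (f * g) := by
  intro d hd
  rw [co_mul]
  apply sum_eq_zero
  intro p hp
  rw [HasAntidiagonal.mem_antidiagonal] at hp
  by_cases h1 : A p.1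
  · have h2 : ¬ B p.2 := fun h2 => hd (hp ▸ h _ _ h1 h2)
    rw [hg _ h2]; ring
  · rw [hf _ h1]; ring

omit [PartialOrder M] [IsOrderedCancelAddMonoid M] [CanonicallyOrderedAdd M] [WellFoundedLT M]
  [HasAntidiagonal M] in
theorem In1.toSupp {P : M → Prop} {f : TPS T} (h : In1 P f) : Supp (fun d => d = 0 ∨ P d) f :=
  fun d hd => h.supp d (fun h' => hd (Or.inl h')) (fun h' => hd (Or.inr h'))

omit [PartialOrder M] [IsOrderedCancelAddMonoid M] [CanonicallyOrderedAdd M] [WellFoundedLT M]
  [HasAntidiagonal M] in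
theorem In1.supp_sub_one {P : M → Prop} {f : TPS T} (h : In1 P f) :
    Supp (fun d => d ≠ 0 ∧ P d) (f - 1) := by
  intro d hd
  by_cases h0 : d = 0
  · subst h0; rw [co_sub, h.one, co_one_zero, sub_self]
  · rw [co_sub, co_one_ne h0, h.supp d h0 (fun hP => hd ⟨h0, hP⟩), sub_zero]

omit [PartialOrder M] [IsOrderedCancelAddMonoid M] [CanonicallyOrderedAdd M] [WellFoundedLT M]
  [HasAntidiagonal M] in
theorem in1_of_supp_sub_one {P : M → Prop} {f : TPS T}
    (h : Supp (fun d => d ≠ 0 ∧ P d) (f - 1)) : In1 P f := by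
  refine ⟨?_, fun d hd hP => ?_⟩
  · have := h 0 (fun h => h.1 rfl)
    rw [co_sub, co_one_zero] at this
    exact sub_eq_zero.1 this
  · have := h d (fun h => hP h.2)
    rwa [co_sub, co_one_ne hd, sub_zero] at this

theorem in1_lft (P : M → Prop) (a : TPS T) : In1 P (lft P a) :=
  ⟨lft_zero P a, fun _ => lft_of_not a⟩

theorem in1_rgt (P : M → Prop) (a : TPS T) : In1 (fun d => ¬ P d) (rgt P a) :=
  ⟨rgt_zero P a, fun _ hd h => rgt_of a hd (not_not.1 h)⟩

/-- supports: if `a` is supported on an additively closed set then so is `unk` -/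
theorem unk_supp {S : M → Prop} (hadd : ∀ a b, S a → S b → S (a + b)) (P : M → Prop) {a : TPS T}
    (hS : In1 S a) (d : M) (h0 : d ≠ 0) (hd : ¬ S d) : unk P a d = 0 := by
  classical
  induction d using WellFoundedLT.induction with
  | ind d ih =>
    rw [unk_eq, hS.supp d h0 hd, zero_sub, neg_eq_zero]
    apply sum_eq_zero
    intro p hp
    by_cases hh : p.1 ≠ 0 ∧ p.2 ≠ 0
    · rw [if_pos hh]
      have hlt1 := fst_lt_of_mem hp hh.2
      have hlt2 := snd_lt_of_mem hp hh.1
      rw [HasAntidiagonal.mem_antidiagonal] at hp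
      by_cases h1 : S p.1
      · have h2 : ¬ S p.2 := fun h2 => hd (hp ▸ hadd _ _ h1 h2)
        rw [ih p.2 hlt2 hh.2 h2]; simp
      · rw [ih p.1 hlt1 hh.1 h1]; simp
    · rw [if_neg hh]

theorem In1.lft {S : M → Prop} (hadd : ∀ a b, S a → S b → S (a + b)) (P : M → Prop) {a : TPS T}
    (hS : In1 S a) : In1 (fun d => P d ∧ S d) (lft P a) := by
  refine ⟨lft_zero P a, fun d hd hPS => ?_⟩
  by_cases hP : P d
  · have : ¬ S d := fun h => hPS ⟨hP, h⟩
    simp [TPS.lft, hd, unk_supp hadd P hS d hd this]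
  · exact lft_of_not a hd hP

theorem In1.rgt {S : M → Prop} (hadd : ∀ a b, S a → S b → S (a + b)) (P : M → Prop) {a : TPS T}
    (hS : In1 S a) : In1 (fun d => ¬ P d ∧ S d) (rgt P a) := by
  refine ⟨rgt_zero P a, fun d hd hPS => ?_⟩
  by_cases hP : P d
  · exact rgt_of a hd hP
  · have : ¬ S d := fun h => hPS ⟨hP, h⟩
    simp [TPS.rgt, hd, unk_supp hadd P hS d hd this]

/-! ### inverses -/

open Classical in
/-- coefficients of the inverse -/
noncomputable def invCo (a : TPS T) : M → R :=
  WellFounded.fix (wellFounded_lt : WellFounded ((· < ·) : M → M → Prop))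
    fun d rec => if d = 0 then 1 else - ∑ p ∈ (antidiagonal d).attach,
      if h : p.1.1 ≠ 0 then
        wt T p.1.1 p.1.2 * (a.co p.1.1 * rec p.1.2 (snd_lt_of_mem p.2 h)) else 0

open Classical in
theorem invCo_eq (a : TPS T) (d : M) :
    invCo a d = if d = 0 then 1 else - ∑ p ∈ antidiagonal d,
      if p.1 ≠ 0 then wt T p.1 p.2 * (a.co p.1 * invCo a p.2) else 0 := by
  unfold invCo
  rw [WellFounded.fix_eq]
  by_cases hd : d = 0
  · rw [if_pos hd, if_pos hd]
  rw [if_neg hd, if_neg hd]
  congr 1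
  rw [← sum_attach (antidiagonal d)]
  apply sum_congr rfl
  intro p _
  by_cases h : p.1.1 ≠ 0
  · rw [dif_pos h, if_pos h]
  · rw [dif_neg h, if_neg h]

/-- the inverse of a series with constant term `1` (junk otherwise). -/
noncomputable def inv (a : TPS T) : TPS T := ⟨invCo a⟩

@[simp] theorem inv_zero (a : TPS T) : (inv a).co 0 = 1 := by
  simp [inv, invCo_eq]

theorem mul_inv {a : TPS T} (ha : a.co 0 = 1) : a * inv a = 1 := by
  classical
  ext d
  by_cases hd : d = 0
  · subst hd
    rw [co_mul_zero', ha, inv_zero, one_mul, co_one_zero]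
  · rw [co_one_ne hd, co_mul]
    have key : ∀ p ∈ antidiagonal d, wt T p.1 p.2 * (a.co p.1 * (inv a).co p.2) =
        (if p = (0, d) then invCo a d else 0) +
        (if p.1 ≠ 0 then wt T p.1 p.2 * (a.co p.1 * invCo a p.2) else 0) := by
      rintro ⟨e, b⟩ hp
      rw [HasAntidiagonal.mem_antidiagonal] at hp
      simp only at hp
      by_cases he : e = 0
      · subst he
        rw [zero_add] at hp
        subst hp
        simp [wt_zero_left, ha, inv]
      · simp [he, inv]
    rw [sum_congr rfl key, sum_add_distrib, sum_ite_eq', invCo_eq]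
    simp [HasAntidiagonal.mem_antidiagonal, hd]

theorem inv_inv {a : TPS T} (ha : a.co 0 = 1) : inv (inv a) = a := by
  have h1 := mul_inv ha
  have h2 := mul_inv (inv_zero a)
  calc inv (inv a) = (a * inv a) * inv (inv a) := by rw [h1, one_mul]
    _ = a := by rw [mul_assoc, h2, mul_one]

theorem inv_mul {a : TPS T} (ha : a.co 0 = 1) : inv a * a = 1 := by
  have h2 := mul_inv (inv_zero a)
  rwa [inv_inv ha] at h2

theorem inv_eq_of_mul {a b : TPS T} (ha : a.co 0 = 1) (h : a * b = 1) : inv a = b := by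
  calc inv a = inv a * (a * b) := by rw [h, mul_one]
    _ = b := by rw [← mul_assoc, inv_mul ha, one_mul]


theorem inv_mul_rev {a b : TPS T} (ha : a.co 0 = 1) (hb : b.co 0 = 1) :
    inv (a * b) = inv b * inv a := by
  apply inv_eq_of_mul (by rw [co_mul_zero', ha, hb, one_mul])
  rw [mul_assoc, ← mul_assoc b, mul_inv hb, one_mul, mul_inv ha]

theorem inv_one : inv (1 : TPS T) = 1 := inv_eq_of_mul co_one_zero (one_mul 1)

theorem In1.inv {P : M → Prop} (hP : ∀ a b, P a → P b → P (a + b)) {f : TPS T}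
    (hf : In1 P f) : In1 P (inv f) := by
  classical
  refine ⟨inv_zero f, fun d => ?_⟩
  induction d using WellFoundedLT.induction with
  | ind d ih =>
    intro hd hPd
    change invCo f d = 0
    rw [invCo_eq, if_neg hd, neg_eq_zero]
    apply sum_eq_zero
    intro p hp
    by_cases hh : p.1 ≠ 0
    · rw [if_pos hh]
      have hlt2 := snd_lt_of_mem hp hh
      by_cases h1 : P p.1
      · have h2 : p.2 ≠ 0 := by
          intro h2
          rw [HasAntidiagonal.mem_antidiagonal] at hp
          apply hPd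
          rw [← hp, h2, add_zero]
          exact h1
        have h3 : ¬ P p.2 := by
          intro h3
          rw [HasAntidiagonal.mem_antidiagonal] at hp
          exact hPd (hp ▸ hP _ _ h1 h3)
        have h4 : invCo f p.2 = 0 := ih p.2 hlt2 h2 h3
        rw [h4]; ring
      · rw [hf.supp p.1 hh h1]; ring
    · rw [if_neg hh]

/-- conjugation by a series supported on `S` preserves `In1 P` if `S + P ⊆ P`. -/
theorem In1.conj {S P : M → Prop} (hS : ∀ a b, S a → S b → S (a + b))
    (hSP : ∀ a b, S a → P b → P (a + b)) {z p : TPS T} (hz : In1 S z) (hp : In1 P p) :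
    In1 P (z * p * TPS.inv z) := by
  apply in1_of_supp_sub_one
  have e : z * p * TPS.inv z - 1 = z * (p - 1) * TPS.inv z := by
    rw [mul_sub, sub_mul, mul_one, mul_inv hz.one]
  rw [e]
  have h1 : Supp (fun d => d ≠ 0 ∧ P d) (z * (p - 1)) := by
    refine hz.toSupp.mul hp.supp_sub_one ?_
    rintro a b (rfl | ha) ⟨hb, hb'⟩
    · rw [zero_add]; exact ⟨hb, hb'⟩
    · exact ⟨fun h => hb (add_eq_zero.1 h).2, hSP a b ha hb'⟩
  refine h1.mul (hz.inv hS).toSupp ?_
  rintro a b ⟨ha, ha'⟩ (rfl | hb)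
  · rw [add_zero]; exact ⟨ha, ha'⟩
  · exact ⟨fun h => ha (add_eq_zero.1 h).1, by rw [add_comm]; exact hSP b a hb ha'⟩

theorem In1.conj' {S P : M → Prop} (hS : ∀ a b, S a → S b → S (a + b))
    (hSP : ∀ a b, S a → P b → P (a + b)) {z p : TPS T} (hz : In1 S z) (hp : In1 P p) :
    In1 P (TPS.inv z * p * z) := by
  have := (hz.inv hS).conj hS hSP hp
  rwa [TPS.inv_inv hz.one] at this




omit [PartialOrder M] [IsOrderedCancelAddMonoid M] [CanonicallyOrderedAdd M] [WellFoundedLT M] in
/-- products only depend on the coefficients below. -/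
theorem co_mul_congr {f g f' g' : TPS T} (d : M)
    (hf : ∀ p : M × M, p ∈ antidiagonal d → f.co p.1 = f'.co p.1)
    (hg : ∀ p : M × M, p ∈ antidiagonal d → g.co p.2 = g'.co p.2) :
    (f * g).co d = (f' * g').co d := by
  rw [co_mul, co_mul]
  apply sum_congr rfl
  intro p hp
  rw [hf _ hp, hg _ hp]

omit [IsOrderedCancelAddMonoid M] [WellFoundedLT M] in
theorem co_mul_congr_le {f g f' g' : TPS T} (d : M)
    (hf : ∀ e ≤ d, f.co e = f'.co e) (hg : ∀ e ≤ d, g.co e = g'.co e) :
    (f * g).co d = (f' * g').co d :=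
  co_mul_congr d (fun _ h => hf _ (fst_le_of_mem h)) (fun _ h => hg _ (snd_le_of_mem h))

theorem co_inv_congr_le {f f' : TPS T} (d : M) (hf : ∀ e ≤ d, f.co e = f'.co e) :
    (inv f).co d = (inv f').co d := by
  classical
  induction d using WellFoundedLT.induction with
  | ind d ih =>
    change invCo f d = invCo f' d
    rw [invCo_eq, invCo_eq]
    by_cases hd : d = 0
    · rw [if_pos hd, if_pos hd]
    rw [if_neg hd, if_neg hd]
    congr 1
    apply sum_congr rfl
    intro p hp
    by_cases hh : p.1 ≠ 0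
    · rw [if_pos hh, if_pos hh, hf p.1 (fst_le_of_mem hp)]
      have hlt2 := snd_lt_of_mem hp hh
      have h4 : invCo f p.2 = invCo f' p.2 := ih p.2 hlt2 (fun e he => hf e (he.trans hlt2.le))
      rw [h4]
    · rw [if_neg hh, if_neg hh]

end basic

/-! ### the threefold factorisation along an additive functional -/

section functional

variable {M : Type*} [AddCommMonoid M] [PartialOrder M] [IsOrderedCancelAddMonoid M]
  [CanonicallyOrderedAdd M] [WellFoundedLT M] [HasAntidiagonal M]
variable {R : Type*} [CommRing R] {T : Tw M R}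
variable {V : Type*} [AddCommGroup V] [LinearOrder V] [IsOrderedAddMonoid V]
variable {W : Type*} [AddCommGroup W] [LinearOrder W] [IsOrderedAddMonoid W]

/-- the part of `a` with `x > 0` -/
noncomputable def pos (x : M →+ V) (a : TPS T) : TPS T := lft (fun d => 0 < x d) a

/-- the part of `a` with `x ≤ 0` -/
noncomputable def npos (x : M →+ V) (a : TPS T) : TPS T := rgt (fun d => 0 < x d) a

/-- the part of `a` with `x = 0` -/
noncomputable def zer (x : M →+ V) (a : TPS T) : TPS T := lft (fun d => x d = 0) (npos x a)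

/-- the part of `a` with `x < 0` -/
noncomputable def neg (x : M →+ V) (a : TPS T) : TPS T := rgt (fun d => x d = 0) (npos x a)

omit [IsOrderedAddMonoid V] in
@[simp] theorem pos_co_zero (x : M →+ V) (a : TPS T) : (pos x a).co 0 = 1 := lft_zero _ _
omit [IsOrderedAddMonoid V] in
@[simp] theorem npos_co_zero (x : M →+ V) (a : TPS T) : (npos x a).co 0 = 1 := rgt_zero _ _
omit [IsOrderedAddMonoid V] in
@[simp] theorem zer_co_zero (x : M →+ V) (a : TPS T) : (zer x a).co 0 = 1 := lft_zero _ _
omit [IsOrderedAddMonoid V] in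
@[simp] theorem neg_co_zero (x : M →+ V) (a : TPS T) : (neg x a).co 0 = 1 := rgt_zero _ _

omit [IsOrderedAddMonoid V] in
theorem pos_mul_npos (x : M →+ V) {a : TPS T} (ha : a.co 0 = 1) : pos x a * npos x a = a :=
  lft_mul_rgt _ ha

omit [IsOrderedAddMonoid V] in
theorem zer_mul_neg (x : M →+ V) (a : TPS T) : zer x a * neg x a = npos x a :=
  lft_mul_rgt _ (npos_co_zero x a)

omit [IsOrderedAddMonoid V] in
/-- **(F1)** `a = a_{>0} a_{=0} a_{<0}` -/
theorem pos_mul_zer_mul_neg (x : M →+ V) {a : TPS T} (ha : a.co 0 = 1) :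
    pos x a * zer x a * neg x a = a := by
  rw [mul_assoc, zer_mul_neg, pos_mul_npos x ha]

omit [PartialOrder M] [IsOrderedCancelAddMonoid M] [CanonicallyOrderedAdd M] [WellFoundedLT M]
  [HasAntidiagonal M] in
theorem closed_pos (x : M →+ V) : ∀ a b, 0 < x a → 0 < x b → 0 < x (a + b) :=
  fun a b ha hb => by rw [map_add]; exact add_pos ha hb
omit [PartialOrder M] [IsOrderedCancelAddMonoid M] [CanonicallyOrderedAdd M] [WellFoundedLT M]
  [HasAntidiagonal M] in
theorem closed_neg (x : M →+ V) : ∀ a b, x a < 0 → x b < 0 → x (a + b) < 0 :=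
  fun a b ha hb => by rw [map_add]; exact add_neg ha hb
omit [PartialOrder M] [IsOrderedCancelAddMonoid M] [CanonicallyOrderedAdd M] [WellFoundedLT M]
  [HasAntidiagonal M] [LinearOrder V] [IsOrderedAddMonoid V] in
theorem closed_zero (x : M →+ V) : ∀ a b, x a = 0 → x b = 0 → x (a + b) = 0 :=
  fun a b ha hb => by rw [map_add, ha, hb, add_zero]
omit [PartialOrder M] [IsOrderedCancelAddMonoid M] [CanonicallyOrderedAdd M] [WellFoundedLT M]
  [HasAntidiagonal M] in
theorem closed_le (x : M →+ V) : ∀ a b, x a ≤ 0 → x b ≤ 0 → x (a + b) ≤ 0 :=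
  fun a b ha hb => by rw [map_add]; exact add_nonpos ha hb

omit [IsOrderedAddMonoid V] in
theorem in1_pos (x : M →+ V) (a : TPS T) : In1 (fun d => 0 < x d) (pos x a) := in1_lft _ _

omit [IsOrderedAddMonoid V] in
theorem in1_zer (x : M →+ V) (a : TPS T) : In1 (fun d => x d = 0) (zer x a) := in1_lft _ _

omit [IsOrderedAddMonoid V] in
theorem in1_npos (x : M →+ V) (a : TPS T) : In1 (fun d => x d ≤ 0) (npos x a) :=
  (in1_rgt _ _).mono fun _ _ h => not_lt.1 h

theorem in1_neg (x : M →+ V) (a : TPS T) : In1 (fun d => x d < 0) (neg x a) :=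
  ((in1_npos x a).rgt (closed_le x) _).mono fun _ _ h => lt_of_le_of_ne h.2 h.1

omit [IsOrderedAddMonoid V] in
theorem pos_npos_unique (x : M →+ V) {p r : TPS T} (hp : In1 (fun d => 0 < x d) p)
    (hr : In1 (fun d => x d ≤ 0) r) : pos x (p * r) = p ∧ npos x (p * r) = r := by
  have h := fac_unique (P := fun d => 0 < x d) (a := p * r) hp.one hr.one hp.supp
    (fun e he h => hr.supp e he (not_le.2 h)) rfl
  exact ⟨h.1.symm, h.2.symm⟩

/-- **(F1) uniqueness** -/
theorem pzn_unique (x : M →+ V) {p z n : TPS T} (hp : In1 (fun d => 0 < x d) p)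
    (hz : In1 (fun d => x d = 0) z) (hn : In1 (fun d => x d < 0) n) :
    pos x (p * z * n) = p ∧ zer x (p * z * n) = z ∧ neg x (p * z * n) = n := by
  have hzn : In1 (fun d => x d ≤ 0) (z * n) :=
    (hz.mono fun _ _ h => h.le).mul (closed_le x) (hn.mono fun _ _ h => le_of_lt h)
  have h1 := pos_npos_unique x hp hzn
  have h2 := fac_unique (P := fun d => x d = 0) (a := z * n) hz.one hn.one hz.supp
    (fun e he h => hn.supp e he (by rw [h]; exact lt_irrefl 0)) rfl
  rw [mul_assoc]
  refine ⟨h1.1, ?_, ?_⟩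
  · rw [zer, h1.2]; exact h2.1.symm
  · rw [neg, h1.2]; exact h2.2.symm

theorem pzn_unique' (x : M →+ V) {p z n a : TPS T} (hp : In1 (fun d => 0 < x d) p)
    (hz : In1 (fun d => x d = 0) z) (hn : In1 (fun d => x d < 0) n) (h : p * z * n = a) :
    pos x a = p ∧ zer x a = z ∧ neg x a = n := h ▸ pzn_unique x hp hz hn

omit [IsOrderedAddMonoid V] [IsOrderedAddMonoid W] in
/-- **(F3)** the parts in degree `d` depend only on `a` and the signs of `x` in degrees `≤ d`. -/
theorem pos_congr (x : M →+ V) (x' : M →+ W) {a a' : TPS T} (ha : a.co 0 = 1) (d : M)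
    (haa : ∀ e ≤ d, a.co e = a'.co e) (hp : ∀ e ≤ d, (0 < x e ↔ 0 < x' e)) :
    (pos x a).co d = (pos x' a').co d ∧ (npos x a).co d = (npos x' a').co d :=
  lft_rgt_congr ha d haa fun e he _ => hp e he

omit [IsOrderedAddMonoid V] [IsOrderedAddMonoid W] in
/-- **(F3)** the parts in degree `d` depend only on `a` and the signs of `x` in degrees `≤ d`. -/
theorem zer_congr (x : M →+ V) (x' : M →+ W) {a a' : TPS T} (ha : a.co 0 = 1) (d : M)
    (haa : ∀ e ≤ d, a.co e = a'.co e) (hp : ∀ e ≤ d, (0 < x e ↔ 0 < x' e))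
    (hz : ∀ e ≤ d, (x e = 0 ↔ x' e = 0)) :
    (zer x a).co d = (zer x' a').co d ∧ (neg x a).co d = (neg x' a').co d :=
  lft_rgt_congr (npos_co_zero _ _) d
    (fun e he => (pos_congr x x' ha e (fun c hc => haa c (hc.trans he))
      (fun c hc => hp c (hc.trans he))).2) fun e he _ => hz e he

/-! parts and supports -/

omit [IsOrderedAddMonoid V] in
theorem In1.pos {S : M → Prop} (hadd : ∀ a b, S a → S b → S (a + b)) (x : M →+ V) {a : TPS T}
    (hS : In1 S a) : In1 (fun d => 0 < x d ∧ S d) (pos x a) := hS.lft hadd _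

omit [IsOrderedAddMonoid V] in
theorem In1.npos {S : M → Prop} (hadd : ∀ a b, S a → S b → S (a + b)) (x : M →+ V) {a : TPS T}
    (hS : In1 S a) : In1 (fun d => x d ≤ 0 ∧ S d) (npos x a) :=
  (hS.rgt hadd _).mono fun _ _ h => ⟨not_lt.1 h.1, h.2⟩

theorem In1.zer {S : M → Prop} (hadd : ∀ a b, S a → S b → S (a + b)) (x : M →+ V) {a : TPS T}
    (hS : In1 S a) : In1 (fun d => x d = 0 ∧ S d) (zer x a) := by
  have h := (hS.npos hadd x).lft
    (fun a b ha hb => ⟨closed_le x a b ha.1 hb.1, hadd a b ha.2 hb.2⟩) (fun d => x d = 0)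
  exact h.mono fun _ _ h => ⟨h.1, h.2.2⟩

theorem In1.neg {S : M → Prop} (hadd : ∀ a b, S a → S b → S (a + b)) (x : M →+ V) {a : TPS T}
    (hS : In1 S a) : In1 (fun d => x d < 0 ∧ S d) (neg x a) := by
  have h := (hS.npos hadd x).rgt
    (fun a b ha hb => ⟨closed_le x a b ha.1 hb.1, hadd a b ha.2 hb.2⟩) (fun d => x d = 0)
  exact h.mono fun _ _ h => ⟨lt_of_le_of_ne h.2.1 h.1, h.2.2⟩





theorem pos_of_nonpos (x : M →+ V) {a : TPS T} (h : In1 (fun d => x d ≤ 0) a) :
    pos x a = 1 := by
  ext d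
  by_cases hd : d = 0
  · subst hd; rw [pos_co_zero, co_one_zero]
  · rw [co_one_ne hd]
    exact (h.pos (closed_le x) x).supp d hd fun hh => not_lt.2 hh.2 hh.1

/-- **(F5)** multiplication by a positive series on the left -/
theorem parts_pos_mul (x : M →+ V) {p a : TPS T} (hp : In1 (fun d => 0 < x d) p)
    (ha : a.co 0 = 1) :
    pos x (p * a) = p * pos x a ∧ zer x (p * a) = zer x a ∧ neg x (p * a) = neg x a :=
  pzn_unique' x (hp.mul (closed_pos x) (in1_pos x a)) (in1_zer x a) (in1_neg x a)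
    (by rw [mul_assoc, mul_assoc, ← mul_assoc (pos x a), pos_mul_zer_mul_neg x ha])

/-- **(F5)** multiplication by a negative series on the right -/
theorem parts_mul_neg (x : M →+ V) {a n : TPS T} (hn : In1 (fun d => x d < 0) n)
    (ha : a.co 0 = 1) :
    pos x (a * n) = pos x a ∧ zer x (a * n) = zer x a ∧ neg x (a * n) = neg x a * n :=
  pzn_unique' x (in1_pos x a) (in1_zer x a) ((in1_neg x a).mul (closed_neg x) hn)
    (by rw [← mul_assoc, pos_mul_zer_mul_neg x ha])

omit [IsOrderedAddMonoid V] in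
theorem conj_pos (x : M →+ V) {z p : TPS T} (hz : In1 (fun d => x d = 0) z)
    (hp : In1 (fun d => 0 < x d) p) :
    In1 (fun d => 0 < x d) (z * p * inv z) ∧ In1 (fun d => 0 < x d) (inv z * p * z) :=
  ⟨hz.conj (closed_zero x) (fun a b ha hb => by rw [map_add, ha, zero_add]; exact hb) hp,
    hz.conj' (closed_zero x) (fun a b ha hb => by rw [map_add, ha, zero_add]; exact hb) hp⟩

omit [IsOrderedAddMonoid V] in
theorem conj_neg (x : M →+ V) {z p : TPS T} (hz : In1 (fun d => x d = 0) z)
    (hp : In1 (fun d => x d < 0) p) :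
    In1 (fun d => x d < 0) (z * p * inv z) ∧ In1 (fun d => x d < 0) (inv z * p * z) :=
  ⟨hz.conj (closed_zero x) (fun a b ha hb => by rw [map_add, ha, zero_add]; exact hb) hp,
    hz.conj' (closed_zero x) (fun a b ha hb => by rw [map_add, ha, zero_add]; exact hb) hp⟩



/-! ### (F4) refinement -/

omit [PartialOrder M] [IsOrderedCancelAddMonoid M] [CanonicallyOrderedAdd M] [WellFoundedLT M]
  [HasAntidiagonal M] [LinearOrder V] [IsOrderedAddMonoid V] [LinearOrder W]
  [IsOrderedAddMonoid W] in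
/-- the lexicographic functional -/
def lexHom (x : M →+ V) (y : M →+ W) : M →+ Lex (V × W) where
  toFun d := toLex (x d, y d)
  map_zero' := by rw [map_zero, map_zero]; rfl
  map_add' a b := by rw [map_add, map_add]; rfl

omit [PartialOrder M] [IsOrderedCancelAddMonoid M] [CanonicallyOrderedAdd M] [WellFoundedLT M]
  [HasAntidiagonal M] [IsOrderedAddMonoid V] [IsOrderedAddMonoid W] in
theorem lexHom_pos (x : M →+ V) (y : M →+ W) (d : M) :
    0 < lexHom x y d ↔ 0 < x d ∨ (x d = 0 ∧ 0 < y d) := by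
  change toLex ((0 : V), (0 : W)) < toLex (x d, y d) ↔ _
  rw [Prod.Lex.toLex_lt_toLex]
  simp only [eq_comm]

omit [PartialOrder M] [IsOrderedCancelAddMonoid M] [CanonicallyOrderedAdd M] [WellFoundedLT M]
  [HasAntidiagonal M] [IsOrderedAddMonoid V] [IsOrderedAddMonoid W] in
theorem lexHom_neg (x : M →+ V) (y : M →+ W) (d : M) :
    lexHom x y d < 0 ↔ x d < 0 ∨ (x d = 0 ∧ y d < 0) := by
  change toLex (x d, y d) < toLex ((0 : V), (0 : W)) ↔ _
  rw [Prod.Lex.toLex_lt_toLex]

omit [PartialOrder M] [IsOrderedCancelAddMonoid M] [CanonicallyOrderedAdd M] [WellFoundedLT M]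
  [HasAntidiagonal M] [LinearOrder V] [IsOrderedAddMonoid V] [LinearOrder W]
  [IsOrderedAddMonoid W] in
theorem lexHom_zero (x : M →+ V) (y : M →+ W) (d : M) :
    lexHom x y d = 0 ↔ x d = 0 ∧ y d = 0 := by
  change toLex (x d, y d) = toLex ((0 : V), (0 : W)) ↔ _
  rw [toLex_inj, Prod.mk.injEq]

/-- **(F4)** -/
theorem parts_lex (x : M →+ V) (y : M →+ W) {a : TPS T} (ha : a.co 0 = 1) :
    pos (lexHom x y) a = pos x a * pos y (zer x a) ∧
    zer (lexHom x y) a = zer y (zer x a) ∧
    neg (lexHom x y) a = neg y (zer x a) * neg x a := by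
  have hz := in1_zer x a
  refine pzn_unique' (lexHom x y) ?_ ?_ ?_ ?_
  · refine In1.mul (closed_pos _) ((in1_pos x a).mono fun d _ h => ?_)
      ((hz.pos (closed_zero x) y).mono fun d _ h => ?_)
    · exact (lexHom_pos x y d).2 (Or.inl h)
    · exact (lexHom_pos x y d).2 (Or.inr ⟨h.2, h.1⟩)
  · exact (hz.zer (closed_zero x) y).mono fun d _ h => (lexHom_zero x y d).2 ⟨h.2, h.1⟩
  · refine In1.mul (closed_neg _) ((hz.neg (closed_zero x) y).mono fun d _ h => ?_)
      ((in1_neg x a).mono fun d _ h => ?_)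
    · exact (lexHom_neg x y d).2 (Or.inr ⟨h.2, h.1⟩)
    · exact (lexHom_neg x y d).2 (Or.inl h)
  · calc pos x a * pos y (zer x a) * zer y (zer x a) * (neg y (zer x a) * neg x a)
        = pos x a * (pos y (zer x a) * zer y (zer x a) * neg y (zer x a)) * neg x a := by
          simp only [mul_assoc]
      _ = a := by rw [pos_mul_zer_mul_neg y (zer_co_zero x a), pos_mul_zer_mul_neg x ha]


end functional

/-! ### real perturbations -/

section perturb

variable {M : Type*} [AddCommMonoid M]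
variable {K : Type*} [Field K] [LinearOrder K] [IsStrictOrderedRing K]

/-- `x + ε y` -/
def pert (x y : M →+ K) (ε : K) : M →+ K where
  toFun d := x d + ε * y d
  map_zero' := by simp
  map_add' a b := by rw [map_add, map_add]; ring

omit [LinearOrder K] [IsStrictOrderedRing K] in
@[simp] theorem pert_apply (x y : M →+ K) (ε : K) (d : M) : pert x y ε d = x d + ε * y d := rfl


end perturb

section down

variable {M : Type*} [AddCommMonoid M] [PartialOrder M] [CanonicallyOrderedAdd M]
  [HasAntidiagonal M]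

open Classical in
/-- the finite set of all `e ≤ d` -/
noncomputable def down (d : M) : Finset M := (antidiagonal d).image Prod.fst

theorem mem_down {d e : M} : e ∈ down d ↔ e ≤ d := by
  classical
  unfold down
  rw [Finset.mem_image]
  constructor
  · rintro ⟨p, hp, rfl⟩
    exact fst_le_of_mem hp
  · intro h
    obtain ⟨c, rfl⟩ := le_iff_exists_add.1 h
    exact ⟨(e, c), by simp [HasAntidiagonal.mem_antidiagonal], rfl⟩

end down

/-! ### (F7) conjugation `F^x = A_{x>0}⁻¹ F A_{x>0}` -/

section conj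

variable {M : Type*} [AddCommMonoid M] [PartialOrder M] [IsOrderedCancelAddMonoid M]
  [CanonicallyOrderedAdd M] [WellFoundedLT M] [HasAntidiagonal M]
variable {R : Type*} [CommRing R] {T : Tw M R}
variable {V : Type*} [AddCommGroup V] [LinearOrder V] [IsOrderedAddMonoid V]
variable {W : Type*} [AddCommGroup W] [LinearOrder W] [IsOrderedAddMonoid W]

/-- `Ad(g)⁻¹ F = g⁻¹ F g` -/
noncomputable def cj (g F : TPS T) : TPS T := inv g * F * g

/-- `F^x = A_{x>0}⁻¹ F A_{x>0}` -/
noncomputable def conj (x : M →+ V) (a F : TPS T) : TPS T := cj (pos x a) F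

theorem cj_mul {g h : TPS T} (hg : g.co 0 = 1) (hh : h.co 0 = 1) (F : TPS T) :
    cj (g * h) F = cj h (cj g F) := by
  unfold cj
  rw [inv_mul_rev hg hh]
  simp only [mul_assoc]

theorem cj_one (F : TPS T) : cj 1 F = F := by
  unfold cj; rw [inv_one, one_mul, mul_one]


theorem cj_mul' {g : TPS T} (hg : g.co 0 = 1) (F G : TPS T) :
    cj g (F * G) = cj g F * cj g G := by
  unfold cj
  calc inv g * (F * G) * g = inv g * F * 1 * G * g := by simp only [mul_assoc, one_mul]
    _ = inv g * F * (g * inv g) * G * g := by rw [mul_inv hg]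
    _ = _ := by simp only [mul_assoc]

theorem cj_inv_cj {g : TPS T} (hg : g.co 0 = 1) (F : TPS T) : cj (inv g) (cj g F) = F := by
  rw [← cj_mul hg (inv_zero g), mul_inv hg, cj_one]

theorem cj_congr {g g' F F' : TPS T} (d : M) (hg : ∀ e ≤ d, g.co e = g'.co e)
    (hF : ∀ e ≤ d, F.co e = F'.co e) : (cj g F).co d = (cj g' F').co d := by
  unfold cj
  refine co_mul_congr_le d (fun e he => ?_) hg
  exact co_mul_congr_le e (fun c hc => co_inv_congr_le c
    (fun b hb => hg b (hb.trans (hc.trans he)))) (fun c hc => hF c (hc.trans he))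

omit [IsOrderedAddMonoid V] [IsOrderedAddMonoid W] in
/-- the transported series only depends on the signs below `d`. -/
theorem conj_congr (x : M →+ V) (x' : M →+ W) {a : TPS T} (ha : a.co 0 = 1) (F : TPS T) (d : M)
    (hp : ∀ e ≤ d, (0 < x e ↔ 0 < x' e)) :
    (conj x a F).co d = (conj x' a F).co d :=
  cj_congr d (fun e he => (pos_congr x x' ha e (fun _ _ => rfl)
    (fun c hc => hp c (hc.trans he))).1) (fun _ _ => rfl)

/-- **(F7)** transport for the refined functional. -/
theorem conj_refine {V' : Type*} [AddCommGroup V'] [LinearOrder V']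
    [IsOrderedAddMonoid V'] (x : M →+ V) (y : M →+ W) (x' : M →+ V') {a : TPS T}
    (ha : a.co 0 = 1) (F : TPS T) (d : M)
    (hp : ∀ e ≤ d, (0 < x' e ↔ 0 < x e ∨ (x e = 0 ∧ 0 < y e))) :
    (conj x' a F).co d = (cj (pos y (zer x a)) (conj x a F)).co d := by
  unfold conj
  rw [← cj_mul (pos_co_zero x a) (pos_co_zero y _), ← (parts_lex x y ha).1]
  refine cj_congr d (fun e he => (pos_congr x' (lexHom x y) ha e (fun _ _ => rfl)
    (fun c hc => ?_)).1) (fun _ _ => rfl)
  rw [hp c (hc.trans he), lexHom_pos]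

omit [IsOrderedAddMonoid V] in
theorem pos_eq_self_le (y : M →+ V) {z : TPS T} (hz : z.co 0 = 1) (d : M)
    (h : ∀ e ≤ d, e ≠ 0 → z.co e ≠ 0 → 0 < y e) : (pos y z).co d = z.co d := by
  refine (fac_unique_le (P := fun e => 0 < y e) (f := pos y z) (g := npos y z)
    (lft_zero _ _) (rgt_zero _ _) hz co_one_zero d
    (fun e _ h0 hP => lft_of_not (P := fun e => 0 < y e) z h0 hP)
    (fun e _ h0 hP => rgt_of (P := fun e => 0 < y e) z h0 hP)
    (fun e he h0 hP => by_contra fun hc => hP (h e he h0 hc)) (fun e _ h0 _ => co_one_ne h0)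
    (fun e he => ?_)).1
  rw [pos_mul_npos _ hz, mul_one]

omit [IsOrderedAddMonoid V] in
theorem pos_eq_one_le (y : M →+ V) {z : TPS T} (hz : z.co 0 = 1) (d : M)
    (h : ∀ e ≤ d, e ≠ 0 → z.co e ≠ 0 → y e ≤ 0) :
    (pos y z).co d = (1 : TPS T).co d := by
  refine (fac_unique_le (P := fun e => 0 < y e) (f := pos y z) (g := npos y z)
    (lft_zero _ _) (rgt_zero _ _) co_one_zero hz d
    (fun e _ h0 hP => lft_of_not (P := fun e => 0 < y e) z h0 hP)
    (fun e _ h0 hP => rgt_of (P := fun e => 0 < y e) z h0 hP) (fun e _ h0 _ => co_one_ne h0)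
    (fun e he h0 hP => by_contra fun hc => not_le.2 hP (h e he h0 hc))
    (fun e he => ?_)).1
  rw [pos_mul_npos _ hz, one_mul]

/-- **(F7) crossing**: `xp` has the signs of `(x, y)`, `xm` those of `(x, -y)`, and `y > 0` on the
support of `zer x a`: then `F^{xp} = cj (zer x a) F^{xm}`, `F^{xm} = F^x`  (below `d`). -/
theorem conj_cross {V' : Type*} [AddCommGroup V'] [LinearOrder V']
    [IsOrderedAddMonoid V'] (x : M →+ V) (y : M →+ W) (xp xm : M →+ V') {a : TPS T}
    (ha : a.co 0 = 1) (F : TPS T) (d : M)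
    (hp : ∀ e ≤ d, (0 < xp e ↔ 0 < x e ∨ (x e = 0 ∧ 0 < y e)))
    (hm : ∀ e ≤ d, (0 < xm e ↔ 0 < x e ∨ (x e = 0 ∧ y e < 0)))
    (hy : ∀ e ≤ d, e ≠ 0 → (zer x a).co e ≠ 0 → 0 < y e) :
    (conj xp a F).co d = (cj (zer x a) (conj x a F)).co d ∧
    (conj xm a F).co d = (conj x a F).co d := by
  constructor
  · rw [conj_refine x y xp ha F d hp]
    exact cj_congr d (fun e he => pos_eq_self_le y (zer_co_zero x a) e
      fun c hc => hy c (hc.trans he)) (fun _ _ => rfl)
  · rw [conj_refine x (-y) xm ha F d (fun e he => by rw [hm e he]; simp)]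
    have : (cj (1 : TPS T) (conj x a F)).co d = (conj x a F).co d := by rw [cj_one]
    rw [← this]
    exact cj_congr d (fun e he => pos_eq_one_le (-y) (zer_co_zero x a) e
      fun c hc h0 hne => by
        have := hy c (hc.trans he) h0 hne
        simpa using this.le) (fun _ _ => rfl)

end conj

end TPS

end Crest.Agent.R059
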