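import Mathlib
import Crest.Agent.R059.Sc_998
import Crest.Agent.R059.Dilog_344
import Crest.Agent.R059.Fac_150
import Crest.Agent.R059.Grnd_883

-- ▼ part R059/EPsiAbs_998
section

/-!
# Row 59, track T, Step 2 (iii): `σ(Ψ) Ψ⁻¹ = E = Ψ⁻¹ σ(Ψ)`, abstract form

`A` a ring, `L` a strictly increasing list of indices, `Ψ = ∏_{i ∈ L} P i` (ordered product),
`Ψ⁺ = ∏_{i ∈ L} Pp i` with `Pp i = (1 + x i) * P i`, `E = ∑_{I ⊆ L independent} X I`.
* `prod_eq_left`  : `Ψ⁺ = E * Ψ` (peel the first index on the left);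
* `prod_eq_right` : `Ψ⁺ = Ψ * E` (peel the last index on the right).
-/

set_option autoImplicit false

namespace Crest.Agent.R059.EPsi998

open Finset

section abs

variable {A : Type*} [Ring A] {ι : Type*} [LinearOrder ι]

/-- independent sets (only `adj i j` with `i < j` matters). -/
def Ind (adj : ι → ι → Prop) (I : Finset ι) : Prop :=
  ∀ i ∈ I, ∀ j ∈ I, i < j → ¬ adj i j

theorem ind_empty (adj : ι → ι → Prop) : Ind adj ∅ := fun i hi => by simp at hi

theorem Ind.mono {adj : ι → ι → Prop} {I J : Finset ι} (h : Ind adj J) (hIJ : I ⊆ J) :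
    Ind adj I := fun i hi j hj => h i (hIJ hi) j (hIJ hj)


/-- inserting a new largest index. -/
theorem ind_insert_max {adj : ι → ι → Prop} {I : Finset ι} {a : ι} (ha : ∀ j ∈ I, j < a) :
    Ind adj (insert a I) ↔ Ind adj I ∧ ∀ j ∈ I, ¬ adj j a := by
  constructor
  · intro h
    refine ⟨h.mono (Finset.subset_insert _ _), fun j hj => ?_⟩
    exact h j (Finset.mem_insert_of_mem hj) a (Finset.mem_insert_self _ _) (ha j hj)
  · rintro ⟨h1, h2⟩ i hi j hj hij
    rw [Finset.mem_insert] at hi hj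
    rcases hi with rfl | hi
    · rcases hj with rfl | hj
      · exact absurd hij (lt_irrefl _)
      · exact absurd (hij.trans (ha j hj)) (lt_irrefl _)
    · rcases hj with rfl | hj
      · exact h2 i hi
      · exact h1 i hi j hj hij

open Classical in
/-- `∑_{I ⊆ S independent} X I`. -/
noncomputable def Es (adj : ι → ι → Prop) (X : Finset ι → A) (S : Finset ι) : A :=
  ∑ I ∈ S.powerset.filter (fun I => Ind adj I), X I

theorem Es_empty (adj : ι → ι → Prop) (X : Finset ι → A) : Es adj X ∅ = X ∅ := by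
  classical
  unfold Es
  rw [Finset.powerset_empty, Finset.filter_singleton, if_pos (ind_empty adj),
    Finset.sum_singleton]

open Classical in
theorem Es_insert (adj : ι → ι → Prop) (X : Finset ι → A) {S : Finset ι} {a : ι} (ha : a ∉ S) :
    Es adj X (insert a S) =
      ∑ I ∈ S.powerset, ((if Ind adj I then X I else 0) +
        (if Ind adj (insert a I) then X (insert a I) else 0)) := by
  unfold Es
  rw [Finset.sum_filter, Finset.sum_powerset_insert ha, ← Finset.sum_add_distrib]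


theorem peel_right (adj : ι → ι → Prop) (X : Finset ι → A) (x P Pp : ι → A)
    (hPp : ∀ a, Pp a = P a * (1 + x a)) (a : ι) (S : Finset ι) (ha : ∀ j ∈ S, j < a)
    (h0 : ∀ I ⊆ S, Ind adj I → (∀ j ∈ I, ¬ adj j a) →
      X (insert a I) = X I * x a ∧ P a * X I = X I * P a)
    (h1 : ∀ I ⊆ S, Ind adj I → (∃ j ∈ I, adj j a) → P a * X I = X I * Pp a) :
    Es adj X S * Pp a = P a * Es adj X (insert a S) := by
  classical
  have haS : a ∉ S := fun h => lt_irrefl _ (ha a h)
  rw [Es_insert adj X haS, Finset.mul_sum]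
  unfold Es
  rw [Finset.sum_filter, Finset.sum_mul]
  refine Finset.sum_congr rfl (fun I hI => ?_)
  rw [Finset.mem_powerset] at hI
  have haI : ∀ j ∈ I, j < a := fun j hj => ha j (hI hj)
  by_cases hind : Ind adj I
  · by_cases hno : ∀ j ∈ I, ¬ adj j a
    · obtain ⟨e1, e2⟩ := h0 I hI hind hno
      rw [if_pos hind, if_pos ((ind_insert_max haI).2 ⟨hind, hno⟩), e1, hPp, mul_add, mul_add,
        mul_add, mul_one, ← mul_assoc (P a) (X I), e2, ← mul_assoc (X I)]
    · have hno' : ∃ j ∈ I, adj j a := by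
        by_contra hc; exact hno (fun j hj hj' => hc ⟨j, hj, hj'⟩)
      rw [if_pos hind, if_neg (fun h => hno ((ind_insert_max haI).1 h).2), add_zero,
        h1 I hI hind hno']
  · rw [if_neg hind, if_neg (fun h => hind ((ind_insert_max haI).1 h).1), zero_mul, add_zero,
      mul_zero]


/-- `Ψ⁺ = Ψ E`. -/
theorem prod_eq_right (adj : ι → ι → Prop) (X : Finset ι → A) (x P Pp : ι → A)
    (hX0 : X ∅ = 1) (hPp : ∀ a, Pp a = P a * (1 + x a))
    (h0 : ∀ (a : ι) (I : Finset ι), (∀ j ∈ I, j < a) → Ind adj I → (∀ j ∈ I, ¬ adj j a) →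
      X (insert a I) = X I * x a ∧ P a * X I = X I * P a)
    (h1 : ∀ (a : ι) (I : Finset ι), (∀ j ∈ I, j < a) → Ind adj I → (∃ j ∈ I, adj j a) →
      P a * X I = X I * Pp a)
    (L : List ι) (hL : L.Pairwise (· < ·)) :
    (L.map Pp).prod = (L.map P).prod * Es adj X L.toFinset := by
  induction L using List.reverseRecOn with
  | nil => simp [Es_empty, hX0]
  | append_singleton L a ih =>
    rw [List.pairwise_append] at hL
    have ha : ∀ j ∈ L.toFinset, j < a := fun j hj =>
      hL.2.2 j (List.mem_toFinset.1 hj) a (by simp)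
    have hfin : (L ++ [a]).toFinset = insert a L.toFinset := by
      ext j; simp [or_comm]
    rw [List.map_append, List.prod_append, List.map_append, List.prod_append, ih hL.1, hfin]
    simp only [List.map_cons, List.map_nil, List.prod_cons, List.prod_nil, mul_one]
    rw [mul_assoc, mul_assoc, peel_right adj X x P Pp hPp a L.toFinset ha
        (fun I hI => h0 a I (fun j hj => ha j (hI hj)))
        (fun I hI => h1 a I (fun j hj => ha j (hI hj)))]

end abs

end Crest.Agent.R059.EPsi998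
end

-- ▼ part R059/EPsi_998
section

/-!
# Row 59, track T, Step 2 (iii) in `TPS T`

`x_i = r Y_{u_i}` (`r ∈ R`), `β(u_i,u_j) = 1` for `i < j` adjacent, `0` for `i < j` not adjacent,
`E = ∑_{I independent} r^{|I|} Y_{u_I}`, `D i = P(x_i)`, `D⁺ i = P(q x_i)`, `q = v⁻²`.
`psi_left : ∏ D⁺ i = E * ∏ D i`, `psi_right : ∏ D⁺ i = (∏ D i) * E`.
-/

set_option autoImplicit false

namespace Crest.Agent.R059.EPsi998

open Finset TPS Sc998

section gen

variable {M : Type*} [AddCommMonoid M] [HasAntidiagonal M] {R : Type*} [CommRing R] {T : Tw M R}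
  {ι : Type*} [LinearOrder ι]

/-- `X_I = r^{|I|} Y_{u_I}`. -/
noncomputable def XI (T : Tw M R) (u : ι → M) (r : R) (I : Finset ι) : TPS T :=
  mono T (∑ i ∈ I, u i) (r ^ I.card)

omit [HasAntidiagonal M] in
theorem XI_empty (u : ι → M) (r : R) : XI T u r ∅ = 1 := by
  unfold XI; rw [Finset.sum_empty, Finset.card_empty, pow_zero]; rfl

/-- the commutation data of the classes of the vertices. -/
structure Cls (T : Tw M R) (adj : ι → ι → Prop) (u : ι → M) : Prop where
  skew : ∀ a b : M, T.β a b = - T.β b a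
  one : ∀ i j, i < j → adj i j → T.β (u i) (u j) = 1
  zero : ∀ i j, i < j → ¬ adj i j → T.β (u i) (u j) = 0
  up : ∀ a i j, a < i → i < j → adj a i → adj a j → adj i j
  dn : ∀ a i j, i < j → j < a → adj i a → adj j a → adj i j

variable {adj : ι → ι → Prop} {u : ι → M}



omit [HasAntidiagonal M] in
theorem Cls.b_dn_zero (h : Cls T adj u) {a : ι} {I : Finset ι} (ha : ∀ j ∈ I, j < a)
    (hno : ∀ j ∈ I, ¬ adj j a) : T.β (∑ i ∈ I, u i) (u a) = 0 := by
  rw [h.skew, map_sum, Finset.sum_eq_zero, neg_zero]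
  intro i hi
  rw [h.skew, h.zero i a (ha i hi) (hno i hi), neg_zero]

omit [HasAntidiagonal M] in
theorem Cls.b_dn_one (h : Cls T adj u) {a : ι} {I : Finset ι} (ha : ∀ j ∈ I, j < a)
    (hI : Ind adj I) (hex : ∃ j ∈ I, adj j a) : T.β (∑ i ∈ I, u i) (u a) = 1 := by
  obtain ⟨j, hj, haj⟩ := hex
  rw [h.skew, map_sum, Finset.sum_eq_single j]
  · rw [h.skew, h.one j a (ha j hj) haj, neg_neg]
  · intro i hi hij
    rw [h.skew, h.zero i a (ha i hi), neg_zero]
    intro hai
    rcases lt_or_gt_of_ne hij with hlt | hlt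
    · exact hI i hi j hj hlt (h.dn a i j hlt (ha j hj) hai haj)
    · exact hI j hj i hi hlt (h.dn a j i hlt (ha i hi) haj hai)
  · intro hc; exact absurd hj hc


theorem XI_insert_right (h : Cls T adj u) (r : R) {a : ι} {I : Finset ι} (ha : ∀ j ∈ I, j < a)
    (hno : ∀ j ∈ I, ¬ adj j a) : XI T u r (insert a I) = XI T u r I * mono T (u a) r := by
  have haI : a ∉ I := fun hc => lt_irrefl _ (ha a hc)
  unfold XI
  rw [mono_mul_mono, Finset.sum_insert haI, Finset.card_insert_of_notMem haI, wt,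
    h.b_dn_zero ha hno, zpow_zero, Units.val_one, one_mul, pow_succ, add_comm]

/-- the commutation rules of the dilogarithms `D = P(r Y_c)`, `D⁺ = P(q r Y_c)`, `q = v⁻²`. -/
structure DilAt (T : Tw M R) (c : M) (r : R) (D Dp : TPS T) : Prop where
  eqL : Dp = (1 + mono T c r) * D
  eqR : Dp = D * (1 + mono T c r)
  com0 : ∀ m : M, T.β m c = 0 → Y T m * D = D * Y T m
  com1 : ∀ m : M, T.β m c = 1 → D * Y T m = Y T m * Dp
  com1' : ∀ m : M, T.β m c = -1 → Y T m * D = Dp * Y T m


theorem psi_right (h : Cls T adj u) (r : R) (D Dp : ι → TPS T)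
    (hD : ∀ i, DilAt T (u i) r (D i) (Dp i)) (L : List ι) (hL : L.Pairwise (· < ·)) :
    (L.map Dp).prod = (L.map D).prod * Es adj (XI T u r) L.toFinset := by
  refine prod_eq_right adj (XI T u r) (fun i => mono T (u i) r) D Dp (XI_empty u r)
    (fun a => (hD a).eqR) ?_ ?_ L hL
  · intro a I ha _ hno
    refine ⟨XI_insert_right h r ha hno, ?_⟩
    unfold XI
    rw [mono_eq_smul, TPS.smul_mul', TPS.mul_smul'', (hD a).com0]
    exact h.b_dn_zero ha hno
  · intro a I ha hI hex
    unfold XI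
    rw [mono_eq_smul, TPS.smul_mul', TPS.mul_smul'', (hD a).com1]
    exact h.b_dn_one ha hI hex


end gen

end Crest.Agent.R059.EPsi998
end

-- ▼ part R059/EPsiD_998
section

/-!
# Row 59, track T: the identity `σ(Ψ) = E Ψ = Ψ E` for 344's dilogarithm factors

`Ψ = ∏_{i ∈ L} dil T (u i) true 1` (`= ∏ P_q(v⁻¹ Y_{u_i})`, `q = v⁻²`), `σ` = scaling by
`q^{deg}`, `deg (u_i) = 1`, `E = ∑_{I ⊆ L independent} (v⁻¹)^{|I|} Y_{u_I}`.
-/

set_option autoImplicit false

namespace Crest.Agent.R059.EPsi998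

open Finset TPS Sc998 Dilog344 PowerSeries

section gen

variable {M : Type*} [AddCommMonoid M] [HasAntidiagonal M] {R : Type*} [CommRing R] {T : Tw M R}

omit [HasAntidiagonal M] in
theorem ev_X {c : M} (hc : Function.Injective (fun k : ℕ => k • c)) :
    ev T c (X : R⟦X⟧) = Y T c := by
  classical
  ext d
  by_cases hd : ∃ k : ℕ, d = k • c
  · obtain ⟨k, rfl⟩ := hd
    rw [co_ev_nsmul hc, coeff_X, Y, co_mono]
    by_cases hk : k = 1
    · subst hk
      rw [if_pos rfl, if_pos (one_nsmul c)]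
      simp [pw, wt_zero_left]
    · rw [if_neg hk, zero_mul, if_neg]
      intro h
      exact hk (hc (by simpa using h))
  · push Not at hd
    rw [co_ev_of_not _ hd, Y, co_mono_ne]
    rintro rfl
    exact hd 1 (one_nsmul d).symm

/-- 344's factors satisfy the commutation rules, `r = v^{a-2}`. -/
theorem dilAt_dil (hs : ∀ a b : M, T.β a b = - T.β b a) (hq : QReg ((T.v : R) ^ 2)) {c : M}
    (hc : Function.Injective (fun k : ℕ => k • c)) (a : ℤ) :
    DilAt T c ((T.v ^ (a - 2) : Rˣ) : R) (dil T c true a) (dil T c true (a - 2)) := by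
  have hY : (1 + mono T c ((T.v ^ (a - 2) : Rˣ) : R)) = ev T c (XF T.v true a 1) := by
    rw [XF_true_one, ev_add hc, ev_one hc, ev_C_mul hc, ev_X hc, mono_eq_smul]
  have hsh := EE_shift hq true a 1
  have h2 : a - 2 * ((1 : ℕ) : ℤ) = a - 2 := by norm_num
  rw [h2] at hsh
  refine ⟨?_, ?_, ?_, ?_, ?_⟩
  · rw [hY, dil, dil, ← ev_mul hc, hsh, mul_comm]
  · rw [hY, dil, dil, ← ev_mul hc, hsh]
  · intro m hm
    rw [dil, Y, mono_mul_ev hc, rescale_zpow_EE, hs c m, hm]
    simp
  · intro m hm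
    rw [dil, dil, Y, ev_mul_mono hc, rescale_zpow_EE, hs c m, hm]
    congr 3
  · intro m hm
    rw [dil, dil, Y, mono_mul_ev hc, rescale_zpow_EE, hs c m, hm]
    congr 3

/-- scaling of a factor. -/
theorem scale_ev {c : M} (hc : Function.Injective (fun k : ℕ => k • c))
    (χ : Multiplicative M →* R) (f : R⟦X⟧) :
    scale χ (ev T c f) = ev T c (rescale (χ (Multiplicative.ofAdd c)) f) := by
  ext d
  rw [co_scale]
  by_cases hd : ∃ k : ℕ, d = k • c
  · obtain ⟨k, rfl⟩ := hd
    rw [co_ev_nsmul hc, co_ev_nsmul hc, coeff_rescale, ofAdd_nsmul, map_pow]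
    ring
  · push Not at hd
    rw [co_ev_of_not _ hd, co_ev_of_not _ hd, mul_zero]

variable {ι : Type*} [LinearOrder ι] {adj : ι → ι → Prop} {u : ι → M}

variable (T) in
/-- `Ψ = ∏ dil T (u i) true 1` (ordered). -/
noncomputable def Psi (u : ι → M) (L : List ι) : TPS T :=
  (L.map (fun i => dil T (u i) true 1)).prod

variable (T) in
/-- `E = ∑_{I ⊆ L independent} (v⁻¹)^{|I|} Y_{u_I}`. -/
noncomputable def EI (adj : ι → ι → Prop) (u : ι → M) (L : List ι) : TPS T :=
  Es adj (XI T u ((T.v ^ (-1 : ℤ) : Rˣ) : R)) L.toFinset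

/-- `σ Ψ = ∏ dil T (u i) true (-1)`. -/
theorem scale_Psi (hc : ∀ i, Function.Injective (fun k : ℕ => k • u i))
    (χ : Multiplicative M →* R)
    (hχ : ∀ i, χ (Multiplicative.ofAdd (u i)) = ((T.v ^ (-2 : ℤ) : Rˣ) : R)) (L : List ι) :
    scale χ (Psi T u L) = (L.map (fun i => dil T (u i) true (-1))).prod := by
  unfold Psi
  rw [map_list_prod, List.map_map]
  congr 1
  apply List.map_congr_left
  intro i _
  simp only [Function.comp_apply]
  rw [dil, scale_ev (hc i), hχ, rescale_zpow_EE, dil]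
  rfl


/-- **`σ Ψ = Ψ E`**. -/
theorem scale_Psi_right (h : Cls T adj u) (hq : QReg ((T.v : R) ^ 2))
    (hc : ∀ i, Function.Injective (fun k : ℕ => k • u i)) (χ : Multiplicative M →* R)
    (hχ : ∀ i, χ (Multiplicative.ofAdd (u i)) = ((T.v ^ (-2 : ℤ) : Rˣ) : R)) (L : List ι)
    (hL : L.Pairwise (· < ·)) : scale χ (Psi T u L) = Psi T u L * EI T adj u L := by
  rw [scale_Psi hc χ hχ]
  exact psi_right h _ _ _ (fun i => dilAt_dil h.skew hq (hc i) 1) L hL

end gen

end Crest.Agent.R059.EPsi998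
end

-- ▼ part R059/EPsiK_998

/-!
# Row 59, track T: the `Ψ` identities in the frozen language of `Grnd_883`

* `udeg` : the `u`-degree of an exponent (coordinate of `b_0 = u_0`);
* `PsiK R h = ∏_i P(τ X_{u_i})` (344's `dil _ (ux i) true 1`), `sig R h` = scaling by `q^{udeg}`;
* `sig_Psi : sig (PsiK R h) = PsiK R h * EE R h 1`;
* `EE_scale : EE R h z = scale (z^{udeg}) (EE R h 1)`;
* `conj_form` : `B = lft P (Ψ a_W)` satisfies `B⁻¹ σ(B) = B_W⁻¹ E B_W`, `B_W = lft P_θ a_W`.
-/

set_option autoImplicit false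

namespace Crest.Agent.R059.EPsi998

open Finset TPS Sc998 Dilog344 Crest.CombinatoricsR.UnitInterval

section conj

variable {M : Type*} [AddCommMonoid M] [PartialOrder M] [IsOrderedCancelAddMonoid M]
  [CanonicallyOrderedAdd M] [WellFoundedLT M] [HasAntidiagonal M]
variable {R : Type*} [CommRing R] {T : Tw M R}

/-- left factors of `Ψ a` when `Ψ` is supported on `P`. -/
theorem lft_mul {P : M → Prop} (hadd : ∀ a b, P a → P b → P (a + b)) {Ψ a : TPS T}
    (hΨ : In1 P Ψ) (ha : a.co 0 = 1) : lft P (Ψ * a) = Ψ * lft P a := by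
  have h1 : In1 P (Ψ * lft P a) := hΨ.mul hadd (in1_lft P a)
  have h2 := fac_unique (P := P) (a := Ψ * a) (f := Ψ * lft P a) (g := rgt P a) h1.one
    (rgt_zero P a) (fun e he hPe => h1.supp e he hPe) (fun e he hPe => rgt_of a he hPe)
    (by rw [mul_assoc, lft_mul_rgt P ha])
  exact h2.1.symm

/-- the left factor only depends on the predicate on the (additively closed) support. -/
theorem lft_congr_supp {S P Q : M → Prop} (hS : ∀ a b, S a → S b → S (a + b)) {a : TPS T}
    (ha : In1 S a) (hPQ : ∀ d, S d → (P d ↔ Q d)) : lft P a = lft Q a := by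
  have h1 := ha.lft hS P
  have h2 := ha.rgt hS P
  refine (fac_unique (P := Q) (a := a) (f := lft P a) (g := rgt P a) h1.one h2.one ?_ ?_
    (lft_mul_rgt P ha.one)).1
  · intro e he hQ
    exact h1.supp e he (fun hc => hQ ((hPQ e hc.2).1 hc.1))
  · intro e he hQ
    exact h2.supp e he (fun hc => hc.1 ((hPQ e hc.2).2 hQ))

variable {χ : Multiplicative M →* R}

/-- `scale` fixes series supported on `χ = 1`. -/
theorem scale_of_in1 {S : M → Prop} (hχ : ∀ d, S d → χ (Multiplicative.ofAdd d) = 1)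
    {a : TPS T} (ha : In1 S a) : scale χ a = a := by
  apply scale_eq_self
  intro m hm
  rcases ha.eq_zero_or hm with h | h
  · rw [h, ofAdd_zero, map_one]
  · exact hχ m h

/-- **(E4)+(E5)** `B = lft P (Ψ a_W)`: `B = Ψ B_W` and `B⁻¹ σ(B) = B_W⁻¹ E B_W`. -/
theorem conj_form {deg : M →+ ℕ} {P Pθ : M → Prop} (hadd : ∀ a b, P a → P b → P (a + b))
    (hpos : ∀ d, 0 < deg d → P d) (h0 : ∀ d, deg d = 0 → (P d ↔ Pθ d))
    (hχ : ∀ d, deg d = 0 → χ (Multiplicative.ofAdd d) = 1) {Ψ aW E : TPS T}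
    (hΨ : In1 (fun d => 0 < deg d) Ψ) (haW : In1 (fun d => deg d = 0) aW)
    (hE : scale χ Ψ = Ψ * E) :
    lft P (Ψ * aW) = Ψ * lft Pθ aW ∧
      inv (lft P (Ψ * aW)) * scale χ (lft P (Ψ * aW)) = inv (lft Pθ aW) * E * lft Pθ aW := by
  have hS : ∀ a b : M, deg a = 0 → deg b = 0 → deg (a + b) = 0 := fun a b ha hb => by
    rw [map_add, ha, hb]
  have e1 : lft P (Ψ * aW) = Ψ * lft Pθ aW := by
    rw [lft_mul hadd (hΨ.mono (fun d _ hd => hpos d hd)) haW.one,
      lft_congr_supp hS haW h0]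
  refine ⟨e1, ?_⟩
  have e2 : scale χ (lft Pθ aW) = lft Pθ aW :=
    scale_of_in1 (S := fun d => Pθ d ∧ deg d = 0) (fun d hd => hχ d hd.2) (haW.lft hS Pθ)
  rw [e1, map_mul, e2, hE, inv_mul_rev hΨ.one (lft_zero _ _)]
  calc inv (lft Pθ aW) * inv Ψ * (Ψ * E * lft Pθ aW)
      = inv (lft Pθ aW) * (inv Ψ * Ψ) * E * lft Pθ aW := by simp only [mul_assoc]
    _ = _ := by rw [inv_mul hΨ.one, mul_one]

end conj

section K

variable {n : ℕ}

/-- the `u`-degree. -/
def udeg (n : ℕ) : (Fin n →₀ ℕ) →+ ℕ where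
  toFun d := if hn : 0 < n then d ⟨0, hn⟩ else 0
  map_zero' := by split_ifs <;> simp
  map_add' a b := by split_ifs <;> simp

theorem udeg_apply (hn : 0 < n) (d : Fin n →₀ ℕ) : udeg n d = d ⟨0, hn⟩ := dif_pos hn

theorem udeg_ux (i : Fin n) : udeg n (ux i) = 1 := by
  have hn : 0 < n := lt_of_le_of_lt (Nat.zero_le _) i.2
  rw [udeg_apply hn, ux_apply, if_pos]
  exact Fin.le_def.2 (Nat.zero_le _)

theorem udeg_sum_ux (S : Finset (Fin n)) : udeg n (∑ i ∈ S, ux i) = S.card := by
  rw [map_sum, Finset.sum_congr rfl (fun i _ => udeg_ux i)]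
  simp

theorem tau_ne (k : ℕ) (hk : k ≠ 0) : ((tau⁻¹ : KKˣ) : KK) ^ (2 * k) - 1 ≠ 0 := by
  have h1 := qq_pow_sub_one_ne k hk
  rw [qq, ← pow_mul] at h1
  intro h
  apply h1
  rw [sub_eq_zero] at h ⊢
  have h3 : (tau : KK) ^ (2 * k) * ((tau⁻¹ : KKˣ) : KK) ^ (2 * k) = 1 := by
    rw [← mul_pow, Units.mul_inv, one_pow]
  rw [h, mul_one] at h3
  exact h3

theorem qreg_KK : QReg (((tau⁻¹ : KKˣ) : KK) ^ 2) := by
  intro k
  rw [← pow_mul]
  exact (Ne.isUnit (tau_ne (k + 1) (Nat.succ_ne_zero k)))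

variable (R : Type*) [CommRing R] [Algebra KK R]




variable {R}

/-- adjacency for `i < j`. -/
def adjH (h : Fin n → ℕ) (i j : Fin n) : Prop := (j : ℕ) + 1 ≤ h i

theorem cls (h : Fin n → ℕ) (hh : IsHessenberg h) :
    Cls (tw R (form h)) (adjH h) (ux : Fin n → Fin n →₀ ℕ) := by
  have hb : ∀ i j : Fin n, (tw R (form h)).β (ux i) (ux j) = Kill59.e h i j := by
    intro i j
    show form h (ux i) (ux j) = _
    rw [form_apply, uco_ux, uco_ux, Kill59.s_u_u]
  refine ⟨fun a b => form_skew h a b, ?_, ?_, ?_, ?_⟩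
  · intro i j hij hadj
    rw [hb, Kill59.e, if_pos ⟨hij, hadj⟩]
  · intro i j hij hadj
    rw [hb, Kill59.e, if_neg (fun hc => hadj hc.2), if_neg (fun hc => not_lt.2 hij.le hc.1)]
  · intro a i j hai _ _ haj
    exact le_trans haj (hh.1 hai.le)
  · intro a i j _ hja hia _
    exact le_trans (Nat.succ_le_succ (Fin.lt_def.1 hja).le) hia

theorem ux_inj' (i : Fin n) : Function.Injective (fun k : ℕ => k • (ux i : Fin n →₀ ℕ)) := by
  apply nsmul_inj
  intro hc
  have := DFunLike.congr_fun hc i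
  rw [ux_apply, if_pos le_rfl] at this
  exact absurd this one_ne_zero

variable (R)

/-- `Ψ = P(x_1) ⋯ P(x_n)`. -/
noncomputable def PsiK (h : Fin n → ℕ) : TPS (tw R (form h)) :=
  Psi (tw R (form h)) ux (List.finRange n)




theorem finRange_lt (n : ℕ) : (List.finRange n).Pairwise (· < ·) :=
  List.pairwise_lt_finRange n



/-- `E(z) = S_z E(1)`. -/
theorem EE_scale (h : Fin n → ℕ) (z : R) :
    EE R h z = scale (chiN z (udeg n)) (EE R h 1) := by
  unfold EE
  rw [map_sum]
  apply Finset.sum_congr rfl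
  intro S _
  rw [scale_mono, chiN_apply, udeg_sum_ux, mul_one, mul_pow, mul_comm]

/-- a product of series supported on `{0} ∪ P`. -/
theorem in1_list_prod {P : (Fin n →₀ ℕ) → Prop} (hadd : ∀ a b, P a → P b → P (a + b))
    {T : Tw (Fin n →₀ ℕ) R} (L : List (TPS T)) (hL : ∀ f ∈ L, In1 P f) : In1 P L.prod := by
  induction L with
  | nil => rw [List.prod_nil]; exact in1_one P
  | cons f L ih =>
    rw [List.prod_cons]
    exact (hL f (by simp)).mul hadd (ih (fun g hg => hL g (by simp [hg])))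

theorem in1_PsiK (h : Fin n → ℕ) : In1 (fun d => 0 < udeg n d) (PsiK R h) := by
  unfold PsiK Psi
  apply in1_list_prod R (fun a b ha hb => by rw [map_add]; omega)
  intro f hf
  rw [List.mem_map] at hf
  obtain ⟨i, _, rfl⟩ := hf
  refine ⟨co_dil_zero (ux_inj' i) _ _, ?_⟩
  intro d hd hP
  by_contra hc
  obtain ⟨k, rfl⟩ := exists_of_co_ev_ne hc
  rw [map_nsmul, udeg_ux, smul_eq_mul, mul_one] at hP
  have hk : k = 0 := by omega
  exact hd (by rw [hk, zero_nsmul])

end K

end Crest.Agent.R059.EPsi998
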