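import Mathlib
import Crest.Agent.R059.TPS_883
import Crest.Agent.R059.Sc_998
import Crest.Agent.R059.Fac_150
import Crest.Agent.R059.Grnd_883

-- ▼ part R059/Frame1_436
section

set_option autoImplicit false
set_option linter.unusedSectionVars false

/-!
Row 59 (S0081), leaf 20 FRAME, part 1 (helper436): the framed ring.

`T.frame δ` lives on `Option ι →₀ ℕ` (`none` = framing class `f`), `s(f,c) = -δ(c)`, `s(c,f) = δ(c)`.
`emb : TPS T →+* TPS (T.frame δ)` is the ring embedding supported on `{a | a none = 0}`.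
-/

namespace Crest.Agent.R059

open Finset

namespace Frame436

section basic

variable {ι : Type*}

/-- restriction of a class of the framed lattice to the unframed part. -/
noncomputable def rs : (Option ι →₀ ℕ) →+ (ι →₀ ℕ) where
  toFun := Finsupp.some
  map_zero' := Finsupp.some_zero
  map_add' := Finsupp.some_add

/-- inclusion of the unframed classes. -/
noncomputable def inc : (ι →₀ ℕ) →+ (Option ι →₀ ℕ) where
  toFun m := m.optionElim 0
  map_zero' := by rw [Finsupp.optionElim_zero, Finsupp.single_zero]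
  map_add' a b := by
    have := Finsupp.optionElim_add a b 0 0
    simpa using this

/-- the framing coordinate. -/
noncomputable def fc : (Option ι →₀ ℕ) →+ ℤ :=
  (Nat.castAddMonoidHom ℤ).comp (Finsupp.applyAddHom none)

/-- the framing class. -/
noncomputable def ff : Option ι →₀ ℕ := Finsupp.single none 1

@[simp] theorem fc_apply (a : Option ι →₀ ℕ) : fc a = (a none : ℤ) := rfl

@[simp] theorem inc_none (m : ι →₀ ℕ) : inc m none = 0 := Finsupp.optionElim_apply_none _ _

@[simp] theorem inc_some (m : ι →₀ ℕ) (i : ι) : inc m (some i) = m i :=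
  Finsupp.optionElim_apply_some _ _ _

@[simp] theorem rs_apply (a : Option ι →₀ ℕ) (i : ι) : rs a i = a (some i) := rfl

@[simp] theorem rs_inc (m : ι →₀ ℕ) : rs (inc m) = m := by ext i; simp

@[simp] theorem rs_ff : rs (ff : Option ι →₀ ℕ) = 0 := by ext i; simp [ff]

@[simp] theorem ff_none : (ff : Option ι →₀ ℕ) none = 1 := by simp [ff]

theorem inc_rs {a : Option ι →₀ ℕ} (h : a none = 0) : inc (rs a) = a := by
  ext i
  cases i with
  | none => simp [h]
  | some i => simp

theorem inc_injective : Function.Injective (inc : (ι →₀ ℕ) → (Option ι →₀ ℕ)) := fun a b h => by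
  rw [← rs_inc a, h, rs_inc]

theorem inc_eq_zero {m : ι →₀ ℕ} : inc m = 0 ↔ m = 0 := by
  constructor
  · intro h; rw [← rs_inc m, h, map_zero]
  · rintro rfl; exact map_zero _

theorem eq_smul_ff_add (a : Option ι →₀ ℕ) : a = a none • ff + inc (rs a) := by
  ext i
  cases i with
  | none => simp
  | some i => simp [ff]


end basic

section frame

variable {ι : Type*} {R : Type*} [CommRing R]

/-- the framed twist. -/
noncomputable def frame (T : Tw (ι →₀ ℕ) R) (δ : (ι →₀ ℕ) →+ ℕ) : Tw (Option ι →₀ ℕ) R where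
  v := T.v
  β := (T.β.comp rs).compl₂ rs
    - (AddMonoidHom.mul.comp fc).compl₂ (((Nat.castAddMonoidHom ℤ).comp δ).comp rs)
    + (AddMonoidHom.mul.comp (((Nat.castAddMonoidHom ℤ).comp δ).comp rs)).compl₂ fc

variable {T : Tw (ι →₀ ℕ) R} {δ : (ι →₀ ℕ) →+ ℕ}

@[simp] theorem frame_v : (frame T δ).v = T.v := rfl

theorem frame_β (a b : Option ι →₀ ℕ) :
    (frame T δ).β a b = T.β (rs a) (rs b) - a none * δ (rs b) + δ (rs a) * b none := rfl

@[simp] theorem frame_β_inc (a b : ι →₀ ℕ) : (frame T δ).β (inc a) (inc b) = T.β a b := by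
  simp [frame_β]

@[simp] theorem frame_β_ff_inc (b : ι →₀ ℕ) : (frame T δ).β ff (inc b) = - δ b := by
  simp [frame_β]

@[simp] theorem frame_β_inc_ff (a : ι →₀ ℕ) : (frame T δ).β (inc a) ff = δ a := by
  simp [frame_β]

@[simp] theorem frame_β_ff_ff : (frame T δ).β ff ff = 0 := by
  simp [frame_β]

theorem frame_skew (h : ∀ a b, T.β a b = - T.β b a) (a b : Option ι →₀ ℕ) :
    (frame T δ).β a b = - (frame T δ).β b a := by
  rw [frame_β, frame_β, h (rs a) (rs b)]; ring

end frame

section emb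

variable {ι : Type*} {R : Type*} [CommRing R]

/-- the embedding of twist data (998's structure). -/
noncomputable def embF (T : Tw (ι →₀ ℕ) R) (δ : (ι →₀ ℕ) →+ ℕ) : Sc998.Emb T (frame T δ) where
  j := inc
  inj := inc_injective
  sat a b h := by
    obtain ⟨m, hm⟩ := h
    have h0 : a none + b none = 0 := by
      rw [← Finsupp.add_apply, ← hm, inc_none]
    exact ⟨⟨rs a, inc_rs (by omega)⟩, ⟨rs b, inc_rs (by omega)⟩⟩
  hv := rfl
  hβ a b := frame_β_inc a b

@[simp] theorem embF_j (T : Tw (ι →₀ ℕ) R) (δ : (ι →₀ ℕ) →+ ℕ) : (embF T δ).j = inc := rfl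

end emb

end Frame436

end Crest.Agent.R059
end

-- ▼ part R059/FrameB0_436

set_option autoImplicit false
set_option linter.unusedSectionVars false

/-!
Row 59 (S0081), leaf 20 FRAME, part B0 (helper436): the parts `lft/rgt/pos/npos/zer/neg`, `inv`,
`conj` commute with the change-of-ring homomorphisms (`Emb.hom`, `scale χ`, `TPS.map T φ`).
-/

namespace Crest.Agent.R059

open Finset TPS

namespace Frame436

section general

variable {M : Type*} [AddCommMonoid M] [PartialOrder M] [IsOrderedCancelAddMonoid M]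
  [CanonicallyOrderedAdd M] [WellFoundedLT M] [HasAntidiagonal M]
variable {M' : Type*} [AddCommMonoid M'] [PartialOrder M'] [IsOrderedCancelAddMonoid M']
  [CanonicallyOrderedAdd M'] [WellFoundedLT M'] [HasAntidiagonal M']
variable {R : Type*} [CommRing R] {T : Tw M R}
variable {R' : Type*} [CommRing R'] {T' : Tw M' R'}

/-- a ring homomorphism of twisted power series rings which is graded along `j : M → M'`. -/
structure Grd (j : M → M') (Φ : TPS T →+* TPS T') : Prop where
  /-- supports are transported. -/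
  in1 : ∀ (P' : M' → Prop) (f : TPS T), In1 (fun m => P' (j m)) f → In1 P' (Φ f)

variable {j : M → M'} {Φ : TPS T →+* TPS T'}

theorem Grd.one (hΦ : Grd j Φ) {a : TPS T} (ha : a.co 0 = 1) : (Φ a).co 0 = 1 :=
  (hΦ.in1 (fun _ => True) a ⟨ha, fun _ _ h => absurd trivial h⟩).one

theorem Grd.lft_rgt (hΦ : Grd j Φ) (P' : M' → Prop) {a : TPS T} (ha : a.co 0 = 1) :
    lft P' (Φ a) = Φ (lft (fun m => P' (j m)) a) ∧
      rgt P' (Φ a) = Φ (rgt (fun m => P' (j m)) a) := by
  have h1 : In1 P' (Φ (lft (fun m => P' (j m)) a)) := hΦ.in1 P' _ (in1_lft _ _)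
  have h2 : In1 (fun d => ¬ P' d) (Φ (rgt (fun m => P' (j m)) a)) :=
    hΦ.in1 (fun d => ¬ P' d) _ (in1_rgt _ _)
  have h3 := fac_unique (P := P') (a := Φ a) h1.one h2.one (fun e he hP => h1.supp e he hP)
    (fun e he hP => h2.supp e he (fun hn => hn hP))
    (by rw [← map_mul, lft_mul_rgt _ ha])
  exact ⟨h3.1.symm, h3.2.symm⟩

theorem Grd.lft (hΦ : Grd j Φ) (P' : M' → Prop) {a : TPS T} (ha : a.co 0 = 1) :
    TPS.lft P' (Φ a) = Φ (TPS.lft (fun m => P' (j m)) a) := (hΦ.lft_rgt P' ha).1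

theorem Grd.rgt (hΦ : Grd j Φ) (P' : M' → Prop) {a : TPS T} (ha : a.co 0 = 1) :
    TPS.rgt P' (Φ a) = Φ (TPS.rgt (fun m => P' (j m)) a) := (hΦ.lft_rgt P' ha).2

theorem Grd.inv (hΦ : Grd j Φ) {a : TPS T} (ha : a.co 0 = 1) :
    TPS.inv (Φ a) = Φ (TPS.inv a) := by
  refine inv_eq_of_mul (hΦ.one ha) ?_
  rw [← map_mul, mul_inv ha, map_one]

end general

section functional

variable {M : Type*} [AddCommMonoid M] [PartialOrder M] [IsOrderedCancelAddMonoid M]
  [CanonicallyOrderedAdd M] [WellFoundedLT M] [HasAntidiagonal M]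
variable {M' : Type*} [AddCommMonoid M'] [PartialOrder M'] [IsOrderedCancelAddMonoid M']
  [CanonicallyOrderedAdd M'] [WellFoundedLT M'] [HasAntidiagonal M']
variable {R : Type*} [CommRing R] {T : Tw M R}
variable {R' : Type*} [CommRing R'] {T' : Tw M' R'}
variable {V : Type*} [AddCommGroup V] [LinearOrder V] [IsOrderedAddMonoid V]
variable {j : M →+ M'} {Φ : TPS T →+* TPS T'}

theorem Grd.pos (hΦ : Grd j Φ) (x' : M' →+ V) {a : TPS T} (ha : a.co 0 = 1) :
    TPS.pos x' (Φ a) = Φ (TPS.pos (x'.comp j) a) := hΦ.lft (fun d => 0 < x' d) ha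

theorem Grd.npos (hΦ : Grd j Φ) (x' : M' →+ V) {a : TPS T} (ha : a.co 0 = 1) :
    TPS.npos x' (Φ a) = Φ (TPS.npos (x'.comp j) a) := hΦ.rgt (fun d => 0 < x' d) ha

theorem Grd.zer (hΦ : Grd j Φ) (x' : M' →+ V) {a : TPS T} (ha : a.co 0 = 1) :
    TPS.zer x' (Φ a) = Φ (TPS.zer (x'.comp j) a) := by
  unfold TPS.zer
  rw [hΦ.npos x' ha]
  exact hΦ.lft (fun d => x' d = 0) (npos_co_zero _ _)

theorem Grd.neg (hΦ : Grd j Φ) (x' : M' →+ V) {a : TPS T} (ha : a.co 0 = 1) :
    TPS.neg x' (Φ a) = Φ (TPS.neg (x'.comp j) a) := by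
  unfold TPS.neg
  rw [hΦ.npos x' ha]
  exact hΦ.rgt (fun d => x' d = 0) (npos_co_zero _ _)

theorem Grd.cj (hΦ : Grd j Φ) {g : TPS T} (hg : g.co 0 = 1) (F : TPS T) :
    TPS.cj (Φ g) (Φ F) = Φ (TPS.cj g F) := by
  unfold TPS.cj
  rw [hΦ.inv hg, map_mul, map_mul]

theorem Grd.conj (hΦ : Grd j Φ) (x' : M' →+ V) {a : TPS T} (ha : a.co 0 = 1) (F : TPS T) :
    TPS.conj x' (Φ a) (Φ F) = Φ (TPS.conj (x'.comp j) a F) := by
  unfold TPS.conj
  rw [hΦ.pos x' ha, hΦ.cj (pos_co_zero _ _)]

end functional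

section instances

variable {M : Type*} [AddCommMonoid M] [PartialOrder M] [IsOrderedCancelAddMonoid M]
  [CanonicallyOrderedAdd M] [WellFoundedLT M] [HasAntidiagonal M]
variable {M' : Type*} [AddCommMonoid M'] [PartialOrder M'] [IsOrderedCancelAddMonoid M']
  [CanonicallyOrderedAdd M'] [WellFoundedLT M'] [HasAntidiagonal M']
variable {R : Type*} [CommRing R] {T : Tw M R}
variable {R' : Type*} [CommRing R'] {T' : Tw M' R}

theorem grd_hom (e : Sc998.Emb T T') : Grd e.j e.hom where
  in1 P' f hf := by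
    refine ⟨?_, fun d hd hP => ?_⟩
    · rw [← map_zero e.j, e.co_hom_j, hf.one]
    · by_cases h : d ∈ Set.range e.j
      · obtain ⟨m, rfl⟩ := h
        rw [e.co_hom_j]
        exact hf.supp m (fun h0 => hd (by rw [h0, map_zero])) hP
      · exact e.co_hom_off f h



end instances

end Frame436

end Crest.Agent.R059
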