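import Mathlib
import Crest.Agent.R059.TPS_883
import Crest.Agent.R059.Fac_150
import Crest.Agent.R059.Tr_201
import Crest.Agent.R059.TransA_569
import Crest.Agent.R059.FrameB0_436_Mg
import Crest.Agent.R059.EPsiK_998

-- ▼ part R059/FrameT_436
section

set_option autoImplicit false
set_option linter.unusedSectionVars false

/-!
Row 59 (S0081), leaf 20 FRAME, part T (helper436): terminal values of the framed element.

`A` supported on classes `c` with `s(f,c) ≤ 0`; for every class `g` and every functional `x` the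
coefficient at `g` of `Y_f` conjugated at the functional `lex (s(g,·), x)` is `δ_{g,f}`.
-/

namespace Crest.Agent.R059

open Finset TPS

namespace Frame436

section terminal

variable {M : Type*} [AddCommMonoid M] [PartialOrder M] [IsOrderedCancelAddMonoid M]
  [CanonicallyOrderedAdd M] [WellFoundedLT M] [HasAntidiagonal M]
variable {R : Type*} [CommRing R] {T : Tw M R}

omit [PartialOrder M] [IsOrderedCancelAddMonoid M] [CanonicallyOrderedAdd M]
  [WellFoundedLT M] [HasAntidiagonal M] in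
theorem skew_self {T : Tw M R} (hs : ∀ a b, T.β a b = - T.β b a) (a : M) : T.β a a = 0 := by
  have := hs a a; omega

/-- support of `g⁻¹ Y_f g` for `g ∈ 1 + {P}`. -/
theorem supp_cj_Y {P : M → Prop} (hP : ∀ a b, P a → P b → P (a + b)) {g : TPS T} (hg : In1 P g)
    (f : M) : Supp (fun d => ∃ c, d = f + c ∧ (c = 0 ∨ P c)) (cj g (Y T f)) := by
  classical
  unfold cj
  have h1 : Supp (fun d => d = 0 ∨ P d) (TPS.inv g) := (hg.inv hP).toSupp
  have h2 : Supp (fun d => d = 0 ∨ P d) g := hg.toSupp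
  have h3 : Supp (fun d => d = f) (Y T f) := fun d hd => by
    unfold Y; exact co_mono_ne hd 1
  have h4 : Supp (fun d => ∃ c, d = f + c ∧ (c = 0 ∨ P c)) (TPS.inv g * Y T f) := by
    refine h1.mul h3 ?_
    rintro a b ha rfl
    exact ⟨a, by rw [add_comm], ha⟩
  refine h4.mul h2 ?_
  rintro a b ⟨c, rfl, hc⟩ hb
  refine ⟨c + b, by rw [add_assoc], ?_⟩
  rcases hc with rfl | hc
  · simpa using hb
  · rcases hb with rfl | hb
    · right; simpa using hc
    · exact Or.inr (hP _ _ hc hb)

/-- coefficient at `f` of `g⁻¹ Y_f g`. -/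
theorem cj_Y_self {g : TPS T} (hg : g.co 0 = 1) (f : M) : (cj g (Y T f)).co f = 1 := by
  classical
  unfold cj
  have key : ∀ (u : TPS T), (u * g).co f = u.co f * g.co 0 +
      ∑ p ∈ (HasAntidiagonal.antidiagonal f).erase (f, 0), wt T p.1 p.2 * (u.co p.1 * g.co p.2) := by
    intro u
    rw [co_mul, ← Finset.add_sum_erase _ _ (a := (f, 0))]
    · simp [wt_zero_right]
    · simp [HasAntidiagonal.mem_antidiagonal]
  have hu : ∀ e, ¬ f ≤ e → (TPS.inv g * Y T f).co e = 0 := by
    intro e he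
    rw [co_mul]
    apply Finset.sum_eq_zero
    rintro ⟨a, b⟩ hp
    rw [HasAntidiagonal.mem_antidiagonal] at hp
    have hb : b ≠ f := by
      rintro rfl
      exact he (by rw [← hp]; exact le_add_self)
    simp [Y, co_mono_ne hb]
  rw [key, hg, mul_one]
  have h1 : (TPS.inv g * Y T f).co f = 1 := by
    rw [co_mul, Finset.sum_eq_single (0, f)]
    · simp [wt_zero_left, Y, co_mono_self]
    · rintro ⟨a, b⟩ hp hne
      rw [HasAntidiagonal.mem_antidiagonal] at hp
      have hb : b ≠ f := by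
        rintro rfl
        apply hne
        have ha : a = 0 := by
          simpa using hp
        rw [ha]
      simp [Y, co_mono_ne hb]
    · intro h; exact absurd (by simp [HasAntidiagonal.mem_antidiagonal]) h
  rw [h1]
  have h2 : ∑ p ∈ (HasAntidiagonal.antidiagonal f).erase (f, 0),
      wt T p.1 p.2 * ((TPS.inv g * Y T f).co p.1 * g.co p.2) = 0 := by
    apply Finset.sum_eq_zero
    rintro ⟨a, b⟩ hp
    rw [Finset.mem_erase, HasAntidiagonal.mem_antidiagonal] at hp
    obtain ⟨hne, hp⟩ := hp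
    have : ¬ f ≤ a := by
      intro hfa
      apply hne
      simp only at hp
      have hab : a ≤ f := by rw [← hp]; exact le_self_add
      have : a = f := le_antisymm hab hfa
      subst this
      have hb : b = 0 := by simpa using hp
      rw [hb]
    rw [hu a this]; simp
  rw [h2, add_zero]

variable {V : Type*} [AddCommGroup V] [LinearOrder V] [IsOrderedAddMonoid V]
variable {W : Type*} [AddCommGroup W] [LinearOrder W] [IsOrderedAddMonoid W]

/-- **terminal values**: `[Y_g]` of `Y_f` conjugated at a functional with the signs of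
`lex (s(g,·), x)` is `δ_{g,f}`. -/
theorem terminal (hs : ∀ a b, T.β a b = - T.β b a) {S : M → Prop}
    (hS : ∀ a b, S a → S b → S (a + b)) {A : TPS T} (hA : In1 S A) (f : M)
    (hf : ∀ c, S c → T.β f c ≤ 0) (g : M) (x : M →+ V) (y : M →+ W)
    (hy : ∀ e, (0 < y e ↔ 0 < T.β g e ∨ (T.β g e = 0 ∧ 0 < x e))) :
    (conj y A (Y T f)).co g = (Y T f).co g := by
  classical
  by_cases hgf : g = f
  · subst hgf
    unfold Y
    rw [co_mono_self]
    exact cj_Y_self (pos_co_zero _ _) _
  have hY0 : (Y T f).co g = 0 := by unfold Y; exact co_mono_ne hgf 1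
  rw [hY0]
  have hA0 : A.co 0 = 1 := hA.one
  rw [conj_refine (T.β g) x y hA0 (Y T f) g (fun e _ => hy e)]
  -- remove the part of pairing zero by the trace
  have hz : In1 (fun d => T.β g d = 0) (pos x (zer (T.β g) A)) :=
    ((in1_zer (T.β g) A).pos (closed_zero (T.β g)) x).mono (fun d _ h => h.2)
  have hinv : In1 (fun d => T.β g d = 0) (TPS.inv (pos x (zer (T.β g) A))) :=
    hz.inv (closed_zero (T.β g))
  have hsupp : Tr201.SuppIn (Tr201.comKer T g) (TPS.inv (pos x (zer (T.β g) A))) := by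
    intro a ha
    rw [Tr201.mem_comKer, Tr201.com_apply]
    have h0 : T.β g a = 0 := by
      rcases hinv.eq_zero_or ha with rfl | h
      · exact map_zero _
      · exact h
    rw [hs a g, h0]; rfl
  have hkey : (cj (pos x (zer (T.β g) A)) (conj (T.β g) A (Y T f))).co g
      = (conj (T.β g) A (Y T f)).co g :=
    Tr201.co_conj hsupp (mul_inv (pos_co_zero _ _)) _
  rw [hkey]
  -- now the strictly positive part
  have hp : In1 (fun d => 0 < T.β g d ∧ S d) (pos (T.β g) A) := hA.pos hS (T.β g)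
  have hclosed : ∀ a b, (0 < T.β g a ∧ S a) → (0 < T.β g b ∧ S b) →
      (0 < T.β g (a + b) ∧ S (a + b)) := fun a b ha hb =>
    ⟨closed_pos (T.β g) a b ha.1 hb.1, hS a b ha.2 hb.2⟩
  refine supp_cj_Y hclosed hp f g ?_
  rintro ⟨c, hc, h0⟩
  rcases h0 with rfl | ⟨h1, h2⟩
  · exact hgf (by simpa using hc)
  · have h3 : T.β g c = T.β f c + T.β c c := by rw [hc, map_add]; rfl
    rw [skew_self hs c, add_zero] at h3
    have := hf c h2
    omega

end terminal

end Frame436

end Crest.Agent.R059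
end

-- ▼ part R059/Frame_436

set_option autoImplicit false
set_option linter.unusedSectionVars false

/-!
Row 59 (S0081), leaf 20 FRAME (helper436): 227's Step 3.

* `frame_pos`: for the framed element, `B⁻¹ σ(B)` has coefficients in the cone `P`, `B = pos x A`,
  for EVERY functional `x`;
* `E_pos`: if `A = Ψ A_W` and `σ(Ψ) = Ψ E` then `E^θ = conj θ A_W E` has coefficients in `P`;
* `F_pos`: products of scaled copies `E(z)` over a bigger ring.
-/

namespace Crest.Agent.R059

open Finset TPS Sc998 Trans569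

namespace Frame436

section p7

variable {ι : Type} [DecidableEq ι]
variable {V : Type} [AddCommGroup V] [LinearOrder V] [IsOrderedAddMonoid V]
variable {E : Type} [AddCommGroup E] [LinearOrder E] [IsOrderedAddMonoid E]

/-- the injective extension of `x` to the framed classes (P7). -/
noncomputable def extF (x : (ι →₀ ℕ) →+ V) (η : (ι →₀ ℕ) →+ E) :
    (Option ι →₀ ℕ) →+ V ×ₗ (ℤ ×ₗ (ℤ ×ₗ E)) :=
  lexF (x.comp rs) (lexF (-((Nat.castAddMonoidHom ℤ).comp (Finsupp.degree.comp rs)))
    (lexF fc (η.comp rs)))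

omit [DecidableEq ι] in
theorem extF_injective (x : (ι →₀ ℕ) →+ V) {η : (ι →₀ ℕ) →+ E} (hη : Function.Injective η) :
    Function.Injective (extF x η) := by
  intro a b hab
  unfold extF at hab
  rw [lexF_inj, lexF_inj, lexF_inj] at hab
  obtain ⟨-, -, h1, h2⟩ := hab
  have h3 : a none = b none := by simpa using h1
  have h4 : rs a = rs b := hη h2
  rw [eq_smul_ff_add a, eq_smul_ff_add b, h3, h4]

omit [DecidableEq ι] in
theorem extF_pos (x : (ι →₀ ℕ) →+ V) (η : (ι →₀ ℕ) →+ E) (m : ι →₀ ℕ) :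
    0 < extF x η (inc m) ↔ 0 < x m := by
  unfold extF
  rw [lexF_pos, lexF_pos, lexF_pos]
  simp only [AddMonoidHom.comp_apply, rs_inc, AddMonoidHom.neg_apply, fc_apply, inc_none,
    Nat.cast_zero, lt_irrefl, false_or, true_and, Left.neg_pos_iff, neg_eq_zero]
  constructor
  · rintro (h | ⟨h1, h2⟩)
    · exact h
    · exfalso
      rcases h2 with h2 | ⟨h2, h3⟩
      · have : (0 : ℤ) ≤ (Nat.castAddMonoidHom ℤ) (Finsupp.degree m) := by simp
        exact absurd h2 (not_lt.2 this)
      · have h4 : Finsupp.degree m = 0 := by simpa using h2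
        have h5 : m = 0 := (Finsupp.degree_eq_zero_iff m).1 h4
        rw [h5, map_zero] at h3
        exact lt_irrefl _ h3
  · intro h; exact Or.inl h

end p7

section main

variable {ι : Type} [DecidableEq ι] {R : Type*} [CommRing R]
variable {V : Type} [AddCommGroup V] [LinearOrder V] [IsOrderedAddMonoid V]

/-- the scaling character `m ↦ v^{-2 δ(m)}` (`= q^{δ(m)}`). -/
noncomputable def chiF (T : Tw (ι →₀ ℕ) R) (δ : (ι →₀ ℕ) →+ ℕ) : Multiplicative (ι →₀ ℕ) →* R :=
  chiN ((T.v ^ (-2 : ℤ) : Rˣ) : R) δ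

/-- **(P1-P8)** `B⁻¹ σ(B)` has all coefficients in `P`, `B = pos x A`, `x` arbitrary. -/
theorem frame_pos (T : Tw (ι →₀ ℕ) R) (hs : ∀ a b, T.β a b = - T.β b a)
    (δ : (ι →₀ ℕ) →+ ℕ) (P : Subsemiring R) (hv : ∀ z : ℤ, ((T.v ^ z : Rˣ) : R) ∈ P)
    {E : Type} [AddCommGroup E] [LinearOrder E] [IsOrderedAddMonoid E] {η : (ι →₀ ℕ) →+ E}
    (hη : Function.Injective η)
    {A : TPS T} (hA0 : A.co 0 = 1) (D : TData (frame T δ).β P)
    (hD : ∀ {V : Type} [AddCommGroup V] [LinearOrder V] [IsOrderedAddMonoid V]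
      (x : (Option ι →₀ ℕ) →+ V) (m : Option ι →₀ ℕ),
      D.c x m = (conj x ((embF T δ).hom A) (Y (frame T δ) ff)).co m)
    (x : (ι →₀ ℕ) →+ V) (m : ι →₀ ℕ) :
    (TPS.inv (pos x A) * scale (chiF T δ) (pos x A)).co m ∈ P := by
  classical
  set e := embF T δ with he
  have hg := grd_hom e
  set B := pos x A with hB
  -- the framed element has support in the unframed classes
  have hA1 : In1 (fun a : Option ι →₀ ℕ => a none = 0) (e.hom A) := by
    refine hg.in1 _ A ⟨hA0, fun d _ h => absurd ?_ h⟩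
    simp [he]
  have hterm : ∀ g, ∀ {V : Type} [AddCommGroup V] [LinearOrder V] [IsOrderedAddMonoid V]
      (x : (Option ι →₀ ℕ) →+ V), D.c (lexF ((frame T δ).β g) x) g
        = (Y (frame T δ) (ff : Option ι →₀ ℕ)).co g := by
    intro g V _ _ _ x
    rw [hD]
    refine terminal (S := fun a : Option ι →₀ ℕ => a none = 0) (frame_skew hs) ?_ hA1 ff ?_ g x _
      (fun e => lexF_pos)
    · intro a b ha hb
      show (a + b) none = 0
      rw [Finsupp.add_apply, ha, hb]
    · intro c hc
      rw [← inc_rs hc, frame_β_ff_inc]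
      omega
  have hY : ∀ g, (Y (frame T δ) (ff : Option ι →₀ ℕ)).co g ∈ P.toAddSubmonoid := by
    intro g
    unfold Y
    rw [co_mono]
    split_ifs
    · exact P.one_mem
    · exact P.zero_mem
  have h1 := (D.pos_of_terminal P.toAddSubmonoid (fun p hp a ha => P.mul_mem hp ha) _ hterm
    (inc m + ff) (fun g _ => hY g) (extF x η) (extF_injective x hη)).1
  rw [hD] at h1
  -- rewrite the conjugate
  have hpos : pos (extF x η) (e.hom A) = e.hom B := by
    rw [hg.pos _ hA0, hB]
    congr 1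
    unfold pos
    congr 1
    funext d
    exact propext (extF_pos x η d)
  have h2 : conj (extF x η) (e.hom A) (Y (frame T δ) ff)
      = e.hom (TPS.inv B * scale (chiF T δ) B) * Y (frame T δ) ff := by
    unfold conj cj
    rw [hpos, mul_assoc, Y_mul', hg.inv (pos_co_zero _ _)]
    rw [e.scale_hom (chiY (frame T δ) ff) (chiF T δ) ?_, ← mul_assoc, ← map_mul]
    intro a
    rw [chiY_apply]
    show (((frame T δ).v ^ ((frame T δ).β ff (inc a) - (frame T δ).β (inc a) ff) : Rˣ) : R) = _
    rw [frame_β_ff_inc, frame_β_inc_ff, chiF, chiN_apply, frame_v, ← Units.val_pow_eq_pow_val,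
      ← zpow_natCast, ← zpow_mul]
    congr 2
    ring
  rw [h2] at h1
  have h3 : (e.hom (TPS.inv B * scale (chiF T δ) B) * Y (frame T δ) ff).co (inc m + ff)
      = wt (frame T δ) (inc m) ff * (TPS.inv B * scale (chiF T δ) B).co m := by
    rw [co_mul_Y]
    congr 1
    exact e.co_hom_j _ m
  rw [h3] at h1
  have h4 : wt (frame T δ) (inc m) ff = ((T.v ^ ((δ m : ℤ)) : Rˣ) : R) := by
    unfold wt
    rw [frame_β_inc_ff, frame_v]
  rw [h4] at h1
  have h5 := P.mul_mem (hv (-(δ m : ℤ))) h1
  rwa [← mul_assoc, ← Units.val_mul, ← zpow_add, neg_add_cancel, zpow_zero, Units.val_one,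
    one_mul] at h5

/-- **(P9)** positivity of `E^θ`, every functional `θ`. -/
theorem E_pos (T : Tw (ι →₀ ℕ) R) (hs : ∀ a b, T.β a b = - T.β b a)
    (δ : (ι →₀ ℕ) →+ ℕ) (P : Subsemiring R) (hv : ∀ z : ℤ, ((T.v ^ z : Rˣ) : R) ∈ P)
    {H : Type} [AddCommGroup H] [LinearOrder H] [IsOrderedAddMonoid H] {η : (ι →₀ ℕ) →+ H}
    (hη : Function.Injective η)
    {Ψ aW E : TPS T} (hΨ : In1 (fun d => 0 < δ d) Ψ) (haW : In1 (fun d => δ d = 0) aW)
    (hE : scale (chiF T δ) Ψ = Ψ * E) (D : TData (frame T δ).β P)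
    (hD : ∀ {V : Type} [AddCommGroup V] [LinearOrder V] [IsOrderedAddMonoid V]
      (x : (Option ι →₀ ℕ) →+ V) (m : Option ι →₀ ℕ),
      D.c x m = (conj x ((embF T δ).hom (Ψ * aW)) (Y (frame T δ) ff)).co m)
    (θ : (ι →₀ ℕ) →+ V) (m : ι →₀ ℕ) : (conj θ aW E).co m ∈ P := by
  have h0 : (Ψ * aW).co 0 = 1 := by rw [co_mul_zero', hΨ.one, haW.one, one_mul]
  have h1 := frame_pos T hs δ P hv hη h0 D hD (lexF ((Nat.castAddMonoidHom ℤ).comp δ) θ) m
  have h2 := (EPsi998.conj_form (deg := δ)
    (P := fun d => 0 < lexF ((Nat.castAddMonoidHom ℤ).comp δ) θ d) (Pθ := fun d => 0 < θ d)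
    (closed_pos _) ?_ ?_ ?_ hΨ haW hE).2
  · unfold pos at h1
    rw [h2] at h1
    exact h1
  · intro d hd
    rw [lexF_pos]
    left
    show (0 : ℤ) < (δ d : ℤ)
    exact_mod_cast hd
  · intro d hd
    rw [lexF_pos]
    have h3 : ((Nat.castAddMonoidHom ℤ).comp δ) d = 0 := by
      show ((δ d : ℕ) : ℤ) = 0
      rw [hd]; rfl
    rw [h3]
    simp
  · intro d hd
    rw [chiF, chiN_apply, hd, pow_zero]

end main

section nonneg

variable {M : Type*} [AddCommMonoid M] {R : Type*} [CommRing R] {T : Tw M R}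

/-- all coefficients in `P`. -/
def CoeffIn (P : Subsemiring R) (f : TPS T) : Prop := ∀ m, f.co m ∈ P

theorem CoeffIn.one (P : Subsemiring R) : CoeffIn P (1 : TPS T) := by
  classical
  intro m
  rw [co_one]
  split_ifs
  · exact P.one_mem
  · exact P.zero_mem

theorem CoeffIn.mul [HasAntidiagonal M] {P : Subsemiring R}
    (hv : ∀ z : ℤ, ((T.v ^ z : Rˣ) : R) ∈ P)
    {f g : TPS T} (hf : CoeffIn P f) (hg : CoeffIn P g) : CoeffIn P (f * g) := by
  intro m
  rw [co_mul]
  exact P.sum_mem fun p _ => P.mul_mem (hv _) (P.mul_mem (hf _) (hg _))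

end nonneg

section bigring

variable {M : Type*} [AddCommMonoid M] [PartialOrder M] [IsOrderedCancelAddMonoid M]
  [CanonicallyOrderedAdd M] [WellFoundedLT M] [HasAntidiagonal M]
variable {R : Type*} [CommRing R] {T : Tw M R} {R' : Type*} [CommRing R'] {T' : Tw M R'}
variable {V : Type*} [AddCommGroup V] [LinearOrder V] [IsOrderedAddMonoid V]




end bigring

end Frame436

end Crest.Agent.R059
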