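import Crest.Statements.S0081

-- ▼ part R059/Count
section

set_option autoImplicit false

open Crest.CombinatoricsR.UnitInterval

namespace Crest.Agent.R059

variable {n N : ℕ}

/-- compatibility of a colour word `g` with a permutation word `σ`. -/
def Compat (h : Fin n → ℕ) (σ : Equiv.Perm (Fin n)) (g : Fin n → Fin N) : Prop :=
  ∀ i j : Fin n, j.val = i.val + 1 →
    g j < g i ∨ (g j = g i ∧ σ j < σ i ∧ ¬ IsEdge h (σ j) (σ i))

instance (h : Fin n → ℕ) (σ : Equiv.Perm (Fin n)) (g : Fin n → Fin N) :
    Decidable (Compat h σ g) := by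
  unfold Compat; infer_instance

theorem isEdge_symm {h : Fin n → ℕ} {a b : Fin n} (e : IsEdge h a b) : IsEdge h b a := by
  unfold IsEdge at *; tauto

theorem nonEdge_trans {h : Fin n → ℕ} (hm : Monotone h) {x y z : Fin n} (hxy : x < y)
    (hyz : y < z) (e : ¬ IsEdge h y z) : ¬ IsEdge h x z := by
  intro e'
  apply e
  have hxz : x < z := hxy.trans hyz
  rcases e' with ⟨_, h1⟩ | ⟨h1, _⟩
  · exact Or.inl ⟨hyz, h1.trans (hm hxy.le)⟩
  · exact absurd h1 (not_lt.2 hxz.le)

theorem Compat.lt {h : Fin n → ℕ} (hm : Monotone h) {σ : Equiv.Perm (Fin n)}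
    {g : Fin n → Fin N} (hc : Compat h σ g) :
    ∀ i j : Fin n, i < j → g j < g i ∨ (g j = g i ∧ σ j < σ i ∧ ¬ IsEdge h (σ j) (σ i)) := by
  intro i j hij
  obtain ⟨j, hj⟩ := j
  induction j with
  | zero => exact absurd hij (by simp [Fin.lt_def])
  | succ k ih =>
    have hk : k < n := by omega
    by_cases hik : i.val = k
    · exact hc i ⟨k + 1, hj⟩ (by simp [hik])
    · have hik' : i < (⟨k, hk⟩ : Fin n) := by
        rw [Fin.lt_def] at hij ⊢
        simp only at hij ⊢
        omega
      have h1 := ih hk hik'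
      have h2 := hc ⟨k, hk⟩ ⟨k + 1, hj⟩ rfl
      rcases h1 with h1 | ⟨h1, h1', h1''⟩
      · rcases h2 with h2 | ⟨h2, _, _⟩
        · exact Or.inl (h2.trans h1)
        · exact Or.inl (h2 ▸ h1)
      · rcases h2 with h2 | ⟨h2, h2', h2''⟩
        · exact Or.inl (h1 ▸ h2)
        · refine Or.inr ⟨h2.trans h1, h2'.trans h1', nonEdge_trans hm h2' h1' h1''⟩

theorem Compat.proper {h : Fin n → ℕ} (hm : Monotone h) {σ : Equiv.Perm (Fin n)}
    {g : Fin n → Fin N} (hc : Compat h σ g) :
    ∀ a b : Fin n, IsEdge h a b → g (σ.symm a) ≠ g (σ.symm b) := by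
  intro a b e hab
  have hne : σ.symm a ≠ σ.symm b := by
    intro hh
    have := σ.symm.injective hh
    subst this
    unfold IsEdge at e
    rcases e with ⟨e, _⟩ | ⟨e, _⟩ <;> exact absurd e (lt_irrefl _)
  rcases lt_or_gt_of_ne hne with hlt | hlt
  · rcases hc.lt hm _ _ hlt with h1 | ⟨_, _, h3⟩
    · exact absurd h1 (by rw [hab]; exact lt_irrefl _)
    · apply h3
      simp only [Equiv.apply_symm_apply]
      exact isEdge_symm e
  · rcases hc.lt hm _ _ hlt with h1 | ⟨_, _, h3⟩
    · exact absurd h1 (by rw [hab]; exact lt_irrefl _)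
    · apply h3
      simp only [Equiv.apply_symm_apply]
      exact e

theorem Compat.ascents_eq {h : Fin n → ℕ} (hm : Monotone h) {σ : Equiv.Perm (Fin n)}
    {g : Fin n → Fin N} (hc : Compat h σ g) :
    ascents h (fun a => g (σ.symm a)) = ginv h σ := by
  unfold Crest.CombinatoricsR.UnitInterval.ascents ginv
  symm
  apply Finset.card_bij (fun (p : Fin n × Fin n) _ => (σ p.2, σ p.1))
  · rintro ⟨i, j⟩ hp
    simp only [Finset.mem_filter, Finset.mem_univ, true_and] at hp ⊢
    obtain ⟨h1, h2, h3⟩ := hp
    refine ⟨h2, isEdge_symm h3, ?_⟩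
    simp only [Equiv.symm_apply_apply]
    rcases hc.lt hm i j h1 with h4 | ⟨_, _, h6⟩
    · exact h4
    · exact absurd (isEdge_symm h3) h6
  · rintro ⟨i, j⟩ _ ⟨i', j'⟩ _ heq
    simp only [Prod.mk.injEq, EmbeddingLike.apply_eq_iff_eq] at heq
    simp [heq.1, heq.2]
  · rintro ⟨a, b⟩ hp
    simp only [Finset.mem_filter, Finset.mem_univ, true_and] at hp
    obtain ⟨h1, h2, h3⟩ := hp
    refine ⟨(σ.symm b, σ.symm a), ?_, by simp⟩
    simp only [Finset.mem_filter, Finset.mem_univ, true_and, Equiv.apply_symm_apply]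
    refine ⟨?_, h1, isEdge_symm h2⟩
    by_contra hcon
    rw [not_lt] at hcon
    rcases hcon.lt_or_eq with hlt | heq
    · rcases hc.lt hm _ _ hlt with h4 | ⟨h4, _, _⟩
      · exact absurd h3 (not_lt.2 h4.le)
      · exact absurd h3 (by rw [h4]; exact lt_irrefl _)
    · rw [heq] at h3; exact absurd h3 (lt_irrefl _)

/-- key used to sort the vertices by a colouring: larger colours first, then larger vertices. -/
def key (f : Fin n → Fin N) (a : Fin n) : (Fin N)ᵒᵈ ×ₗ (Fin n)ᵒᵈ :=
  toLex (OrderDual.toDual (f a), OrderDual.toDual a)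

theorem key_injective (f : Fin n → Fin N) : Function.Injective (key f) := by
  intro a b hab
  unfold key at hab
  have := toLex_inj.1 hab
  simpa using (Prod.mk.injEq _ _ _ _ ▸ this).2

theorem key_lt_iff (f : Fin n → Fin N) (a b : Fin n) :
    key f a < key f b ↔ f b < f a ∨ (f a = f b ∧ b < a) := by
  unfold key
  rw [Prod.Lex.toLex_lt_toLex]
  simp

theorem Compat.strictMono {h : Fin n → ℕ} (hm : Monotone h) {σ : Equiv.Perm (Fin n)}
    {g : Fin n → Fin N} (hc : Compat h σ g) :
    StrictMono (fun i => key (fun a => g (σ.symm a)) (σ i)) := by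
  intro i j hij
  show key _ _ < key _ _
  rw [key_lt_iff]
  simp only [Equiv.symm_apply_apply]
  rcases hc.lt hm i j hij with h1 | ⟨h1, h2, _⟩
  · exact Or.inl h1
  · exact Or.inr ⟨h1.symm, h2⟩

theorem compat_inj {h : Fin n → ℕ} (hm : Monotone h) {σ σ' : Equiv.Perm (Fin n)}
    {g g' : Fin n → Fin N} (hc : Compat h σ g) (hc' : Compat h σ' g')
    (heq : (fun a => g (σ.symm a)) = (fun a => g' (σ'.symm a))) : σ = σ' ∧ g = g' := by
  have h1 := hc.strictMono hm
  have h2 := hc'.strictMono hm
  rw [← heq] at h2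
  have hr : (fun i => key (fun a => g (σ.symm a)) (σ i)) =
      (fun i => key (fun a => g (σ.symm a)) (σ' i)) := by
    apply (StrictMono.range_inj h1 h2).1
    ext x
    simp only [Set.mem_range]
    constructor
    · rintro ⟨y, rfl⟩
      exact ⟨σ'.symm (σ y), by simp⟩
    · rintro ⟨y, rfl⟩
      exact ⟨σ.symm (σ' y), by simp⟩
  have hσ : σ = σ' := by
    ext i
    have := congrFun hr i
    have := key_injective _ this
    rw [this]
  subst hσ
  refine ⟨rfl, ?_⟩
  funext i
  have := congrFun heq (σ i)
  simpa using this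

theorem compat_surj {h : Fin n → ℕ} (f : Fin n → Fin N)
    (hf : ∀ a b : Fin n, IsEdge h a b → f a ≠ f b) :
    ∃ (σ : Equiv.Perm (Fin n)) (g : Fin n → Fin N), Compat h σ g ∧
      (fun a => g (σ.symm a)) = f := by
  refine ⟨Tuple.sort (key f), fun i => f (Tuple.sort (key f) i), ?_, ?_⟩
  · intro i j hij
    have hmono : Monotone (key f ∘ Tuple.sort (key f)) := Tuple.monotone_sort _
    have hlt : i < j := by rw [Fin.lt_def]; omega
    have hs : key f (Tuple.sort (key f) i) < key f (Tuple.sort (key f) j) := by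
      apply lt_of_le_of_ne (hmono hlt.le)
      intro he
      have := (Tuple.sort (key f)).injective (key_injective f he)
      exact absurd this hlt.ne
    rw [key_lt_iff] at hs
    rcases hs with hs | ⟨hs, hs'⟩
    · exact Or.inl hs
    · refine Or.inr ⟨hs.symm, hs', ?_⟩
      intro e
      exact hf _ _ e hs.symm
  · funext a
    simp

theorem sum_proper {M : Type*} [AddCommMonoid M] {h : Fin n → ℕ} (hm : Monotone h)
    (F : (Fin n → Fin N) → M) :
    ∑ f ∈ (Finset.univ : Finset (Fin n → Fin N)).filter
      (fun f => ∀ a b : Fin n, IsEdge h a b → f a ≠ f b), F f =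
    ∑ σ : Equiv.Perm (Fin n), ∑ g ∈ (Finset.univ : Finset (Fin n → Fin N)).filter
      (fun g => Compat h σ g), F (fun a => g (σ.symm a)) := by
  rw [Finset.sum_sigma']
  symm
  apply Finset.sum_bij (fun (p : (_ : Equiv.Perm (Fin n)) × (Fin n → Fin N)) _ =>
    (fun a => p.2 (p.1.symm a)))
  · rintro ⟨σ, g⟩ hp
    simp only [Finset.mem_sigma, Finset.mem_univ, Finset.mem_filter, true_and] at hp ⊢
    exact hp.proper hm
  · rintro ⟨σ, g⟩ hp ⟨σ', g'⟩ hp' heq
    simp only [Finset.mem_sigma, Finset.mem_univ, Finset.mem_filter, true_and] at hp hp'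
    obtain ⟨h1, h2⟩ := compat_inj hm hp hp' heq
    subst h1; subst h2; rfl
  · intro f hf
    simp only [Finset.mem_univ, Finset.mem_filter, true_and] at hf
    obtain ⟨σ, g, hc, rfl⟩ := compat_surj f hf
    exact ⟨⟨σ, g⟩, by simpa using hc, rfl⟩
  · intro p _; rfl

end Crest.Agent.R059
end

-- ▼ part R059/Count2
section

set_option autoImplicit false

open Crest.CombinatoricsR.UnitInterval

namespace Crest.Agent.R059

variable {n N : ℕ}

theorem card_strictMono_fun (n M : ℕ) :
    ((Finset.univ : Finset (Fin n → Fin M)).filter (fun f => StrictMono f)).card = M.choose n := by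
  classical
  have hc : M.choose n = (Finset.powersetCard n (Finset.univ : Finset (Fin M))).card := by
    simp
  rw [hc]
  apply Finset.card_bij (fun (f : Fin n → Fin M) _ => Finset.univ.image f)
  · intro f hf
    simp only [Finset.mem_filter, Finset.mem_univ, true_and] at hf
    rw [Finset.mem_powersetCard]
    refine ⟨Finset.subset_univ _, ?_⟩
    rw [Finset.card_image_of_injective _ hf.injective]
    simp
  · intro f hf g hg heq
    simp only [Finset.mem_filter, Finset.mem_univ, true_and] at hf hg
    apply (StrictMono.range_inj hf hg).1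
    have := congrArg (fun s : Finset (Fin M) => (s : Set (Fin M))) heq
    simpa using this
  · intro s hs
    rw [Finset.mem_powersetCard] at hs
    refine ⟨s.orderEmbOfFin hs.2, ?_, ?_⟩
    · simp only [Finset.mem_filter, Finset.mem_univ, true_and]
      exact (s.orderEmbOfFin hs.2).strictMono
    · apply Finset.coe_injective
      simp

/-- number of elements of `W` that are `≥ i`. -/
def cnt (W : Finset (Fin n)) (i : ℕ) : ℕ := (W.filter (fun w => i ≤ w.val)).card

theorem cnt_zero (W : Finset (Fin n)) : cnt W 0 = W.card := by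
  unfold cnt; simp

theorem cnt_succ_of_mem {W : Finset (Fin n)} {i : Fin n} (hi : i ∈ W) :
    cnt W i.val = cnt W (i.val + 1) + 1 := by
  classical
  unfold cnt
  have : W.filter (fun w => i.val ≤ w.val) = insert i (W.filter (fun w => i.val + 1 ≤ w.val)) := by
    ext w
    simp only [Finset.mem_filter, Finset.mem_insert]
    constructor
    · rintro ⟨h1, h2⟩
      rcases h2.lt_or_eq with h3 | h3
      · exact Or.inr ⟨h1, h3⟩
      · exact Or.inl (Fin.ext h3.symm)
    · rintro (rfl | ⟨h1, h2⟩)
      · exact ⟨hi, le_rfl⟩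
      · exact ⟨h1, by omega⟩
  rw [this, Finset.card_insert_of_notMem]
  simp

theorem cnt_succ_of_not_mem {W : Finset (Fin n)} {i : Fin n} (hi : i ∉ W) :
    cnt W i.val = cnt W (i.val + 1) := by
  unfold cnt
  congr 1
  ext w
  simp only [Finset.mem_filter]
  constructor
  · rintro ⟨h1, h2⟩
    refine ⟨h1, ?_⟩
    rcases h2.lt_or_eq with h3 | h3
    · exact h3
    · exact absurd (Fin.ext h3 ▸ h1 : i ∈ W) hi
  · rintro ⟨h1, h2⟩
    exact ⟨h1, by omega⟩

theorem cnt_succ_le {W : Finset (Fin n)} (i : ℕ) : cnt W (i + 1) ≤ cnt W i := by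
  unfold cnt
  apply Finset.card_le_card
  intro w
  simp only [Finset.mem_filter]
  rintro ⟨h1, h2⟩
  exact ⟨h1, by omega⟩

theorem cnt_le_succ {W : Finset (Fin n)} (i : ℕ) : cnt W i ≤ cnt W (i + 1) + 1 := by
  by_cases hi : i < n
  · by_cases h : (⟨i, hi⟩ : Fin n) ∈ W
    · exact (cnt_succ_of_mem h).le
    · have := cnt_succ_of_not_mem h
      simp only at this
      omega
  · have : cnt W i = 0 := by
      unfold cnt
      rw [Finset.card_eq_zero, Finset.filter_eq_empty_iff]
      intro w _
      have := w.isLt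
      omega
    omega

/-- `card W - cnt W i ≤ i`. -/
theorem card_le_cnt_add {W : Finset (Fin n)} (i : ℕ) : W.card ≤ cnt W i + i := by
  induction i with
  | zero => rw [cnt_zero]; omega
  | succ k ih =>
    have := @cnt_le_succ n W k
    omega

theorem cnt_le {W : Finset (Fin n)} (hW : ∀ w ∈ W, w.val + 1 < n) (i : ℕ) (hi : i < n) :
    cnt W i + i + 1 ≤ n := by
  -- downward induction: k = n - 1 - i
  obtain ⟨k, hk⟩ : ∃ k, n = i + 1 + k := ⟨n - 1 - i, by omega⟩
  induction k generalizing i with
  | zero =>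
    have : cnt W i = 0 := by
      unfold cnt
      rw [Finset.card_eq_zero, Finset.filter_eq_empty_iff]
      intro w hw
      have := hW w hw
      omega
    omega
  | succ k ih =>
    have h1 := ih (i + 1) (by omega) (by omega)
    have := @cnt_le_succ n W i
    omega

theorem strictMono_ge {M : ℕ} {f : Fin n → Fin M} (hf : StrictMono f) (k : Fin n) :
    k.val ≤ (f k).val := by
  obtain ⟨k, hk⟩ := k
  induction k with
  | zero => simp
  | succ m ih =>
    have h1 := ih (by omega)
    have h2 : f ⟨m, by omega⟩ < f ⟨m + 1, hk⟩ := hf (by simp [Fin.lt_def])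
    rw [Fin.lt_def] at h2
    simp only at h1 ⊢
    omega

theorem strictMono_le {M : ℕ} {f : Fin n → Fin M} (hf : StrictMono f) (i : ℕ) (hi : i < n) :
    (f ⟨n - 1 - i, by omega⟩).val + i + 1 ≤ M := by
  induction i with
  | zero => have := (f ⟨n - 1 - 0, by omega⟩).isLt; omega
  | succ m ih =>
    have h1 := ih (by omega)
    have h2 : f ⟨n - 1 - (m + 1), by omega⟩ < f ⟨n - 1 - m, by omega⟩ :=
      hf (by rw [Fin.lt_def]; simp only; omega)
    rw [Fin.lt_def] at h2
    omega

/-- Weakly decreasing sequences with prescribed weak positions. -/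
theorem card_weak (W : Finset (Fin n)) (hW : ∀ w ∈ W, w.val + 1 < n) (N : ℕ) :
    ((Finset.univ : Finset (Fin n → Fin N)).filter
      (fun g => ∀ i j : Fin n, j.val = i.val + 1 → g j < g i ∨ (g j = g i ∧ i ∈ W))).card =
    (N + W.card).choose n := by
  classical
  rw [← card_strictMono_fun n (N + W.card)]
  have hb : ∀ (g : Fin n → Fin N) (i : Fin n), (g i).val + cnt W i.val < N + W.card := by
    intro g i
    have h1 := (g i).isLt
    have h2 : cnt W i.val ≤ W.card := by
      unfold cnt; exact Finset.card_filter_le _ _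
    omega
  apply Finset.card_bij (fun (g : Fin n → Fin N) _ =>
    (fun i : Fin n => (⟨(g i.rev).val + cnt W i.rev.val, hb g i.rev⟩ : Fin (N + W.card))))
  · intro g hg
    simp only [Finset.mem_filter, Finset.mem_univ, true_and] at hg ⊢
    have key : ∀ i j : Fin n, j.val = i.val + 1 →
        (g j).val + cnt W j.val < (g i).val + cnt W i.val := by
      intro i j hij
      rw [hij]
      rcases hg i j hij with h1 | ⟨h1, h2⟩
      · rw [Fin.lt_def] at h1
        have := @cnt_succ_le n W i.val
        omega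
      · rw [h1, cnt_succ_of_mem h2]; omega
    have anti : ∀ (d : ℕ) (i j : Fin n), j.val = i.val + 1 + d →
        (g j).val + cnt W j.val < (g i).val + cnt W i.val := by
      intro d
      induction d with
      | zero => intro i j hij; exact key i j hij
      | succ e ih =>
        intro i j hij
        have h1 := ih i ⟨i.val + 1 + e, by have := j.isLt; omega⟩ rfl
        have h2 := key ⟨i.val + 1 + e, by have := j.isLt; omega⟩ j (by simp only; omega)
        exact h2.trans h1
    intro a b hab
    rw [Fin.lt_def]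
    simp only
    rw [Fin.lt_def] at hab
    have ha := a.isLt
    have hb := b.isLt
    apply anti (b.val - a.val - 1) b.rev a.rev
    rw [Fin.val_rev, Fin.val_rev]
    omega
  · intro g _ g' _ heq
    funext i
    have := congrFun heq i.rev
    simp only [Fin.rev_rev, Fin.mk.injEq] at this
    exact Fin.ext (by omega)
  · intro f hf
    simp only [Finset.mem_filter, Finset.mem_univ, true_and] at hf
    have hlow : ∀ i : Fin n, cnt W i.val ≤ (f i.rev).val := by
      intro i
      have h1 := strictMono_ge hf i.rev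
      rw [Fin.val_rev] at h1
      have h2 := cnt_le hW i.val i.isLt
      omega
    have hup : ∀ i : Fin n, (f i.rev).val - cnt W i.val < N := by
      intro i
      have h0 := hlow i
      have h1 := strictMono_le hf i.val i.isLt
      have h2 : i.rev = ⟨n - 1 - i.val, by have := i.isLt; omega⟩ := by
        apply Fin.ext; rw [Fin.val_rev]; simp only; omega
      rw [h2] at h0 ⊢
      have h3 := @card_le_cnt_add n W i.val
      omega
    refine ⟨fun i => ⟨(f i.rev).val - cnt W i.val, hup i⟩, ?_, ?_⟩
    · simp only [Finset.mem_filter, Finset.mem_univ, true_and]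
      intro i j hij
      have hlt : f j.rev < f i.rev := by
        apply hf
        rw [Fin.lt_def, Fin.val_rev, Fin.val_rev]
        have := j.isLt
        omega
      rw [Fin.lt_def] at hlt
      have h1 := hlow i
      have h2 := hlow j
      by_cases hi : i ∈ W
      · have h3 := cnt_succ_of_mem hi
        rw [← hij] at h3
        by_cases he : (f j.rev).val - cnt W j.val = (f i.rev).val - cnt W i.val
        · exact Or.inr ⟨Fin.ext he, hi⟩
        · left; rw [Fin.lt_def]; simp only; omega
      · have h3 := cnt_succ_of_not_mem hi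
        rw [← hij] at h3
        left; rw [Fin.lt_def]; simp only; omega
    · funext i
      apply Fin.ext
      simp only [Fin.rev_rev]
      have := hlow i.rev
      rw [Fin.rev_rev] at this
      omega

/-- P-descent positions of `σ`. -/
def pdes (h : Fin n → ℕ) (σ : Equiv.Perm (Fin n)) : Finset (Fin n) :=
  Finset.univ.filter (fun i => ∃ j : Fin n, j.val = i.val + 1 ∧ σ j < σ i ∧
    ¬ IsEdge h (σ j) (σ i))

theorem card_compat (h : Fin n → ℕ) (σ : Equiv.Perm (Fin n)) (N : ℕ) :
    ((Finset.univ : Finset (Fin n → Fin N)).filter (fun g => Compat h σ g)).card =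
      (N + (pdes h σ).card).choose n := by
  classical
  rw [← card_weak (pdes h σ) ?_ N]
  · congr 1
    ext g
    rw [Finset.mem_filter, Finset.mem_filter]
    simp only [Finset.mem_filter, Finset.mem_univ, true_and, pdes]
    unfold Compat
    constructor
    · intro hc i j hij
      rcases hc i j hij with h1 | ⟨h1, h2⟩
      · exact Or.inl h1
      · exact Or.inr ⟨h1, j, hij, h2⟩
    · intro hc i j hij
      rcases hc i j hij with h1 | ⟨h1, j', hj', h2⟩
      · exact Or.inl h1
      · have : j' = j := Fin.ext (by omega)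
        subst this
        exact Or.inr ⟨h1, h2⟩
  · intro w hw
    simp only [pdes, Finset.mem_filter, Finset.mem_univ, true_and] at hw
    obtain ⟨j, hj, _⟩ := hw
    have := j.isLt
    omega

theorem pdes_card_lt (h : Fin n → ℕ) (σ : Equiv.Perm (Fin n)) (hn : 0 < n) :
    (pdes h σ).card < n := by
  have h1 : ∀ w ∈ pdes h σ, w.val + 1 < n := by
    intro w hw
    simp only [pdes, Finset.mem_filter, Finset.mem_univ, true_and] at hw
    obtain ⟨j, hj, _⟩ := hw
    have := j.isLt
    omega
  have := cnt_le h1 0 hn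
  rw [cnt_zero] at this
  omega

theorem pdes_eq_empty_iff (h : Fin n → ℕ) (σ : Equiv.Perm (Fin n)) :
    (pdes h σ).card = 0 ↔ σ ∈ descentSet h := by
  rw [Finset.card_eq_zero]
  unfold pdes descentSet
  rw [Finset.filter_eq_empty_iff]
  simp only [Finset.mem_univ, true_implies, not_exists, not_and, not_not, Finset.mem_filter,
    true_and]

/-- evaluation at all-ones. -/
theorem sum_qasc {h : Fin n → ℕ} (hm : Monotone h) (N : ℕ) :
    ∑ f ∈ (Finset.univ : Finset (Fin n → Fin N)).filter
      (fun f => ∀ a b : Fin n, IsEdge h a b → f a ≠ f b),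
      (Polynomial.X : Polynomial ℤ) ^ ascents h f =
    ∑ σ : Equiv.Perm (Fin n), ((N + (pdes h σ).card).choose n : Polynomial ℤ) *
      (Polynomial.X : Polynomial ℤ) ^ ginv h σ := by
  rw [sum_proper hm]
  apply Finset.sum_congr rfl
  intro σ _
  rw [← card_compat h σ N, ← nsmul_eq_mul, ← Finset.sum_const]
  apply Finset.sum_congr rfl
  intro g hg
  simp only [Finset.mem_filter, Finset.mem_univ, true_and] at hg
  rw [hg.ascents_eq hm]

end Crest.Agent.R059
end

-- ▼ part R059/Reduce
section

set_option autoImplicit false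

open Crest.CombinatoricsR.UnitInterval

namespace Crest.Agent.R059

variable {n : ℕ}

/-- binomial polynomial. -/
noncomputable def Bin (k : ℕ) : Polynomial ℚ :=
  Polynomial.C ((k.factorial : ℚ)⁻¹) * descPochhammer ℚ k

theorem Bin_eval_nat (k m : ℕ) : (Bin k).eval (m : ℚ) = (m.choose k : ℚ) := by
  unfold Bin
  rw [Polynomial.eval_mul, Polynomial.eval_C, descPochhammer_eval_eq_descFactorial,
    Nat.descFactorial_eq_factorial_mul_choose]
  have : (k.factorial : ℚ) ≠ 0 := by exact_mod_cast k.factorial_ne_zero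
  push_cast
  field_simp

theorem desc_neg_one (k : ℕ) : (descPochhammer ℚ k).eval (-1) = (-1) ^ k * k.factorial := by
  induction k with
  | zero => simp
  | succ m ih =>
    rw [descPochhammer_succ_eval, ih, Nat.factorial_succ]
    push_cast
    ring

theorem Bin_neg_one (k : ℕ) : (Bin k).eval (-1) = (-1) ^ k := by
  unfold Bin
  rw [Polynomial.eval_mul, Polynomial.eval_C, desc_neg_one]
  have : (k.factorial : ℚ) ≠ 0 := by exact_mod_cast k.factorial_ne_zero
  field_simp

theorem eval_one_esymm (N k : ℕ) :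
    MvPolynomial.eval (fun _ => (1 : Polynomial ℤ)) (MvPolynomial.esymm (Fin N) (Polynomial ℤ) k) =
      (N.choose k : Polynomial ℤ) := by
  unfold MvPolynomial.esymm
  simp

theorem eval_one_esymmPart (N : ℕ) (μ : Nat.Partition n) :
    MvPolynomial.eval (fun _ => (1 : Polynomial ℤ))
      (MvPolynomial.esymmPart (Fin N) (Polynomial ℤ) μ) =
      (μ.parts.map (fun k => (N.choose k : Polynomial ℤ))).prod := by
  unfold MvPolynomial.esymmPart
  rw [map_multiset_prod, Multiset.map_map]
  congr 1
  apply Multiset.map_congr rfl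
  intro k _
  exact eval_one_esymm N k

theorem eval_one_chromatic (h : Fin n → ℕ) (N : ℕ) :
    MvPolynomial.eval (fun _ => (1 : Polynomial ℤ)) (chromaticQSym h N) =
      ∑ f ∈ (Finset.univ : Finset (Fin n → Fin N)).filter
      (fun f => ∀ a b : Fin n, IsEdge h a b → f a ≠ f b),
      (Polynomial.X : Polynomial ℤ) ^ ascents h f := by
  unfold chromaticQSym
  simp

theorem prod_choose_coe (N : ℕ) (s : Multiset ℕ) :
    (s.map (fun k => (N.choose k : Polynomial ℤ))).prod =
      (((s.map (fun k => N.choose k)).prod : ℕ) : Polynomial ℤ) := by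
  rw [Nat.cast_multiset_prod, Multiset.map_map]
  rfl

/-- The sum of all `e`-coefficients. -/
theorem sum_coeff {h : Fin n → ℕ} (hm : Monotone h) (c : Nat.Partition n → Polynomial ℤ)
    (hc : ∀ N : ℕ, chromaticQSym h N =
      ∑ μ : Nat.Partition n, MvPolynomial.C (c μ) *
        MvPolynomial.esymmPart (Fin N) (Polynomial ℤ) μ) :
    ∑ μ, c μ = ∑ σ ∈ descentSet h, (Polynomial.X : Polynomial ℤ) ^ ginv h σ := by
  classical
  -- values at all ones
  have h1 : ∀ N : ℕ, ∑ σ : Equiv.Perm (Fin n), ((N + (pdes h σ).card).choose n : Polynomial ℤ) *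
      (Polynomial.X : Polynomial ℤ) ^ ginv h σ =
      ∑ μ, c μ * (((μ.parts.map (fun k => N.choose k)).prod : ℕ) : Polynomial ℤ) := by
    intro N
    rw [← sum_qasc hm, ← eval_one_chromatic, hc N, map_sum]
    apply Finset.sum_congr rfl
    intro μ _
    rw [map_mul, MvPolynomial.eval_C, eval_one_esymmPart, prod_choose_coe]
  ext j
  -- take the coefficient of `q^j`
  have h2 : ∀ N : ℕ, ∑ σ : Equiv.Perm (Fin n), (((N + (pdes h σ).card).choose n : ℕ) : ℤ) *
      (if j = ginv h σ then 1 else 0) =
      ∑ μ, (c μ).coeff j * (((μ.parts.map (fun k => N.choose k)).prod : ℕ) : ℤ) := by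
    intro N
    have := congrArg (fun p : Polynomial ℤ => p.coeff j) (h1 N)
    simp only [Polynomial.finsetSum_coeff] at this
    convert this using 2 with σ _ μ _
    · rw [Polynomial.natCast_mul, Polynomial.coeff_smul, Polynomial.coeff_X_pow]
      simp
    · rw [mul_comm (c μ), Polynomial.natCast_mul, Polynomial.coeff_smul]
      simp [mul_comm]
  -- polynomial identity in `N`
  let PL : Polynomial ℚ := ∑ σ : Equiv.Perm (Fin n),
    (Bin n).comp (Polynomial.X + Polynomial.C (((pdes h σ).card : ℕ) : ℚ)) *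
      Polynomial.C (if j = ginv h σ then (1 : ℚ) else 0)
  let PR : Polynomial ℚ := ∑ μ : Nat.Partition n, Polynomial.C ((((c μ).coeff j : ℤ)) : ℚ) *
    (μ.parts.map (fun k => Bin k)).prod
  have hPL : ∀ x : ℚ, PL.eval x = ∑ σ : Equiv.Perm (Fin n),
      (Bin n).eval (x + (((pdes h σ).card : ℕ) : ℚ)) *
        (if j = ginv h σ then (1 : ℚ) else 0) := by
    intro x
    simp only [PL, Polynomial.eval_finsetSum, Polynomial.eval_mul, Polynomial.eval_comp,
      Polynomial.eval_add, Polynomial.eval_X, Polynomial.eval_C]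
  have hPR : ∀ x : ℚ, PR.eval x = ∑ μ : Nat.Partition n, ((((c μ).coeff j : ℤ)) : ℚ) *
      (μ.parts.map (fun k => (Bin k).eval x)).prod := by
    intro x
    simp only [PR, Polynomial.eval_finsetSum, Polynomial.eval_mul, Polynomial.eval_C]
    apply Finset.sum_congr rfl
    intro μ _
    congr 1
    rw [Polynomial.eval_multiset_prod, Multiset.map_map]
    rfl
  have hagree : ∀ N : ℕ, PL.eval (N : ℚ) = PR.eval (N : ℚ) := by
    intro N
    rw [hPL, hPR]
    have h3 := congrArg (fun z : ℤ => (z : ℚ)) (h2 N)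
    simp only [Int.cast_sum, Int.cast_mul, Int.cast_natCast] at h3
    convert h3 using 2 with σ _ μ _
    · rw [← Nat.cast_add, Bin_eval_nat]
      split_ifs <;> simp
    · congr 1
      rw [Nat.cast_multiset_prod, Multiset.map_map]
      congr 1
      apply Multiset.map_congr rfl
      intro k _
      simp [Bin_eval_nat]
  have hEq : PL = PR := by
    apply Polynomial.eq_of_infinite_eval_eq
    apply Set.Infinite.mono (s := Set.range (fun N : ℕ => (N : ℚ)))
    · rintro _ ⟨N, rfl⟩
      exact hagree N
    · exact Set.infinite_range_of_injective Nat.cast_injective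
  have hfin : PL.eval (-1) = PR.eval (-1) := by rw [hEq]
  rw [hPL, hPR] at hfin
  have hL : ∑ σ : Equiv.Perm (Fin n), (Bin n).eval (-1 + (((pdes h σ).card : ℕ) : ℚ)) *
        (if j = ginv h σ then (1 : ℚ) else 0) =
      (-1) ^ n * ∑ σ ∈ descentSet h, (if j = ginv h σ then (1 : ℚ) else 0) := by
    rw [Finset.mul_sum, ← Finset.sum_subset (Finset.subset_univ (descentSet h))]
    · apply Finset.sum_congr rfl
      intro σ hσ
      rw [(pdes_eq_empty_iff h σ).2 hσ]
      simp only [Nat.cast_zero, add_zero]
      rw [Bin_neg_one]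
    · intro σ _ hσ
      have hne : (pdes h σ).card ≠ 0 := fun hh => hσ ((pdes_eq_empty_iff h σ).1 hh)
      have hn : 0 < n := by
        rcases Nat.eq_zero_or_pos n with h0 | h0
        · exfalso
          subst h0
          apply hne
          rw [Finset.card_eq_zero]
          exact Finset.eq_empty_of_isEmpty _
        · exact h0
      have hlt := pdes_card_lt h σ hn
      obtain ⟨d, hd⟩ : ∃ d, (pdes h σ).card = d + 1 := ⟨(pdes h σ).card - 1, by omega⟩
      have : (-1 + (((pdes h σ).card : ℕ) : ℚ)) = (d : ℚ) := by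
        rw [hd]; push_cast; ring
      rw [this, Bin_eval_nat, Nat.choose_eq_zero_of_lt (by omega)]
      simp
  have hR : ∑ μ : Nat.Partition n, ((((c μ).coeff j : ℤ)) : ℚ) *
      (μ.parts.map (fun k => (Bin k).eval (-1))).prod =
      (-1) ^ n * ∑ μ : Nat.Partition n, ((((c μ).coeff j : ℤ)) : ℚ) := by
    rw [Finset.mul_sum]
    apply Finset.sum_congr rfl
    intro μ _
    have : (μ.parts.map (fun k => (Bin k).eval (-1))).prod = (-1 : ℚ) ^ n := by
      have h5 : μ.parts.map (fun k => (Bin k).eval (-1)) = μ.parts.map (fun k => (-1 : ℚ) ^ k) := by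
        apply Multiset.map_congr rfl
        intro k _
        exact Bin_neg_one k
      have h8 : ∀ s : Multiset ℕ, (s.map (fun k => (-1 : ℚ) ^ k)).prod = (-1 : ℚ) ^ s.sum := by
        intro s
        induction s using Multiset.induction_on with
        | empty => simp
        | cons a t ih => rw [Multiset.map_cons, Multiset.prod_cons, ih, Multiset.sum_cons, pow_add]
      rw [h5, h8, μ.parts_sum]
    rw [this]; ring
  rw [hL, hR] at hfin
  have hne : ((-1 : ℚ)) ^ n ≠ 0 := by
    apply pow_ne_zero; norm_num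
  have h6 := mul_left_cancel₀ hne hfin
  simp only [Polynomial.finsetSum_coeff, Polynomial.coeff_X_pow]
  have h7 : ((∑ σ ∈ descentSet h, (if j = ginv h σ then (1 : ℤ) else 0) : ℤ) : ℚ) =
      ((∑ μ, (c μ).coeff j : ℤ) : ℚ) := by
    push_cast
    exact h6
  exact (Int.cast_injective h7).symm

end Crest.Agent.R059
end

-- ▼ part R059/Theta
section

set_option autoImplicit false

open Crest.CombinatoricsR.UnitInterval

namespace Crest.Agent.R059

variable {n : ℕ}

theorem exists_theta {D Λ : Type*} [Fintype D] [DecidableEq D] [Fintype Λ] [DecidableEq Λ]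
    (g : D → ℕ) (c : Λ → ℕ → ℕ)
    (hc : ∀ j, ∑ l, c l j = ((Finset.univ : Finset D).filter (fun x => g x = j)).card) :
    ∃ θ : D → Λ, ∀ l j,
      ((Finset.univ : Finset D).filter (fun x => θ x = l ∧ g x = j)).card = c l j := by
  classical
  have hcard : ∀ j, Fintype.card {x : D // g x = j} = Fintype.card (Σ l, Fin (c l j)) := by
    intro j
    rw [Fintype.card_subtype, ← hc j, Fintype.card_sigma]
    simp
  let e : ∀ j, {x : D // g x = j} ≃ (Σ l, Fin (c l j)) := fun j => Fintype.equivOfCardEq (hcard j)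
  refine ⟨fun x => (e (g x) ⟨x, rfl⟩).1, ?_⟩
  intro l j
  have hk : ∀ (k : ℕ) (z : {x : D // g x = j}) (hk : g z.1 = k),
      (e k ⟨z.1, hk⟩).1 = (e j z).1 := by
    intro k z hk
    have : k = j := hk.symm.trans z.2
    subst this
    rfl
  have s1 : ((Finset.univ : Finset D).filter
      (fun x => (e (g x) ⟨x, rfl⟩).1 = l ∧ g x = j)).card =
      ((Finset.univ : Finset {x : D // g x = j}).filter (fun z => (e j z).1 = l)).card := by
    symm
    apply Finset.card_bij (fun z _ => z.1)
    · intro z hz
      rw [Finset.mem_filter] at hz ⊢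
      exact ⟨Finset.mem_univ _, (hk _ z rfl).trans hz.2, z.2⟩
    · intro a _ b _ hab
      exact Subtype.ext hab
    · intro x hx
      rw [Finset.mem_filter] at hx
      refine ⟨⟨x, hx.2.2⟩, ?_, rfl⟩
      rw [Finset.mem_filter]
      exact ⟨Finset.mem_univ _, (hk _ ⟨x, hx.2.2⟩ rfl).symm.trans hx.2.1⟩
  have s2 : ((Finset.univ : Finset {x : D // g x = j}).filter (fun z => (e j z).1 = l)).card =
      ((Finset.univ : Finset (Σ l, Fin (c l j))).filter (fun z => z.1 = l)).card := by
    apply Finset.card_bij (fun z _ => e j z)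
    · intro z hz
      rw [Finset.mem_filter] at hz ⊢
      exact ⟨Finset.mem_univ _, hz.2⟩
    · intro a _ b _ hab
      exact (e j).injective hab
    · intro x hx
      rw [Finset.mem_filter] at hx
      refine ⟨(e j).symm x, ?_, by simp⟩
      rw [Finset.mem_filter]
      exact ⟨Finset.mem_univ _, by simpa using hx.2⟩
  have s3 : ((Finset.univ : Finset (Σ l, Fin (c l j))).filter (fun z => z.1 = l)).card =
      c l j := by
    have h3 : ((Finset.univ : Finset (Σ l, Fin (c l j))).filter (fun z => z.1 = l)) =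
        (Finset.univ : Finset (Fin (c l j))).image (fun y => (⟨l, y⟩ : Σ l, Fin (c l j))) := by
      ext ⟨l', y⟩
      simp only [Finset.mem_filter, Finset.mem_univ, true_and, Finset.mem_image]
      constructor
      · rintro rfl
        exact ⟨y, rfl⟩
      · rintro ⟨z, hz⟩
        exact (congrArg Sigma.fst hz).symm
    rw [h3, Finset.card_image_of_injective]
    · simp
    · intro a b hab
      simpa using hab
  rw [s1, s2, s3]

/-- `e`-positivity with coefficients in `ℕ[q]`, uniformly in the number of variables. -/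
def EPos (h : Fin n → ℕ) : Prop :=
  ∃ c : Nat.Partition n → Polynomial ℕ, ∀ N : ℕ, chromaticQSym h N =
    ∑ μ : Nat.Partition n, MvPolynomial.C ((c μ).map (Nat.castRingHom ℤ)) *
      MvPolynomial.esymmPart (Fin N) (Polynomial ℤ) μ

theorem of_EPos {h : Fin n → ℕ} (hm : Monotone h) (hE : EPos h) :
    ∃ θ : {σ : Equiv.Perm (Fin n) // σ ∈ descentSet h} → Nat.Partition n,
        ∀ N : ℕ, chromaticQSym h N =
          ∑ σ : {σ : Equiv.Perm (Fin n) // σ ∈ descentSet h},
            MvPolynomial.C (Polynomial.X ^ ginv h σ.1) *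
              MvPolynomial.esymmPart (Fin N) (Polynomial ℤ) (θ σ) := by
  classical
  obtain ⟨c, hc⟩ := hE
  have h1 := sum_coeff hm (fun μ => (c μ).map (Nat.castRingHom ℤ)) hc
  have h2 : ∀ j, ∑ μ, (c μ).coeff j =
      ((Finset.univ : Finset {σ : Equiv.Perm (Fin n) // σ ∈ descentSet h}).filter
        (fun x => ginv h x.1 = j)).card := by
    intro j
    have h3 := congrArg (fun p : Polynomial ℤ => p.coeff j) h1
    simp only [Polynomial.finsetSum_coeff, Polynomial.coeff_map, Polynomial.coeff_X_pow] at h3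
    have h4 : ∑ σ ∈ descentSet h, (if j = ginv h σ then (1 : ℤ) else 0) =
        (((Finset.univ : Finset {σ : Equiv.Perm (Fin n) // σ ∈ descentSet h}).filter
        (fun x => ginv h x.1 = j)).card : ℤ) := by
      rw [← Finset.sum_coe_sort]
      rw [Finset.card_filter]
      push_cast
      apply Finset.sum_congr rfl
      intro x _
      simp only [eq_comm]
    rw [h4] at h3
    have h5 : ((∑ μ, (c μ).coeff j : ℕ) : ℤ) = (((Finset.univ : Finset {σ : Equiv.Perm (Fin n) //
        σ ∈ descentSet h}).filter (fun x => ginv h x.1 = j)).card : ℤ) := by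
      rw [← h3]
      simp
    exact_mod_cast h5
  obtain ⟨θ, hθ⟩ := exists_theta (fun x : {σ : Equiv.Perm (Fin n) // σ ∈ descentSet h} =>
    ginv h x.1) (fun μ j => (c μ).coeff j) h2
  refine ⟨θ, ?_⟩
  intro N
  rw [hc N, ← Finset.sum_fiberwise_of_maps_to (s := Finset.univ) (t := Finset.univ) (g := θ)
    (fun _ _ => Finset.mem_univ _)]
  apply Finset.sum_congr rfl
  intro μ _
  have h6 : ∑ σ ∈ Finset.univ.filter (fun σ => θ σ = μ),
      MvPolynomial.C (Polynomial.X ^ ginv h σ.1) *
              MvPolynomial.esymmPart (Fin N) (Polynomial ℤ) (θ σ) =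
      ∑ σ ∈ Finset.univ.filter (fun σ => θ σ = μ),
      MvPolynomial.C (Polynomial.X ^ ginv h σ.1) *
              MvPolynomial.esymmPart (Fin N) (Polynomial ℤ) μ := by
    apply Finset.sum_congr rfl
    intro σ hσ
    rw [Finset.mem_filter] at hσ
    rw [hσ.2]
  rw [h6, ← Finset.sum_mul, ← map_sum]
  congr 2
  ext j
  rw [Polynomial.coeff_map, Polynomial.finsetSum_coeff]
  simp only [Polynomial.coeff_X_pow]
  have h7 := hθ μ j
  rw [← h7, ← Finset.filter_filter, Finset.card_filter]
  push_cast
  apply Finset.sum_congr rfl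
  intro x _
  simp only [eq_comm]

/-- S0081 follows from `EPos` for all Hessenberg functions. -/
theorem main_of_EPos (H : ∀ (n : ℕ) (h : Fin n → ℕ), IsHessenberg h → EPos h) :
    ∀ (n : ℕ) (h : Fin n → ℕ), IsHessenberg h →
      ∃ θ : {σ : Equiv.Perm (Fin n) // σ ∈ descentSet h} → Nat.Partition n,
        ∀ N : ℕ, chromaticQSym h N =
          ∑ σ : {σ : Equiv.Perm (Fin n) // σ ∈ descentSet h},
            MvPolynomial.C (Polynomial.X ^ ginv h σ.1) *
              MvPolynomial.esymmPart (Fin N) (Polynomial ℤ) (θ σ) :=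
  fun n h hh => of_EPos hh.1 (H n h hh)

end Crest.Agent.R059
end

-- ▼ part R059/Graph

set_option autoImplicit false

open Crest.CombinatoricsR.UnitInterval

namespace Crest.Agent.R059

/-- edge weight of a colour pair. -/
noncomputable def w {N : ℕ} (x y : Fin N) : Polynomial ℤ :=
  if x < y then Polynomial.X else if x = y then 0 else 1

@[simp] theorem w_self {N : ℕ} (x : Fin N) : w x x = 0 := by simp [w]

theorem w_lt {N : ℕ} {x y : Fin N} (h : x < y) : w x y = Polynomial.X := by simp [w, h]

theorem w_gt {N : ℕ} {x y : Fin N} (h : y < x) : w x y = 1 := by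
  simp [w, not_lt.2 h.le, h.ne']

/-- chromatic function of an oriented graph (edge set `E` of ordered pairs). -/
noncomputable def chromE {V : Type*} [Fintype V] [DecidableEq V] (E : Finset (V × V)) (N : ℕ) :
    MvPolynomial (Fin N) (Polynomial ℤ) :=
  ∑ f : V → Fin N, MvPolynomial.C (∏ p ∈ E, w (f p.1) (f p.2)) * ∏ a : V, MvPolynomial.X (f a)

/-- edges of the graph of `h`, oriented from small to large. -/
def edges {n : ℕ} (h : Fin n → ℕ) : Finset (Fin n × Fin n) :=
  Finset.univ.filter (fun p => p.1 < p.2 ∧ p.2.val + 1 ≤ h p.1)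

theorem isEdge_of_lt {n : ℕ} {h : Fin n → ℕ} {a b : Fin n} (hab : a < b) :
    IsEdge h a b ↔ b.val + 1 ≤ h a := by
  unfold IsEdge
  constructor
  · rintro (⟨_, h1⟩ | ⟨h1, _⟩)
    · exact h1
    · exact absurd h1 (not_lt.2 hab.le)
  · intro h1; exact Or.inl ⟨hab, h1⟩

theorem prod_w_edges {n N : ℕ} (h : Fin n → ℕ) (f : Fin n → Fin N) :
    ∏ p ∈ edges h, w (f p.1) (f p.2) =
      if (∀ a b : Fin n, IsEdge h a b → f a ≠ f b) then
        (Polynomial.X : Polynomial ℤ) ^ ascents h f else 0 := by
  classical
  split_ifs with hp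
  · have h1 : ∀ p ∈ edges h, w (f p.1) (f p.2) =
        if f p.1 < f p.2 then (Polynomial.X : Polynomial ℤ) else 1 := by
      intro p hpe
      simp only [edges, Finset.mem_filter, Finset.mem_univ, true_and] at hpe
      have hne := hp p.1 p.2 ((isEdge_of_lt hpe.1).2 hpe.2)
      unfold w
      simp [hne]
    rw [Finset.prod_congr rfl h1, ← Finset.prod_filter, Finset.prod_const]
    congr 1
    unfold ascents edges
    rw [Finset.filter_filter]
    congr 1
    ext p
    simp only [Finset.mem_filter, Finset.mem_univ, true_and]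
    constructor
    · rintro ⟨⟨h1, h2⟩, h3⟩
      exact ⟨h1, (isEdge_of_lt h1).2 h2, h3⟩
    · rintro ⟨h1, h2, h3⟩
      exact ⟨⟨h1, (isEdge_of_lt h1).1 h2⟩, h3⟩
  · push Not at hp
    obtain ⟨a, b, hab, heq⟩ := hp
    rcases hab with ⟨h1, h2⟩ | ⟨h1, h2⟩
    · apply Finset.prod_eq_zero (i := (a, b))
      · simp [edges, h1]; exact h2
      · simp [heq]
    · apply Finset.prod_eq_zero (i := (b, a))
      · simp [edges, h1]; exact h2
      · simp [heq]

theorem chromaticQSym_eq {n : ℕ} (h : Fin n → ℕ) (N : ℕ) :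
    chromaticQSym h N = chromE (edges h) N := by
  classical
  unfold chromaticQSym chromE
  rw [Finset.sum_filter]
  apply Finset.sum_congr rfl
  intro f _
  rw [prod_w_edges]
  split_ifs <;> simp

section general

variable {V W : Type*} [Fintype V] [DecidableEq V] [Fintype W] [DecidableEq W]

/-- relabelling of vertices. -/
theorem chromE_map (e : V ≃ W) (E : Finset (V × V)) (N : ℕ) :
    chromE (E.map (Equiv.prodCongr e e).toEmbedding) N = chromE E N := by
  classical
  unfold chromE
  symm
  apply Fintype.sum_equiv (Equiv.arrowCongr e (Equiv.refl (Fin N)))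
  intro f
  rw [Finset.prod_map]
  congr 1
  · simp
  · apply Fintype.prod_equiv e
    intro a
    simp

/-- the local exchange principle. -/
theorem exchange (N : ℕ) (j k : V) (M : (V → Fin N) → MvPolynomial (Fin N) (Polynomial ℤ))
    (L : (V → Fin N) → Polynomial ℤ)
    (hM : ∀ f : V → Fin N, M (f ∘ Equiv.swap j k) = M f)
    (hL : ∀ f : V → Fin N, L f + L (f ∘ Equiv.swap j k) = 0) :
    ∑ f : V → Fin N, MvPolynomial.C (L f) * M f = 0 := by
  classical
  have h1 : ∑ f : V → Fin N, MvPolynomial.C (L f) * M f =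
      ∑ f : V → Fin N, MvPolynomial.C (L (f ∘ Equiv.swap j k)) * M f := by
    apply Fintype.sum_equiv ((Equiv.swap j k).arrowCongr (Equiv.refl (Fin N)))
    intro f
    have h2 : ((Equiv.swap j k).arrowCongr (Equiv.refl (Fin N))) f = f ∘ Equiv.swap j k := by
      funext a; simp [Equiv.arrowCongr]
    rw [h2, hM]
    congr 3
    funext a
    simp
  have h3 : (2 : MvPolynomial (Fin N) (Polynomial ℤ)) *
      ∑ f : V → Fin N, MvPolynomial.C (L f) * M f = 0 := by
    rw [two_mul]
    nth_rw 2 [h1]
    rw [← Finset.sum_add_distrib]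
    apply Finset.sum_eq_zero
    intro f _
    rw [← add_mul, ← map_add, hL]
    simp
  rcases mul_eq_zero.1 h3 with h4 | h4
  · exfalso
    have h5 := congrArg (MvPolynomial.coeff 0) h4
    have h6 : (2 : MvPolynomial (Fin N) (Polynomial ℤ)) = MvPolynomial.C (2 : Polynomial ℤ) :=
      (map_ofNat MvPolynomial.C 2).symm
    rw [h6, MvPolynomial.coeff_zero_C, MvPolynomial.coeff_zero] at h5
    exact two_ne_zero h5
  · exact h4

/-- the three-vertex identity (first type). -/
theorem local1 {N : ℕ} (a b c : Fin N) :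
    w b c * ((1 + Polynomial.X) * w a b - Polynomial.X - w a b * w a c) +
      w c b * ((1 + Polynomial.X) * w a c - Polynomial.X - w a c * w a b) = 0 := by
  rcases lt_trichotomy a b with h1 | h1 | h1 <;> rcases lt_trichotomy a c with h2 | h2 | h2 <;>
    rcases lt_trichotomy b c with h3 | h3 | h3 <;>
    first
      | (exfalso; omega)
      | (subst_vars; simp_all [w_lt, w_gt]; try ring)

/-- the three-vertex identity (second type, `i` above `j,k`). -/
theorem local2 {N : ℕ} (a b c : Fin N) :
    w b c * ((1 + Polynomial.X) * w c a - Polynomial.X - w b a * w c a) +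
      w c b * ((1 + Polynomial.X) * w b a - Polynomial.X - w c a * w b a) = 0 := by
  rcases lt_trichotomy a b with h1 | h1 | h1 <;> rcases lt_trichotomy a c with h2 | h2 | h2 <;>
    rcases lt_trichotomy b c with h3 | h3 | h3 <;>
    first
      | (exfalso; omega)
      | (subst_vars; simp_all [w_lt, w_gt]; try ring)

end general

end Crest.Agent.R059
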