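import Crest.Agent.R059.Grnd_883
import Crest.Agent.R059.TPS_883
import Crest.Agent.R059.Dilog_344
import Crest.Agent.R059.Fac_150
import Crest.Agent.R059.Tr_201
import Mathlib

-- ▼ part R059/Seeds_231
section

set_option autoImplicit false

/-!
Row 59 (S0081), Step 2, the chain of mutations `u_0, u_1, …, u_{n-1}`: the seeds.

Seed `k` (`0 ≤ k ≤ n`) has the nodes `W_1, …, W_{k-1}, -u_{k-1}, u_k, W_{k+1}, …, W_{n-1}` at the
positions `0, …, n-1` (`W_j = u_j - u_{j-1}`); seed `0` is `u_0, W_1, …, W_{n-1}`.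
`uk k m` = the `u`-coordinates of the exponent `m` at seed `k`.
-/

namespace Crest.Agent.R059.Seeds231

open Finset Crest.CombinatoricsR.UnitInterval

variable {n : ℕ}

/-- basis vector `u_j`, `j : ℕ` (zero if `n ≤ j`). -/
def U (n : ℕ) (j : ℕ) : Fin n → ℤ := fun i => if (i : ℕ) = j then 1 else 0

theorem U_val (c : Fin n) : U n c = Kill59.u c := by
  funext i
  simp only [U, Kill59.u, Pi.single_apply, Fin.ext_iff]

theorem U_val' {j : ℕ} (hj : j < n) : U n j = Kill59.u ⟨j, hj⟩ := U_val ⟨j, hj⟩

/-- the class of the node at position `j` of seed `k`. -/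
def cls (k : ℕ) (j : Fin n) : Fin n → ℤ :=
  if (j : ℕ) + 1 < k then U n (j + 1) - U n j
  else if (j : ℕ) + 1 = k then - U n j
  else if (j : ℕ) = k then U n k
  else U n j - U n (j - 1)

/-- `u`-coordinates of an exponent at seed `k`. -/
noncomputable def uk (k : ℕ) : (Fin n →₀ ℕ) →+ (Fin n → ℤ) where
  toFun m := ∑ j, (m j : ℤ) • cls k j
  map_zero' := by simp
  map_add' a b := by
    simp only [Finsupp.add_apply, Nat.cast_add, add_smul, Finset.sum_add_distrib]

theorem uk_apply (k : ℕ) (m : Fin n →₀ ℕ) : uk k m = ∑ j, (m j : ℤ) • cls k j := rfl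

theorem uk_single (k : ℕ) (j : Fin n) (a : ℕ) :
    uk k (Finsupp.single j a) = (a : ℤ) • cls k j := by
  rw [uk_apply, Finset.sum_eq_single j]
  · simp
  · intro b _ hb; rw [Finsupp.single_apply, if_neg (Ne.symm hb)]; simp
  · simp

theorem cls_self {k : ℕ} (hk : k < n) : cls k (⟨k, hk⟩ : Fin n) = U n k := by
  unfold cls
  simp only
  rw [if_neg (by omega), if_neg (by omega), if_pos trivial]

theorem cls_succ_self {k : ℕ} (hk : k < n) : cls (k + 1) (⟨k, hk⟩ : Fin n) = - U n k := by
  unfold cls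
  simp only
  rw [if_neg (by omega), if_pos trivial]

theorem uk_zero_eq (m : Fin n →₀ ℕ) : uk 0 m = uco m := by
  have key : ∀ m : Fin n →₀ ℕ, (uk 0 m : Fin n → ℤ) = uco m := by
    intro m
    induction m using Finsupp.induction_linear with
    | zero => rw [map_zero, uco_zero]
    | add f g hf hg => rw [map_add, uco_add, hf, hg]
    | single j a =>
      rw [uk_single]
      have h1 : Finsupp.single j a = a • Finsupp.single j 1 := by
        rw [Finsupp.smul_single, smul_eq_mul, mul_one]
      rw [h1, uco_nsmul]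
      congr 1
      obtain ⟨j, hj⟩ := j
      cases j with
      | zero =>
        rw [uco_single_zero, ← U_val' hj]
        unfold cls
        simp only
        rw [if_neg (by omega), if_neg (by omega), if_pos trivial]
      | succ j =>
        rw [uco_single, Kill59.W, ← U_val' hj, ← U_val' (show j < n by omega)]
        unfold cls
        simp only
        rw [if_neg (by omega), if_neg (by omega), if_neg (by omega)]
        rfl
  exact key m

/-! ### the form on the `u_j` -/

theorem s_UU_adj (h : Fin n → ℕ) {i j : ℕ} (hi : i < n) (hj : j < n) (hij : i < j) :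
    Kill59.s h (U n i) (U n j) = if j + 1 ≤ h ⟨i, hi⟩ then 1 else 0 := by
  rw [U_val' hi, U_val' hj, Kill59.s_u_u]
  unfold Kill59.e
  have h1 : (⟨i, hi⟩ : Fin n) < ⟨j, hj⟩ := by simp only [Fin.lt_def]; exact hij
  have h2 : ¬ (⟨j, hj⟩ : Fin n) < ⟨i, hi⟩ := not_lt.mpr h1.le
  simp only [h1, h2, true_and, false_and, if_false]

theorem s_self (h : Fin n → ℕ) (x : Fin n → ℤ) : Kill59.s h x x = 0 := by
  have := Kill59.s_skew h x x; omega

theorem s_neg_right (h : Fin n → ℕ) (x y : Fin n → ℤ) : Kill59.s h x (-y) = - Kill59.s h x y := by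
  have h1 := Kill59.s_sub_right h x 0 y
  have h2 : Kill59.s h x 0 = 0 := by simp [Kill59.s]
  rw [zero_sub, h2, zero_sub] at h1
  exact h1

theorem s_add_right (h : Fin n → ℕ) (x y z : Fin n → ℤ) :
    Kill59.s h x (y + z) = Kill59.s h x y + Kill59.s h x z := by
  rw [Kill59.s_skew, Kill59.s_add_left, Kill59.s_skew h y, Kill59.s_skew h z]; ring

theorem s_smul_right (h : Fin n → ℕ) (k : ℤ) (x z : Fin n → ℤ) :
    Kill59.s h x (k • z) = k * Kill59.s h x z := by
  rw [Kill59.s_skew, Kill59.s_smul_left, Kill59.s_skew h z]; ring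

/-- `[s(u_k, node j)]_+ = 1` at the neighbours of `k` in the chain. -/
theorem s_U_cls_near (h : Fin n → ℕ)
    (hc : ∀ i : Fin n, (i : ℕ) + 1 < n → (i : ℕ) + 2 ≤ h i) {k : ℕ} (hk : k < n) (j : Fin n)
    (hj : (j : ℕ) + 1 = k ∨ (j : ℕ) = k + 1) : Kill59.s h (U n k) (cls k j) = 1 := by
  rcases hj with hj | hj
  · have h1 : cls k j = - U n j := by
      unfold cls
      rw [if_neg (by omega), if_pos hj]
    rw [h1, s_neg_right, Kill59.s_skew, neg_neg, s_UU_adj h j.2 hk (by omega)]
    rw [if_pos]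
    have := hc j (by omega)
    have h2 : (⟨(j : ℕ), j.2⟩ : Fin n) = j := rfl
    rw [h2]; omega
  · have h1 : cls k j = U n j - U n (j - 1) := by
      unfold cls
      rw [if_neg (by omega), if_neg (by omega), if_neg (by omega)]
    have h2 : (j : ℕ) - 1 = k := by omega
    rw [h1, h2, Kill59.s_sub_right, s_self, s_UU_adj h hk j.2 (by omega), sub_zero, if_pos]
    have h3 := hc ⟨k, hk⟩ (by have := j.2; simp only; omega)
    simp only at h3
    omega

/-- `s(u_k, node j) ≤ 0` at the other positions. -/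
theorem s_U_cls_far (h : Fin n → ℕ) (hh : IsHessenberg h) {k : ℕ} (hk : k < n) (j : Fin n)
    (hj1 : (j : ℕ) + 1 ≠ k) (hj2 : (j : ℕ) ≠ k + 1) : Kill59.s h (U n k) (cls k j) ≤ 0 := by
  rcases lt_trichotomy (j : ℕ) k with hjk | hjk | hjk
  · have h1 : cls k j = U n (j + 1) - U n j := by
      unfold cls
      rw [if_pos (by omega)]
    rw [h1, Kill59.s_sub_right, Kill59.s_skew h _ (U n (j + 1)), Kill59.s_skew h _ (U n j),
      s_UU_adj h (show (j : ℕ) + 1 < n by omega) hk (by omega), s_UU_adj h j.2 hk hjk]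
    have h2 : h ⟨(j : ℕ), j.2⟩ ≤ h ⟨(j : ℕ) + 1, by omega⟩ := hh.1 (by simp [Fin.le_def])
    split_ifs <;> omega
  · have h1 : cls k j = U n k := by
      unfold cls
      rw [if_neg (by omega), if_neg (by omega), if_pos hjk]
    rw [h1, s_self]
  · have h1 : cls k j = U n j - U n (j - 1) := by
      unfold cls
      rw [if_neg (by omega), if_neg (by omega), if_neg (by omega)]
    rw [h1, Kill59.s_sub_right, s_UU_adj h hk j.2 hjk,
      s_UU_adj h hk (show (j : ℕ) - 1 < n by have := j.2; omega) (by omega)]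
    split_ifs <;> omega

/-- **the mutation rule for the classes.** -/
theorem cls_succ (h : Fin n → ℕ) (hh : IsHessenberg h)
    (hc : ∀ i : Fin n, (i : ℕ) + 1 < n → (i : ℕ) + 2 ≤ h i) {k : ℕ} (hk : k < n) (j : Fin n)
    (hj : (j : ℕ) ≠ k) :
    cls (k + 1) j = cls k j + ((Kill59.s h (U n k) (cls k j)).toNat : ℤ) • U n k := by
  by_cases hj1 : (j : ℕ) + 1 = k ∨ (j : ℕ) = k + 1
  · rw [s_U_cls_near h hc hk j hj1]
    have h0 : (((1 : ℤ).toNat : ℕ) : ℤ) = 1 := rfl
    rw [h0, one_smul]
    unfold cls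
    rcases hj1 with hj1 | hj1
    · rw [if_pos (by omega), if_neg (by omega), if_pos hj1, hj1]; abel
    · have h2 : (j : ℕ) - 1 = k := by omega
      rw [if_neg (by omega), if_neg (by omega), if_pos hj1, if_neg (by omega), if_neg (by omega),
        if_neg (by omega), h2, hj1]
      abel
  · push Not at hj1
    have h1 := s_U_cls_far h hh hk j hj1.1 hj1.2
    rw [Int.toNat_of_nonpos h1, Nat.cast_zero, zero_smul, add_zero]
    unfold cls
    rcases lt_trichotomy (j : ℕ) k with hjk | hjk | hjk
    · rw [if_pos (by omega), if_pos (by omega)]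
    · exact absurd hjk hj
    · rw [if_neg (by omega), if_neg (by omega), if_neg (by omega), if_neg (by omega),
        if_neg (by omega), if_neg (by omega)]

/-! ### the degree -/

/-- the degree `u_j ↦ 1`. -/
def dg (x : Fin n → ℤ) : ℤ := ∑ i, x i

theorem dg_add (x y : Fin n → ℤ) : dg (x + y) = dg x + dg y := by
  simp [dg, Finset.sum_add_distrib]

theorem dg_neg (x : Fin n → ℤ) : dg (-x) = - dg x := by
  simp [dg]

theorem dg_sub (x y : Fin n → ℤ) : dg (x - y) = dg x - dg y := by
  simp [dg]


theorem dg_U {j : ℕ} (hj : j < n) : dg (U n j) = 1 := by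
  unfold dg U
  rw [Finset.sum_eq_single (⟨j, hj⟩ : Fin n)]
  · simp
  · intro b _ hb
    rw [if_neg]
    intro h1; exact hb (Fin.ext h1)
  · simp

/-- the degree of an exponent at seed `k`. -/
noncomputable def xk (k : ℕ) : (Fin n →₀ ℕ) →+ ℤ where
  toFun m := dg (uk k m)
  map_zero' := by simp [dg]
  map_add' a b := by rw [map_add, dg_add]

theorem xk_apply (k : ℕ) (m : Fin n →₀ ℕ) : xk k m = dg (uk k m) := rfl

theorem dg_cls {k : ℕ} (hk : k ≤ n) (j : Fin n) :
    dg (cls k j) = if (j : ℕ) = k then 1 else if (j : ℕ) + 1 = k then -1 else 0 := by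
  have hjn := j.2
  unfold cls
  by_cases h1 : (j : ℕ) + 1 < k
  · rw [if_pos h1, if_neg (by omega), if_neg (by omega), dg_sub, dg_U hjn]
    by_cases h2 : (j : ℕ) + 1 < n
    · rw [dg_U h2]; ring
    · exact absurd hk (by omega)
  · rw [if_neg h1]
    by_cases h2 : (j : ℕ) + 1 = k
    · rw [if_pos h2, if_neg (by omega), if_pos h2, dg_neg, dg_U hjn]
    · rw [if_neg h2]
      by_cases h3 : (j : ℕ) = k
      · rw [if_pos h3, if_pos h3, ← h3, dg_U hjn]
      · rw [if_neg h3, if_neg h3, if_neg h2, dg_sub, dg_U hjn, dg_U (by omega)]; ring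

/-- at the last seed all degrees are `≤ 0`. -/
theorem xk_last (m : Fin n →₀ ℕ) : xk n m ≤ 0 := by
  rw [xk_apply, uk_apply]
  have h1 : dg (∑ j, (m j : ℤ) • cls n j) = ∑ j, (m j : ℤ) * dg (cls n j) := by
    unfold dg
    simp only [Finset.sum_apply, Pi.smul_apply, smul_eq_mul, Finset.mul_sum]
    rw [Finset.sum_comm]
  rw [h1]
  refine Finset.sum_nonpos fun j _ => ?_
  rw [dg_cls le_rfl, if_neg (by have := j.2; omega)]
  split_ifs
  · have : (0 : ℤ) ≤ (m j : ℤ) := Int.natCast_nonneg _
    linarith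
  · simp

/-- at seed `0` the degree is the coefficient of the first node. -/
theorem xk_zero (hn : 0 < n) (m : Fin n →₀ ℕ) : xk 0 m = m ⟨0, hn⟩ := by
  rw [xk_apply, uk_apply]
  have h1 : dg (∑ j, (m j : ℤ) • cls 0 j) = ∑ j, (m j : ℤ) * dg (cls 0 j) := by
    unfold dg
    simp only [Finset.sum_apply, Pi.smul_apply, smul_eq_mul, Finset.mul_sum]
    rw [Finset.sum_comm]
  rw [h1, Finset.sum_eq_single (⟨0, hn⟩ : Fin n)]
  · rw [dg_cls (Nat.zero_le _), if_pos rfl, mul_one]
  · intro b _ hb
    rw [dg_cls (Nat.zero_le _), if_neg (fun h => hb (Fin.ext h)), if_neg (by omega), mul_zero]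
  · simp

/-! ### the exponents of the `u_j` at seed `k` -/

/-- exponent of `u_j` at seed `k ≤ j`. -/
noncomputable def uv (n k j : ℕ) : Fin n →₀ ℕ :=
  Finsupp.equivFunOnFinite.symm (fun i : Fin n => if k ≤ (i : ℕ) ∧ (i : ℕ) ≤ j then (1 : ℕ) else 0)

theorem uv_apply (k j : ℕ) (i : Fin n) : uv n k j i = if k ≤ (i : ℕ) ∧ (i : ℕ) ≤ j then 1 else 0 :=
  rfl

theorem uv_zero (j : Fin n) : uv n 0 j = ux j := by
  ext i
  rw [uv_apply, ux_apply]
  simp only [Nat.zero_le, true_and, Fin.le_def]

theorem uv_self {k : ℕ} (hk : k < n) : uv n k k = Finsupp.single (⟨k, hk⟩ : Fin n) 1 := by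
  ext i
  rw [uv_apply, Finsupp.single_apply]
  simp only [Fin.ext_iff]
  by_cases h : k = (i : ℕ)
  · rw [if_pos (by omega), if_pos h]
  · rw [if_neg (by omega), if_neg h]

theorem uv_succ {k j : ℕ} (hkj : k ≤ j) (hj : j + 1 < n) :
    uv n k (j + 1) = uv n k j + Finsupp.single (⟨j + 1, hj⟩ : Fin n) 1 := by
  ext i
  rw [Finsupp.add_apply, uv_apply, uv_apply, Finsupp.single_apply]
  simp only [Fin.ext_iff]
  split_ifs <;> omega



end Crest.Agent.R059.Seeds231
end

-- ▼ part R059/MutIso_456
section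

set_option autoImplicit false

/-!
Row 59 (S0081), leaf MUT, part 1 (helper456).

`M = ι →₀ ℕ`, a node `k : ι`, an additive `c : M →+ ℕ` (the "cap") with `c (e_k) = 0`.
* `Cp c k m`   : `m k ≤ c m`  (capped exponents, a submonoid);
* `til c k m`  : replace `m k` by `c m - m k`; additive involution on capped exponents;
* `Tw.mut T c k` : the mutated form, `β' (til a) (til b) = β a b` for capped `a b`;
* `tilS` : series supported on capped exponents of `T`  ↔  the same for `Tw.mut T c k`
  (multiplicative, additive, unital, involutive);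
* `flip` of an additive functional `x`: `flip x (til m) = x m` for capped `m`.
-/

namespace Crest.Agent.R059

namespace MutIso

open Finset Finsupp

variable {ι : Type*} [DecidableEq ι]

section exps

variable (c : (ι →₀ ℕ) →+ ℕ) (k : ι)

/-- capped exponents. -/
def Cp (m : ι →₀ ℕ) : Prop := m k ≤ c m

/-- the involution on exponents. -/
noncomputable def til (m : ι →₀ ℕ) : ι →₀ ℕ := m.erase k + single k (c m - m k)

variable {c k}

theorem cp_def {m : ι →₀ ℕ} : Cp c k m ↔ m k ≤ c m := Iff.rfl

theorem Cp.zero : Cp c k 0 := by simp [Cp]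

theorem Cp.add {a b : ι →₀ ℕ} (ha : Cp c k a) (hb : Cp c k b) : Cp c k (a + b) := by
  unfold Cp at *
  rw [Finsupp.add_apply, map_add]
  omega

theorem erase_split (m : ι →₀ ℕ) : m = m.erase k + (m k) • single k 1 := by
  ext j
  by_cases hj : j = k
  · subst hj; simp
  · simp [Finsupp.erase_ne hj, Finsupp.single_apply, Ne.symm hj]

theorem til_apply_self (m : ι →₀ ℕ) : til c k m k = c m - m k := by
  simp [til]

theorem til_apply_ne (m : ι →₀ ℕ) {j : ι} (hj : j ≠ k) : til c k m j = m j := by
  simp [til, Finsupp.erase_ne hj, Finsupp.single_apply, Ne.symm hj]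

theorem til_erase (m : ι →₀ ℕ) : (til c k m).erase k = m.erase k := by
  ext j
  by_cases hj : j = k
  · subst hj; simp
  · rw [Finsupp.erase_ne hj, Finsupp.erase_ne hj, til_apply_ne m hj]

theorem cap_split (hc : c (single k 1) = 0) (m : ι →₀ ℕ) : c m = c (m.erase k) := by
  conv_lhs => rw [erase_split (k := k) m]
  rw [map_add, map_nsmul, hc]; simp

theorem cap_til (hc : c (single k 1) = 0) (m : ι →₀ ℕ) : c (til c k m) = c m := by
  rw [cap_split hc (til c k m), til_erase, ← cap_split hc]

theorem Cp.til (hc : c (single k 1) = 0) (m : ι →₀ ℕ) : Cp c k (til c k m) := by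
  unfold Cp
  rw [til_apply_self, cap_til hc]
  omega

theorem til_til (hc : c (single k 1) = 0) {m : ι →₀ ℕ} (hm : Cp c k m) :
    MutIso.til c k (MutIso.til c k m) = m := by
  ext j
  by_cases hj : j = k
  · subst hj
    rw [til_apply_self, cap_til hc, til_apply_self]
    unfold Cp at hm
    omega
  · rw [til_apply_ne _ hj, til_apply_ne _ hj]

theorem til_add {a b : ι →₀ ℕ} (ha : Cp c k a) (hb : Cp c k b) :
    til c k (a + b) = til c k a + til c k b := by
  ext j
  by_cases hj : j = k
  · subst hj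
    rw [Finsupp.add_apply, til_apply_self, til_apply_self, til_apply_self, map_add,
      Finsupp.add_apply]
    unfold Cp at *
    omega
  · rw [Finsupp.add_apply, til_apply_ne _ hj, til_apply_ne _ hj, til_apply_ne _ hj,
      Finsupp.add_apply]

theorem til_zero : til c k 0 = 0 := by
  ext j
  by_cases hj : j = k
  · subst hj; simp [til_apply_self]
  · simp [til_apply_ne _ hj]

theorem til_inj (hc : c (single k 1) = 0) {a b : ι →₀ ℕ} (ha : Cp c k a) (hb : Cp c k b)
    (h : til c k a = til c k b) : a = b := by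
  rw [← til_til hc ha, ← til_til hc hb, h]

theorem til_eq_zero (hc : c (single k 1) = 0) {a : ι →₀ ℕ} (ha : Cp c k a) :
    til c k a = 0 ↔ a = 0 := by
  constructor
  · intro h
    apply til_inj hc ha Cp.zero
    rw [h, til_zero]
  · rintro rfl; exact til_zero

end exps

/-! ### the mutated form -/

section form

variable {R : Type*} [CommRing R]

/-- `m ↦ c m - m k` in `ℤ`. -/
noncomputable def dl (c : (ι →₀ ℕ) →+ ℕ) (k : ι) : (ι →₀ ℕ) →+ ℤ :=
  AddMonoidHom.mk' (fun m => (c m : ℤ) - m k) (fun a b => by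
    rw [map_add, Finsupp.add_apply]; push_cast; ring)

theorem dl_apply (c : (ι →₀ ℕ) →+ ℕ) (k : ι) (m : ι →₀ ℕ) : dl c k m = (c m : ℤ) - m k := rfl

theorem dl_single_self {c : (ι →₀ ℕ) →+ ℕ} {k : ι} (hc : c (single k 1) = 0) :
    dl c k (single k 1) = -1 := by
  rw [dl_apply, hc]; simp

theorem dl_single_ne {c : (ι →₀ ℕ) →+ ℕ} {k j : ι} (hj : j ≠ k) :
    dl c k (single j 1) = c (single j 1) := by
  rw [dl_apply]; simp [Finsupp.single_apply, hj]

theorem dl_til (c : (ι →₀ ℕ) →+ ℕ) (k : ι) (hc : c (single k 1) = 0) {m : ι →₀ ℕ}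
    (hm : Cp c k m) : dl c k (til c k m) = m k := by
  rw [dl_apply, cap_til hc, til_apply_self]
  unfold Cp at hm
  omega

/-- the mutated form. -/
noncomputable def mutForm (β : (ι →₀ ℕ) →+ (ι →₀ ℕ) →+ ℤ) (c : (ι →₀ ℕ) →+ ℕ) (k : ι) :
    (ι →₀ ℕ) →+ (ι →₀ ℕ) →+ ℤ :=
  AddMonoidHom.mk' (fun a => AddMonoidHom.mk' (fun b =>
      β (a.erase k) (b.erase k) + dl c k a * β (single k 1) (b.erase k)
        + dl c k b * β (a.erase k) (single k 1)
        + dl c k a * dl c k b * β (single k 1) (single k 1))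
    (fun b b' => by
      rw [Finsupp.erase_add]
      simp only [map_add]
      ring))
    (fun a a' => by
      ext b
      · simp only [AddMonoidHom.coe_comp, Function.comp_apply, AddMonoidHom.mk'_apply,
          AddMonoidHom.add_apply, Finsupp.erase_add, map_add]
        ring)

theorem mutForm_apply (β : (ι →₀ ℕ) →+ (ι →₀ ℕ) →+ ℤ) (c : (ι →₀ ℕ) →+ ℕ) (k : ι)
    (a b : ι →₀ ℕ) :
    mutForm β c k a b = β (a.erase k) (b.erase k) + dl c k a * β (single k 1) (b.erase k)
        + dl c k b * β (a.erase k) (single k 1)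
        + dl c k a * dl c k b * β (single k 1) (single k 1) := rfl

theorem form_split (β : (ι →₀ ℕ) →+ (ι →₀ ℕ) →+ ℤ) (k : ι) (a b : ι →₀ ℕ) :
    β a b = β (a.erase k) (b.erase k) + (a k : ℤ) * β (single k 1) (b.erase k)
        + (b k : ℤ) * β (a.erase k) (single k 1)
        + (a k : ℤ) * (b k : ℤ) * β (single k 1) (single k 1) := by
  conv_lhs => rw [erase_split (k := k) a, erase_split (k := k) b]
  simp only [map_add, map_nsmul, AddMonoidHom.add_apply, AddMonoidHom.nsmul_apply,
    nsmul_eq_mul]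
  ring

theorem mutForm_til (β : (ι →₀ ℕ) →+ (ι →₀ ℕ) →+ ℤ) {c : (ι →₀ ℕ) →+ ℕ} {k : ι}
    (hc : c (single k 1) = 0) {a b : ι →₀ ℕ} (ha : Cp c k a) (hb : Cp c k b) :
    mutForm β c k (til c k a) (til c k b) = β a b := by
  rw [mutForm_apply, til_erase, til_erase, dl_til c k hc ha, dl_til c k hc hb,
    form_split β k a b]



theorem mutForm_self_right (β : (ι →₀ ℕ) →+ (ι →₀ ℕ) →+ ℤ) {c : (ι →₀ ℕ) →+ ℕ} {k : ι}
    (hc : c (single k 1) = 0) (hkk : β (single k 1) (single k 1) = 0) (a : ι →₀ ℕ) :
    mutForm β c k a (single k 1) = - β a (single k 1) := by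
  rw [mutForm_apply, dl_single_self hc, form_split β k a (single k 1), hkk]
  have h0 : (single k 1 : ι →₀ ℕ).erase k = 0 := by ext j; by_cases hj : j = k <;> simp [hj]
  rw [h0]
  simp


/-- skewness is preserved. -/
theorem mutForm_skew (β : (ι →₀ ℕ) →+ (ι →₀ ℕ) →+ ℤ) (c : (ι →₀ ℕ) →+ ℕ) (k : ι)
    (hs : ∀ a b, β a b = - β b a) (a b : ι →₀ ℕ) :
    mutForm β c k a b = - mutForm β c k b a := by
  rw [mutForm_apply, mutForm_apply, hs (a.erase k) (b.erase k), hs (single k 1) (b.erase k),
    hs (a.erase k) (single k 1)]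
  have h0 : β (single k 1) (single k 1) = 0 := by
    have := hs (single k 1) (single k 1); omega
  rw [h0]
  ring

/-- the mutated twist datum. -/
noncomputable def mutTw (T : Tw (ι →₀ ℕ) R) (c : (ι →₀ ℕ) →+ ℕ) (k : ι) : Tw (ι →₀ ℕ) R :=
  ⟨T.v, mutForm T.β c k⟩

end form

/-! ### series -/

section series

open TPS

variable {R : Type*} [CommRing R] {T T' : Tw (ι →₀ ℕ) R}
variable (c : (ι →₀ ℕ) →+ ℕ) (k : ι)

/-- series supported on capped exponents. -/
def Capped (f : TPS T) : Prop := ∀ m, f.co m ≠ 0 → Cp c k m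

/-- two twist data related by the involution. -/
structure Rel (T T' : Tw (ι →₀ ℕ) R) : Prop where
  hv : T'.v = T.v
  hβ : ∀ a b, Cp c k a → Cp c k b → T'.β (til c k a) (til c k b) = T.β a b

/-- transport of a series along the involution. -/
noncomputable def tilS (T' : Tw (ι →₀ ℕ) R) (f : TPS T) : TPS T' := by
  classical exact ⟨fun m => if Cp c k m then f.co (til c k m) else 0⟩

variable {c k}

theorem rel_mut (hc : c (single k 1) = 0) : Rel c k T (mutTw T c k) :=
  ⟨rfl, fun _ _ ha hb => mutForm_til T.β hc ha hb⟩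

theorem Rel.symm (hc : c (single k 1) = 0) (H : Rel c k T T') : Rel c k T' T :=
  ⟨H.hv.symm, fun a b ha hb => by
    have := H.hβ (til c k a) (til c k b) (Cp.til hc a) (Cp.til hc b)
    rw [til_til hc ha, til_til hc hb] at this
    exact this.symm⟩

theorem rel_mut_symm (hc : c (single k 1) = 0) : Rel c k (mutTw T c k) T :=
  (rel_mut hc).symm hc

theorem co_tilS_of {f : TPS T} {m : ι →₀ ℕ} (hm : Cp c k m) :
    (tilS c k T' f).co m = f.co (til c k m) := by
  classical
  unfold tilS
  simp only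
  rw [if_pos hm]

theorem co_tilS_not {f : TPS T} {m : ι →₀ ℕ} (hm : ¬ Cp c k m) :
    (tilS c k T' f).co m = 0 := by
  classical
  unfold tilS
  simp only
  rw [if_neg hm]

theorem co_tilS_til (hc : c (single k 1) = 0) {f : TPS T} {m : ι →₀ ℕ} (hm : Cp c k m) :
    (tilS c k T' f).co (til c k m) = f.co m := by
  rw [co_tilS_of (Cp.til hc m), til_til hc hm]

theorem Capped.co_not {f : TPS T} (hf : Capped c k f) {m : ι →₀ ℕ} (hm : ¬ Cp c k m) :
    f.co m = 0 := by
  by_contra h
  exact hm (hf m h)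

theorem capped_tilS (f : TPS T) : Capped c k (tilS c k T' f) := by
  intro m hm
  by_contra h
  exact hm (co_tilS_not h)

theorem Capped.zero : Capped c k (0 : TPS T) := fun m hm => absurd rfl hm

theorem Capped.one : Capped c k (1 : TPS T) := by
  intro m hm
  by_cases h : m = 0
  · rw [h]; exact Cp.zero
  · exact absurd (co_one_ne h) hm

theorem Capped.add {f g : TPS T} (hf : Capped c k f) (hg : Capped c k g) :
    Capped c k (f + g) := by
  intro m hm
  by_contra h
  apply hm
  rw [co_add, hf.co_not h, hg.co_not h, add_zero]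

theorem Capped.neg {f : TPS T} (hf : Capped c k f) : Capped c k (-f) := by
  intro m hm
  by_contra h
  apply hm
  rw [co_neg, hf.co_not h, neg_zero]

theorem Capped.sub {f g : TPS T} (hf : Capped c k f) (hg : Capped c k g) :
    Capped c k (f - g) := by
  rw [sub_eq_add_neg]; exact hf.add hg.neg

theorem Capped.smul {f : TPS T} (hf : Capped c k f) (r : R) : Capped c k (r • f) := by
  intro m hm
  by_contra h
  apply hm
  rw [co_smul, hf.co_not h, mul_zero]

theorem Capped.mul {f g : TPS T} (hf : Capped c k f) (hg : Capped c k g) :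
    Capped c k (f * g) := by
  intro m hm
  by_contra h
  apply hm
  rw [co_mul]
  apply Finset.sum_eq_zero
  rintro ⟨a, b⟩ hp
  rw [HasAntidiagonal.mem_antidiagonal] at hp
  by_cases ha : Cp c k a
  · by_cases hb : Cp c k b
    · exact absurd (by rw [← hp]; exact ha.add hb) h
    · simp [hg.co_not hb]
  · simp [hf.co_not ha]


theorem tilS_tilS (hc : c (single k 1) = 0) {f : TPS T} (hf : Capped c k f) :
    tilS c k T (tilS c k T' f) = f := by
  ext m
  by_cases hm : Cp c k m
  · rw [co_tilS_of hm, co_tilS_of (Cp.til hc m), til_til hc hm]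
  · rw [co_tilS_not hm, hf.co_not hm]







theorem tilS_one (hc : c (single k 1) = 0) : tilS c k T' (1 : TPS T) = 1 := by
  ext m
  by_cases hm : Cp c k m
  · rw [co_tilS_of hm]
    by_cases h0 : m = 0
    · subst h0; rw [til_zero]; simp
    · rw [co_one_ne h0, co_one_ne]
      rw [Ne, til_eq_zero hc hm]
      exact h0
  · have h0 : m ≠ 0 := by rintro rfl; exact hm Cp.zero
    rw [co_tilS_not hm, co_one_ne h0]

theorem tilS_co_zero (f : TPS T) : (tilS c k T' f).co 0 = f.co 0 := by
  rw [co_tilS_of Cp.zero, til_zero]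


theorem Rel.wt (H : Rel c k T T') {a b : ι →₀ ℕ} (ha : Cp c k a) (hb : Cp c k b) :
    TPS.wt T' (til c k a) (til c k b) = TPS.wt T a b := by
  unfold TPS.wt
  rw [H.hβ a b ha hb, H.hv]

/-- **multiplicativity** on capped series. -/
theorem tilS_mul (hc : c (single k 1) = 0) (H : Rel c k T T') {f g : TPS T}
    (hf : Capped c k f) (hg : Capped c k g) :
    tilS c k T' (f * g) = tilS c k T' f * tilS c k T' g := by
  classical
  ext m
  by_cases hm : Cp c k m
  · rw [co_tilS_of hm, co_mul, co_mul]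
    rw [← Finset.sum_filter_of_ne (p := fun p : (ι →₀ ℕ) × (ι →₀ ℕ) =>
        Cp c k p.1 ∧ Cp c k p.2) (s := HasAntidiagonal.antidiagonal (til c k m)),
      ← Finset.sum_filter_of_ne (p := fun p : (ι →₀ ℕ) × (ι →₀ ℕ) =>
        Cp c k p.1 ∧ Cp c k p.2) (s := HasAntidiagonal.antidiagonal m)]
    · apply Finset.sum_nbij' (fun p => (til c k p.1, til c k p.2))
        (fun p => (til c k p.1, til c k p.2))
      · rintro ⟨a, b⟩ hp
        simp only [Finset.mem_filter, HasAntidiagonal.mem_antidiagonal] at hp ⊢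
        refine ⟨?_, Cp.til hc a, Cp.til hc b⟩
        rw [← til_add hp.2.1 hp.2.2, hp.1, til_til hc hm]
      · rintro ⟨a, b⟩ hp
        simp only [Finset.mem_filter, HasAntidiagonal.mem_antidiagonal] at hp ⊢
        refine ⟨?_, Cp.til hc a, Cp.til hc b⟩
        rw [← til_add hp.2.1 hp.2.2, hp.1]
      · rintro ⟨a, b⟩ hp
        simp only [Finset.mem_filter] at hp
        simp only [til_til hc hp.2.1, til_til hc hp.2.2]
      · rintro ⟨a, b⟩ hp
        simp only [Finset.mem_filter] at hp
        simp only [til_til hc hp.2.1, til_til hc hp.2.2]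
      · rintro ⟨a, b⟩ hp
        simp only [Finset.mem_filter] at hp
        simp only
        rw [H.wt hp.2.1 hp.2.2, co_tilS_til hc hp.2.1, co_tilS_til hc hp.2.2]
    · rintro ⟨a, b⟩ _ hne
      simp only at hne ⊢
      constructor
      · by_contra h
        apply hne
        rw [co_tilS_not h]; simp
      · by_contra h
        apply hne
        rw [co_tilS_not h]; simp
    · rintro ⟨a, b⟩ _ hne
      simp only at hne ⊢
      constructor
      · by_contra h
        apply hne
        rw [hf.co_not h]; simp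
      · by_contra h
        apply hne
        rw [hg.co_not h]; simp
  · rw [co_tilS_not hm]
    symm
    exact (capped_tilS (T' := T') f).mul (capped_tilS (T' := T') g) |>.co_not hm

end series

/-! ### functionals -/

section functional

variable {V : Type*} [AddCommGroup V]

/-- the functional `x` in the mutated coordinates:
`x' (e_k) = - x (e_k)`, `x' (e_j) = x (e_j) + c (e_j) • x (e_k)`. -/
noncomputable def flipF (c : (ι →₀ ℕ) →+ ℕ) (k : ι) (x : (ι →₀ ℕ) →+ V) : (ι →₀ ℕ) →+ V :=
  AddMonoidHom.mk' (fun m => x (m.erase k) + (dl c k m) • x (single k 1)) (fun a b => by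
    rw [Finsupp.erase_add, map_add, map_add, add_smul]; abel)

theorem flipF_apply (c : (ι →₀ ℕ) →+ ℕ) (k : ι) (x : (ι →₀ ℕ) →+ V) (m : ι →₀ ℕ) :
    flipF c k x m = x (m.erase k) + (dl c k m) • x (single k 1) := rfl

theorem functional_split (k : ι) (x : (ι →₀ ℕ) →+ V) (m : ι →₀ ℕ) :
    x m = x (m.erase k) + (m k : ℤ) • x (single k 1) := by
  conv_lhs => rw [erase_split (k := k) m]
  rw [map_add, map_nsmul]
  simp

theorem flipF_til {c : (ι →₀ ℕ) →+ ℕ} {k : ι} (hc : c (single k 1) = 0)
    (x : (ι →₀ ℕ) →+ V) {m : ι →₀ ℕ} (hm : Cp c k m) :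
    flipF c k x (til c k m) = x m := by
  rw [flipF_apply, til_erase, dl_til c k hc hm, functional_split k x m]





end functional

/-! ### the cap of a form -/

section capOf

/-- `[β(e_k,e_j)]_+` for `j ≠ k`, `0` for `j = k`. -/
noncomputable def cf (β : (ι →₀ ℕ) →+ (ι →₀ ℕ) →+ ℤ) (k j : ι) : ℕ :=
  if j = k then 0 else (β (single k 1) (single j 1)).toNat

/-- the cap `m ↦ ∑_{j≠k} m_j [β(e_k,e_j)]_+`. -/
noncomputable def capOf (β : (ι →₀ ℕ) →+ (ι →₀ ℕ) →+ ℤ) (k : ι) : (ι →₀ ℕ) →+ ℕ :=
  Finsupp.liftAddHom (fun j => multiplesHom ℕ (cf β k j))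

theorem capOf_single (β : (ι →₀ ℕ) →+ (ι →₀ ℕ) →+ ℤ) (k j : ι) (a : ℕ) :
    capOf β k (single j a) = a * cf β k j := by
  unfold capOf
  simp [Finsupp.liftAddHom_apply_single]

theorem capOf_self (β : (ι →₀ ℕ) →+ (ι →₀ ℕ) →+ ℤ) (k : ι) :
    capOf β k (single k 1) = 0 := by
  rw [capOf_single]; simp [cf]

theorem capOf_single_one (β : (ι →₀ ℕ) →+ (ι →₀ ℕ) →+ ℤ) {k j : ι} (hj : j ≠ k) :
    capOf β k (single j 1) = (β (single k 1) (single j 1)).toNat := by
  rw [capOf_single]; simp [cf, hj]

/-- `capOf β k m - capOf (-β) k m = β(e_k, m)` (for `β(e_k,e_k) = 0`). -/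
theorem capOf_sub (β γ : (ι →₀ ℕ) →+ (ι →₀ ℕ) →+ ℤ) {k : ι}
    (hkk : β (single k 1) (single k 1) = 0)
    (hγ : ∀ j, j ≠ k → γ (single k 1) (single j 1) = - β (single k 1) (single j 1))
    (m : ι →₀ ℕ) :
    (capOf β k m : ℤ) - capOf γ k m = β (single k 1) m := by
  induction m using Finsupp.induction_linear with
  | zero => simp
  | add f g hf hg =>
    rw [map_add, map_add, map_add, ← hf, ← hg]; push_cast; ring
  | single j a =>
    rw [capOf_single, capOf_single]
    have h1 : (single j a : ι →₀ ℕ) = a • single j 1 := by simp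
    rw [h1, map_nsmul]
    by_cases hj : j = k
    · subst hj; simp [cf, hkk]
    · simp only [cf, if_neg hj, hγ j hj, nsmul_eq_mul]
      push_cast
      rcases le_total 0 (β (single k 1) (single j 1)) with h | h
      · rw [Int.toNat_of_nonneg h, Int.toNat_of_nonpos (by omega)]; simp
      · rw [Int.toNat_of_nonpos h, Int.toNat_of_nonneg (by omega)]; simp

end capOf

end MutIso

end Crest.Agent.R059
end

-- ▼ part R059/ChainA_231
section

set_option autoImplicit false
set_option linter.unusedSectionVars false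
set_option linter.unusedSimpArgs false
set_option linter.unusedVariables false

/-!
Row 59 (S0081), Step 2: the chain of the mutations at `u_0, …, u_{n-1}` (helper231).

`Pl T A` is an abstract predicate ("`A` is the plain element of `T`"), stable under mutation
(`hM`, helper633).  Conclusion: the plain element `A` of seed `0` is
`P(u_0) P(u_1) ⋯ P(u_{n-1}) * Z` with `Z` supported on the face `m_0 = 0`.
-/

namespace Crest.Agent.R059.Seeds231

open Finset Crest.CombinatoricsR.UnitInterval MutIso TPS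

/-! ### `ev` under the involution -/

section evtil

variable {ι : Type*} [DecidableEq ι] {R : Type*} [CommRing R] {T T' : Tw (ι →₀ ℕ) R}
  {c : (ι →₀ ℕ) →+ ℕ} {k : ι}

theorem cp_nsmul {m : ι →₀ ℕ} (hm : Cp c k m) (j : ℕ) : Cp c k (j • m) := by
  induction j with
  | zero => rw [zero_nsmul]; exact Cp.zero
  | succ j ih => rw [succ_nsmul]; exact ih.add hm

theorem til_nsmul {m : ι →₀ ℕ} (hm : Cp c k m) (j : ℕ) : til c k (j • m) = j • til c k m := by
  induction j with
  | zero => rw [zero_nsmul, zero_nsmul, til_zero]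
  | succ j ih => rw [succ_nsmul, succ_nsmul, til_add (cp_nsmul hm j) hm, ih]

theorem pw_til (H : Rel c k T T') {m : ι →₀ ℕ}
    (hm : Cp c k m) (j : ℕ) : pw T' (til c k m) j = pw T m j := by
  induction j with
  | zero => rfl
  | succ j ih => rw [pw, pw, ih, ← til_nsmul hm, H.wt (cp_nsmul hm j) hm]

theorem capped_ev {m : ι →₀ ℕ} (hm : Cp c k m) (f : PowerSeries R) : Capped c k (ev T m f) := by
  intro d hd
  obtain ⟨j, rfl⟩ := exists_of_co_ev_ne hd
  exact cp_nsmul hm j

theorem tilS_ev (hc : c (Finsupp.single k 1) = 0) (H : Rel c k T T') {m : ι →₀ ℕ}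
    (hm : Cp c k m) (h0 : m ≠ 0) (f : PowerSeries R) :
    tilS c k T' (ev T m f) = ev T' (til c k m) f := by
  have h0' : til c k m ≠ 0 := by rw [Ne, til_eq_zero hc hm]; exact h0
  ext d
  by_cases hd : ∃ j : ℕ, d = j • til c k m
  · obtain ⟨j, rfl⟩ := hd
    rw [co_ev_nsmul (nsmul_inj h0'), ← til_nsmul hm, co_tilS_til hc (cp_nsmul hm j),
      co_ev_nsmul (nsmul_inj h0), pw_til H hm]
  · rw [co_ev_of_not f (fun j hj => hd ⟨j, hj⟩)]
    by_cases hcd : Cp c k d
    · rw [co_tilS_of hcd]
      apply co_ev_of_not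
      intro j hj
      apply hd
      refine ⟨j, ?_⟩
      rw [← til_nsmul hm, ← hj, til_til hc hcd]
    · exact co_tilS_not hcd

theorem capped_iff_in1 {f : TPS T} (h1 : f.co 0 = 1) : Capped c k f ↔ In1 (Cp c k) f := by
  constructor
  · intro h
    exact ⟨h1, fun d _ hP => h.co_not hP⟩
  · intro h m hm
    rcases h.eq_zero_or hm with h2 | h2
    · rw [h2]; exact Cp.zero
    · exact h2

theorem capped_inv {f : TPS T} (h1 : f.co 0 = 1) (hf : Capped c k f) : Capped c k (inv f) := by
  rw [capped_iff_in1 (inv_zero f)]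
  exact In1.inv (fun a b ha hb => ha.add hb) ((capped_iff_in1 h1).mp hf)

end evtil

/-! ### products of `ev`'s -/

section lists

variable {M : Type*} [AddCommMonoid M] [PartialOrder M] [IsOrderedCancelAddMonoid M]
  [CanonicallyOrderedAdd M] [WellFoundedLT M] [HasAntidiagonal M]
  {R : Type*} [CommRing R] {T : Tw M R}

theorem co_zero_list_prod (l : List (TPS T)) (hl : ∀ f ∈ l, f.co 0 = 1) : l.prod.co 0 = 1 := by
  induction l with
  | nil => exact co_one_zero
  | cons f l ih =>
    rw [List.prod_cons, co_mul_zero', hl f (by simp), ih (fun g hg => hl g (by simp [hg])),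
      mul_one]

end lists

variable {n : ℕ} {R : Type*} [CommRing R]

theorem capped_list_prod {T : Tw (Fin n →₀ ℕ) R} {c : (Fin n →₀ ℕ) →+ ℕ} {k : Fin n}
    (l : List (TPS T)) (hl : ∀ f ∈ l, Capped c k f) : Capped c k l.prod := by
  induction l with
  | nil => exact Capped.one
  | cons f l ih =>
    rw [List.prod_cons]
    exact (hl f (by simp)).mul (ih (fun g hg => hl g (by simp [hg])))

theorem tilS_list_prod {T T' : Tw (Fin n →₀ ℕ) R} {c : (Fin n →₀ ℕ) →+ ℕ} {k : Fin n}
    (hc : c (Finsupp.single k 1) = 0) (H : Rel c k T T')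
    (l : List (TPS T)) (hl : ∀ f ∈ l, Capped c k f) :
    tilS c k T' l.prod = (l.map (tilS c k T')).prod := by
  induction l with
  | nil => exact tilS_one hc
  | cons f l ih =>
    rw [List.prod_cons, List.map_cons, List.prod_cons,
      tilS_mul hc H (hl f (by simp)) (capped_list_prod l (fun g hg => hl g (by simp [hg]))),
      ih (fun g hg => hl g (by simp [hg]))]

/-! ### the step of the chain: exponents -/

section step

variable (h : Fin n → ℕ) (hh : IsHessenberg h)
  (hconn : ∀ i : Fin n, (i : ℕ) + 1 < n → (i : ℕ) + 2 ≤ h i)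
  {T : Tw (Fin n →₀ ℕ) R} {k : ℕ} (hk : k < n)
  (hT : ∀ a b, T.β a b = Kill59.s h (uk k a) (uk k b))

include hT in
theorem capOf_single_ne {j : Fin n} (hj : (j : ℕ) ≠ k) :
    capOf T.β ⟨k, hk⟩ (Finsupp.single j 1) = (Kill59.s h (U n k) (cls k j)).toNat := by
  rw [capOf_single_one T.β (fun h0 => hj (by rw [h0])), hT, uk_single, uk_single, cls_self hk]
  simp

include hh hconn hT in
/-- `uk (k+1) m = uk k (m without k) + (cap m - m_k) u_k`. -/
theorem uk_succ (m : Fin n →₀ ℕ) :
    uk (k + 1) m = uk k (m.erase ⟨k, hk⟩) + dl (capOf T.β ⟨k, hk⟩) ⟨k, hk⟩ m • U n k := by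
  induction m using Finsupp.induction_linear with
  | zero => simp
  | add f g hf hg => rw [map_add, hf, hg, Finsupp.erase_add, map_add, map_add, add_smul]; abel
  | single j a =>
    have h1 : (Finsupp.single j a : Fin n →₀ ℕ) = a • Finsupp.single j 1 := by simp
    rw [uk_single]
    by_cases hj : (j : ℕ) = k
    · have hj' : j = ⟨k, hk⟩ := Fin.ext hj
      subst hj'
      rw [cls_succ_self hk, Finsupp.erase_single, map_zero, zero_add, h1, map_nsmul,
        dl_single_self (capOf_self _ _)]
      simp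
    · have hj' : j ≠ ⟨k, hk⟩ := fun h0 => hj (by rw [h0])
      have h2 : (Finsupp.single j a : Fin n →₀ ℕ).erase ⟨k, hk⟩ = Finsupp.single j a := by
        ext l; by_cases hl : l = ⟨k, hk⟩
        · subst hl; simp [Finsupp.single_apply, hj']
        · rw [Finsupp.erase_ne hl]
      rw [h2, uk_single, cls_succ h hh hconn hk j hj]
      conv_rhs => rw [h1, map_nsmul, dl_single_ne hj', capOf_single_ne h hk hT hj]
      rw [smul_add, smul_smul, nsmul_eq_mul]

include hh hconn hT in
/-- the involution does not change the `u`-coordinates. -/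
theorem uk_succ_til {m : Fin n →₀ ℕ} (hm : Cp (capOf T.β ⟨k, hk⟩) ⟨k, hk⟩ m) :
    uk (k + 1) (til (capOf T.β ⟨k, hk⟩) ⟨k, hk⟩ m) = uk k m := by
  rw [uk_succ h hh hconn hk hT, til_erase, dl_til _ _ (capOf_self _ _) hm]
  conv_rhs => rw [erase_split (k := ⟨k, hk⟩) m, map_add, map_nsmul, uk_single, cls_self hk]
  simp

include hh hconn hT in
theorem xk_succ_til {m : Fin n →₀ ℕ} (hm : Cp (capOf T.β ⟨k, hk⟩) ⟨k, hk⟩ m) :
    xk (k + 1) (til (capOf T.β ⟨k, hk⟩) ⟨k, hk⟩ m) = xk k m := by
  rw [xk_apply, xk_apply, uk_succ_til h hh hconn hk hT hm]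

include hh hconn hT in
/-- the mutated form is the form of seed `k+1`. -/
theorem mut_form (a b : Fin n →₀ ℕ) :
    (mutTw T (capOf T.β ⟨k, hk⟩) ⟨k, hk⟩).β a b = Kill59.s h (uk (k + 1) a) (uk (k + 1) b) := by
  have h0 : (mutTw T (capOf T.β ⟨k, hk⟩) ⟨k, hk⟩).β a b =
    mutForm T.β (capOf T.β ⟨k, hk⟩) ⟨k, hk⟩ a b := rfl
  rw [h0, mutForm_apply, uk_succ h hh hconn hk hT, uk_succ h hh hconn hk hT]
  simp only [hT]
  rw [Kill59.s_add_left, s_add_right, s_add_right, Kill59.s_smul_left, Kill59.s_smul_left,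
    s_smul_right, s_smul_right, s_self, uk_single, cls_self hk, s_self]
  simp only [Nat.cast_one, one_smul]
  ring

include hh hconn hT in
/-- the cap of `u_j`, `j > k`, written at seed `k+1`, is `1`. -/
theorem capOf_uv : ∀ j : ℕ, k + 1 ≤ j → j < n →
    capOf T.β ⟨k, hk⟩ (uv n (k + 1) j) = 1 := by
  intro j hkj
  induction j, hkj using Nat.le_induction with
  | base =>
    intro hj
    rw [uv_self hj, capOf_single_ne h hk hT (by simp),
      s_U_cls_near h hconn hk _ (Or.inr rfl)]
    rfl
  | succ j hkj ih =>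
    intro hj
    rw [uv_succ hkj hj, map_add, ih (by omega), capOf_single_ne h hk hT (by simp only; omega),
      Int.toNat_of_nonpos (s_U_cls_far h hh hk _ (by simp only; omega) (by simp only; omega))]

theorem cp_uv (j : ℕ) (c : (Fin n →₀ ℕ) →+ ℕ) :
    Cp c ⟨k, hk⟩ (uv n (k + 1) j) := by
  rw [cp_def, uv_apply, if_neg (by simp only; omega)]
  exact Nat.zero_le _

include hh hconn hT in
theorem til_uv {j : ℕ} (hkj : k + 1 ≤ j) (hj : j < n) :
    til (capOf T.β ⟨k, hk⟩) ⟨k, hk⟩ (uv n (k + 1) j) = uv n k j := by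
  ext i
  by_cases hi : i = ⟨k, hk⟩
  · subst hi
    rw [til_apply_self, capOf_uv h hh hconn hk hT j hkj hj, uv_apply, uv_apply,
      if_neg (by simp only; omega), if_pos (by simp only; omega)]
  · rw [til_apply_ne _ hi, uv_apply, uv_apply]
    have : (i : ℕ) ≠ k := fun h0 => hi (Fin.ext h0)
    by_cases h1 : k + 1 ≤ (i : ℕ) ∧ (i : ℕ) ≤ j
    · rw [if_pos h1, if_pos (by omega)]
    · rw [if_neg h1, if_neg (by omega)]

end step

theorem uv_ne_zero {k j : ℕ} (hk : k < n) (hkj : k ≤ j) : uv n k j ≠ 0 := by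
  intro h0
  have := DFunLike.congr_fun h0 (⟨k, hk⟩ : Fin n)
  rw [uv_apply, if_pos (by simp only; omega)] at this
  simp at this

/-! ### the chain -/

/-- **The chain of mutations** (downward induction on the seed). -/
theorem chain_aux (h : Fin n → ℕ) (hh : IsHessenberg h)
    (hconn : ∀ i : Fin n, (i : ℕ) + 1 < n → (i : ℕ) + 2 ≤ h i)
    (v : Rˣ) (p : PowerSeries R) (hp : PowerSeries.constantCoeff p = 1)
    (Pl : ∀ T : Tw (Fin n →₀ ℕ) R, TPS T → Prop)
    (hM : ∀ T : Tw (Fin n →₀ ℕ) R, T.v = v → (∀ a b, T.β a b = - T.β b a) →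
      ∀ (k : Fin n) (A : TPS T), Pl T A → ∃ B : TPS T, Capped (capOf T.β k) k B ∧
        A = ev T (Finsupp.single k 1) p * B ∧
        Pl (mutTw T (capOf T.β k) k)
          (tilS (capOf T.β k) k (mutTw T (capOf T.β k) k) B *
            ev (mutTw T (capOf T.β k) k) (Finsupp.single k 1) p)) :
    ∀ (d k : ℕ), k + d = n → ∀ T : Tw (Fin n →₀ ℕ) R, T.v = v →
      (∀ a b, T.β a b = Kill59.s h (uk k a) (uk k b)) → ∀ A : TPS T, Pl T A →
      ∃ Z : TPS T, (∀ m, Z.co m ≠ 0 → xk k m ≤ 0) ∧
        A = ((List.range d).map (fun i => ev T (uv n k (k + i)) p)).prod * Z := by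
  intro d
  induction d with
  | zero =>
    intro k hkn T _ _ A _
    have hk : k = n := by omega
    subst hk
    exact ⟨A, fun m _ => xk_last m, by simp⟩
  | succ d ih =>
    intro k hkn T hv hT A hA
    have hk : k < n := by omega
    obtain ⟨B, hBc, hAB, hPl⟩ := hM T hv (fun a b => by rw [hT, hT, Kill59.s_skew]) ⟨k, hk⟩ A hA
    set c := capOf T.β ⟨k, hk⟩ with hcdef
    have hc0 : c (Finsupp.single ⟨k, hk⟩ 1) = 0 := capOf_self _ _
    set T' := mutTw T c ⟨k, hk⟩ with hT'def
    have hR : Rel c ⟨k, hk⟩ T T' := rel_mut hc0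
    have hR' : Rel c ⟨k, hk⟩ T' T := rel_mut_symm hc0
    have hT' : ∀ a b, T'.β a b = Kill59.s h (uk (k + 1) a) (uk (k + 1) b) :=
      mut_form h hh hconn hk hT
    obtain ⟨Z', hZ', hEq⟩ := ih (k + 1) (by omega) T' hv hT' _ hPl
    set L' : List (TPS T') :=
      (List.range d).map (fun i => ev T' (uv n (k + 1) (k + 1 + i)) p) with hL'
    -- the node of seed `k+1`
    have hek : (Finsupp.single (⟨k, hk⟩ : Fin n) 1 : Fin n →₀ ℕ) ≠ 0 := by simp
    set N := ev T' (Finsupp.single (⟨k, hk⟩ : Fin n) 1) p with hN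
    have hN1 : N.co 0 = 1 := by rw [hN, co_ev_zero (nsmul_inj hek), hp]
    have hLc : ∀ f ∈ L', Capped c ⟨k, hk⟩ f := by
      intro f hf
      rw [hL', List.mem_map] at hf
      obtain ⟨i, hi, rfl⟩ := hf
      rw [List.mem_range] at hi
      exact capped_ev (cp_uv hk _ _) p
    have hL1 : ∀ f ∈ L', f.co 0 = 1 := by
      intro f hf
      rw [hL', List.mem_map] at hf
      obtain ⟨i, hi, rfl⟩ := hf
      rw [List.mem_range] at hi
      rw [co_ev_zero (nsmul_inj (uv_ne_zero (by omega) (by omega))), hp]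
    have hP1 : L'.prod.co 0 = 1 := co_zero_list_prod L' hL1
    have hPc : Capped c ⟨k, hk⟩ L'.prod := capped_list_prod L' hLc
    -- `Z'' = Z' N⁻¹`
    set Z'' := Z' * inv N with hZ''
    have hB' : tilS c ⟨k, hk⟩ T' B = L'.prod * Z'' := by
      rw [hZ'', ← mul_assoc, ← hEq, mul_assoc, mul_inv hN1, mul_one]
    have hZc : Capped c ⟨k, hk⟩ Z'' := by
      have h1 : Z'' = inv L'.prod * tilS c ⟨k, hk⟩ T' B := by
        rw [hB', ← mul_assoc, inv_mul hP1, one_mul]
      rw [h1]
      exact (capped_inv hP1 hPc).mul (capped_tilS B)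
    -- support of `Z''`
    have hxN : xk (k + 1) (Finsupp.single (⟨k, hk⟩ : Fin n) 1) = -1 := by
      rw [xk_apply, uk_single, cls_succ_self hk, Nat.cast_one, one_smul, dg_neg, dg_U hk]
    have hNin : In1 (fun m : Fin n →₀ ℕ => xk (k + 1) m ≤ 0) (inv N) := by
      apply In1.inv (fun a b ha hb => by rw [map_add]; omega)
      refine ⟨hN1, fun m _ hm => ?_⟩
      by_contra hne
      obtain ⟨j, rfl⟩ := exists_of_co_ev_ne hne
      apply hm
      rw [map_nsmul, hxN]
      simp
    have hZs : ∀ m, Z''.co m ≠ 0 → xk (k + 1) m ≤ 0 := by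
      intro m hm
      by_contra hcon
      apply hm
      rw [hZ'', co_mul]
      apply Finset.sum_eq_zero
      rintro ⟨a, b⟩ hab
      rw [HasAntidiagonal.mem_antidiagonal] at hab
      simp only at hab ⊢
      by_cases ha : Z'.co a = 0
      · rw [ha]; simp
      · by_cases hb : (inv N).co b = 0
        · rw [hb]; simp
        · exfalso
          have h1 := hZ' a ha
          have h2 : xk (k + 1) b ≤ 0 := by
            rcases hNin.eq_zero_or hb with h3 | h3
            · rw [h3, map_zero]
            · exact h3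
          rw [← hab, map_add] at hcon
          omega
    refine ⟨tilS c ⟨k, hk⟩ T Z'', ?_, ?_⟩
    · intro m hm
      by_cases hmc : Cp c ⟨k, hk⟩ m
      · rw [co_tilS_of hmc] at hm
        have := hZs _ hm
        rwa [hcdef, xk_succ_til h hh hconn hk hT hmc] at this
      · exact absurd (co_tilS_not hmc) hm
    · have hB : B = (L'.map (tilS c ⟨k, hk⟩ T)).prod * tilS c ⟨k, hk⟩ T Z'' := by
        rw [← tilS_list_prod hc0 hR' L' hLc, ← tilS_mul hc0 hR' hPc hZc, ← hB',
          tilS_tilS hc0 hBc]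
      have hmap : L'.map (tilS c ⟨k, hk⟩ T) =
          (List.range d).map (fun i => ev T (uv n k (k + (i + 1))) p) := by
        rw [hL', List.map_map]
        apply List.map_congr_left
        intro i hi
        rw [List.mem_range] at hi
        simp only [Function.comp_apply]
        rw [tilS_ev hc0 hR' (cp_uv hk _ _)
          (uv_ne_zero (by omega) (by omega)), til_uv h hh hconn hk hT (by omega) (by omega)]
        congr 2
        omega
      rw [List.range_succ_eq_map, List.map_cons, List.map_map, List.prod_cons, hAB, hB, hmap,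
        add_zero, uv_self hk, mul_assoc]
      rfl

/-- **The chain**: the plain element of seed `0` is `P(u_0) ⋯ P(u_{n-1}) * Z`, `Z` supported on
the face `m_0 = 0`, where `Z` has the coefficients of `A`. -/
theorem chain (h : Fin n → ℕ) (hh : IsHessenberg h)
    (hconn : ∀ i : Fin n, (i : ℕ) + 1 < n → (i : ℕ) + 2 ≤ h i)
    (v : Rˣ) (p : PowerSeries R) (hp : PowerSeries.constantCoeff p = 1)
    (Pl : ∀ T : Tw (Fin n →₀ ℕ) R, TPS T → Prop)
    (hM : ∀ T : Tw (Fin n →₀ ℕ) R, T.v = v → (∀ a b, T.β a b = - T.β b a) →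
      ∀ (k : Fin n) (A : TPS T), Pl T A → ∃ B : TPS T, Capped (capOf T.β k) k B ∧
        A = ev T (Finsupp.single k 1) p * B ∧
        Pl (mutTw T (capOf T.β k) k)
          (tilS (capOf T.β k) k (mutTw T (capOf T.β k) k) B *
            ev (mutTw T (capOf T.β k) k) (Finsupp.single k 1) p))
    (hn : 0 < n) (T : Tw (Fin n →₀ ℕ) R) (hv : T.v = v) (hT : T.β = form h) (A : TPS T)
    (hA : Pl T A) :
    ∃ Z : TPS T, (∀ m, Z.co m ≠ 0 → m ⟨0, hn⟩ = 0) ∧
      (∀ m, m ⟨0, hn⟩ = 0 → Z.co m = A.co m) ∧
      A = (List.ofFn (fun i : Fin n => ev T (ux i) p)).prod * Z := by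
  obtain ⟨Z, hZ, hAZ⟩ := chain_aux h hh hconn v p hp Pl hM n 0 (by omega) T hv
    (fun a b => by rw [hT, form_apply, uk_zero_eq, uk_zero_eq]) A hA
  have hl : (List.range n).map (fun i => ev T (uv n 0 (0 + i)) p) =
      List.ofFn (fun i : Fin n => ev T (ux i) p) := by
    apply List.ext_getElem
    · simp
    · intro i h1 h2
      simp only [List.getElem_map, List.getElem_range, List.getElem_ofFn, zero_add]
      rw [← uv_zero]
  rw [hl] at hAZ
  have hZ0 : ∀ m, Z.co m ≠ 0 → m ⟨0, hn⟩ = 0 := by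
    intro m hm
    have := hZ m hm
    rw [xk_zero hn] at this
    omega
  refine ⟨Z, hZ0, ?_, hAZ⟩
  intro m hm
  -- the product has constant term 1 and degree `> 0` otherwise
  set L := (List.ofFn (fun i : Fin n => ev T (ux i) p)).prod with hL
  have hux : ∀ i : Fin n, ux i ≠ 0 := fun i => by
    rw [← uv_zero]; exact uv_ne_zero hn (Nat.zero_le _)
  have hin : ∀ l : List (TPS T), (∀ f ∈ l, In1 (fun m : Fin n →₀ ℕ => m ⟨0, hn⟩ ≠ 0) f) →
      In1 (fun m : Fin n →₀ ℕ => m ⟨0, hn⟩ ≠ 0) l.prod := by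
    intro l hl
    induction l with
    | nil => exact in1_one _
    | cons f l ih =>
      rw [List.prod_cons]
      apply In1.mul (fun a b ha hb => by rw [Finsupp.add_apply]; omega) (hl f (by simp))
        (ih (fun g hg => hl g (by simp [hg])))
  have hLin : In1 (fun m : Fin n →₀ ℕ => m ⟨0, hn⟩ ≠ 0) L := by
    apply hin
    intro f hf
    rw [List.mem_ofFn] at hf
    obtain ⟨i, rfl⟩ := hf
    refine ⟨by rw [co_ev_zero (nsmul_inj (hux i)), hp], fun m hm0 hm => ?_⟩
    by_contra hne
    obtain ⟨j, rfl⟩ := exists_of_co_ev_ne hne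
    apply hm
    have : ux i (⟨0, hn⟩ : Fin n) = 1 := by
      rw [ux_apply, if_pos (by simp [Fin.le_def])]
    rw [Finsupp.smul_apply, this, smul_eq_mul, mul_one]
    rintro rfl
    exact hm0 (zero_nsmul _)
  rw [hAZ, co_mul, Finset.sum_eq_single (0, m)]
  · simp only
    rw [hLin.one, wt_zero_left, one_mul, one_mul]
  · rintro ⟨a, b⟩ hab hne
    rw [HasAntidiagonal.mem_antidiagonal] at hab
    simp only at hab ⊢
    by_cases ha : a = 0
    · exfalso; apply hne; rw [ha] at hab ⊢; rw [← hab, zero_add]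
    · have ha0 : a ⟨0, hn⟩ = 0 := by
        have := DFunLike.congr_fun hab (⟨0, hn⟩ : Fin n)
        rw [Finsupp.add_apply] at this
        omega
      rw [hLin.supp a ha (by simp only [ne_eq, not_not]; exact ha0)]
      simp
  · intro hcon
    exact absurd (by simp [HasAntidiagonal.mem_antidiagonal]) hcon

end Crest.Agent.R059.Seeds231
end

-- ▼ part R059/MutIso2_456
section

set_option autoImplicit false

/-!
Row 59 (S0081), leaf MUT, part 2 (helper456): the transport `tilS` of `MutIso_456` is compatible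
with inverses, the two-fold / three-fold factorisations, derivations and `lam`.
-/

namespace Crest.Agent.R059

namespace MutIso

open Finset Finsupp TPS

variable {ι : Type*} [DecidableEq ι]
variable {R : Type*} [CommRing R] {T T' : Tw (ι →₀ ℕ) R}
variable {c : (ι →₀ ℕ) →+ ℕ} {k : ι}

theorem Capped.in1 {f : TPS T} (hf : Capped c k f) (h0 : f.co 0 = 1) :
    In1 (Cp c k) f := ⟨h0, fun _ _ h => hf.co_not h⟩

theorem capped_of_in1 {P : (ι →₀ ℕ) → Prop} {f : TPS T} (h : In1 P f)
    (hP : ∀ d, P d → Cp c k d) : Capped c k f := by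
  intro m hm
  rcases h.eq_zero_or hm with rfl | h1
  · exact Cp.zero
  · exact hP m h1

theorem cp_add : ∀ a b : ι →₀ ℕ, Cp c k a → Cp c k b → Cp c k (a + b) :=
  fun _ _ ha hb => ha.add hb

theorem Capped.inv {f : TPS T} (hf : Capped c k f) (h0 : f.co 0 = 1) :
    Capped c k (TPS.inv f) :=
  capped_of_in1 ((hf.in1 h0).inv cp_add) fun _ h => h

theorem Capped.lft {f : TPS T} (hf : Capped c k f) (h0 : f.co 0 = 1) (P : (ι →₀ ℕ) → Prop) :
    Capped c k (TPS.lft P f) :=
  capped_of_in1 ((hf.in1 h0).lft cp_add P) fun _ h => h.2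

theorem Capped.rgt {f : TPS T} (hf : Capped c k f) (h0 : f.co 0 = 1) (P : (ι →₀ ℕ) → Prop) :
    Capped c k (TPS.rgt P f) :=
  capped_of_in1 ((hf.in1 h0).rgt cp_add P) fun _ h => h.2

section parts

variable {V : Type*} [AddCommGroup V] [LinearOrder V] [IsOrderedAddMonoid V]

omit [IsOrderedAddMonoid V] in
theorem Capped.pos {f : TPS T} (hf : Capped c k f) (h0 : f.co 0 = 1) (x : (ι →₀ ℕ) →+ V) :
    Capped c k (TPS.pos x f) := hf.lft h0 _

omit [IsOrderedAddMonoid V] in
theorem Capped.npos {f : TPS T} (hf : Capped c k f) (h0 : f.co 0 = 1) (x : (ι →₀ ℕ) →+ V) :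
    Capped c k (TPS.npos x f) := hf.rgt h0 _

omit [IsOrderedAddMonoid V] in
theorem Capped.zer {f : TPS T} (hf : Capped c k f) (h0 : f.co 0 = 1) (x : (ι →₀ ℕ) →+ V) :
    Capped c k (TPS.zer x f) := (hf.npos h0 x).lft (npos_co_zero x f) _


end parts

/-- `tilS` respects supports. -/
theorem tilS_in1 (hc : c (single k 1) = 0) {f : TPS T} {P P' : (ι →₀ ℕ) → Prop}
    (hP : ∀ m, Cp c k m → P m → P' (til c k m)) (hf : In1 P f) :
    In1 P' (tilS c k T' f) := by
  refine ⟨by rw [tilS_co_zero, hf.one], fun d hd hPd => ?_⟩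
  by_cases hm : Cp c k d
  · rw [co_tilS_of hm]
    by_contra hne
    rcases hf.eq_zero_or hne with h1 | h1
    · exact hd ((til_eq_zero hc hm).1 h1)
    · apply hPd
      have := hP _ (Cp.til hc d) h1
      rwa [til_til hc hm] at this
  · exact co_tilS_not hm

theorem tilS_inv (hc : c (single k 1) = 0) (H : Rel c k T T') {f : TPS T}
    (hf : Capped c k f) (h0 : f.co 0 = 1) :
    tilS c k T' (TPS.inv f) = TPS.inv (tilS c k T' f) := by
  symm
  apply inv_eq_of_mul
  · rw [tilS_co_zero, h0]
  · rw [← tilS_mul hc H hf (hf.inv h0), mul_inv h0, tilS_one hc]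

theorem tilS_lft_rgt (hc : c (single k 1) = 0) (H : Rel c k T T') {f : TPS T}
    (hf : Capped c k f) (h0 : f.co 0 = 1) {P P' : (ι →₀ ℕ) → Prop}
    (hP : ∀ m, Cp c k m → (P' (til c k m) ↔ P m)) :
    TPS.lft P' (tilS c k T' f) = tilS c k T' (TPS.lft P f) ∧
      TPS.rgt P' (tilS c k T' f) = tilS c k T' (TPS.rgt P f) := by
  have h1 : In1 P' (tilS c k T' (TPS.lft P f)) :=
    tilS_in1 hc (fun m hm h => (hP m hm).2 h) (in1_lft P f)
  have h2 : In1 (fun d => ¬ P' d) (tilS c k T' (TPS.rgt P f)) :=
    tilS_in1 hc (fun m hm h => fun h' => h ((hP m hm).1 h')) (in1_rgt P f)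
  have h3 := fac_unique (P := P') (a := tilS c k T' f) h1.one h2.one h1.supp
    (fun e he h => h2.supp e he (not_not.2 h))
    (by rw [← tilS_mul hc H (hf.lft h0 P) (hf.rgt h0 P), lft_mul_rgt P h0])
  exact ⟨h3.1.symm, h3.2.symm⟩

section parts

variable {V : Type*} [AddCommGroup V] [LinearOrder V] [IsOrderedAddMonoid V]
variable {x x' : (ι →₀ ℕ) →+ V}


omit [IsOrderedAddMonoid V] in
theorem tilS_npos' (hc : c (single k 1) = 0) (H : Rel c k T T')
    (hx : ∀ m, Cp c k m → x' (til c k m) = x m) {f : TPS T}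
    (hf : Capped c k f) (h0 : f.co 0 = 1) :
    TPS.npos x' (tilS c k T' f) = tilS c k T' (TPS.npos x f) :=
  (tilS_lft_rgt hc H hf h0 (fun m hm => by rw [hx m hm])).2

omit [IsOrderedAddMonoid V] in
theorem tilS_zer' (hc : c (single k 1) = 0) (H : Rel c k T T')
    (hx : ∀ m, Cp c k m → x' (til c k m) = x m) {f : TPS T}
    (hf : Capped c k f) (h0 : f.co 0 = 1) :
    TPS.zer x' (tilS c k T' f) = tilS c k T' (TPS.zer x f) := by
  unfold TPS.zer
  rw [tilS_npos' hc H hx hf h0]
  exact (tilS_lft_rgt hc H (hf.npos h0 x) (npos_co_zero x f) (fun m hm => by rw [hx m hm])).1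






end parts

/-! attractor functionals `T.β d`, `d` capped -/


theorem tilS_zer_att (hc : c (single k 1) = 0) (H : Rel c k T T') {d : ι →₀ ℕ}
    (hd : Cp c k d) {f : TPS T} (hf : Capped c k f) (h0 : f.co 0 = 1) :
    TPS.zer (T'.β (til c k d)) (tilS c k T' f) = tilS c k T' (TPS.zer (T.β d) f) :=
  tilS_zer' hc H (fun m hm => H.hβ d m hd hm) hf h0


/-! derivations and `lam` -/

theorem tilS_der' {h h' : (ι →₀ ℕ) →+ R} (hc : c (single k 1) = 0)
    (hh : ∀ m, Cp c k m → h' (til c k m) = h m) (f : TPS T) :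
    tilS c k T' (Tr201.der h f) = Tr201.der h' (tilS c k T' f) := by
  ext m
  by_cases hm : Cp c k m
  · rw [co_tilS_of hm, Tr201.co_der, Tr201.co_der, co_tilS_of hm,
      ← hh _ (Cp.til hc m), til_til hc hm]
  · rw [co_tilS_not hm, Tr201.co_der, co_tilS_not hm, mul_zero]


theorem Capped.der {f : TPS T} (hf : Capped c k f) (h : (ι →₀ ℕ) →+ R) :
    Capped c k (Tr201.der h f) := by
  intro m hm
  by_contra h1
  apply hm
  rw [Tr201.co_der, hf.co_not h1, mul_zero]

theorem lam_til' {h h' : (ι →₀ ℕ) →+ R} (hc : c (single k 1) = 0) (H : Rel c k T T')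
    (hh : ∀ m, Cp c k m → h' (til c k m) = h m) {a a' : TPS T}
    (ha : Capped c k a) (ha' : Capped c k a') {d : ι →₀ ℕ} (hd : Cp c k d) :
    Tr201.lam h' (til c k d) (tilS c k T' a) (tilS c k T' a') = Tr201.lam h d a a' := by
  unfold Tr201.lam
  rw [← tilS_der' hc hh, ← tilS_mul hc H (ha.der h) ha', co_tilS_til hc hd]

theorem lam_til (hc : c (single k 1) = 0) (H : Rel c k T T') (h : (ι →₀ ℕ) →+ R)
    {a a' : TPS T} (ha : Capped c k a) (ha' : Capped c k a') {d : ι →₀ ℕ}
    (hd : Cp c k d) :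
    Tr201.lam (flipF c k h) (til c k d) (tilS c k T' a) (tilS c k T' a')
      = Tr201.lam h d a a' :=
  lam_til' hc H (fun _ hm => flipF_til hc h hm) ha ha' hd

/-- `lam` of a capped series vanishes off the capped exponents. -/
theorem lam_not_capped (h : (ι →₀ ℕ) →+ R) {a a' : TPS T} (ha : Capped c k a)
    (ha' : Capped c k a') {d : ι →₀ ℕ} (hd : ¬ Cp c k d) : Tr201.lam h d a a' = 0 :=
  ((ha.der h).mul ha').co_not hd

/-! the mutated commutator form `com` -/


end MutIso

end Crest.Agent.R059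
end

-- ▼ part R059/Mu1_633
section

set_option autoImplicit false
set_option linter.unusedSectionVars false
set_option linter.unusedSimpArgs false

/-!
Row 59 (S0081), leaf MUT, part 1: string calculus for left and right multiplication by a series
in `Y_{e_k}` (helper633).
-/

namespace Crest.Agent.R059.Mu

open Finset TPS

variable {ι : Type*} [DecidableEq ι] {R : Type*} [CommRing R] {T : Tw (ι →₀ ℕ) R}

/-- the series `Σ_a p_a Y_{a e_k}`. -/
noncomputable def evk (T : Tw (ι →₀ ℕ) R) (k : ι) (p : PowerSeries R) : TPS T := by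
  classical exact ⟨fun d => if d = Finsupp.single k (d k) then PowerSeries.coeff (d k) p else 0⟩

theorem evk_single (k : ι) (p : PowerSeries R) (a : ℕ) :
    (evk T k p).co (Finsupp.single k a) = PowerSeries.coeff a p := by
  classical
  unfold evk
  simp

theorem evk_ne {k : ι} {p : PowerSeries R} {d : ι →₀ ℕ} (h : d ≠ Finsupp.single k (d k)) :
    (evk T k p).co d = 0 := by
  classical
  unfold evk
  simp [h]

/-- the string of `f` through `m`, normalised so that left multiplication by `Y_{e_k}` is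
multiplication by `X`. -/
noncomputable def str (T : Tw (ι →₀ ℕ) R) (k : ι) (m : ι →₀ ℕ) (f : TPS T) : PowerSeries R :=
  PowerSeries.mk fun a =>
    ((T.v ^ ((a : ℤ) * T.β m (Finsupp.single k 1)) : Rˣ) : R) * f.co (m + Finsupp.single k a)

theorem coeff_str (k : ι) (m : ι →₀ ℕ) (f : TPS T) (a : ℕ) :
    PowerSeries.coeff a (str T k m f) =
      ((T.v ^ ((a : ℤ) * T.β m (Finsupp.single k 1)) : Rˣ) : R) * f.co (m + Finsupp.single k a) := by
  rw [str, PowerSeries.coeff_mk]

theorem str_co (k : ι) (m : ι →₀ ℕ) (f : TPS T) (a : ℕ) :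
    f.co (m + Finsupp.single k a) =
      ((T.v ^ (-((a : ℤ) * T.β m (Finsupp.single k 1))) : Rˣ) : R) *
        PowerSeries.coeff a (str T k m f) := by
  rw [coeff_str, ← mul_assoc, ← Units.val_mul, ← zpow_add]
  simp

theorem single_nsmul (k : ι) (a : ℕ) :
    (Finsupp.single k a : ι →₀ ℕ) = a • Finsupp.single k 1 := by
  rw [Finsupp.smul_single, smul_eq_mul, mul_one]

theorem β_single_left (k : ι) (a : ℕ) (m : ι →₀ ℕ) :
    T.β (Finsupp.single k a) m = a * T.β (Finsupp.single k 1) m := by
  rw [single_nsmul, map_nsmul]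
  simp

theorem β_single_right (k : ι) (a : ℕ) (m : ι →₀ ℕ) :
    T.β m (Finsupp.single k a) = a * T.β m (Finsupp.single k 1) := by
  rw [single_nsmul, map_nsmul]
  simp

theorem β_self (hs : ∀ a b, T.β a b = - T.β b a) (a : ι →₀ ℕ) : T.β a a = 0 := by
  have := hs a a
  omega

/-- coefficient of a product with a series supported on `ℕ e_k` on the left. -/
theorem co_evk_mul (hs : ∀ a b, T.β a b = - T.β b a) (k : ι) (p : PowerSeries R) (f : TPS T)
    {m : ι →₀ ℕ} (hm : m k = 0) (a : ℕ) :
    (evk T k p * f).co (m + Finsupp.single k a) =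
      ∑ ij ∈ Finset.HasAntidiagonal.antidiagonal a,
        ((T.v ^ (-((ij.1 : ℤ) * T.β m (Finsupp.single k 1))) : Rˣ) : R) *
          (PowerSeries.coeff ij.1 p * f.co (m + Finsupp.single k ij.2)) := by
  classical
  rw [co_mul]
  symm
  apply Finset.sum_of_injOn (fun ij : ℕ × ℕ =>
    ((Finsupp.single k ij.1 : ι →₀ ℕ), m + Finsupp.single k ij.2))
  · rintro ⟨i, j⟩ _ ⟨i', j'⟩ _ h
    simp only [Prod.mk.injEq] at h
    obtain ⟨h1, h2⟩ := h
    have h1' := Finsupp.single_injective k h1
    have h2' := Finsupp.single_injective k (add_left_cancel h2)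
    rw [h1', h2']
  · rintro ⟨i, j⟩ h
    simp only [Finset.mem_coe, Finset.HasAntidiagonal.mem_antidiagonal] at h ⊢
    rw [← h, Finsupp.single_add]
    abel
  · rintro ⟨x, y⟩ hxy hne
    rw [Finset.HasAntidiagonal.mem_antidiagonal] at hxy
    by_cases hx : x = Finsupp.single k (x k)
    · exfalso
      apply hne
      have hy : y = m + Finsupp.single k (y k) := by
        have hxy' : ∀ j, x j + y j = m j + (Finsupp.single k a : ι →₀ ℕ) j := by
          intro j
          rw [← Finsupp.add_apply, ← Finsupp.add_apply]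
          exact DFunLike.congr_fun hxy j
        ext j
        by_cases hj : j = k
        · subst hj; simp [hm]
        · have h1 := hxy' j
          have h2 : x j = 0 := by
            rw [hx]; simp [Ne.symm hj]
          simp only [Finsupp.add_apply]
          rw [Finsupp.single_eq_of_ne hj] at h1 ⊢
          omega
      refine ⟨(x k, y k), ?_, ?_⟩
      · simp only [Finset.mem_coe, Finset.HasAntidiagonal.mem_antidiagonal]
        have h1 := DFunLike.congr_fun hxy k
        simp only [Finsupp.add_apply, hm, Finsupp.single_eq_same, zero_add] at h1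
        exact h1
      · simp only
        rw [← hx, ← hy]
    · rw [evk_ne hx]; simp
  · rintro ⟨i, j⟩ _
    simp only
    have e1 : T.β (Finsupp.single k i) (m + Finsupp.single k j) =
        -((i : ℤ) * T.β m (Finsupp.single k 1)) := by
      rw [map_add, β_single_left k i m, β_single_left k i (Finsupp.single k j),
        β_single_right k j (Finsupp.single k 1), β_self hs, hs (Finsupp.single k 1) m]
      ring
    rw [evk_single, wt, e1]

/-- coefficient of a product with a series supported on `ℕ e_k` on the right. -/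
theorem co_mul_evk (hs : ∀ a b, T.β a b = - T.β b a) (k : ι) (p : PowerSeries R) (f : TPS T)
    {m : ι →₀ ℕ} (hm : m k = 0) (a : ℕ) :
    (f * evk T k p).co (m + Finsupp.single k a) =
      ∑ ij ∈ Finset.HasAntidiagonal.antidiagonal a,
        ((T.v ^ ((ij.1 : ℤ) * T.β m (Finsupp.single k 1)) : Rˣ) : R) *
          (PowerSeries.coeff ij.1 p * f.co (m + Finsupp.single k ij.2)) := by
  classical
  rw [co_mul]
  symm
  apply Finset.sum_of_injOn (fun ij : ℕ × ℕ =>
    (m + Finsupp.single k ij.2, (Finsupp.single k ij.1 : ι →₀ ℕ)))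
  · rintro ⟨i, j⟩ _ ⟨i', j'⟩ _ h
    simp only [Prod.mk.injEq] at h
    obtain ⟨h2, h1⟩ := h
    have h1' := Finsupp.single_injective k h1
    have h2' := Finsupp.single_injective k (add_left_cancel h2)
    rw [h1', h2']
  · rintro ⟨i, j⟩ h
    simp only [Finset.mem_coe, Finset.HasAntidiagonal.mem_antidiagonal] at h ⊢
    rw [← h, Finsupp.single_add]
    abel
  · rintro ⟨y, x⟩ hxy hne
    rw [Finset.HasAntidiagonal.mem_antidiagonal] at hxy
    by_cases hx : x = Finsupp.single k (x k)
    · exfalso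
      apply hne
      have hy : y = m + Finsupp.single k (y k) := by
        have hxy' : ∀ j, y j + x j = m j + (Finsupp.single k a : ι →₀ ℕ) j := by
          intro j
          rw [← Finsupp.add_apply, ← Finsupp.add_apply]
          exact DFunLike.congr_fun hxy j
        ext j
        by_cases hj : j = k
        · subst hj; simp [hm]
        · have h1 := hxy' j
          have h2 : x j = 0 := by
            rw [hx]; simp [Ne.symm hj]
          simp only [Finsupp.add_apply]
          rw [Finsupp.single_eq_of_ne hj] at h1 ⊢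
          omega
      refine ⟨(x k, y k), ?_, ?_⟩
      · simp only [Finset.mem_coe, Finset.HasAntidiagonal.mem_antidiagonal]
        have h1 := DFunLike.congr_fun hxy k
        simp only [Finsupp.add_apply, hm, Finsupp.single_eq_same, zero_add] at h1
        omega
      · simp only
        rw [← hx, ← hy]
    · rw [evk_ne hx]; simp
  · rintro ⟨i, j⟩ _
    simp only
    have e1 : T.β (m + Finsupp.single k j) (Finsupp.single k i) =
        (i : ℤ) * T.β m (Finsupp.single k 1) := by
      rw [map_add, AddMonoidHom.add_apply, β_single_right k i m,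
        β_single_left k j (Finsupp.single k i),
        β_single_right k i (Finsupp.single k 1), β_self hs]
      ring
    rw [evk_single, mul_comm (PowerSeries.coeff i p), wt, e1]

theorem str_evk_mul (hs : ∀ a b, T.β a b = - T.β b a) (k : ι) (p : PowerSeries R) (f : TPS T)
    {m : ι →₀ ℕ} (hm : m k = 0) : str T k m (evk T k p * f) = p * str T k m f := by
  ext a
  rw [coeff_str, co_evk_mul hs k p f hm, PowerSeries.coeff_mul, Finset.mul_sum]
  apply Finset.sum_congr rfl
  rintro ⟨i, j⟩ hij
  rw [Finset.HasAntidiagonal.mem_antidiagonal] at hij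
  simp only at hij ⊢
  rw [coeff_str, ← mul_assoc, ← Units.val_mul, ← zpow_add]
  have : (a : ℤ) * T.β m (Finsupp.single k 1) + -(↑i * T.β m (Finsupp.single k 1)) =
      j * T.β m (Finsupp.single k 1) := by
    rw [← hij]; push_cast; ring
  rw [this]
  ring

theorem str_mul_evk (hs : ∀ a b, T.β a b = - T.β b a) (k : ι) (p : PowerSeries R) (f : TPS T)
    {m : ι →₀ ℕ} (hm : m k = 0) :
    str T k m (f * evk T k p) =
      PowerSeries.rescale ((T.v ^ (2 * T.β m (Finsupp.single k 1)) : Rˣ) : R) p * str T k m f := by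
  ext a
  rw [coeff_str, co_mul_evk hs k p f hm, PowerSeries.coeff_mul, Finset.mul_sum]
  apply Finset.sum_congr rfl
  rintro ⟨i, j⟩ hij
  rw [Finset.HasAntidiagonal.mem_antidiagonal] at hij
  simp only at hij ⊢
  rw [coeff_str, PowerSeries.coeff_rescale, ← mul_assoc, ← Units.val_mul, ← zpow_add,
    ← Units.val_pow_eq_pow_val, ← zpow_natCast, ← zpow_mul]
  have : (a : ℤ) * T.β m (Finsupp.single k 1) + (↑i * T.β m (Finsupp.single k 1)) =
      2 * T.β m (Finsupp.single k 1) * i + j * T.β m (Finsupp.single k 1) := by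
    rw [← hij]; push_cast; ring
  rw [this, zpow_add, Units.val_mul]
  ring


end Crest.Agent.R059.Mu
end

-- ▼ part R059/Mu1b_633
section

set_option autoImplicit false
set_option linter.unusedSimpArgs false

/-!
Row 59 (S0081), leaf MUT, part 1b: the `q`-difference equation of the dilogarithm and reflection
of polynomial strings (helper633).  `q = v⁻²`, `p(X) = P(v⁻¹ X)`, `p(v⁻² X) = (1 + v⁻¹ X) p(X)`.
-/

namespace Crest.Agent.R059.Mu

open Finset Polynomial

variable {R : Type*} [CommRing R]

/-- `∏_{i<n} (1 + v^{2i+1} X)`. -/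
noncomputable def cpl (v : Rˣ) (n : ℕ) : R[X] :=
  ∏ i ∈ range n, (1 + C ((v ^ (2 * (i : ℤ) + 1) : Rˣ) : R) * X)

/-- `∏_{i<n} (1 + v^{-2i-1} X)`. -/
noncomputable def cmi (v : Rˣ) (n : ℕ) : R[X] :=
  ∏ i ∈ range n, (1 + C ((v ^ (-(2 * (i : ℤ)) - 1) : Rˣ) : R) * X)

theorem natDegree_lin (c : R) : (1 + C c * X : R[X]).natDegree ≤ 1 := by
  rw [add_comm, ← C_1]
  exact natDegree_linear_le

theorem cpl_succ (v : Rˣ) (n : ℕ) :
    cpl v (n + 1) = cpl v n * (1 + C ((v ^ (2 * (n : ℤ) + 1) : Rˣ) : R) * X) := by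
  rw [cpl, Finset.prod_range_succ]; rfl

theorem cmi_succ (v : Rˣ) (n : ℕ) :
    cmi v (n + 1) = cmi v n * (1 + C ((v ^ (-(2 * (n : ℤ)) - 1) : Rˣ) : R) * X) := by
  rw [cmi, Finset.prod_range_succ]; rfl

theorem cpl_zero (v : Rˣ) : cpl v 0 = 1 := by simp [cpl]
theorem cmi_zero (v : Rˣ) : cmi v 0 = 1 := by simp [cmi]

theorem natDegree_cpl (v : Rˣ) (n : ℕ) : (cpl v n).natDegree ≤ n := by
  induction n with
  | zero => simp [cpl_zero]
  | succ n ih =>
    rw [cpl_succ]
    exact natDegree_mul_le.trans (add_le_add ih (natDegree_lin _))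

theorem natDegree_cmi (v : Rˣ) (n : ℕ) : (cmi v n).natDegree ≤ n := by
  induction n with
  | zero => simp [cmi_zero]
  | succ n ih =>
    rw [cmi_succ]
    exact natDegree_mul_le.trans (add_le_add ih (natDegree_lin _))

theorem reflect_lin (v : Rˣ) (z : ℤ) :
    reflect 1 (1 + C ((v ^ z : Rˣ) : R) * X) =
      C ((v ^ z : Rˣ) : R) * (1 + C ((v ^ (-z) : Rˣ) : R) * X) := by
  ext j
  rw [coeff_reflect]
  rcases j with _ | _ | j
  · have h2 : revAt 1 0 = 1 := by rw [revAt_le (by omega)]
    rw [h2]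
    simp [coeff_one]
  · have h2 : revAt 1 (0 + 1) = 0 := by rw [revAt_le (by omega)]
    rw [h2]
    have h3 : ((v ^ z : Rˣ) : R) * ((v ^ (-z) : Rˣ) : R) = 1 := by
      rw [← Units.val_mul, ← zpow_add]; simp
    simp only [coeff_C_mul, coeff_add, coeff_one, coeff_X]
    simp [h3]
  · have h2 : revAt 1 (j + 1 + 1) = j + 1 + 1 := by
      rw [revAt_eq_self_of_lt]; omega
    rw [h2]
    simp [coeff_one, coeff_X]

theorem reflect_cpl (v : Rˣ) (n : ℕ) :
    reflect n (cpl v n) = C ((v ^ ((n : ℤ) * n) : Rˣ) : R) * cmi v n := by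
  induction n with
  | zero => simp [cpl_zero, cmi_zero, reflect_one]
  | succ n ih =>
    rw [cpl_succ, reflect_mul _ _ (natDegree_cpl v n) (natDegree_lin _), ih, reflect_lin, cmi_succ]
    have h1 : -(2 * (n : ℤ) + 1) = -(2 * (n : ℤ)) - 1 := by ring
    have h2 : ((v ^ (((n + 1 : ℕ) : ℤ) * ((n + 1 : ℕ) : ℤ)) : Rˣ) : R) =
        ((v ^ ((n : ℤ) * n) : Rˣ) : R) * ((v ^ (2 * (n : ℤ) + 1) : Rˣ) : R) := by
      rw [← Units.val_mul, ← zpow_add]
      congr 2
      push_cast
      ring
    rw [h1, h2, C_mul]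
    generalize C ((v ^ ((n : ℤ) * n) : Rˣ) : R) = a1
    generalize C ((v ^ (2 * (n : ℤ) + 1) : Rˣ) : R) = a2
    generalize C ((v ^ (-(2 * (n : ℤ)) - 1) : Rˣ) : R) = a3
    ring

theorem reflect_cmi (v : Rˣ) (n : ℕ) :
    reflect n (cmi v n) = C ((v ^ (-((n : ℤ) * n)) : Rˣ) : R) * cpl v n := by
  induction n with
  | zero => simp [cpl_zero, cmi_zero, reflect_one]
  | succ n ih =>
    rw [cmi_succ, reflect_mul _ _ (natDegree_cmi v n) (natDegree_lin _), ih, reflect_lin, cpl_succ]
    have h1 : -(-(2 * (n : ℤ)) - 1) = 2 * (n : ℤ) + 1 := by ring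
    have h2 : ((v ^ (-(((n + 1 : ℕ) : ℤ) * ((n + 1 : ℕ) : ℤ))) : Rˣ) : R) =
        ((v ^ (-((n : ℤ) * n)) : Rˣ) : R) * ((v ^ (-(2 * (n : ℤ)) - 1) : Rˣ) : R) := by
      rw [← Units.val_mul, ← zpow_add]
      congr 2
      push_cast
      ring
    rw [h1, h2, C_mul]
    generalize C ((v ^ (-((n : ℤ) * n)) : Rˣ) : R) = a1
    generalize C ((v ^ (2 * (n : ℤ) + 1) : Rˣ) : R) = a2
    generalize C ((v ^ (-(2 * (n : ℤ)) - 1) : Rˣ) : R) = a3
    ring

/-! ### the difference equation -/

theorem rescale_C (a c : R) : PowerSeries.rescale a (PowerSeries.C c) = PowerSeries.C c := by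
  ext n
  rw [PowerSeries.coeff_rescale, PowerSeries.coeff_C]
  split_ifs with h
  · subst h; simp
  · simp

theorem rescale_X' (a : R) :
    PowerSeries.rescale a (PowerSeries.X : PowerSeries R) = PowerSeries.C a * PowerSeries.X := by
  ext n
  rw [PowerSeries.coeff_rescale, PowerSeries.coeff_C_mul, PowerSeries.coeff_X]
  split_ifs with h
  · subst h; simp
  · simp

/-- the equation `p(v⁻² X) = (1 + v⁻¹ X) p(X)`. -/
def QD (v : Rˣ) (p : PowerSeries R) : Prop :=
  PowerSeries.rescale ((v ^ (-2 : ℤ) : Rˣ) : R) p =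
    (1 + PowerSeries.C ((v ^ (-1 : ℤ) : Rˣ) : R) * PowerSeries.X) * p

theorem rescale_zpow_rescale (v : Rˣ) (a b : ℤ) (p : PowerSeries R) :
    PowerSeries.rescale ((v ^ a : Rˣ) : R) (PowerSeries.rescale ((v ^ b : Rˣ) : R) p) =
      PowerSeries.rescale ((v ^ (a + b) : Rˣ) : R) p := by
  rw [PowerSeries.rescale_rescale, ← Units.val_mul, ← zpow_add, add_comm b a]

theorem rescale_lin (v : Rˣ) (a z : ℤ) :
    PowerSeries.rescale ((v ^ a : Rˣ) : R)
      (1 + PowerSeries.C ((v ^ z : Rˣ) : R) * PowerSeries.X) =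
      1 + PowerSeries.C ((v ^ (z + a) : Rˣ) : R) * PowerSeries.X := by
  rw [map_add, map_one, map_mul, rescale_C, rescale_X', zpow_add, Units.val_mul, map_mul]
  ring

theorem coe_lin (c : R) :
    ((1 + C c * X : R[X]) : PowerSeries R) = 1 + PowerSeries.C c * PowerSeries.X := by
  simp

theorem qd_pos {v : Rˣ} {p : PowerSeries R} (hp : QD v p) (n : ℕ) :
    p = (cpl v n : R[X]) * PowerSeries.rescale ((v ^ (2 * (n : ℤ)) : Rˣ) : R) p := by
  induction n with
  | zero => simp [cpl_zero]
  | succ n ih =>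
    have h1 := congrArg (PowerSeries.rescale ((v ^ (2 * (n : ℤ) + 2) : Rˣ) : R)) hp
    rw [rescale_zpow_rescale, map_mul, rescale_lin] at h1
    have e1 : 2 * (n : ℤ) + 2 + -2 = 2 * n := by ring
    have e2 : (-1 : ℤ) + (2 * (n : ℤ) + 2) = 2 * n + 1 := by ring
    have e3 : 2 * ((n + 1 : ℕ) : ℤ) = 2 * (n : ℤ) + 2 := by push_cast; ring
    rw [e1, e2] at h1
    rw [h1] at ih
    rw [cpl_succ, e3, Polynomial.coe_mul, coe_lin, mul_assoc]
    exact ih

theorem qd_neg {v : Rˣ} {p : PowerSeries R} (hp : QD v p) (n : ℕ) :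
    PowerSeries.rescale ((v ^ (-(2 * (n : ℤ))) : Rˣ) : R) p = (cmi v n : R[X]) * p := by
  induction n with
  | zero => simp [cmi_zero]
  | succ n ih =>
    have h1 := congrArg (PowerSeries.rescale ((v ^ (-(2 * (n : ℤ))) : Rˣ) : R)) hp
    rw [rescale_zpow_rescale, map_mul, rescale_lin, ih] at h1
    have e1 : -(2 * (n : ℤ)) + -2 = -(2 * ((n + 1 : ℕ) : ℤ)) := by push_cast; ring
    have e2 : (-1 : ℤ) + -(2 * (n : ℤ)) = -(2 * n) - 1 := by ring
    rw [e1, e2] at h1
    rw [h1, cmi_succ, Polynomial.coe_mul, coe_lin]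
    ring

theorem isUnit_rescale {p : PowerSeries R} (h1 : PowerSeries.constantCoeff p = 1) (a : R) :
    IsUnit (PowerSeries.rescale a p) := by
  rw [PowerSeries.isUnit_iff_constantCoeff, ← PowerSeries.coeff_zero_eq_constantCoeff_apply,
    PowerSeries.coeff_rescale]
  simp [h1]

theorem isUnit_of_one {p : PowerSeries R} (h1 : PowerSeries.constantCoeff p = 1) : IsUnit p := by
  rw [PowerSeries.isUnit_iff_constantCoeff, h1]
  exact isUnit_one

/-- `K = n ≥ 0`: `S' = cpl n * S`. -/
theorem str_rel_pos {v : Rˣ} {p : PowerSeries R} (hp : QD v p)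
    (h1 : PowerSeries.constantCoeff p = 1) {n : ℕ} {S S' : PowerSeries R}
    (h : p * S = PowerSeries.rescale ((v ^ (2 * (n : ℤ)) : Rˣ) : R) p * S') :
    S' = (cpl v n : R[X]) * S := by
  have hu := isUnit_rescale h1 ((v ^ (2 * (n : ℤ)) : Rˣ) : R)
  apply hu.mul_left_cancel
  rw [← h]
  conv_lhs => rw [qd_pos hp n]
  ring

/-- `K = -n ≤ 0`: `S = cmi n * S'`. -/
theorem str_rel_neg {v : Rˣ} {p : PowerSeries R} (hp : QD v p)
    (h1 : PowerSeries.constantCoeff p = 1) {n : ℕ} {S S' : PowerSeries R}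
    (h : p * S = PowerSeries.rescale ((v ^ (2 * (-(n : ℤ))) : Rˣ) : R) p * S') :
    S = (cmi v n : R[X]) * S' := by
  have hu := isUnit_of_one h1
  apply hu.mul_left_cancel
  have e : 2 * (-(n : ℤ)) = -(2 * (n : ℤ)) := by ring
  rw [h, e, qd_neg hp n]
  ring

theorem coeff_mul_zero_of_bound {f : R[X]} {n : ℕ} (hf : f.natDegree ≤ n) {S : PowerSeries R}
    {M : ℕ} (hS : ∀ a, M < a → PowerSeries.coeff a S = 0) (a : ℕ) (ha : M + n < a) :
    PowerSeries.coeff a ((f : PowerSeries R) * S) = 0 := by
  rw [PowerSeries.coeff_mul]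
  apply Finset.sum_eq_zero
  rintro ⟨i, j⟩ hij
  rw [Finset.HasAntidiagonal.mem_antidiagonal] at hij
  simp only at hij ⊢
  by_cases hi : n < i
  · rw [Polynomial.coeff_coe, Polynomial.coeff_eq_zero_of_natDegree_lt (lt_of_le_of_lt hf hi),
      zero_mul]
  · rw [hS j (by omega), mul_zero]

/-! ### reflection -/

theorem eq_coe_of_bound {S : PowerSeries R} {M : ℕ}
    (hS : ∀ a, M < a → PowerSeries.coeff a S = 0) :
    ((PowerSeries.trunc (M + 1) S : R[X]) : PowerSeries R) = S := by
  ext a
  rw [Polynomial.coeff_coe, PowerSeries.coeff_trunc]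
  split_ifs with h
  · rfl
  · exact (hS a (by omega)).symm

/-- the reflected string: `S̃_b = v^{-MK} S_{M-b}` for `b ≤ M`. -/
noncomputable def refl (v : Rˣ) (K : ℤ) (M : ℕ) (S : PowerSeries R) : PowerSeries R :=
  (C ((v ^ (-((M : ℤ) * K)) : Rˣ) : R) * reflect M (PowerSeries.trunc (M + 1) S) : R[X])

theorem coeff_refl (v : Rˣ) (K : ℤ) (M : ℕ) (S : PowerSeries R) (b : ℕ) :
    PowerSeries.coeff b (refl v K M S) =
      if b ≤ M then ((v ^ (-((M : ℤ) * K)) : Rˣ) : R) * PowerSeries.coeff (M - b) S else 0 := by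
  rw [refl, Polynomial.coeff_coe, coeff_C_mul, coeff_reflect, PowerSeries.coeff_trunc]
  by_cases h : b ≤ M
  · rw [if_pos h, revAt_le h, if_pos (by omega)]
  · rw [if_neg h, revAt_eq_self_of_lt (by omega), if_neg (by omega), mul_zero]

theorem refl_rel {v : Rˣ} {p : PowerSeries R} (hp : QD v p)
    (h1 : PowerSeries.constantCoeff p = 1) {K : ℤ} {M N : ℕ} (hN : (N : ℤ) = M + K)
    {S S' : PowerSeries R}
    (hS : ∀ a, M < a → PowerSeries.coeff a S = 0)
    (hS' : ∀ a, N < a → PowerSeries.coeff a S' = 0)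
    (h : p * S = PowerSeries.rescale ((v ^ (2 * K) : Rˣ) : R) p * S') :
    PowerSeries.rescale ((v ^ (2 * (-K)) : Rˣ) : R) p * refl v K M S = p * refl v K N S' := by
  have hs := eq_coe_of_bound hS
  have hs' := eq_coe_of_bound hS'
  rcases le_total 0 K with hK | hK
  · obtain ⟨n, rfl⟩ := Int.eq_ofNat_of_zero_le hK
    have hrel := str_rel_pos hp h1 h
    have hNn : N = n + M := by omega
    subst hNn
    have hpol : PowerSeries.trunc (n + M + 1) S' = cpl v n * PowerSeries.trunc (M + 1) S := by
      apply Polynomial.coe_injective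
      rw [hs', hrel, Polynomial.coe_mul, hs]
    have hdeg : (PowerSeries.trunc (M + 1) S).natDegree ≤ M :=
      Nat.lt_succ_iff.mp (PowerSeries.natDegree_trunc_lt S M)
    rw [refl, refl, hpol, reflect_mul _ _ (natDegree_cpl v n) hdeg, reflect_cpl]
    have e : 2 * (-(n : ℤ)) = -(2 * (n : ℤ)) := by ring
    rw [e, qd_neg hp n]
    simp only [Polynomial.coe_mul, Polynomial.coe_C]
    have e2 : ((v ^ (-((M : ℤ) * n)) : Rˣ) : R) =
        ((v ^ (-(((n + M : ℕ) : ℤ) * n)) : Rˣ) : R) * ((v ^ ((n : ℤ) * n) : Rˣ) : R) := by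
      rw [← Units.val_mul, ← zpow_add]
      congr 2
      push_cast
      ring
    rw [e2, map_mul]
    ring
  · obtain ⟨n, hn⟩ := Int.eq_ofNat_of_zero_le (neg_nonneg.mpr hK)
    have hK' : K = -(n : ℤ) := by omega
    subst hK'
    have hrel := str_rel_neg hp h1 h
    have hMn : M = n + N := by omega
    subst hMn
    have hpol : PowerSeries.trunc (n + N + 1) S = cmi v n * PowerSeries.trunc (N + 1) S' := by
      apply Polynomial.coe_injective
      rw [hs, hrel, Polynomial.coe_mul, hs']
    have hdeg : (PowerSeries.trunc (N + 1) S').natDegree ≤ N :=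
      Nat.lt_succ_iff.mp (PowerSeries.natDegree_trunc_lt S' N)
    rw [refl, refl, hpol, reflect_mul _ _ (natDegree_cmi v n) hdeg, reflect_cmi]
    have e : 2 * (-(-(n : ℤ))) = 2 * (n : ℤ) := by ring
    rw [e]
    conv_rhs => rw [qd_pos hp n]
    simp only [Polynomial.coe_mul, Polynomial.coe_C]
    have e2 : ((v ^ (-((N : ℤ) * (-(n : ℤ)))) : Rˣ) : R) =
        ((v ^ (-(((n + N : ℕ) : ℤ) * (-(n : ℤ)))) : Rˣ) : R) *
          ((v ^ (-((n : ℤ) * n)) : Rˣ) : R) := by
      rw [← Units.val_mul, ← zpow_add]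
      congr 2
      push_cast
      ring
    rw [e2, map_mul]
    ring

end Crest.Agent.R059.Mu
end

-- ▼ part R059/Mu2_456
section

set_option autoImplicit false
set_option linter.unusedSectionVars false

/-!
Row 59 (S0081), leaf MUT, part 3 (helper456): support bounds and the mutation lemma.
-/

namespace Crest.Agent.R059.Mut456

open Finset TPS HasAntidiagonal

/-! ### change of the degree functional -/

section cross

variable {M : Type*} [AddCommMonoid M] [HasAntidiagonal M] {R : Type*} [CommRing R]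
  {T : Tw M R}

open Tr201 in
/-- `l d * lam h d = h d * lam l d`. -/
theorem lam_cross (h l : M →+ R) {d : M} {a a' : TPS T} (ha : SuppIn (comKer T d) a)
    (ha' : SuppIn (comKer T d) a') (h1 : a * a' = 1) (h2 : a' * a = 1) :
    l d * lam h d a a' = h d * lam l d a a' := by
  have key : ∀ g : M →+ R, der g a' = - (a' * (der g a * a')) := by
    intro g
    have e := der_mul g a a'
    rw [h1, der_one] at e
    have e2 : a' * (der g a * a' + a * der g a') = 0 := by rw [← e, mul_zero]
    rw [mul_add, ← mul_assoc a' a, h2, one_mul] at e2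
    exact (neg_eq_of_add_eq_zero_right e2).symm
  have hcomm : ∀ f : TPS T, der l (der h f) = der h (der l f) := by
    intro f; ext e; simp only [co_der]; ring
  have e1 : der l (der h a * a') = der l (der h a) * a' - (der h a * a') * (der l a * a') := by
    rw [der_mul, key l, mul_neg, ← sub_eq_add_neg]
    congr 1
    simp only [mul_assoc]
  have e2 : der h (der l a * a') = der l (der h a) * a' - (der l a * a') * (der h a * a') := by
    rw [der_mul, key h, mul_neg, ← sub_eq_add_neg, hcomm]
    congr 1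
    simp only [mul_assoc]
  have hs : SuppIn (comKer T d) (der l a * a') := (ha.der l).mul ha'
  have e3 : (der l a * a' * (der h a * a')).co d = (der h a * a' * (der l a * a')).co d :=
    co_mul_comm hs _
  have e4 := congrArg (fun f : TPS T => f.co d) e1
  have e5 := congrArg (fun f : TPS T => f.co d) e2
  simp only [co_der, co_sub] at e4 e5
  unfold lam
  rw [e4, e5, e3]

end cross

/-! ### irreducible exponents -/

section irr

variable {M : Type*} [AddCommMonoid M] [PartialOrder M] [IsOrderedCancelAddMonoid M]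
  [CanonicallyOrderedAdd M] [WellFoundedLT M] [HasAntidiagonal M]
variable {R : Type*} [CommRing R] {T : Tw M R}

/-- `m` has no non trivial decomposition inside `S`. -/
def Irr (S : M → Prop) (m : M) : Prop := ∀ a b, a ≠ 0 → b ≠ 0 → S a → S b → a + b ≠ m

theorem co_mul_irr {S : M → Prop} {m : M} (hm : m ≠ 0) (hi : Irr S m) {f g : TPS T}
    (hf : In1 S f) (hg : In1 S g) : (f * g).co m = f.co m + g.co m := by
  classical
  rw [co_mul_split hf.one hg.one hm, Finset.sum_eq_zero, add_zero]
  intro p hp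
  by_cases h : p.1 ≠ 0 ∧ p.2 ≠ 0
  · rw [if_pos h]
    rw [HasAntidiagonal.mem_antidiagonal] at hp
    by_contra hne
    have h1 : f.co p.1 ≠ 0 := fun h0 => hne (by rw [h0]; ring)
    have h2 : g.co p.2 ≠ 0 := fun h0 => hne (by rw [h0]; ring)
    rcases hf.eq_zero_or h1 with e | e
    · exact h.1 e
    rcases hg.eq_zero_or h2 with e' | e'
    · exact h.2 e'
    exact hi _ _ h.1 h.2 e e' hp
  · rw [if_neg h]

theorem lam_irr {S : M → Prop} (hS : ∀ a b, S a → S b → S (a + b)) {m : M} (hm : m ≠ 0)
    (hi : Irr S m) (h : M →+ R) {f : TPS T} (hf : In1 S f) :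
    Tr201.lam h m f (inv f) = h m * f.co m := by
  unfold Tr201.lam
  rw [co_mul, Finset.sum_eq_single (m, 0)]
  · simp [wt_zero_right]
  · rintro ⟨a, b⟩ hp hne
    rw [HasAntidiagonal.mem_antidiagonal] at hp
    simp only at hp ⊢
    by_contra hne2
    have h1 : f.co a ≠ 0 := fun h0 => hne2 (by rw [Tr201.co_der, h0]; ring)
    have h2 : (inv f).co b ≠ 0 := fun h0 => hne2 (by rw [h0]; ring)
    rcases hf.eq_zero_or h1 with e | e
    · apply hne2; rw [e, Tr201.co_der_zero]; ring
    rcases (hf.inv hS).eq_zero_or h2 with e' | e'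
    · apply hne
      rw [e', add_zero] at hp
      rw [hp, e']
    by_cases ha : a = 0
    · apply hne2; rw [ha, Tr201.co_der_zero]; ring
    by_cases hb : b = 0
    · apply hne
      rw [hb, add_zero] at hp
      rw [hp, hb]
    exact hi a b ha hb e e' hp
  · intro h4
    exact absurd (by simp [HasAntidiagonal.mem_antidiagonal]) h4

variable {V : Type*} [AddCommGroup V] [LinearOrder V] [IsOrderedAddMonoid V]

/-- in an irreducible degree with `x m = 0` only the zero part contributes. -/
theorem co_eq_zer_irr {S : M → Prop} (hS : ∀ a b, S a → S b → S (a + b)) {m : M} (hm : m ≠ 0)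
    (hi : Irr S m) (x : M →+ V) (hx : x m = 0) {f : TPS T} (hf : In1 S f) :
    f.co m = (zer x f).co m := by
  have h1 : In1 S (pos x f) := (hf.pos hS x).mono fun _ _ h => h.2
  have h2 : In1 S (zer x f) := (hf.zer hS x).mono fun _ _ h => h.2
  have h3 : In1 S (neg x f) := (hf.neg hS x).mono fun _ _ h => h.2
  have e1 : (pos x f).co m = 0 := (in1_pos x f).supp m hm (by rw [hx]; exact lt_irrefl 0)
  have e3 : (neg x f).co m = 0 := (in1_neg x f).supp m hm (by rw [hx]; exact lt_irrefl 0)
  conv_lhs => rw [← pos_mul_zer_mul_neg x hf.one]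
  rw [co_mul_irr hm hi (h1.mul hS h2) h3, co_mul_irr hm hi h1 h2, e1, e3, zero_add, add_zero]

/-- the attractor datum. -/
noncomputable def lamz (T : Tw M R) (h : M →+ R) (d : M) (A : TPS T) : R :=
  Tr201.lam h d (zer (T.β d) A) (inv (zer (T.β d) A))

theorem co_zero_of_irr {S : M → Prop} (hS : ∀ a b, S a → S b → S (a + b)) {m : M} (hm : m ≠ 0)
    (hi : Irr S m) (h : M →+ R) (hreg : IsLeftRegular (h m)) (hmm : T.β m m = 0)
    {f : TPS T} (hf : In1 S f) (hl : lamz T h m f = 0) : f.co m = 0 := by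
  have h2 : In1 S (zer (T.β m) f) := (hf.zer hS _).mono fun _ _ h => h.2
  rw [co_eq_zer_irr hS hm hi (T.β m) hmm hf]
  apply hreg
  show h m * _ = h m * 0
  rw [← lam_irr hS hm hi h h2, mul_zero]
  exact hl

theorem suppIn_of_in1 (hs : ∀ a b, T.β a b = - T.β b a) {d : M} {f : TPS T}
    (hf : In1 (fun e => T.β d e = 0) f) : Tr201.SuppIn (Tr201.comKer T d) f := by
  intro a ha
  rw [Tr201.mem_comKer, Tr201.com_apply]
  rcases hf.eq_zero_or ha with e | e
  · rw [e]; simp
  · rw [hs a d, e]; simp

theorem suppIn_inv_of_in1 (hs : ∀ a b, T.β a b = - T.β b a) {d : M} {f : TPS T}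
    (hf : In1 (fun e => T.β d e = 0) f) : Tr201.SuppIn (Tr201.comKer T d) (inv f) :=
  suppIn_of_in1 hs (hf.inv (closed_zero (T.β d)))

/-- change of the degree functional for the attractor datum. -/
theorem lamz_cross (hs : ∀ a b, T.β a b = - T.β b a) (h l : M →+ R) (d : M) (A : TPS T) :
    l d * lamz T h d A = h d * lamz T l d A :=
  lam_cross h l (suppIn_of_in1 hs (in1_zer _ A)) (suppIn_inv_of_in1 hs (in1_zer _ A))
    (mul_inv (zer_co_zero _ _)) (inv_mul (zer_co_zero _ _))

theorem zer_mul_left0 (x : M →+ V) {P B : TPS T} (hP : In1 (fun d => x d = 0) P)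
    (hB : B.co 0 = 1) : zer x (P * B) = P * zer x B := by
  have hp := (conj_pos x hP (in1_pos x B)).1
  refine (pzn_unique' x hp (hP.mul (closed_zero x) (in1_zer x B)) (in1_neg x B) ?_).2.1
  calc P * pos x B * inv P * (P * zer x B) * neg x B
      = P * pos x B * (inv P * P) * zer x B * neg x B := by simp only [mul_assoc]
    _ = P * (pos x B * zer x B * neg x B) := by
        rw [inv_mul hP.one, mul_one]; simp only [mul_assoc]
    _ = P * B := by rw [pos_mul_zer_mul_neg x hB]

theorem zer_mul_right0 (x : M →+ V) {P B : TPS T} (hP : In1 (fun d => x d = 0) P)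
    (hB : B.co 0 = 1) : zer x (B * P) = zer x B * P := by
  have hn := (conj_neg x hP (in1_neg x B)).2
  refine (pzn_unique' x (in1_pos x B) ((in1_zer x B).mul (closed_zero x) hP) hn ?_).2.1
  calc pos x B * (zer x B * P) * (inv P * neg x B * P)
      = pos x B * zer x B * (P * inv P) * neg x B * P := by simp only [mul_assoc]
    _ = (pos x B * zer x B * neg x B) * P := by
        rw [mul_inv hP.one, mul_one]
    _ = B * P := by rw [pos_mul_zer_mul_neg x hB]

/-- left multiplication by a series supported on `β d > 0`. -/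
theorem lamz_pos_mul (h : M →+ R) {d : M} {P B : TPS T} (hP : In1 (fun e => 0 < T.β d e) P)
    (hB : B.co 0 = 1) : lamz T h d (P * B) = lamz T h d B := by
  unfold lamz
  rw [(parts_pos_mul (T.β d) hP hB).2.1]

theorem lamz_mul_neg (h : M →+ R) {d : M} {P B : TPS T} (hP : In1 (fun e => T.β d e < 0) P)
    (hB : B.co 0 = 1) : lamz T h d (B * P) = lamz T h d B := by
  unfold lamz
  rw [(parts_mul_neg (T.β d) hP hB).2.1]

theorem lamz_zero_mul (hs : ∀ a b, T.β a b = - T.β b a) (h : M →+ R) {d : M} {P B : TPS T}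
    (hP : In1 (fun e => T.β d e = 0) P) (hB : B.co 0 = 1) :
    lamz T h d (P * B) = Tr201.lam h d P (inv P) + lamz T h d B := by
  unfold lamz
  rw [zer_mul_left0 (T.β d) hP hB, inv_mul_rev hP.one (zer_co_zero _ _)]
  exact Tr201.lam_mul h (suppIn_of_in1 hs hP) (inv_mul hP.one) (mul_inv (zer_co_zero _ _))

theorem lamz_mul_zero (hs : ∀ a b, T.β a b = - T.β b a) (h : M →+ R) {d : M} {P B : TPS T}
    (hP : In1 (fun e => T.β d e = 0) P) (hB : B.co 0 = 1) :
    lamz T h d (B * P) = lamz T h d B + Tr201.lam h d P (inv P) := by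
  unfold lamz
  rw [zer_mul_right0 (T.β d) hP hB, inv_mul_rev (zer_co_zero _ _) hP.one]
  exact Tr201.lam_mul h (suppIn_of_in1 hs (in1_zer _ B)) (inv_mul (zer_co_zero _ _))
    (mul_inv hP.one)

end irr

/-! ### the series of a node -/

section node

open Finsupp Mu MutIso

variable {ι : Type*} [DecidableEq ι] {R : Type*} [CommRing R] {T T' : Tw (ι →₀ ℕ) R}

theorem single_eq_nsmul (k : ι) (a : ℕ) : (single k a : ι →₀ ℕ) = a • single k 1 := by simp

theorem split_k (k : ι) (m : ι →₀ ℕ) : m.erase k + single k (m k) = m := by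
  ext j
  by_cases hj : j = k
  · subst hj; simp
  · simp [Finsupp.erase_ne hj, Finsupp.single_apply, Ne.symm hj]

theorem erase_single_add (k : ι) {m : ι →₀ ℕ} (hm : m k = 0) (a : ℕ) :
    (m + single k a).erase k = m := by
  ext j
  by_cases hj : j = k
  · subst hj; simp [hm]
  · simp [Finsupp.erase_ne hj, Finsupp.single_apply, Ne.symm hj]

theorem co_evk_zero (k : ι) {p : PowerSeries R} (h1 : PowerSeries.constantCoeff p = 1) :
    (evk T k p).co 0 = 1 := by
  have := evk_single (T := T) k p 0
  rw [single_zero] at this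
  rw [this]
  simpa using h1

theorem in1_evk (k : ι) {p : PowerSeries R} (h1 : PowerSeries.constantCoeff p = 1)
    {P : (ι →₀ ℕ) → Prop} (hP : ∀ a, 0 < a → P (single k a)) : In1 P (evk T k p) := by
  refine ⟨co_evk_zero k h1, fun d hd hPd => ?_⟩
  apply evk_ne
  intro he
  by_cases h0 : d k = 0
  · rw [h0, single_zero] at he; exact hd he
  · apply hPd
    rw [he]
    exact hP _ (Nat.pos_of_ne_zero h0)

theorem evk_mul (hs : ∀ a b, T.β a b = - T.β b a) (k : ι) (p q : PowerSeries R) :
    evk T k p * evk T k q = evk T k (p * q) := by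
  ext d
  rw [← split_k k d]
  have hm : (d.erase k) k = 0 := by simp
  rw [co_evk_mul hs k p _ hm (d k)]
  by_cases h0 : d.erase k = 0
  · rw [h0]
    simp only [zero_add]
    rw [evk_single, PowerSeries.coeff_mul]
    apply Finset.sum_congr rfl
    intro ij _
    rw [evk_single]
    simp
  · have hne : ∀ (r : PowerSeries R) (a : ℕ), (evk T k r).co (d.erase k + single k a) = 0 := by
      intro r a
      apply evk_ne
      intro he
      apply h0
      have h1 : (d.erase k + single k a) k = a := by simp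
      rw [h1] at he
      ext j
      have := DFunLike.congr_fun he j
      rw [Finsupp.add_apply] at this
      simpa using this
    rw [hne, Finset.sum_eq_zero]
    intro ij _
    rw [hne]; ring

theorem evk_one (k : ι) : evk T k (1 : PowerSeries R) = 1 := by
  ext d
  by_cases hd : d = 0
  · rw [hd, co_evk_zero k (by simp)]; simp
  · rw [co_one_ne hd]
    by_cases he : d = single k (d k)
    · rw [he, evk_single, PowerSeries.coeff_one, if_neg]
      intro h0
      apply hd
      rw [he, h0, single_zero]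
    · exact evk_ne he

theorem inv_evk (hs : ∀ a b, T.β a b = - T.β b a) (k : ι) {p : PowerSeries R}
    (h1 : PowerSeries.constantCoeff p = 1) :
    inv (evk T k p) = evk T k (PowerSeries.invOfUnit p 1) := by
  apply inv_eq_of_mul (co_evk_zero k h1)
  rw [evk_mul hs, PowerSeries.mul_invOfUnit p 1 (by simpa using h1), evk_one]

theorem der_evk (h : (ι →₀ ℕ) →+ R) (k : ι) (p : PowerSeries R) :
    Tr201.der h (evk T k p) =
      evk T k (PowerSeries.mk fun j => h (single k j) * PowerSeries.coeff j p) := by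
  ext d
  rw [Tr201.co_der]
  by_cases he : d = single k (d k)
  · rw [he, evk_single, evk_single, PowerSeries.coeff_mk]
  · rw [evk_ne he, evk_ne he, mul_zero]

/-- the datum of a node. -/
noncomputable def kap (g : ℕ → R) (p : PowerSeries R) (a : ℕ) : R :=
  PowerSeries.coeff a ((PowerSeries.mk fun j => g j * PowerSeries.coeff j p) *
    PowerSeries.invOfUnit p 1)

theorem lam_evk (hs : ∀ a b, T.β a b = - T.β b a) (h : (ι →₀ ℕ) →+ R) (k : ι)
    {p : PowerSeries R} (h1 : PowerSeries.constantCoeff p = 1) (a : ℕ) :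
    Tr201.lam h (single k a) (evk T k p) (inv (evk T k p)) =
      kap (fun j => h (single k j)) p a := by
  unfold Tr201.lam
  rw [inv_evk hs k h1, der_evk, evk_mul hs, evk_single]
  rfl

theorem lam_evk_ne (hs : ∀ a b, T.β a b = - T.β b a) (h : (ι →₀ ℕ) →+ R) (k : ι)
    {p : PowerSeries R} (h1 : PowerSeries.constantCoeff p = 1) {d : ι →₀ ℕ}
    (hd : d ≠ single k (d k)) :
    Tr201.lam h d (evk T k p) (inv (evk T k p)) = 0 := by
  unfold Tr201.lam
  rw [inv_evk hs k h1, der_evk, evk_mul hs, evk_ne hd]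

/-- `A` is plain (attractor data only at the nodes, those of `p`). -/
structure Plain (T : Tw (ι →₀ ℕ) R) (h : (ι →₀ ℕ) →+ R) (p : PowerSeries R) (A : TPS T) :
    Prop where
  one : A.co 0 = 1
  node : ∀ i j, 0 < j → lamz T h (single i j) A = kap (fun j => h (single i j)) p j
  zero : ∀ d, (∀ i j, d ≠ single i j) → lamz T h d A = 0

theorem β_single_right' (k : ι) (a : ℕ) (m : ι →₀ ℕ) :
    T.β m (single k a) = a * T.β m (single k 1) := β_single_right k a m

/-- left multiplication by the node series, `0 ≤ β d e_k`. -/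
theorem lamz_evk_mul (hs : ∀ a b, T.β a b = - T.β b a) (h : (ι →₀ ℕ) →+ R) (k : ι)
    {p : PowerSeries R} (h1 : PowerSeries.constantCoeff p = 1) {d : ι →₀ ℕ}
    (hK : 0 ≤ T.β d (single k 1)) (hd : d ≠ single k (d k)) {B : TPS T} (hB : B.co 0 = 1) :
    lamz T h d (evk T k p * B) = lamz T h d B := by
  rcases hK.lt_or_eq with hK | hK
  · apply lamz_pos_mul h _ hB
    apply in1_evk k h1
    intro a ha
    rw [β_single_right']
    exact mul_pos (by exact_mod_cast ha) hK
  · rw [lamz_zero_mul hs h _ hB, lam_evk_ne hs h k h1 hd, zero_add]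
    apply in1_evk k h1
    intro a _
    rw [β_single_right', ← hK, mul_zero]

/-- right multiplication by the node series, `β d e_k ≤ 0`. -/
theorem lamz_mul_evk (hs : ∀ a b, T.β a b = - T.β b a) (h : (ι →₀ ℕ) →+ R) (k : ι)
    {p : PowerSeries R} (h1 : PowerSeries.constantCoeff p = 1) {d : ι →₀ ℕ}
    (hK : T.β d (single k 1) ≤ 0) (hd : d ≠ single k (d k)) {B : TPS T} (hB : B.co 0 = 1) :
    lamz T h d (B * evk T k p) = lamz T h d B := by
  rcases hK.lt_or_eq with hK | hK
  · apply lamz_mul_neg h _ hB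
    apply in1_evk k h1
    intro a ha
    rw [β_single_right']
    exact mul_neg_of_pos_of_neg (by exact_mod_cast ha) hK
  · rw [lamz_mul_zero hs h _ hB, lam_evk_ne hs h k h1 hd, add_zero]
    apply in1_evk k h1
    intro a _
    rw [β_single_right', hK, mul_zero]

theorem β_single_single (hs : ∀ a b, T.β a b = - T.β b a) (k : ι) (a b : ℕ) :
    T.β (single k a) (single k b) = 0 := by
  rw [β_single_right', β_single_left k a (single k 1), β_self hs]; ring

theorem lamz_evk_mul_node (hs : ∀ a b, T.β a b = - T.β b a) (h : (ι →₀ ℕ) →+ R) (k : ι)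
    {p : PowerSeries R} (h1 : PowerSeries.constantCoeff p = 1) (j : ℕ) {B : TPS T}
    (hB : B.co 0 = 1) :
    lamz T h (single k j) (evk T k p * B) =
      kap (fun j => h (single k j)) p j + lamz T h (single k j) B := by
  rw [lamz_zero_mul hs h _ hB, lam_evk hs h k h1]
  apply in1_evk k h1
  intro a _
  exact β_single_single hs k j a

theorem lamz_mul_evk_node (hs : ∀ a b, T.β a b = - T.β b a) (h : (ι →₀ ℕ) →+ R) (k : ι)
    {p : PowerSeries R} (h1 : PowerSeries.constantCoeff p = 1) (j : ℕ) {B : TPS T}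
    (hB : B.co 0 = 1) :
    lamz T h (single k j) (B * evk T k p) =
      lamz T h (single k j) B + kap (fun j => h (single k j)) p j := by
  rw [lamz_mul_zero hs h _ hB, lam_evk hs h k h1]
  apply in1_evk k h1
  intro a _
  exact β_single_single hs k j a

/-! ### strings -/

theorem str_rel (hs : ∀ a b, T.β a b = - T.β b a) (k : ι) {p : PowerSeries R} {B B' : TPS T}
    (hBB : evk T k p * B = B' * evk T k p) {m : ι →₀ ℕ} (hm : m k = 0) :
    p * str T k m B =
      PowerSeries.rescale ((T.v ^ (2 * T.β m (single k 1)) : Rˣ) : R) p * str T k m B' := by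
  rw [← str_evk_mul hs k p B hm, ← str_mul_evk hs k p B' hm, hBB]

theorem coeff_str_zero {k : ι} {m : ι →₀ ℕ} {B : TPS T} {c : ℕ}
    (hB : ∀ a, c < a → B.co (m + single k a) = 0) :
    ∀ a, c < a → PowerSeries.coeff a (str T k m B) = 0 := by
  intro a ha
  rw [coeff_str, hB a ha, mul_zero]

theorem bound_pos (hs : ∀ a b, T.β a b = - T.β b a) (k : ι) {p : PowerSeries R}
    (hp : QD T.v p) (h1 : PowerSeries.constantCoeff p = 1) {B B' : TPS T}
    (hBB : evk T k p * B = B' * evk T k p) {m : ι →₀ ℕ} (hm : m k = 0) {c c' : ℕ}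
    (hc : (c' : ℤ) = c + T.β m (single k 1)) (hK : 0 ≤ T.β m (single k 1))
    (hB : ∀ a, c < a → B.co (m + single k a) = 0) :
    ∀ a, c' < a → B'.co (m + single k a) = 0 := by
  intro a ha
  obtain ⟨n, hn⟩ := Int.eq_ofNat_of_zero_le hK
  have h := str_rel hs k hBB hm
  rw [hn] at h
  have h2 := str_rel_pos hp h1 h
  have h3 := coeff_mul_zero_of_bound (natDegree_cpl T.v n) (coeff_str_zero hB) a (by omega)
  rw [← h2] at h3
  rw [str_co, h3, mul_zero]

theorem bound_neg (hs : ∀ a b, T.β a b = - T.β b a) (k : ι) {p : PowerSeries R}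
    (hp : QD T.v p) (h1 : PowerSeries.constantCoeff p = 1) {B B' : TPS T}
    (hBB : evk T k p * B = B' * evk T k p) {m : ι →₀ ℕ} (hm : m k = 0) {c c' : ℕ}
    (hc : (c' : ℤ) = c + T.β m (single k 1)) (hK : T.β m (single k 1) ≤ 0)
    (hB : ∀ a, c' < a → B'.co (m + single k a) = 0) :
    ∀ a, c < a → B.co (m + single k a) = 0 := by
  intro a ha
  obtain ⟨n, hn⟩ := Int.eq_ofNat_of_zero_le (neg_nonneg.mpr hK)
  have hn' : T.β m (single k 1) = -(n : ℤ) := by omega
  have h := str_rel hs k hBB hm
  rw [hn'] at h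
  have h2 := str_rel_neg hp h1 h
  have h3 := coeff_mul_zero_of_bound (natDegree_cmi T.v n) (coeff_str_zero hB) a (by omega)
  rw [← h2] at h3
  rw [str_co, h3, mul_zero]

/-! ### the support bounds -/

/-- height off `k`. -/
noncomputable def htk (k : ι) (m : ι →₀ ℕ) : ℕ := Finsupp.degree (m.erase k)

theorem htk_add (k : ι) (a b : ι →₀ ℕ) : htk k (a + b) = htk k a + htk k b := by
  unfold htk
  rw [Finsupp.erase_add, map_add]

theorem htk_single (k : ι) (a : ℕ) : htk k (single k a) = 0 := by
  unfold htk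
  have : (single k a : ι →₀ ℕ).erase k = 0 := by
    ext j; by_cases hj : j = k <;> simp [hj]
  rw [this, map_zero]

theorem erase_of_htk {k : ι} {m : ι →₀ ℕ} (h : htk k m = 0) : m.erase k = 0 :=
  (Finsupp.degree_eq_zero_iff _).1 h

theorem eq_single_of_htk {k : ι} {m : ι →₀ ℕ} (h : htk k m = 0) : m = single k (m k) := by
  have := split_k k m
  rw [erase_of_htk h, zero_add] at this
  exact this.symm

theorem not_cp_single {c : (ι →₀ ℕ) →+ ℕ} {k : ι} (hc : c (single k 1) = 0) {m : ι →₀ ℕ}
    (h : htk k m = 0) (hm : m ≠ 0) : ¬ Cp c k m := by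
  intro hcp
  have h1 := eq_single_of_htk h
  unfold Cp at hcp
  rw [cap_split hc, erase_of_htk h, map_zero] at hcp
  apply hm
  rw [h1, Nat.le_zero.1 hcp, single_zero]

theorem base_zero (hs : ∀ a b, T.β a b = - T.β b a) {h : (ι →₀ ℕ) →+ R}
    (hreg : ∀ d, d ≠ 0 → IsLeftRegular (h d)) {k : ι} {B : TPS T} (hB : B.co 0 = 1)
    (hl : ∀ a, 0 < a → lamz T h (single k a) B = 0) :
    ∀ a, 0 < a → B.co (single k a) = 0 := by
  intro a
  induction a using Nat.strong_induction_on with
  | _ a ih =>
    intro ha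
    have hne : (single k a : ι →₀ ℕ) ≠ 0 := by
      intro h0; rw [Finsupp.single_eq_zero] at h0; omega
    refine co_zero_of_irr (S := fun m => 0 < htk k m ∨ a ≤ m k) ?_ hne ?_ h (hreg _ hne)
      (β_single_single hs k a a) ⟨hB, ?_⟩ (hl a ha)
    · intro x y hx hy
      rw [htk_add, Finsupp.add_apply]
      rcases hx with hx | hx
      · exact Or.inl (by omega)
      rcases hy with hy | hy
      · exact Or.inl (by omega)
      exact Or.inr (by omega)
    · intro x y hx hy hSx hSy hxy
      have e1 : htk k x + htk k y = 0 := by rw [← htk_add, hxy, htk_single]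
      have e2 : x k + y k = a := by rw [← Finsupp.add_apply, hxy]; simp
      rcases hSx with hSx | hSx
      · omega
      rcases hSy with hSy | hSy
      · omega
      omega
    · intro d hd hSd
      have hSd' : ¬ (0 < htk k d) ∧ ¬ (a ≤ d k) := not_or.1 hSd
      have h0 : htk k d = 0 := by omega
      have h1 := eq_single_of_htk h0
      have h2 : d k ≠ 0 := by
        intro h3; apply hd; rw [h1, h3, single_zero]
      rw [h1]
      exact ih (d k) (by omega) (by omega)

theorem step_zero (hs : ∀ a b, T.β a b = - T.β b a) {h : (ι →₀ ℕ) →+ R}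
    (hreg : ∀ d, d ≠ 0 → IsLeftRegular (h d)) {k : ι} {c : (ι →₀ ℕ) →+ ℕ}
    (hc : c (single k 1) = 0) {B : TPS T} (hB : B.co 0 = 1) {n : ℕ} (hn : 0 < n)
    (ih : ∀ m, htk k m < n → ¬ Cp c k m → B.co m = 0) {m : ι →₀ ℕ} (hm : htk k m = n)
    (hmc : ¬ Cp c k m) (hl : lamz T h m B = 0) : B.co m = 0 := by
  have hne : m ≠ 0 := by rintro rfl; exact hmc Cp.zero
  refine co_zero_of_irr (S := fun m => Cp c k m ∨ n ≤ htk k m) ?_ hne ?_ h (hreg _ hne)
      (β_self hs m) ⟨hB, ?_⟩ hl
  · intro x y hx hy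
    rw [htk_add]
    rcases hx with hx | hx
    · rcases hy with hy | hy
      · exact Or.inl (hx.add hy)
      · exact Or.inr (by omega)
    · exact Or.inr (by omega)
  · intro x y hx hy hSx hSy hxy
    have e1 : htk k x + htk k y = n := by rw [← htk_add, hxy, hm]
    have e2 : ∀ z : ι →₀ ℕ, z ≠ 0 → (Cp c k z ∨ n ≤ htk k z) → htk k z ≠ 0 := by
      intro z hz hSz h0
      rcases hSz with hSz | hSz
      · exact not_cp_single hc h0 hz hSz
      · omega
    have e3 := e2 x hx hSx
    have e4 := e2 y hy hSy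
    rcases hSx with hSx | hSx
    · rcases hSy with hSy | hSy
      · exact hmc (hxy ▸ hSx.add hSy)
      · omega
    · omega
  · intro d hd hSd
    have hSd' : ¬ Cp c k d ∧ ¬ (n ≤ htk k d) := not_or.1 hSd
    exact ih d (by omega) hSd'.1

theorem caps_rel (hs : ∀ a b, T.β a b = - T.β b a) (k : ι) (m : ι →₀ ℕ) :
    (capOf (-T.β) k m : ℤ) = capOf T.β k m + T.β m (single k 1) := by
  have := capOf_sub T.β (-T.β) (k := k) (β_self hs _) (fun j _ => rfl) m
  rw [hs m (single k 1)]
  omega

theorem ne_single_of_not_cp {c : (ι →₀ ℕ) →+ ℕ} {k : ι} {m : ι →₀ ℕ} (h0 : htk k m ≠ 0)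
    (hmc : ¬ Cp c k m) : ∀ i j, m ≠ single i j := by
  rintro i j rfl
  by_cases hi : i = k
  · subst hi; exact h0 (htk_single i j)
  · apply hmc
    unfold Cp
    rw [Finsupp.single_eq_of_ne (Ne.symm hi)]
    exact Nat.zero_le _

theorem Plain.bound (hs : ∀ a b, T.β a b = - T.β b a) {h : (ι →₀ ℕ) →+ R}
    (hreg : ∀ d, d ≠ 0 → IsLeftRegular (h d)) {k : ι} {p : PowerSeries R}
    (hp : QD T.v p) (h1 : PowerSeries.constantCoeff p = 1) {A B B' : TPS T}
    (hA : Plain T h p A) (hB : B.co 0 = 1) (hB' : B'.co 0 = 1)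
    (e1 : evk T k p * B = A) (e2 : B' * evk T k p = A) :
    Capped (capOf T.β k) k B ∧ Capped (capOf (-T.β) k) k B' := by
  have hBB : evk T k p * B = B' * evk T k p := by rw [e1, e2]
  have main : ∀ n, (∀ m, htk k m < n → ¬ Cp (capOf T.β k) k m → B.co m = 0) ∧
      (∀ m, htk k m < n → ¬ Cp (capOf (-T.β) k) k m → B'.co m = 0) := by
    intro n
    induction n with
    | zero => exact ⟨fun m hm => absurd hm (Nat.not_lt_zero _),
        fun m hm => absurd hm (Nat.not_lt_zero _)⟩
    | succ n ih =>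
      obtain ⟨ihB, ihB'⟩ := ih
      rcases Nat.eq_zero_or_pos n with hn | hn
      · subst hn
        have hbB := base_zero hs hreg (k := k) hB (fun a ha => by
          have h2 := lamz_evk_mul_node hs h k h1 a hB
          rw [e1, hA.node k a ha] at h2
          exact (left_eq_add.1 h2))
        have hbB' := base_zero hs hreg (k := k) hB' (fun a ha => by
          have h2 := lamz_mul_evk_node hs h k h1 a hB'
          rw [e2, hA.node k a ha] at h2
          exact (right_eq_add.1 h2))
        constructor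
        · intro m hm hmc
          have h0 : htk k m = 0 := by omega
          have hm0 : m ≠ 0 := by rintro rfl; exact hmc Cp.zero
          have h3 := eq_single_of_htk h0
          rw [h3]
          apply hbB
          rcases Nat.eq_zero_or_pos (m k) with h4 | h4
          · exact absurd (by rw [h3, h4, single_zero]) hm0
          · exact h4
        · intro m hm hmc
          have h0 : htk k m = 0 := by omega
          have hm0 : m ≠ 0 := by rintro rfl; exact hmc Cp.zero
          have h3 := eq_single_of_htk h0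
          rw [h3]
          apply hbB'
          rcases Nat.eq_zero_or_pos (m k) with h4 | h4
          · exact absurd (by rw [h3, h4, single_zero]) hm0
          · exact h4
      · -- the string through `m'`
        have string : ∀ m' : ι →₀ ℕ, m' k = 0 → htk k m' = n →
            (∀ a, capOf T.β k m' < a → B.co (m' + single k a) = 0) ∧
            (∀ a, capOf (-T.β) k m' < a → B'.co (m' + single k a) = 0) := by
          intro m' hm'k hm'n
          have hcr := caps_rel hs k m'
          have hht : ∀ a, htk k (m' + single k a) = n := by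
            intro a; rw [htk_add, htk_single, hm'n]; rfl
          have hβ : ∀ a, T.β (m' + single k a) (single k 1) = T.β m' (single k 1) := by
            intro a
            rw [map_add, AddMonoidHom.add_apply, β_single_single hs k a 1, add_zero]
          have hcap : ∀ (γ : (ι →₀ ℕ) →+ (ι →₀ ℕ) →+ ℤ) a,
              capOf γ k (m' + single k a) = capOf γ k m' := by
            intro γ a
            rw [map_add, single_eq_nsmul, map_nsmul, capOf_self]
            simp
          have hnc : ∀ (γ : (ι →₀ ℕ) →+ (ι →₀ ℕ) →+ ℤ) a, capOf γ k m' < a →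
              ¬ Cp (capOf γ k) k (m' + single k a) := by
            intro γ a ha
            unfold Cp
            rw [hcap, Finsupp.add_apply, hm'k]
            simpa using ha
          rcases le_total 0 (T.β m' (single k 1)) with hK | hK
          · have hb : ∀ a, capOf T.β k m' < a → B.co (m' + single k a) = 0 := by
              intro a ha
              refine step_zero hs hreg (capOf_self _ _) hB hn ihB (hht a) (hnc _ a ha) ?_
              have hns := ne_single_of_not_cp (by rw [hht a]; omega) (hnc T.β a ha)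
              rw [← lamz_evk_mul hs h k h1 (by rw [hβ a]; exact hK) (hns _ _) hB, e1]
              exact hA.zero _ hns
            exact ⟨hb, bound_pos hs k hp h1 hBB hm'k hcr hK hb⟩
          · have hb : ∀ a, capOf (-T.β) k m' < a → B'.co (m' + single k a) = 0 := by
              intro a ha
              refine step_zero hs hreg (capOf_self _ _) hB' hn ihB' (hht a) (hnc _ a ha) ?_
              have hns := ne_single_of_not_cp (by rw [hht a]; omega) (hnc (-T.β) a ha)
              rw [← lamz_mul_evk hs h k h1 (by rw [hβ a]; exact hK) (hns _ _) hB', e2]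
              exact hA.zero _ hns
            exact ⟨bound_neg hs k hp h1 hBB hm'k hcr hK hb, hb⟩
        constructor
        · intro m hm hmc
          rcases Nat.lt_or_ge (htk k m) n with h3 | h3
          · exact ihB m h3 hmc
          · have h4 : htk k (m.erase k) = n := by
              have : htk k (m.erase k) = htk k m := by
                unfold htk
                congr 1
                ext j; by_cases hj : j = k <;> simp [hj]
              omega
            rw [← split_k k m]
            apply (string (m.erase k) (by simp) h4).1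
            rw [← cap_split (capOf_self _ _)]
            exact not_le.1 hmc
        · intro m hm hmc
          rcases Nat.lt_or_ge (htk k m) n with h3 | h3
          · exact ihB' m h3 hmc
          · have h4 : htk k (m.erase k) = n := by
              have : htk k (m.erase k) = htk k m := by
                unfold htk
                congr 1
                ext j; by_cases hj : j = k <;> simp [hj]
              omega
            rw [← split_k k m]
            apply (string (m.erase k) (by simp) h4).2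
            rw [← cap_split (capOf_self _ _)]
            exact not_le.1 hmc
  constructor
  · intro m hm
    by_contra hmc
    exact hm ((main (htk k m + 1)).1 m (Nat.lt_succ_self _) hmc)
  · intro m hm
    by_contra hmc
    exact hm ((main (htk k m + 1)).2 m (Nat.lt_succ_self _) hmc)

end node

end Crest.Agent.R059.Mut456
end

-- ▼ part R059/Mu3_456

set_option autoImplicit false
set_option linter.unusedSectionVars false

/-!
Row 59 (S0081), leaf MUT, part 4 (helper456): the mutation of a plain element is plain.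
-/

namespace Crest.Agent.R059.Mut456

open Finset TPS HasAntidiagonal Finsupp Mu MutIso

variable {ι : Type*} [DecidableEq ι] {R : Type*} [CommRing R] {T T' : Tw (ι →₀ ℕ) R}
  {c : (ι →₀ ℕ) →+ ℕ} {k : ι}

theorem cap_add_single (hc : c (single k 1) = 0) (m : ι →₀ ℕ) (b : ℕ) :
    c (m + single k b) = c m := by
  rw [map_add, single_eq_nsmul, map_nsmul, hc]; simp

theorem til_string (hc : c (single k 1) = 0) {m : ι →₀ ℕ} (hm : m k = 0) (b : ℕ) :
    til c k (m + single k b) = m + single k (c m - b) := by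
  unfold til
  rw [erase_single_add k hm, cap_add_single hc, Finsupp.add_apply, hm]
  simp

theorem cp_string (hc : c (single k 1) = 0) {m : ι →₀ ℕ} (hm : m k = 0) (b : ℕ) :
    Cp c k (m + single k b) ↔ b ≤ c m := by
  unfold Cp
  rw [cap_add_single hc, Finsupp.add_apply, hm]
  simp

theorem str_tilS (hc : c (single k 1) = 0) (hv : T'.v = T.v) {B : TPS T} {m : ι →₀ ℕ}
    (hm : m k = 0) (hβ : T'.β m (single k 1) = - T.β m (single k 1)) :
    str T' k m (tilS c k T' B) = refl T.v (T.β m (single k 1)) (c m) (str T k m B) := by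
  ext b
  rw [coeff_str, coeff_refl, hv, hβ]
  by_cases hb : b ≤ c m
  · rw [if_pos hb, co_tilS_of ((cp_string hc hm b).2 hb), til_string hc hm, coeff_str,
      ← mul_assoc, ← Units.val_mul, ← zpow_add]
    congr 3
    push_cast [Nat.cast_sub hb]
    ring
  · rw [if_neg hb, co_tilS_not (fun h => hb ((cp_string hc hm b).1 h)), mul_zero]

theorem eq_of_str {f g : TPS T} (k : ι) (h : ∀ m : ι →₀ ℕ, m k = 0 → str T k m f = str T k m g) :
    f = g := by
  ext d
  rw [← split_k k d, str_co, str_co, h _ (by simp)]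

theorem Capped.str_bound (hc : c (single k 1) = 0) {B : TPS T} (hB : Capped c k B)
    {m : ι →₀ ℕ} (hm : m k = 0) : ∀ a, c m < a → PowerSeries.coeff a (str T k m B) = 0 :=
  coeff_str_zero fun a ha => hB.co_not fun h => absurd ((cp_string hc hm a).1 h) (not_le.2 ha)

/-- the two expressions of the mutated element. -/
theorem two_forms (hs : ∀ a b, T.β a b = - T.β b a) (hs' : ∀ a b, T'.β a b = - T'.β b a)
    (hv : T'.v = T.v) {c' : (ι →₀ ℕ) →+ ℕ} (hc : c (single k 1) = 0)
    (hc' : c' (single k 1) = 0)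
    (hcc : ∀ m, (c' m : ℤ) = c m + T.β m (single k 1))
    (hβ : ∀ m, T'.β m (single k 1) = - T.β m (single k 1)) {p : PowerSeries R}
    (hp : QD T.v p) (h1 : PowerSeries.constantCoeff p = 1) {B B' : TPS T}
    (hBB : evk T k p * B = B' * evk T k p) (hB : Capped c k B) (hB' : Capped c' k B') :
    tilS c k T' B * evk T' k p = evk T' k p * tilS c' k T' B' := by
  apply eq_of_str k
  intro m hm
  rw [str_mul_evk hs' k p _ hm, str_evk_mul hs' k p _ hm, str_tilS hc hv hm (hβ m),
    str_tilS hc' hv hm (hβ m), hv, hβ m]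
  exact refl_rel hp h1 (hcc m) (Capped.str_bound hc hB hm) (Capped.str_bound hc' hB' hm)
    (str_rel hs k hBB hm)

theorem mutTw_skew (hs : ∀ a b, T.β a b = - T.β b a) (c : (ι →₀ ℕ) →+ ℕ) (k : ι) :
    ∀ a b, (mutTw T c k).β a b = - (mutTw T c k).β b a :=
  mutForm_skew T.β c k hs

theorem mutTw_right (hs : ∀ a b, T.β a b = - T.β b a) (hc : c (single k 1) = 0) (m : ι →₀ ℕ) :
    (mutTw T c k).β m (single k 1) = - T.β m (single k 1) :=
  mutForm_self_right T.β hc (β_self hs _) m

theorem β_erase (hs : ∀ a b, T.β a b = - T.β b a) (k : ι) (m : ι →₀ ℕ) :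
    T.β (m.erase k) (single k 1) = T.β m (single k 1) := by
  conv_rhs => rw [← split_k k m]
  rw [map_add, AddMonoidHom.add_apply, β_single_single hs k (m k) 1, add_zero]

/-- the second involution. -/
theorem rel_mut' (hs : ∀ a b, T.β a b = - T.β b a) (k : ι) :
    Rel (capOf (-T.β) k) k T (mutTw T (capOf T.β k) k) := by
  refine ⟨rfl, fun a b ha hb => ?_⟩
  show mutForm T.β (capOf T.β k) k _ _ = _
  have hdl : ∀ m, Cp (capOf (-T.β) k) k m →
      dl (capOf T.β k) k (til (capOf (-T.β) k) k m) = (m k : ℤ) - T.β m (single k 1) := by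
    intro m hm
    have e1 : capOf T.β k (til (capOf (-T.β) k) k m) = capOf T.β k m := by
      rw [cap_split (capOf_self _ _), til_erase, ← cap_split (capOf_self _ _)]
    have e2 := caps_rel hs k m
    rw [dl_apply, e1, til_apply_self]
    unfold Cp at hm
    rw [Nat.cast_sub hm]
    omega
  rw [mutForm_apply, til_erase, til_erase, hdl a ha, hdl b hb, form_split T.β k a b,
    β_self hs (single k 1), ← β_erase hs k a, ← β_erase hs k b, hs (single k 1) (b.erase k)]
  ring

theorem lamz_not_capped (h : (ι →₀ ℕ) →+ R) {f : TPS T} (hf : Capped c k f) (h0 : f.co 0 = 1)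
    {d : ι →₀ ℕ} (hd : ¬ Cp c k d) : lamz T h d f = 0 :=
  lam_not_capped h (hf.zer h0 _) ((hf.zer h0 _).inv (zer_co_zero _ _)) hd

theorem lamz_til (hc : c (single k 1) = 0) (H : Rel c k T T') (h : (ι →₀ ℕ) →+ R)
    {f : TPS T} (hf : Capped c k f) (h0 : f.co 0 = 1) {d : ι →₀ ℕ} (hd : Cp c k d) :
    lamz T' (flipF c k h) (til c k d) (tilS c k T' f) = lamz T h d f := by
  unfold lamz
  rw [tilS_zer_att hc H hd hf h0, ← tilS_inv hc H (hf.zer h0 _) (zer_co_zero _ _),
    lam_til hc H h (hf.zer h0 _) ((hf.zer h0 _).inv (zer_co_zero _ _)) hd]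

theorem til_fix (hc : c (single k 1) = 0) {i : ι} (hi : i ≠ k) (hci : c (single i 1) = 0)
    (j : ℕ) : til c k (single i j) = single i j := by
  ext l
  by_cases hl : l = k
  · subst hl
    rw [til_apply_self, single_eq_nsmul i j, map_nsmul, hci]
    simp [Finsupp.single_apply, hi]
  · rw [til_apply_ne _ hl]

/-- transfer of the attractor data off the node `k`. -/
theorem transfer (hs' : ∀ a b, T'.β a b = - T'.β b a) {h : (ι →₀ ℕ) →+ R}
    (hreg : ∀ d, d ≠ 0 → IsLeftRegular (h d)) (hc : c (single k 1) = 0)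
    (H : Rel c k T T') {p : PowerSeries R} {A B : TPS T} (hA : Plain T h p A)
    (hB : Capped c k B) (h0 : B.co 0 = 1) {d : ι →₀ ℕ} (hd : d ≠ single k (d k))
    (hAB : lamz T h (til c k d) B = lamz T h (til c k d) A)
    (hnode : ∀ i j, i ≠ k → 0 < j → (d = single i j ∨ til c k d = single i j) →
      c (single i 1) = 0) :
    (∀ i j, 0 < j → d = single i j →
      lamz T' h d (tilS c k T' B) = kap (fun j => h (single i j)) p j) ∧
    ((∀ i j, d ≠ single i j) → lamz T' h d (tilS c k T' B) = 0) := by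
  have hd0 : d ≠ 0 := by rintro rfl; exact hd (by simp)
  have h0' : (tilS c k T' B).co 0 = 1 := by rw [tilS_co_zero, h0]
  by_cases hcd : Cp c k d
  · have hcd0 : Cp c k (til c k d) := Cp.til hc d
    have htt : til c k (til c k d) = d := til_til hc hcd
    have htd0 : til c k d ≠ 0 := fun h => hd0 ((til_eq_zero hc hcd).1 h)
    have e1 := lamz_cross hs' h (flipF c k h) d (tilS c k T' B)
    have e2 : flipF c k h d = h (til c k d) := by
      conv_lhs => rw [← htt]
      exact flipF_til hc h hcd0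
    have e3 : lamz T' (flipF c k h) d (tilS c k T' B) = lamz T h (til c k d) A := by
      have := lamz_til hc H h hB h0 hcd0
      rw [htt] at this
      rw [this, hAB]
    rw [e2, e3] at e1
    constructor
    · intro i j hj hdij
      have hi : i ≠ k := by
        rintro rfl
        apply hd
        rw [hdij]; simp
      have hci := hnode i j hi hj (Or.inl hdij)
      have htd : til c k d = d := by rw [hdij]; exact til_fix hc hi hci j
      rw [htd, hdij, hA.node i j hj, ← hdij] at e1
      exact hreg d hd0 e1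
    · intro hns
      have hns0 : ∀ i j, til c k d ≠ single i j := by
        intro i j hij
        by_cases hi : i = k
        · subst hi
          apply hd
          have h3 : d.erase i = 0 := by
            rw [← til_erase (c := c) d, hij]
            ext l; by_cases hl : l = i <;> simp [hl]
          have := split_k i d
          rw [h3, zero_add] at this
          exact this.symm
        · rcases Nat.eq_zero_or_pos j with hj | hj
          · apply htd0; rw [hij, hj, single_zero]
          · have hci := hnode i j hi hj (Or.inr hij)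
            apply hns i j
            rw [← htt, hij]
            exact til_fix hc hi hci j
      rw [hA.zero _ hns0, mul_zero] at e1
      apply hreg _ htd0
      show _ = h (til c k d) * 0
      rw [mul_zero]
      exact e1
  · have e0 := lamz_not_capped h (capped_tilS (T' := T') B) h0' hcd
    refine ⟨fun i j hj hdij => ?_, fun _ => e0⟩
    exfalso
    have hi : i ≠ k := by
      rintro rfl
      apply hd
      rw [hdij]; simp
    apply hcd
    unfold Cp
    rw [hdij, Finsupp.single_eq_of_ne (Ne.symm hi)]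
    exact Nat.zero_le _

/-- **Mutation of a plain element.**  `B = P_k⁻¹ A`, `B' = A P_k⁻¹`. -/
theorem Plain.mutate (hs : ∀ a b, T.β a b = - T.β b a) {h : (ι →₀ ℕ) →+ R}
    (hreg : ∀ d, d ≠ 0 → IsLeftRegular (h d)) (k : ι) {p : PowerSeries R}
    (hp : QD T.v p) (h1 : PowerSeries.constantCoeff p = 1) {A B B' : TPS T}
    (hA : Plain T h p A) (hB : B.co 0 = 1) (hB' : B'.co 0 = 1)
    (e1 : evk T k p * B = A) (e2 : B' * evk T k p = A) :
    Plain (mutTw T (capOf T.β k) k) h p
      (tilS (capOf T.β k) k (mutTw T (capOf T.β k) k) B *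
        evk (mutTw T (capOf T.β k) k) k p) ∧
    tilS (capOf T.β k) k (mutTw T (capOf T.β k) k) B *
        evk (mutTw T (capOf T.β k) k) k p =
      evk (mutTw T (capOf T.β k) k) k p *
        tilS (capOf (-T.β) k) k (mutTw T (capOf T.β k) k) B' := by
  obtain ⟨bB, bB'⟩ := hA.bound hs hreg hp h1 hB hB' e1 e2
  have hBB : evk T k p * B = B' * evk T k p := by rw [e1, e2]
  have hc := capOf_self T.β k
  have hc' := capOf_self (-T.β) k
  have hs' := mutTw_skew hs (capOf T.β k) k
  have H := rel_mut (T := T) hc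
  have H' := rel_mut' hs k
  have hβ := mutTw_right (T := T) hs hc
  have two := two_forms (T' := mutTw T (capOf T.β k) k) hs hs' rfl hc hc' (caps_rel hs k)
    hβ hp h1 hBB bB bB'
  refine ⟨?_, two⟩
  have hz : (tilS (capOf T.β k) k (mutTw T (capOf T.β k) k) B).co 0 = 1 := by
    rw [tilS_co_zero, hB]
  have hz' : (tilS (capOf (-T.β) k) k (mutTw T (capOf T.β k) k) B').co 0 = 1 := by
    rw [tilS_co_zero, hB']
  -- off the node
  have off : ∀ d : ι →₀ ℕ, d ≠ single k (d k) →
      (∀ i j, 0 < j → d = single i j →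
        lamz (mutTw T (capOf T.β k) k) h d
          (tilS (capOf T.β k) k (mutTw T (capOf T.β k) k) B *
            evk (mutTw T (capOf T.β k) k) k p) = kap (fun j => h (single i j)) p j) ∧
      ((∀ i j, d ≠ single i j) → lamz (mutTw T (capOf T.β k) k) h d
          (tilS (capOf T.β k) k (mutTw T (capOf T.β k) k) B *
            evk (mutTw T (capOf T.β k) k) k p) = 0) := by
    intro d hd
    have hβtil : ∀ c : (ι →₀ ℕ) →+ ℕ, T.β (til c k d) (single k 1) = T.β d (single k 1) := by
      intro c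
      rw [← β_erase hs k (til c k d), til_erase, β_erase hs]
    have htil : ∀ c : (ι →₀ ℕ) →+ ℕ, til c k d ≠ single k (til c k d k) := by
      intro c h0
      apply hd
      have h3 : d.erase k = 0 := by
        rw [← til_erase (c := c) d, h0]
        ext l; by_cases hl : l = k <;> simp [hl]
      have := split_k k d
      rw [h3, zero_add] at this
      exact this.symm
    have hsgn : ∀ c : (ι →₀ ℕ) →+ ℕ, ∀ i j, 0 < j → (d = single i j ∨ til c k d = single i j) →
        T.β d (single k 1) = j * T.β (single i 1) (single k 1) := by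
      intro c i j _ hor
      rcases hor with h3 | h3
      · rw [h3, β_single_left]
      · rw [← hβtil c, h3, β_single_left]
    rcases le_total ((mutTw T (capOf T.β k) k).β d (single k 1)) 0 with hK | hK
    · have hK2 : 0 ≤ T.β d (single k 1) := by rw [hβ] at hK; omega
      rw [lamz_mul_evk hs' h k h1 hK hd hz]
      apply transfer hs' hreg hc H hA bB hB hd
      · rw [← e1, lamz_evk_mul hs h k h1 (by rw [hβtil]; exact hK2) (htil _) hB]
      · intro i j hi hj hor
        rw [capOf_single_one _ hi]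
        have h4 := hsgn _ i j hj hor
        rw [h4] at hK2
        have h5 : 0 ≤ T.β (single i 1) (single k 1) := by
          by_contra hneg
          have : (j : ℤ) * T.β (single i 1) (single k 1) < 0 :=
            mul_neg_of_pos_of_neg (by exact_mod_cast hj) (not_le.1 hneg)
          omega
        rw [hs (single k 1) (single i 1)]
        exact Int.toNat_of_nonpos (by omega)
    · have hK2 : T.β d (single k 1) ≤ 0 := by rw [hβ] at hK; omega
      rw [two, lamz_evk_mul hs' h k h1 hK hd hz']
      apply transfer hs' hreg hc' H' hA bB' hB' hd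
      · rw [← e2, lamz_mul_evk hs h k h1 (by rw [hβtil]; exact hK2) (htil _) hB']
      · intro i j hi hj hor
        rw [capOf_single_one _ hi]
        have h4 := hsgn _ i j hj hor
        rw [h4] at hK2
        have h5 : T.β (single i 1) (single k 1) ≤ 0 := by
          by_contra hneg
          have : 0 < (j : ℤ) * T.β (single i 1) (single k 1) :=
            mul_pos (by exact_mod_cast hj) (not_le.1 hneg)
          omega
        show Int.toNat (-(T.β (single k 1) (single i 1))) = 0
        rw [hs (single k 1) (single i 1), neg_neg]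
        exact Int.toNat_of_nonpos h5
  refine ⟨?_, ?_, ?_⟩
  · rw [co_mul_zero', hz, co_evk_zero k h1, one_mul]
  · intro i j hj
    by_cases hi : i = k
    · subst hi
      rw [lamz_mul_evk_node hs' h i h1 j hz]
      have hnc : ¬ Cp (capOf T.β i) i (single i j) := by
        unfold Cp
        rw [single_eq_nsmul i j, map_nsmul, capOf_self]
        simp
        omega
      rw [lamz_not_capped h (capped_tilS B) hz hnc, zero_add]
    · refine (off (single i j) ?_).1 i j hj rfl
      intro h0
      rw [Finsupp.single_eq_of_ne (Ne.symm hi), single_zero, Finsupp.single_eq_zero] at h0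
      omega
  · intro d hns
    exact (off d (hns _ _)).2 hns

end Crest.Agent.R059.Mut456
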