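import Mathlib
import Crest.Prelude.Def_ChromaticQSym
import Crest.Agent.R059.Graph

-- ▼ part R059/Palin
section

set_option autoImplicit false

open Crest.CombinatoricsR.UnitInterval

/-! Linear independence of the `esymmPart`s, palindromicity of the `e`-coefficients. -/

namespace Crest.Agent.R059.Palin

open MvPolynomial

/-- exponent vector of a partition. -/
noncomputable def expo {n : ℕ} (N : ℕ) (μ : Nat.Partition n) : Fin N →₀ ℕ :=
  Finsupp.equivFunOnFinite.symm (fun i => μ.parts.count (i.val + 1))

theorem part_le {n : ℕ} (μ : Nat.Partition n) {p : ℕ} (hp : p ∈ μ.parts) : p ≤ n := by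
  have := Multiset.single_le_sum (s := μ.parts) (fun x _ => Nat.zero_le x) p hp
  rwa [μ.parts_sum] at this

theorem expo_inj {n N : ℕ} (hN : n ≤ N) : Function.Injective (expo (n := n) N) := by
  intro μ ν h
  apply Nat.Partition.ext
  ext p
  by_cases hp : 1 ≤ p ∧ p ≤ N
  · have := DFunLike.congr_fun h ⟨p - 1, by omega⟩
    simp only [expo, Finsupp.equivFunOnFinite_symm_apply_apply] at this
    rwa [show p - 1 + 1 = p by omega] at this
  · have h1 : ∀ κ : Nat.Partition n, κ.parts.count p = 0 := by
      intro κ
      rw [Multiset.count_eq_zero]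
      intro hk
      exact hp ⟨κ.parts_pos hk, (part_le κ hk).trans hN⟩
    rw [h1, h1]

theorem esymmPart_eq_prod {R : Type*} [CommRing R] {n N : ℕ} (hN : n ≤ N) (μ : Nat.Partition n) :
    esymmPart (Fin N) R μ = ((esymmAlgHom (Fin N) R N) (monomial (expo N μ) 1)).val := by
  rw [esymmAlgHom_apply, aeval_monomial, map_one, one_mul]
  unfold esymmPart
  rw [Finset.prod_multiset_map_count, Finsupp.prod_fintype _ _ (fun i => pow_zero _)]
  symm
  have h1 : ∏ i : Fin N, esymm (Fin N) R (i.val + 1) ^ (expo N μ i) =
      ∏ p ∈ Finset.univ.image (fun i : Fin N => i.val + 1),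
        esymm (Fin N) R p ^ (μ.parts.count p) := by
    rw [Finset.prod_image]
    · apply Finset.prod_congr rfl
      intro i _
      simp [expo]
    · intro a _ b _ hab
      exact Fin.ext (by simpa using hab)
  rw [h1]
  symm
  apply Finset.prod_subset
  · intro p hp
    rw [Multiset.mem_toFinset] at hp
    have h2 := μ.parts_pos hp
    have h3 := (part_le μ hp).trans hN
    rw [Finset.mem_image]
    exact ⟨⟨p - 1, by omega⟩, Finset.mem_univ _, by simp; omega⟩
  · intro p _ hp
    rw [Multiset.mem_toFinset] at hp
    rw [Multiset.count_eq_zero.2 hp, pow_zero]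

/-- **linear independence** of the `esymmPart`s of degree `n` in `N ≥ n` variables. -/
theorem esymmPart_indep {R : Type*} [CommRing R] {n N : ℕ} (hN : n ≤ N)
    (c : Nat.Partition n → R)
    (h : ∑ μ, C (c μ) * esymmPart (Fin N) R μ = 0) : ∀ μ, c μ = 0 := by
  classical
  have h1 : (esymmAlgHom (Fin N) R N) (∑ μ, monomial (expo N μ) (c μ)) = 0 := by
    apply Subtype.ext
    rw [map_sum]
    have : ∀ μ, (esymmAlgHom (Fin N) R N) (monomial (expo N μ) (c μ)) =
        c μ • (esymmAlgHom (Fin N) R N) (monomial (expo N μ) 1) := by
      intro μ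
      rw [← map_smul, smul_monomial, smul_eq_mul, mul_one]
    simp only [this]
    rw [ZeroMemClass.coe_zero, ← h, AddSubmonoidClass.coe_finsetSum]
    apply Finset.sum_congr rfl
    intro μ _
    rw [esymmPart_eq_prod hN μ, ← smul_eq_C_mul]
    rfl
  have h2 := esymmAlgHom_injective (σ := Fin N) R (n := N) (by simp)
  have h3 : ∑ μ, monomial (expo N μ) (c μ) = 0 := h2 (h1.trans (map_zero _).symm)
  intro μ
  have h4 := congrArg (coeff (expo N μ)) h3
  rw [coeff_sum, Finset.sum_eq_single μ] at h4
  · simpa using h4
  · intro ν _ hν
    rw [coeff_monomial, if_neg]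
    intro h5
    exact hν (expo_inj hN h5)
  · intro h5
    exact absurd (Finset.mem_univ _) h5



variable {n : ℕ}

/-- number of edges. -/
def ne (h : Fin n → ℕ) : ℕ :=
  (Finset.univ.filter (fun p : Fin n × Fin n => p.1 < p.2 ∧ IsEdge h p.1 p.2)).card











end Crest.Agent.R059.Palin
end

-- ▼ part R059/Modular
section

set_option autoImplicit false

open Crest.CombinatoricsR.UnitInterval

namespace Crest.Agent.R059

section general

variable {V : Type*} [Fintype V] [DecidableEq V]

theorem prod_swap (E : Finset (V × V)) (j k : V) {N : ℕ}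
    (hE : ∀ p : V × V, p ∈ E → (Equiv.swap j k p.1, Equiv.swap j k p.2) ∈ E) (f : V → Fin N) :
    ∏ p ∈ E, w ((f ∘ Equiv.swap j k) p.1) ((f ∘ Equiv.swap j k) p.2) =
      ∏ p ∈ E, w (f p.1) (f p.2) := by
  classical
  apply Finset.prod_bij' (fun p _ => (Equiv.swap j k p.1, Equiv.swap j k p.2))
    (fun p _ => (Equiv.swap j k p.1, Equiv.swap j k p.2))
  · intro p hp; exact hE p hp
  · intro p hp; exact hE p hp
  · intro p _; simp
  · intro p _; simp
  · intro p _; simp

theorem prod_X_swap (j k : V) {N : ℕ} (f : V → Fin N) :
    ∏ a : V, (MvPolynomial.X ((f ∘ Equiv.swap j k) a) : MvPolynomial (Fin N) (Polynomial ℤ)) =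
      ∏ a : V, MvPolynomial.X (f a) := by
  apply Fintype.prod_equiv (Equiv.swap j k)
  intro a; rfl

/-- `q`-modular law, first type: `i` below the pair `j < k`. -/
theorem modular1 (E : Finset (V × V)) (i j k : V) (hij : i ≠ j) (hik : i ≠ k) (hne : j ≠ k)
    (hjk : (j, k) ∉ E) (hij' : (i, j) ∉ E) (hik' : (i, k) ∉ E)
    (hE : ∀ p : V × V, p ∈ E → (Equiv.swap j k p.1, Equiv.swap j k p.2) ∈ E) (N : ℕ) :
    MvPolynomial.C (1 + Polynomial.X) * chromE (insert (j, k) (insert (i, j) E)) N =
      MvPolynomial.C Polynomial.X * chromE (insert (j, k) E) N +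
        chromE (insert (j, k) (insert (i, j) (insert (i, k) E))) N := by
  classical
  have key := exchange N j k
    (fun f : V → Fin N => MvPolynomial.C (∏ p ∈ E, w (f p.1) (f p.2)) *
      ∏ a : V, MvPolynomial.X (f a))
    (fun f => w (f j) (f k) * ((1 + Polynomial.X) * w (f i) (f j) - Polynomial.X -
      w (f i) (f j) * w (f i) (f k)))
    (by
      intro f
      show MvPolynomial.C (∏ p ∈ E, w ((f ∘ Equiv.swap j k) p.1) ((f ∘ Equiv.swap j k) p.2)) *
        ∏ a : V, MvPolynomial.X ((f ∘ Equiv.swap j k) a) = _
      rw [prod_swap E j k hE, prod_X_swap])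
    (by
      intro f
      have h1 : (f ∘ Equiv.swap j k) i = f i := by
        simp [Equiv.swap_apply_of_ne_of_ne hij hik]
      have h2 : (f ∘ Equiv.swap j k) j = f k := by simp
      have h3 : (f ∘ Equiv.swap j k) k = f j := by simp
      rw [h1, h2, h3]
      exact local1 _ _ _)
  have e1 : (j, k) ∉ insert (i, j) E := by
    rw [Finset.mem_insert]; rintro (h | h)
    · exact hij (Prod.mk.inj h).1.symm
    · exact hjk h
  have e3 : (i, j) ∉ insert (i, k) E := by
    rw [Finset.mem_insert]; rintro (h | h)
    · exact hne (Prod.mk.inj h).2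
    · exact hij' h
  have e2 : (j, k) ∉ insert (i, j) (insert (i, k) E) := by
    rw [Finset.mem_insert, Finset.mem_insert]; rintro (h | h | h)
    · exact hij (Prod.mk.inj h).1.symm
    · exact hij (Prod.mk.inj h).1.symm
    · exact hjk h
  rw [← sub_eq_zero, ← key]
  unfold chromE
  simp only [Finset.prod_insert e1, Finset.prod_insert e2, Finset.prod_insert e3,
    Finset.prod_insert hij', Finset.prod_insert hik', Finset.prod_insert hjk]
  rw [Finset.mul_sum, Finset.mul_sum, ← Finset.sum_add_distrib, ← Finset.sum_sub_distrib]
  apply Finset.sum_congr rfl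
  intro f _
  simp only [map_mul, map_sub, map_add, map_one]
  ring

/-- `q`-modular law, second type: `i` above the pair `j < k`. -/
theorem modular2 (E : Finset (V × V)) (i j k : V) (hij : i ≠ j) (hik : i ≠ k) (hne : j ≠ k)
    (hjk : (j, k) ∉ E) (hij' : (j, i) ∉ E) (hik' : (k, i) ∉ E)
    (hE : ∀ p : V × V, p ∈ E → (Equiv.swap j k p.1, Equiv.swap j k p.2) ∈ E) (N : ℕ) :
    MvPolynomial.C (1 + Polynomial.X) * chromE (insert (j, k) (insert (k, i) E)) N =
      MvPolynomial.C Polynomial.X * chromE (insert (j, k) E) N +
        chromE (insert (j, k) (insert (k, i) (insert (j, i) E))) N := by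
  classical
  have key := exchange N j k
    (fun f : V → Fin N => MvPolynomial.C (∏ p ∈ E, w (f p.1) (f p.2)) *
      ∏ a : V, MvPolynomial.X (f a))
    (fun f => w (f j) (f k) * ((1 + Polynomial.X) * w (f k) (f i) - Polynomial.X -
      w (f j) (f i) * w (f k) (f i)))
    (by
      intro f
      show MvPolynomial.C (∏ p ∈ E, w ((f ∘ Equiv.swap j k) p.1) ((f ∘ Equiv.swap j k) p.2)) *
        ∏ a : V, MvPolynomial.X ((f ∘ Equiv.swap j k) a) = _
      rw [prod_swap E j k hE, prod_X_swap])
    (by
      intro f
      have h1 : (f ∘ Equiv.swap j k) i = f i := by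
        simp [Equiv.swap_apply_of_ne_of_ne hij hik]
      have h2 : (f ∘ Equiv.swap j k) j = f k := by simp
      have h3 : (f ∘ Equiv.swap j k) k = f j := by simp
      rw [h1, h2, h3]
      exact local2 _ _ _)
  have e1 : (j, k) ∉ insert (k, i) E := by
    rw [Finset.mem_insert]; rintro (h | h)
    · exact hik (Prod.mk.inj h).2.symm
    · exact hjk h
  have e3 : (k, i) ∉ insert (j, i) E := by
    rw [Finset.mem_insert]; rintro (h | h)
    · exact hne (Prod.mk.inj h).1.symm
    · exact hik' h
  have e2 : (j, k) ∉ insert (k, i) (insert (j, i) E) := by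
    rw [Finset.mem_insert, Finset.mem_insert]; rintro (h | h | h)
    · exact hik (Prod.mk.inj h).2.symm
    · exact hik (Prod.mk.inj h).2.symm
    · exact hjk h
  rw [← sub_eq_zero, ← key]
  unfold chromE
  simp only [Finset.prod_insert e1, Finset.prod_insert e2, Finset.prod_insert e3,
    Finset.prod_insert hij', Finset.prod_insert hik', Finset.prod_insert hjk]
  rw [Finset.mul_sum, Finset.mul_sum, ← Finset.sum_add_distrib, ← Finset.sum_sub_distrib]
  apply Finset.sum_congr rfl
  intro f _
  simp only [map_mul, map_sub, map_add, map_one]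
  ring

end general

variable {n : ℕ}

theorem mem_edges {h : Fin n → ℕ} {p : Fin n × Fin n} :
    p ∈ edges h ↔ p.1 < p.2 ∧ p.2.val + 1 ≤ h p.1 := by
  simp [edges]

/-- first type, for Hessenberg functions.  `j, k = j+1` are the two vertices; `h0,h1,h2` agree off
`i`, where they take the values `j, j+1, j+2`; `h j = h (j+1)`. -/
theorem modular_typeI {h0 h1 h2 : Fin n → ℕ} (m0 : Monotone h0) (m2 : Monotone h2)
    (hge : ∀ a : Fin n, a.val + 1 ≤ h0 a)
    (i j k : Fin n) (hk : k.val = j.val + 1) (v0 : h0 i = j.val) (v1 : h1 i = j.val + 1)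
    (v2 : h2 i = j.val + 2) (off1 : ∀ a, a ≠ i → h1 a = h0 a) (off2 : ∀ a, a ≠ i → h2 a = h0 a)
    (hjk : h0 j = h0 k) (N : ℕ) :
    MvPolynomial.C (1 + Polynomial.X) * chromaticQSym h1 N =
      MvPolynomial.C Polynomial.X * chromaticQSym h0 N + chromaticQSym h2 N := by
  classical
  have hilt : i < j := by
    rw [Fin.lt_def]; have := hge i; omega
  have hij : i ≠ j := hilt.ne
  have hik : i ≠ k := by
    intro h; rw [h, Fin.lt_def] at hilt; omega
  have hne : j ≠ k := by
    intro h; rw [← h] at hk; omega
  have hj1 := hge j
  have hk1 := hge k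
  set E : Finset (Fin n × Fin n) := (edges h0).erase (j, k) with hEdef
  have hjkE : (j, k) ∉ E := by simp [hEdef]
  have hijE : (i, j) ∉ E := by
    simp only [hEdef, Finset.mem_erase, mem_edges, not_and]
    intro _ _
    simp only [v0]; omega
  have hikE : (i, k) ∉ E := by
    simp only [hEdef, Finset.mem_erase, mem_edges, not_and]
    intro _ _
    simp only [v0]; omega
  have e0 : insert (j, k) E = edges h0 := by
    rw [hEdef, Finset.insert_erase]
    rw [mem_edges]
    simp only [Fin.lt_def]
    omega
  have hval : ∀ x : Fin n, x ≠ j ↔ x.val ≠ j.val := fun x => by rw [Ne, Fin.ext_iff]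
  have e1 : insert (j, k) (insert (i, j) E) = edges h1 := by
    ext ⟨a, b⟩
    simp only [Finset.mem_insert, hEdef, Finset.mem_erase, mem_edges, Prod.mk.injEq, ne_eq]
    have hi' : i.val < j.val := hilt
    by_cases ha : a = i
    · rw [ha, v0, v1]
      simp only [Fin.lt_def, Fin.ext_iff, true_and]
      omega
    · rw [off1 a ha]
      have ha' : a.val ≠ i.val := fun h => ha (Fin.ext h)
      by_cases haj : a = j
      · rw [haj]
        simp only [Fin.lt_def, Fin.ext_iff, true_and]
        omega
      · have haj' : a.val ≠ j.val := fun h => haj (Fin.ext h)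
        simp only [Fin.lt_def, Fin.ext_iff, true_and]
        omega
  have e2 : insert (j, k) (insert (i, j) (insert (i, k) E)) = edges h2 := by
    ext ⟨a, b⟩
    simp only [Finset.mem_insert, hEdef, Finset.mem_erase, mem_edges, Prod.mk.injEq, ne_eq]
    have hi' : i.val < j.val := hilt
    by_cases ha : a = i
    · rw [ha, v0, v2]
      simp only [Fin.lt_def, Fin.ext_iff, true_and]
      omega
    · rw [off2 a ha]
      have ha' : a.val ≠ i.val := fun h => ha (Fin.ext h)
      by_cases haj : a = j
      · rw [haj]
        simp only [Fin.lt_def, Fin.ext_iff, true_and]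
        omega
      · have haj' : a.val ≠ j.val := fun h => haj (Fin.ext h)
        simp only [Fin.lt_def, Fin.ext_iff, true_and]
        omega
  have hinv : ∀ p : Fin n × Fin n, p ∈ E → (Equiv.swap j k p.1, Equiv.swap j k p.2) ∈ E := by
    rintro ⟨a, b⟩ hp
    simp only [hEdef, Finset.mem_erase, mem_edges, ne_eq, Prod.mk.injEq] at hp ⊢
    obtain ⟨hp1, hp2, hp3⟩ := hp
    have hai : ∀ c : Fin n, c ≠ i → (j.val + 1 ≤ h0 c ↔ j.val + 2 ≤ h0 c) := by
      intro c hc
      constructor
      · intro h
        rcases lt_or_gt_of_ne hc with h4 | h4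
        · have := m0 h4.le
          omega
        · have := m2 h4.le
          rw [v2, off2 c hc] at this
          exact this
      · intro h; omega
    by_cases haj : a = j
    · subst haj
      have hbk : b ≠ k := by
        intro h; exact hp1 ⟨rfl, h⟩
      have hbj : b ≠ a := hp2.ne'
      rw [Equiv.swap_apply_left, Equiv.swap_apply_of_ne_of_ne hbj hbk]
      refine ⟨?_, ?_, ?_⟩
      · rintro ⟨h, _⟩; exact hne h.symm
      · rw [Fin.lt_def] at hp2 ⊢
        have : b.val ≠ k.val := fun h => hbk (Fin.ext h)
        omega
      · show b.val + 1 ≤ h0 k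
        rw [← hjk]; exact hp3
    · by_cases hak : a = k
      · subst hak
        have hba : b ≠ a := hp2.ne'
        have hbj : b ≠ j := by
          intro h; rw [h, Fin.lt_def] at hp2; omega
        rw [Equiv.swap_apply_right, Equiv.swap_apply_of_ne_of_ne hbj hba]
        refine ⟨?_, ?_, ?_⟩
        · rintro ⟨_, h⟩; exact hba h
        · rw [Fin.lt_def] at hp2 ⊢; omega
        · show b.val + 1 ≤ h0 j
          rw [hjk]; exact hp3
      · rw [Equiv.swap_apply_of_ne_of_ne haj hak]
        by_cases hbj : b = j
        · subst hbj
          rw [Equiv.swap_apply_left]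
          have hai' : a ≠ i := by
            intro h
            have hp3' : b.val + 1 ≤ h0 a := hp3
            rw [h, v0] at hp3'; omega
          refine ⟨?_, ?_, ?_⟩
          · rintro ⟨h, _⟩; exact haj h
          · rw [Fin.lt_def] at hp2 ⊢; omega
          · have := (hai a hai').1 hp3
            show k.val + 1 ≤ h0 a
            omega
        · by_cases hbk : b = k
          · subst hbk
            rw [Equiv.swap_apply_right]
            refine ⟨?_, ?_, ?_⟩
            · rintro ⟨h, _⟩; exact haj h
            · rw [Fin.lt_def] at hp2 ⊢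
              have : a.val ≠ j.val := fun h => haj (Fin.ext h)
              omega
            · have hp3' : b.val + 1 ≤ h0 a := hp3
              show j.val + 1 ≤ h0 a
              omega
          · rw [Equiv.swap_apply_of_ne_of_ne hbj hbk]
            exact ⟨hp1, hp2, hp3⟩
  rw [chromaticQSym_eq, chromaticQSym_eq, chromaticQSym_eq, ← e0, ← e1, ← e2]
  exact modular1 E i j k hij hik hne hjkE hijE hikE hinv N

end Crest.Agent.R059
end

-- ▼ part R059/EPos
section

set_option autoImplicit false

open Crest.CombinatoricsR.UnitInterval

namespace Crest.Agent.R059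

/-- families of polynomials, one for every number of variables. -/
abbrev Fam : Type := ∀ N : ℕ, MvPolynomial (Fin N) (Polynomial ℤ)

/-- coefficients in `ℕ[q]`. -/
noncomputable abbrev cast (c : Polynomial ℕ) : Polynomial ℤ := c.map (Nat.castRingHom ℤ)

/-- `e`-positive families of degree `n`, coefficients in `ℕ[q]`. -/
def EP (n : ℕ) (F : Fam) : Prop :=
  ∃ c : Nat.Partition n → Polynomial ℕ, ∀ N : ℕ, F N =
    ∑ μ : Nat.Partition n, MvPolynomial.C (cast (c μ)) *
      MvPolynomial.esymmPart (Fin N) (Polynomial ℤ) μ


theorem EP.zero (n : ℕ) : EP n (fun _ => 0) := ⟨fun _ => 0, fun N => by simp⟩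

theorem EP.add {n : ℕ} {F G : Fam} (hF : EP n F) (hG : EP n G) :
    EP n (fun N => F N + G N) := by
  obtain ⟨c, hc⟩ := hF
  obtain ⟨d, hd⟩ := hG
  refine ⟨fun μ => c μ + d μ, fun N => ?_⟩
  simp only [hc N, hd N, cast, Polynomial.map_add, map_add, add_mul, Finset.sum_add_distrib]

theorem EP.smul {n : ℕ} {F : Fam} (a : Polynomial ℕ) (hF : EP n F) :
    EP n (fun N => MvPolynomial.C (cast a) * F N) := by
  obtain ⟨c, hc⟩ := hF
  refine ⟨fun μ => a * c μ, fun N => ?_⟩
  simp only [hc N, cast, Polynomial.map_mul, map_mul, Finset.mul_sum, mul_assoc]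


theorem EP.sum {n : ℕ} {ι : Type*} (s : Finset ι) (F : ι → Fam) (hF : ∀ i ∈ s, EP n (F i)) :
    EP n (fun N => ∑ i ∈ s, F i N) := by
  classical
  induction s using Finset.induction_on with
  | empty => simpa using EP.zero n
  | insert a s ha ih =>
    simp only [Finset.sum_insert ha]
    exact (hF a (Finset.mem_insert_self a s)).add
      (ih (fun i hi => hF i (Finset.mem_insert_of_mem hi)))

theorem EP.esymmPart {n : ℕ} (μ : Nat.Partition n) :
    EP n (fun N => MvPolynomial.esymmPart (Fin N) (Polynomial ℤ) μ) := by
  classical
  refine ⟨fun ν => if ν = μ then 1 else 0, fun N => ?_⟩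
  rw [Finset.sum_eq_single μ]
  · simp [cast]
  · intro ν _ hν
    simp [cast, hν]
  · intro h; exact absurd (Finset.mem_univ _) h

theorem EP.congr {n m : ℕ} {F G : Fam} (hF : EP n F) (hnm : n = m) (h : ∀ N, G N = F N) :
    EP m G := by
  subst hnm
  obtain ⟨c, hc⟩ := hF
  exact ⟨c, fun N => by rw [h N, hc N]⟩

/-- union of partitions. -/
def unionP {n m : ℕ} (μ : Nat.Partition n) (ν : Nat.Partition m) : Nat.Partition (n + m) where
  parts := μ.parts + ν.parts
  parts_pos := by
    intro i hi
    rcases Multiset.mem_add.1 hi with h | h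
    · exact μ.parts_pos h
    · exact ν.parts_pos h
  parts_sum := by rw [Multiset.sum_add, μ.parts_sum, ν.parts_sum]

theorem esymmPart_unionP {n m N : ℕ} (μ : Nat.Partition n) (ν : Nat.Partition m) :
    MvPolynomial.esymmPart (Fin N) (Polynomial ℤ) (unionP μ ν) =
      MvPolynomial.esymmPart (Fin N) (Polynomial ℤ) μ *
        MvPolynomial.esymmPart (Fin N) (Polynomial ℤ) ν := by
  unfold MvPolynomial.esymmPart unionP
  simp [Multiset.map_add, Multiset.prod_add]

theorem EP.mul {n m : ℕ} {F G : Fam} (hF : EP n F) (hG : EP m G) :
    EP (n + m) (fun N => F N * G N) := by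
  obtain ⟨c, hc⟩ := hF
  obtain ⟨d, hd⟩ := hG
  have h1 : EP (n + m) (fun N => ∑ μ : Nat.Partition n, ∑ ν : Nat.Partition m,
      MvPolynomial.C (cast (c μ * d ν)) *
        MvPolynomial.esymmPart (Fin N) (Polynomial ℤ) (unionP μ ν)) := by
    apply EP.sum
    intro μ _
    apply EP.sum
    intro ν _
    exact (EP.esymmPart (unionP μ ν)).smul _
  refine h1.congr rfl (fun N => ?_)
  rw [hc N, hd N, Finset.sum_mul_sum]
  apply Finset.sum_congr rfl
  intro μ _
  apply Finset.sum_congr rfl
  intro ν _
  rw [esymmPart_unionP]
  simp only [cast, Polynomial.map_mul, map_mul]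
  ring

/-- `e_k` for `k ≥ 1` (and `e_0 = 1`). -/
theorem EP.esymm (k : ℕ) : EP k (fun N => MvPolynomial.esymm (Fin N) (Polynomial ℤ) k) :=
  (EP.esymmPart (Nat.Partition.indiscrete k)).congr rfl
    (fun N => (MvPolynomial.esymmPart_indiscrete (Fin N) (Polynomial ℤ) k).symm)

theorem EP.one : EP 0 (fun _ => 1) :=
  (EP.esymm 0).congr rfl (fun N => by simp)

/-- cancellation of a non-zero polynomial in `q`. -/
theorem cancelC {N : ℕ} {a : Polynomial ℤ} (ha : a ≠ 0)
    {F G : MvPolynomial (Fin N) (Polynomial ℤ)}
    (h : MvPolynomial.C a * F = MvPolynomial.C a * G) : F = G := by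
  apply mul_left_cancel₀ _ h
  rw [Ne, MvPolynomial.C_eq_zero]
  exact ha





end Crest.Agent.R059
end

-- ▼ part R059/Uniq
section

set_option autoImplicit false

open Crest.CombinatoricsR.UnitInterval

namespace Crest.Agent.R059

open Function

/-- Hessenberg functions, vertices `1..n`, values `1..n`. -/
def Hs (n : ℕ) (H : ℕ → ℕ) : Prop :=
  (∀ v, 1 ≤ v → v ≤ n → v ≤ H v ∧ H v ≤ n) ∧ (∀ v, 1 ≤ v → v < n → H v ≤ H (v + 1))

theorem Hs.mono {n : ℕ} {H : ℕ → ℕ} (h : Hs n H) {a b : ℕ} (ha : 1 ≤ a) (hab : a ≤ b)
    (hb : b ≤ n) : H a ≤ H b := by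
  obtain ⟨k, rfl⟩ := Nat.exists_eq_add_of_le hab
  clear hab
  induction k with
  | zero => simp
  | succ k ih =>
    exact (ih (by omega)).trans (h.2 (a + k) (by omega) (by omega))

theorem Hs.update {n : ℕ} {H : ℕ → ℕ} (h : Hs n H) {i x : ℕ} (hix : i ≤ x) (hxn : x ≤ n)
    (hl : ∀ v, v + 1 = i → 1 ≤ v → H v ≤ x) (hr : i < n → x ≤ H (i + 1)) :
    Hs n (Function.update H i x) := by
  constructor
  · intro v hv hvn
    by_cases hvi : v = i
    · subst hvi; simp only [Function.update_self]; exact ⟨hix, hxn⟩
    · rw [Function.update_of_ne hvi]; exact h.1 v hv hvn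
  · intro v hv hvn
    by_cases hvi : v = i
    · subst hvi
      rw [Function.update_self, Function.update_of_ne (by omega)]
      exact hr hvn
    · rw [Function.update_of_ne hvi]
      by_cases hvi' : v + 1 = i
      · subst hvi'
        rw [Function.update_self]
        exact hl v rfl hv
      · rw [Function.update_of_ne hvi']
        exact h.2 v hv hvn

/-- the linear laws that characterise the chromatic function (difference of two solutions). -/
structure Laws (n N : ℕ) (D : (ℕ → ℕ) → MvPolynomial (Fin N) (Polynomial ℤ)) : Prop where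
  ext : ∀ H H' : ℕ → ℕ, (∀ v, 1 ≤ v → v ≤ n → H v = H' v) → D H = D H'
  typeI : ∀ (H : ℕ → ℕ) (i j : ℕ), 1 ≤ i → i < j → j + 1 ≤ n → H j = H (j + 1) →
    Hs n (update H i (j - 1)) → Hs n (update H i (j + 1)) →
    MvPolynomial.C (1 + Polynomial.X) * D (update H i j) =
      MvPolynomial.C Polynomial.X * D (update H i (j - 1)) + D (update H i (j + 1))
  typeII : ∀ (H : ℕ → ℕ) (t b : ℕ), 1 ≤ t → t + 1 ≤ b → b + 1 ≤ n →
    (∀ v, 1 ≤ v → v ≤ n → v ≠ t → v ≠ t + 1 → H v ≠ t) →
    Hs n (update (update H t b) (t + 1) b) →
    Hs n (update (update H t (b + 1)) (t + 1) (b + 1)) →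
    MvPolynomial.C (1 + Polynomial.X) * D (update (update H t b) (t + 1) (b + 1)) =
      MvPolynomial.C Polynomial.X * D (update (update H t b) (t + 1) b) +
        D (update (update H t (b + 1)) (t + 1) (b + 1))
  disc : ∀ H, Hs n H → ∀ v, 1 ≤ v → v < n → H v = v → D H = 0
  compl : D (fun _ => n) = 0

theorem one_add_X_ne : (1 + Polynomial.X : Polynomial ℤ) ≠ 0 := by
  intro h
  have := congrArg (fun p : Polynomial ℤ => p.eval 0) h
  simp at this

section

variable {n N : ℕ} {D : (ℕ → ℕ) → MvPolynomial (Fin N) (Polynomial ℤ)}

theorem zero_of_one_add {x : MvPolynomial (Fin N) (Polynomial ℤ)}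
    (h : MvPolynomial.C (1 + Polynomial.X) * x = 0) : x = 0 := by
  apply cancelC one_add_X_ne
  rw [h, mul_zero]

theorem lemmaS (L : Laws n N D) : ∀ (m c : ℕ), n - c ≤ m → 2 ≤ c → c ≤ n → ∀ p : ℕ → ℕ,
    (∀ v, 1 ≤ v → v + 2 ≤ c → p v ≠ c - 1) →
    (∀ H, Hs n H → (∀ v, 1 ≤ v → v + 2 ≤ c → H v = p v) → H (c - 1) = H c → D H = 0) →
    ∀ H, Hs n H → (∀ v, 1 ≤ v → v + 2 ≤ c → H v = p v) → D H = 0 := by
  intro m
  induction m with
  | zero =>
    intro c hnc h2 hcn p hp hz H hH hHp
    have hc : c = n := by omega
    by_cases h1 : H (c - 1) = c - 1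
    · exact L.disc H hH (c - 1) (by omega) (by omega) h1
    · have h3 := hH.1 (c - 1) (by omega) (by omega)
      have h4 := hH.1 c (by omega) (by omega)
      exact hz H hH hHp (by omega)
  | succ m ihm =>
    intro c hnc h2 hcn p hp hz
    have key : ∀ g : ℕ, ∀ H, Hs n H → (∀ v, 1 ≤ v → v + 2 ≤ c → H v = p v) →
        H c - H (c - 1) ≤ g → D H = 0 := by
      intro g
      induction g with
      | zero =>
        intro H hH hHp hg
        have h5 : H (c - 1) ≤ H c := hH.mono (by omega) (by omega) hcn
        exact hz H hH hHp (by omega)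
      | succ g ihg =>
        intro H hH hHp hg
        have h3 := hH.1 (c - 1) (by omega) (by omega)
        have h4 := hH.1 c (by omega) (by omega)
        have h5 : H (c - 1) ≤ H c := hH.mono (by omega) (by omega) hcn
        by_cases h1 : H (c - 1) = c - 1
        · exact L.disc H hH (c - 1) (by omega) (by omega) h1
        by_cases h6 : H c - H (c - 1) ≤ g
        · exact ihg H hH hHp h6
        by_cases h7 : H c = H (c - 1) + 1
        · -- type II
          obtain ⟨t, ht⟩ : ∃ t, c = t + 1 := ⟨c - 1, by omega⟩
          subst ht
          simp only [Nat.add_sub_cancel] at *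
          set b := H t with hb
          have e1 : update (update H t b) (t + 1) (b + 1) = H := by
            rw [hb, update_eq_self, ← hb, ← h7, update_eq_self]
          have Hs0 : Hs n (update (update H t b) (t + 1) b) := by
            rw [hb, update_eq_self, ← hb]
            apply hH.update (by omega) (by omega)
            · intro v hv hv1
              have : v = t := by omega
              subst this; omega
            · intro hlt
              have := hH.mono (a := t + 1) (b := t + 2) (by omega) (by omega) (by omega)
              show b ≤ H (t + 2)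
              omega
          have Hs2 : Hs n (update (update H t (b + 1)) (t + 1) (b + 1)) := by
            have : update (update H t (b + 1)) (t + 1) (b + 1) = update H t (b + 1) := by
              funext v
              by_cases hv : v = t + 1
              · rw [hv, update_self, update_of_ne (by omega), h7]
              · rw [update_of_ne hv]
            rw [this]
            apply hH.update (by omega) (by omega)
            · intro v hv hv1
              have := hH.mono (a := v) (b := t) hv1 (by omega) (by omega)
              omega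
            · intro _; omega
          have hlaw := L.typeII H t b (by omega) (by omega) (by omega)
            (fun v hv1 hvn hvt hvt1 hv => by
              by_cases hvl : v < t
              · have := hp v hv1 (by omega)
                rw [← hHp v hv1 (by omega)] at this
                exact this hv
              · have := hH.1 v hv1 hvn
                omega) Hs0 Hs2
          rw [e1] at hlaw
          have z0 : D (update (update H t b) (t + 1) b) = 0 := by
            apply hz _ Hs0
            · intro v hv1 hv2
              rw [update_of_ne (by omega), update_of_ne (by omega)]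
              exact hHp v hv1 hv2
            · rw [update_self, update_of_ne (by omega), update_self]
          have z2 : D (update (update H t (b + 1)) (t + 1) (b + 1)) = 0 := by
            apply hz _ Hs2
            · intro v hv1 hv2
              rw [update_of_ne (by omega), update_of_ne (by omega)]
              exact hHp v hv1 hv2
            · rw [update_self, update_of_ne (by omega), update_self]
          rw [z0, z2, mul_zero, add_zero] at hlaw
          exact zero_of_one_add hlaw
        · -- gap at least 2
          have h8 : H (c - 1) + 2 ≤ H c := by omega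
          apply ihm (H c) (by omega) (by omega) (by omega) H
          · intro v hv1 hv2
            by_cases hvc : v ≤ c - 1
            · have := hH.mono (a := v) (b := c - 1) hv1 hvc (by omega)
              omega
            · have := hH.mono (a := c) (b := v) (by omega) (by omega) (by omega)
              omega
          · intro H' hH' hHp' heq
            have hc' : H' c = H c := hHp' c (by omega) (by omega)
            have hc1' : H' (c - 1) = H (c - 1) := hHp' (c - 1) (by omega) (by omega)
            set e := H c with he
            have hj1 : e - 1 + 1 = e := by omega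
            have e2 : update H' c (e - 1 + 1) = H' := by
              rw [hj1, ← hc', update_eq_self]
            have e0' : e - 1 - 1 = e - 2 := by omega
            have hmon : c < n → e ≤ H' (c + 1) := by
              intro hlt
              have := hH'.2 c (by omega) hlt
              omega
            have Hs0 : Hs n (update H' c (e - 1 - 1)) := by
              apply hH'.update (by omega) (by omega)
              · intro v hv hv1
                have : v = c - 1 := by omega
                subst this; omega
              · intro hlt; have := hmon hlt; omega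
            have Hs1 : Hs n (update H' c (e - 1)) := by
              apply hH'.update (by omega) (by omega)
              · intro v hv hv1
                have : v = c - 1 := by omega
                subst this; omega
              · intro hlt; have := hmon hlt; omega
            have hlaw := L.typeI H' c (e - 1) (by omega) (by omega) (by omega)
              (by rw [hj1]; exact heq) Hs0 (by rw [e2]; exact hH')
            rw [e2] at hlaw
            have z1 : D (update H' c (e - 1)) = 0 := by
              apply ihg _ Hs1
              · intro v hv1 hv2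
                rw [update_of_ne (by omega)]
                rw [hHp' v hv1 (by omega)]
                exact hHp v hv1 hv2
              · rw [update_self, update_of_ne (by omega), hc1']
                omega
            have z0 : D (update H' c (e - 1 - 1)) = 0 := by
              apply ihg _ Hs0
              · intro v hv1 hv2
                rw [update_of_ne (by omega)]
                rw [hHp' v hv1 (by omega)]
                exact hHp v hv1 hv2
              · rw [update_self, update_of_ne (by omega), hc1']
                omega
            rw [z0, z1, mul_zero, mul_zero, zero_add] at hlaw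
            exact hlaw.symm
          · exact hH
          · intro v _ _; rfl
    intro H hH hHp
    exact key _ H hH hHp le_rfl

/-- path of length `k`, then a clique. -/
def Lk (n k : ℕ) : ℕ → ℕ := fun v => if v < k then v + 1 else n

theorem Hs_Lk {n k : ℕ} (hk : k ≤ n) : Hs n (Lk n k) := by
  constructor
  · intro v hv hvn
    unfold Lk
    split_ifs <;> omega
  · intro v hv hvn
    unfold Lk
    split_ifs <;> omega

/-- `[m]`. -/
noncomputable def qz (m : ℕ) : Polynomial ℤ := ∑ i ∈ Finset.range m, Polynomial.X ^ i

theorem qz_ne {m : ℕ} (hm : 1 ≤ m) : qz m ≠ 0 := by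
  intro h
  have := congrArg (fun p : Polynomial ℤ => p.eval 1) h
  simp only [qz, Polynomial.eval_finsetSum, Polynomial.eval_pow, Polynomial.eval_X, one_pow,
    Finset.sum_const, Finset.card_range, nsmul_eq_mul, mul_one, Polynomial.eval_zero] at this
  have : m = 0 := by exact_mod_cast this
  omega

theorem qz_rec (m : ℕ) : qz (m + 2) = (1 + Polynomial.X) * qz (m + 1) - Polynomial.X * qz m := by
  unfold qz
  rw [Finset.sum_range_succ, Finset.sum_range_succ]
  ring

theorem Lk_zero (L : Laws n N D) : ∀ k, 1 ≤ k → k + 1 ≤ n → D (Lk n k) = 0 := by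
  intro k
  induction k with
  | zero => intro h; omega
  | succ k ih =>
    intro _ hkn
    by_cases hk : k = 0
    · subst hk
      rw [L.ext (Lk n (0 + 1)) (fun _ => n)]
      · exact L.compl
      · intro v hv _
        unfold Lk
        rw [if_neg (by omega)]
    · have hk1 : 1 ≤ k := by omega
      have h0 := ih hk1 (by omega)
      have hL : Hs n (Lk n (k + 1)) := Hs_Lk (by omega)
      have hupd : ∀ x, k ≤ x → x ≤ n → Hs n (update (Lk n (k + 1)) k x) := by
        intro x hx hxn
        apply hL.update hx hxn
        · intro v hv hv1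
          unfold Lk
          rw [if_pos (by omega)]; omega
        · intro _
          unfold Lk
          rw [if_neg (by omega)]; exact hxn
      have hd : ∀ s, k + 1 + s ≤ n →
          D (update (Lk n (k + 1)) k (k + 1 + s)) =
            MvPolynomial.C (qz (s + 1)) * D (update (Lk n (k + 1)) k (k + 1)) ∧
          (k + 2 + s ≤ n → D (update (Lk n (k + 1)) k (k + 2 + s)) =
            MvPolynomial.C (qz (s + 2)) * D (update (Lk n (k + 1)) k (k + 1))) := by
        have hstep : ∀ j, k < j → j + 1 ≤ n →
            D (update (Lk n (k + 1)) k (j + 1)) =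
              MvPolynomial.C (1 + Polynomial.X) * D (update (Lk n (k + 1)) k j) -
              MvPolynomial.C Polynomial.X * D (update (Lk n (k + 1)) k (j - 1)) := by
          intro j hj hjn
          have := L.typeI (Lk n (k + 1)) k j hk1 hj hjn
            (by unfold Lk; rw [if_neg (by omega), if_neg (by omega)])
            (hupd _ (by omega) (by omega)) (hupd _ (by omega) (by omega))
          rw [this]; ring
        have hzero : D (update (Lk n (k + 1)) k k) = 0 := by
          apply L.disc _ (hupd k le_rfl (by omega)) k hk1 (by omega)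
          rw [update_self]
        intro s
        induction s with
        | zero =>
          intro hs
          refine ⟨by simp [qz], ?_⟩
          intro hs2
          rw [show k + 2 + 0 = (k + 1) + 1 by omega, hstep (k + 1) (by omega) (by omega),
            show k + 1 - 1 = k by omega, hzero, mul_zero, sub_zero]
          congr 2
          simp [qz, Finset.sum_range_succ]
        | succ s ihs =>
          intro hs
          obtain ⟨i1, i2⟩ := ihs (by omega)
          have i2' := i2 (by omega)
          refine ⟨?_, ?_⟩
          · rw [show k + 1 + (s + 1) = k + 2 + s by omega]; exact i2'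
          · intro hs2
            rw [show k + 2 + (s + 1) = (k + 2 + s) + 1 by omega, hstep (k + 2 + s) (by omega) (by omega),
              show k + 2 + s - 1 = k + 1 + s by omega, i1, i2', show s + 1 + 2 = (s + 1) + 2 by rfl,
              qz_rec (s + 1)]
            simp only [map_sub, map_mul]
            ring
      have hfin := (hd (n - (k + 1)) (by omega)).1
      rw [show k + 1 + (n - (k + 1)) = n by omega] at hfin
      have e1 : D (update (Lk n (k + 1)) k n) = D (Lk n k) := by
        apply L.ext
        intro v hv _
        by_cases hvk : v = k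
        · subst hvk; rw [update_self]; unfold Lk; rw [if_neg (by omega)]
        · rw [update_of_ne hvk]
          unfold Lk
          split_ifs <;> omega
      have e2 : update (Lk n (k + 1)) k (k + 1) = Lk n (k + 1) := by
        funext v
        by_cases hv : v = k
        · rw [hv, update_self]; unfold Lk; rw [if_pos (by omega)]
        · rw [update_of_ne hv]
      rw [e1, h0, e2] at hfin
      have hq : qz (n - (k + 1) + 1) ≠ 0 := qz_ne (by omega)
      apply cancelC hq
      rw [← hfin, mul_zero]

theorem prefix_zero (L : Laws n N D) (hn : 2 ≤ n) : ∀ d k, k + d = n - 1 → 1 ≤ k →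
    ∀ H, Hs n H → (∀ v, 1 ≤ v → v < k → H v = v + 1) → D H = 0 := by
  intro d
  induction d with
  | zero =>
    intro k hk hk1 H hH hpre
    have h1 := hH.1 (n - 1) (by omega) (by omega)
    by_cases h2 : H (n - 1) = n - 1
    · exact L.disc H hH (n - 1) (by omega) (by omega) h2
    · rw [L.ext H (Lk n (n - 1))]
      · exact Lk_zero L (n - 1) (by omega) (by omega)
      · intro v hv hvn
        unfold Lk
        split_ifs with h3
        · exact hpre v hv (by omega)
        · have h4 := hH.1 v hv hvn
          have : v = n - 1 ∨ v = n := by omega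
          rcases this with h5 | h5
          · subst h5; omega
          · subst h5; omega
  | succ d ihd =>
    intro k hk hk1
    -- induction on `H k`
    have key : ∀ m : ℕ, ∀ H, Hs n H → (∀ v, 1 ≤ v → v < k → H v = v + 1) → H k ≤ m → D H = 0 := by
      intro m
      induction m with
      | zero =>
        intro H hH _ hm
        have := hH.1 k hk1 (by omega)
        omega
      | succ m ihm =>
        intro H hH hpre hm
        have h1 := hH.1 k hk1 (by omega)
        by_cases h2 : H k = k
        · exact L.disc H hH k hk1 (by omega) h2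
        by_cases h3 : H k = k + 1
        · apply ihd (k + 1) (by omega) (by omega) H hH
          intro v hv hvk
          by_cases h4 : v = k
          · subst h4; exact h3
          · exact hpre v hv (by omega)
        by_cases h4 : H k ≤ m
        · exact ihm H hH hpre h4
        have h5 : H k = m + 1 := by omega
        apply lemmaS L (n - H k) (H k) le_rfl (by omega) (by omega) H
        · intro v hv1 hv2
          by_cases hvk : v < k
          · rw [hpre v hv1 hvk]; omega
          · have := hH.mono (a := k) (b := v) hk1 (by omega) (by omega)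
            omega
        · intro H' hH' hHp' heq
          have hk' : H' k = H k := hHp' k hk1 (by omega)
          set e := H k with he
          have hj1 : e - 1 + 1 = e := by omega
          have e2 : update H' k (e - 1 + 1) = H' := by
            rw [hj1, ← hk', update_eq_self]
          have hmon : k < n → e ≤ H' (k + 1) := by
            intro hlt
            have := hH'.2 k (by omega) hlt
            omega
          have hpre' : ∀ v, 1 ≤ v → v < k → H' v = v + 1 := by
            intro v hv hvk
            rw [hHp' v hv (by omega)]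
            exact hpre v hv hvk
          have hs : ∀ x, k ≤ x → x ≤ e → Hs n (update H' k x) := by
            intro x hx hxe
            apply hH'.update hx (by omega)
            · intro v hv hv1
              rw [hpre' v hv1 (by omega)]; omega
            · intro hlt; have := hmon hlt; omega
          have hlaw := L.typeI H' k (e - 1) hk1 (by omega) (by omega)
            (by rw [hj1]; exact heq) (hs _ (by omega) (by omega)) (by rw [e2]; exact hH')
          rw [e2] at hlaw
          have z1 : D (update H' k (e - 1)) = 0 := by
            apply ihm _ (hs _ (by omega) (by omega))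
            · intro v hv hvk
              rw [update_of_ne (by omega)]
              exact hpre' v hv hvk
            · rw [update_self]; omega
          have z0 : D (update H' k (e - 1 - 1)) = 0 := by
            apply ihm _ (hs _ (by omega) (by omega))
            · intro v hv hvk
              rw [update_of_ne (by omega)]
              exact hpre' v hv hvk
            · rw [update_self]; omega
          rw [z0, z1, mul_zero, mul_zero, zero_add] at hlaw
          exact hlaw.symm
        · exact hH
        · intro v _ _; rfl
    intro H hH hpre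
    exact key _ H hH hpre le_rfl

/-- uniqueness: the laws force `D = 0`. -/
theorem laws_unique (L : Laws n N D) : ∀ H, Hs n H → D H = 0 := by
  intro H hH
  by_cases hn : 2 ≤ n
  · exact prefix_zero L hn (n - 2) 1 (by omega) le_rfl H hH (fun v hv hv1 => by omega)
  · rw [L.ext H (fun _ => n)]
    · exact L.compl
    · intro v hv hvn
      have := hH.1 v hv hvn
      show H v = n
      omega

end

end Crest.Agent.R059
end

-- ▼ part R059/Prod
section

set_option autoImplicit false

open Crest.CombinatoricsR.UnitInterval

namespace Crest.Agent.R059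

section general

variable {V W : Type*} [Fintype V] [DecidableEq V] [Fintype W] [DecidableEq W]

/-- edges of a disjoint union. -/
def sumE (E : Finset (V × V)) (F : Finset (W × W)) : Finset ((V ⊕ W) × (V ⊕ W)) :=
  E.image (fun p => (Sum.inl p.1, Sum.inl p.2)) ∪ F.image (fun p => (Sum.inr p.1, Sum.inr p.2))

theorem prod_sumE (E : Finset (V × V)) (F : Finset (W × W)) {M : Type*} [CommMonoid M]
    (u : (V ⊕ W) → (V ⊕ W) → M) :
    ∏ p ∈ sumE E F, u p.1 p.2 = (∏ p ∈ E, u (Sum.inl p.1) (Sum.inl p.2)) *
      ∏ p ∈ F, u (Sum.inr p.1) (Sum.inr p.2) := by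
  classical
  unfold sumE
  rw [Finset.prod_union, Finset.prod_image, Finset.prod_image]
  · intro p _ q _ h
    simpa [Prod.ext_iff] using h
  · intro p _ q _ h
    simpa [Prod.ext_iff] using h
  · rw [Finset.disjoint_left]
    intro p hp hq
    simp only [Finset.mem_image] at hp hq
    obtain ⟨a, _, rfl⟩ := hp
    obtain ⟨b, _, hb⟩ := hq
    simp at hb

theorem chromE_sumE (E : Finset (V × V)) (F : Finset (W × W)) (N : ℕ) :
    chromE (sumE E F) N = chromE E N * chromE F N := by
  classical
  unfold chromE
  rw [Finset.sum_mul_sum, ← Finset.sum_product']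
  simp only [Finset.univ_product_univ]
  symm
  apply Fintype.sum_equiv (Equiv.sumArrowEquivProdArrow V W (Fin N)).symm
  rintro ⟨f, g⟩
  simp only
  have h1 := prod_sumE E F (M := Polynomial ℤ)
    (fun a b => w (((Equiv.sumArrowEquivProdArrow V W (Fin N)).symm (f, g)) a)
      (((Equiv.sumArrowEquivProdArrow V W (Fin N)).symm (f, g)) b))
  rw [h1, Fintype.prod_sum_type]
  simp only [Equiv.sumArrowEquivProdArrow_symm_apply_inl,
    Equiv.sumArrowEquivProdArrow_symm_apply_inr, map_mul]
  ring

theorem chromE_equiv (e : V ≃ W) (E : Finset (V × V)) (F : Finset (W × W))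
    (h : ∀ a b : V, (a, b) ∈ E ↔ (e a, e b) ∈ F) (N : ℕ) : chromE F N = chromE E N := by
  classical
  rw [← chromE_map e E N]
  congr 1
  ext ⟨a, b⟩
  simp only [Finset.mem_map_equiv, Equiv.prodCongr_symm]
  rw [show ((e.symm.prodCongr e.symm) (a, b)) = (e.symm a, e.symm b) from rfl, h]
  simp

end general

variable {m k : ℕ}

/-- multiplicativity at a cut. -/
theorem chromatic_cut (h : Fin (m + k) → ℕ) (h1 : Fin m → ℕ) (h2 : Fin k → ℕ)
    (v1 : ∀ a : Fin m, h1 a = h (Fin.castAdd k a)) (v2 : ∀ a : Fin k, h2 a + m = h (Fin.natAdd m a))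
    (hcut : ∀ a : Fin m, h (Fin.castAdd k a) ≤ m) (N : ℕ) :
    chromaticQSym h N = chromaticQSym h1 N * chromaticQSym h2 N := by
  classical
  rw [chromaticQSym_eq, chromaticQSym_eq, chromaticQSym_eq, ← chromE_sumE]
  apply chromE_equiv finSumFinEquiv
  intro a b
  rw [mem_edges]
  unfold sumE
  simp only [Finset.mem_union, Finset.mem_image, Prod.mk.injEq, Prod.exists]
  rcases a with a | a <;> rcases b with b | b
  · simp only [Sum.inl.injEq, reduceCtorEq, and_false, exists_false, or_false, false_and,
      finSumFinEquiv_apply_left]
    constructor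
    · rintro ⟨a', b', h3, rfl, rfl⟩
      rw [mem_edges] at h3
      refine ⟨h3.1, ?_⟩
      rw [← v1]
      simpa using h3.2
    · rintro ⟨h3, h4⟩
      refine ⟨a, b, ?_, rfl, rfl⟩
      rw [mem_edges]
      rw [← v1] at h4
      exact ⟨h3, by simpa using h4⟩
  · simp only [Sum.inl.injEq, reduceCtorEq, and_false, exists_false, or_false, false_and,
      finSumFinEquiv_apply_left, finSumFinEquiv_apply_right, false_iff, not_and, not_le]
    intro _
    have := hcut a
    simp only [Fin.val_natAdd]
    omega
  · simp only [reduceCtorEq, and_false, exists_false, or_false, false_and,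
      finSumFinEquiv_apply_left, finSumFinEquiv_apply_right, false_iff, not_and, not_le]
    intro h3
    exfalso
    rw [Fin.lt_def] at h3
    simp only [Fin.val_natAdd, Fin.val_castAdd] at h3
    have := b.isLt
    omega
  · simp only [Sum.inr.injEq, reduceCtorEq, and_false, exists_false, false_or, false_and,
      finSumFinEquiv_apply_right]
    constructor
    · rintro ⟨a', b', h3, rfl, rfl⟩
      rw [mem_edges] at h3
      refine ⟨by simpa using h3.1, ?_⟩
      rw [← v2]
      have := h3.2
      simp only [Fin.val_natAdd] at this ⊢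
      omega
    · rintro ⟨h3, h4⟩
      refine ⟨a, b, ?_, rfl, rfl⟩
      rw [mem_edges]
      rw [← v2] at h4
      simp only [Fin.val_natAdd] at h4
      exact ⟨by simpa using h3, by show b.val + 1 ≤ h2 a; omega⟩

/-- complete graphs: `X = (∑_σ q^ginv) e_n`. -/
theorem chromatic_complete {n : ℕ} (h : Fin n → ℕ) (hn : ∀ i, h i = n) (N : ℕ) :
    chromaticQSym h N = MvPolynomial.C (∑ σ : Equiv.Perm (Fin n),
      (Polynomial.X : Polynomial ℤ) ^ ginv h σ) * MvPolynomial.esymm (Fin N) (Polynomial ℤ) n := by
  classical
  have hm : Monotone h := by intro a b _; rw [hn, hn]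
  have hedge : ∀ a b : Fin n, a ≠ b → IsEdge h a b := by
    intro a b hab
    unfold IsEdge
    rcases lt_or_gt_of_ne hab with h1 | h1
    · left; refine ⟨h1, ?_⟩; rw [hn]; exact b.isLt
    · right; refine ⟨h1, ?_⟩; rw [hn]; exact a.isLt
  unfold chromaticQSym
  rw [sum_proper hm, map_sum, Finset.sum_mul]
  apply Finset.sum_congr rfl
  intro σ _
  have hcompat : ∀ g : Fin n → Fin N, Compat h σ g ↔ StrictAnti g := by
    intro g
    constructor
    · intro hc i j hij
      rcases hc.lt hm i j hij with h1 | ⟨_, h2, h3⟩
      · exact h1
      · exact absurd (hedge _ _ h2.ne) h3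
    · intro hg i j hij
      left
      apply hg
      rw [Fin.lt_def]; omega
  have h1 : ∑ g ∈ (Finset.univ : Finset (Fin n → Fin N)).filter (fun g => Compat h σ g),
      (MvPolynomial.C ((Polynomial.X : Polynomial ℤ) ^ ascents h (fun a => g (σ.symm a))) *
        ∏ a : Fin n, (MvPolynomial.X (g (σ.symm a)) : MvPolynomial (Fin N) (Polynomial ℤ))) =
      ∑ g ∈ (Finset.univ : Finset (Fin n → Fin N)).filter (fun g => StrictAnti g),
      (MvPolynomial.C ((Polynomial.X : Polynomial ℤ) ^ ginv h σ) *
        ∏ a : Fin n, (MvPolynomial.X (g a) : MvPolynomial (Fin N) (Polynomial ℤ))) := by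
    apply Finset.sum_congr
    · ext g
      simp only [Finset.mem_filter, Finset.mem_univ, true_and]
      exact hcompat g
    · intro g hg
      simp only [Finset.mem_filter, Finset.mem_univ, true_and] at hg
      rw [((hcompat g).2 hg).ascents_eq hm]
      congr 1
      exact Equiv.prod_comp σ.symm (fun a => MvPolynomial.X (g a))
  rw [h1, ← Finset.mul_sum]
  congr 1
  unfold MvPolynomial.esymm
  apply Finset.sum_bij (fun (g : Fin n → Fin N) _ => Finset.univ.image g)
  · intro g hg
    simp only [Finset.mem_filter, Finset.mem_univ, true_and] at hg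
    rw [Finset.mem_powersetCard]
    refine ⟨Finset.subset_univ _, ?_⟩
    rw [Finset.card_image_of_injective _ hg.injective]
    simp
  · intro f hf g hg heq
    simp only [Finset.mem_filter, Finset.mem_univ, true_and] at hf hg
    have hr : Set.range f = Set.range g := by
      have := congrArg (fun s : Finset (Fin N) => (s : Set (Fin N))) heq
      simpa using this
    have h2 : (fun i => OrderDual.toDual (f i)) = (fun i => OrderDual.toDual (g i)) := by
      apply (StrictMono.range_inj (f := fun i => OrderDual.toDual (f i))
        (g := fun i => OrderDual.toDual (g i)) ?_ ?_).1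
      · exact congrArg (fun s : Set (Fin N) => (OrderDual.toDual '' s)) hr |> fun h => by
          simpa [← Set.range_comp, Function.comp_def] using h
      · intro a b hab; exact hf hab
      · intro a b hab; exact hg hab
    funext i
    exact OrderDual.toDual.injective (congrFun h2 i)
  · intro s hs
    rw [Finset.mem_powersetCard] at hs
    refine ⟨fun i => s.orderEmbOfFin hs.2 i.rev, ?_, ?_⟩
    · simp only [Finset.mem_filter, Finset.mem_univ, true_and]
      intro a b hab
      exact (s.orderEmbOfFin hs.2).strictMono (Fin.rev_lt_rev.2 hab)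
    · apply Finset.coe_injective
      rw [Finset.coe_image, Finset.coe_univ, Set.image_univ]
      have : Set.range (fun i => s.orderEmbOfFin hs.2 (Fin.rev i)) =
          Set.range (s.orderEmbOfFin hs.2) := by
        ext x
        simp only [Set.mem_range]
        constructor
        · rintro ⟨y, rfl⟩; exact ⟨y.rev, rfl⟩
        · rintro ⟨y, rfl⟩; exact ⟨y.rev, by rw [Fin.rev_rev]⟩
      rw [this]
      simp
  · intro g hg
    simp only [Finset.mem_filter, Finset.mem_univ, true_and] at hg
    rw [Finset.prod_image]
    intro a _ b _ hab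
    exact hg.injective hab


theorem EP_cut (h : Fin (m + k) → ℕ) (h1 : Fin m → ℕ) (h2 : Fin k → ℕ)
    (v1 : ∀ a : Fin m, h1 a = h (Fin.castAdd k a)) (v2 : ∀ a : Fin k, h2 a + m = h (Fin.natAdd m a))
    (hcut : ∀ a : Fin m, h (Fin.castAdd k a) ≤ m)
    (H1 : EP m (fun N => chromaticQSym h1 N)) (H2 : EP k (fun N => chromaticQSym h2 N)) :
    EP (m + k) (fun N => chromaticQSym h N) :=
  (H1.mul H2).congr rfl (fun N => chromatic_cut h h1 h2 v1 v2 hcut N)

end Crest.Agent.R059
end

-- ▼ part R059/Modular2
section

set_option autoImplicit false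

open Crest.CombinatoricsR.UnitInterval

namespace Crest.Agent.R059

variable {n : ℕ}

/-- second type, for Hessenberg functions.  `j, k = j+1` are consecutive vertices with the same left
neighbours, `i > k`; off `j,k` the functions agree; `h0 = (i,i)`, `h1 = (i,i+1)`, `h2 = (i+1,i+1)`
on `(j,k)`. -/
theorem modular_typeII {h0 h1 h2 : Fin n → ℕ} (j k i : Fin n) (hk : k.val = j.val + 1) (hki : k < i)
    (v0j : h0 j = i.val) (v0k : h0 k = i.val) (v1j : h1 j = i.val) (v1k : h1 k = i.val + 1)
    (v2j : h2 j = i.val + 1) (v2k : h2 k = i.val + 1)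
    (off1 : ∀ a, a ≠ j → a ≠ k → h1 a = h0 a) (off2 : ∀ a, a ≠ j → a ≠ k → h2 a = h0 a)
    (hleft : ∀ a : Fin n, h0 a ≠ k.val) (N : ℕ) :
    MvPolynomial.C (1 + Polynomial.X) * chromaticQSym h1 N =
      MvPolynomial.C Polynomial.X * chromaticQSym h0 N + chromaticQSym h2 N := by
  classical
  have hkilt : k.val < i.val := hki
  have hne : j ≠ k := by
    intro h; rw [← h] at hk; omega
  have hij : i ≠ j := by
    intro h; rw [h] at hkilt; omega
  have hik : i ≠ k := by
    intro h; rw [h] at hkilt; omega
  set E : Finset (Fin n × Fin n) := (edges h0).erase (j, k) with hEdef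
  have hjkE : (j, k) ∉ E := by simp [hEdef]
  have hijE : (j, i) ∉ E := by
    simp only [hEdef, Finset.mem_erase, mem_edges, not_and]
    intro _ _
    simp only [v0j]; omega
  have hikE : (k, i) ∉ E := by
    simp only [hEdef, Finset.mem_erase, mem_edges, not_and]
    intro _ _
    simp only [v0k]; omega
  have e0 : insert (j, k) E = edges h0 := by
    rw [hEdef, Finset.insert_erase]
    rw [mem_edges]
    simp only [Fin.lt_def, v0j]
    omega
  have e1 : insert (j, k) (insert (k, i) E) = edges h1 := by
    ext ⟨a, b⟩
    simp only [Finset.mem_insert, hEdef, Finset.mem_erase, mem_edges, Prod.mk.injEq, ne_eq]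
    by_cases ha : a = j
    · rw [ha, v0j, v1j]
      simp only [Fin.lt_def, Fin.ext_iff, true_and]
      omega
    · by_cases ha2 : a = k
      · rw [ha2, v0k, v1k]
        simp only [Fin.lt_def, Fin.ext_iff, true_and]
        omega
      · rw [off1 a ha ha2]
        have ha' : a.val ≠ j.val := fun h => ha (Fin.ext h)
        have ha2' : a.val ≠ k.val := fun h => ha2 (Fin.ext h)
        simp only [Fin.lt_def, Fin.ext_iff]
        omega
  have e2 : insert (j, k) (insert (k, i) (insert (j, i) E)) = edges h2 := by
    ext ⟨a, b⟩
    simp only [Finset.mem_insert, hEdef, Finset.mem_erase, mem_edges, Prod.mk.injEq, ne_eq]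
    by_cases ha : a = j
    · rw [ha, v0j, v2j]
      simp only [Fin.lt_def, Fin.ext_iff, true_and]
      omega
    · by_cases ha2 : a = k
      · rw [ha2, v0k, v2k]
        simp only [Fin.lt_def, Fin.ext_iff, true_and]
        omega
      · rw [off2 a ha ha2]
        have ha' : a.val ≠ j.val := fun h => ha (Fin.ext h)
        have ha2' : a.val ≠ k.val := fun h => ha2 (Fin.ext h)
        simp only [Fin.lt_def, Fin.ext_iff]
        omega
  have hinv : ∀ p : Fin n × Fin n, p ∈ E → (Equiv.swap j k p.1, Equiv.swap j k p.2) ∈ E := by
    rintro ⟨a, b⟩ hp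
    simp only [hEdef, Finset.mem_erase, mem_edges, ne_eq, Prod.mk.injEq] at hp ⊢
    obtain ⟨hp1, hp2, hp3⟩ := hp
    have hp2' : a.val < b.val := hp2
    have hp3' : b.val + 1 ≤ h0 a := hp3
    by_cases haj : a = j
    · subst haj
      have hbk : b ≠ k := by
        intro h; exact hp1 ⟨rfl, h⟩
      have hbj : b ≠ a := hp2.ne'
      rw [Equiv.swap_apply_left, Equiv.swap_apply_of_ne_of_ne hbj hbk]
      have hbk' : b.val ≠ k.val := fun h => hbk (Fin.ext h)
      refine ⟨?_, ?_, ?_⟩
      · rintro ⟨h, _⟩; exact hne h.symm
      · rw [Fin.lt_def]; omega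
      · show b.val + 1 ≤ h0 k
        rw [v0k]; rw [v0j] at hp3'; exact hp3'
    · by_cases hak : a = k
      · subst hak
        have hba : b ≠ a := hp2.ne'
        have hbj : b ≠ j := by
          intro h; rw [h] at hp2'; omega
        rw [Equiv.swap_apply_right, Equiv.swap_apply_of_ne_of_ne hbj hba]
        refine ⟨?_, ?_, ?_⟩
        · rintro ⟨_, h⟩; exact hba h
        · rw [Fin.lt_def]; omega
        · show b.val + 1 ≤ h0 j
          rw [v0j]; rw [v0k] at hp3'; exact hp3'
      · rw [Equiv.swap_apply_of_ne_of_ne haj hak]
        have haj' : a.val ≠ j.val := fun h => haj (Fin.ext h)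
        have hal := hleft a
        by_cases hbj : b = j
        · subst hbj
          rw [Equiv.swap_apply_left]
          refine ⟨?_, ?_, ?_⟩
          · rintro ⟨h, _⟩; exact haj h
          · rw [Fin.lt_def]; omega
          · show k.val + 1 ≤ h0 a
            omega
        · by_cases hbk : b = k
          · subst hbk
            rw [Equiv.swap_apply_right]
            refine ⟨?_, ?_, ?_⟩
            · rintro ⟨h, _⟩; exact haj h
            · rw [Fin.lt_def]; omega
            · show j.val + 1 ≤ h0 a
              omega
          · rw [Equiv.swap_apply_of_ne_of_ne hbj hbk]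
            exact ⟨hp1, hp2, hp3⟩
  rw [chromaticQSym_eq, chromaticQSym_eq, chromaticQSym_eq, ← e0, ← e1, ← e2]
  exact modular2 E i j k hij hik hne hjkE hijE hikE hinv N

end Crest.Agent.R059
end

-- ▼ part R059/Assemble
section

set_option autoImplicit false

open Crest.CombinatoricsR.UnitInterval

namespace Crest.Agent.R059

open Function

/-- a family of polynomials attached to all Hessenberg functions. -/
abbrev HFam : Type := ∀ (n : ℕ), (Fin n → ℕ) → ∀ N : ℕ, MvPolynomial (Fin N) (Polynomial ℤ)

/-- the laws that characterise `chromaticQSym`. -/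
structure FLaws (F : HFam) : Prop where
  typeI : ∀ (n : ℕ) (h0 h1 h2 : Fin n → ℕ), IsHessenberg h0 → IsHessenberg h1 → IsHessenberg h2 →
    ∀ i j k : Fin n, k.val = j.val + 1 → h0 i = j.val → h1 i = j.val + 1 → h2 i = j.val + 2 →
    (∀ a, a ≠ i → h1 a = h0 a) → (∀ a, a ≠ i → h2 a = h0 a) → h0 j = h0 k → ∀ N : ℕ,
    MvPolynomial.C (1 + Polynomial.X) * F n h1 N =
      MvPolynomial.C Polynomial.X * F n h0 N + F n h2 N
  typeII : ∀ (n : ℕ) (h0 h1 h2 : Fin n → ℕ), IsHessenberg h0 → IsHessenberg h1 → IsHessenberg h2 →
    ∀ j k i : Fin n, k.val = j.val + 1 → k < i →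
    h0 j = i.val → h0 k = i.val → h1 j = i.val → h1 k = i.val + 1 →
    h2 j = i.val + 1 → h2 k = i.val + 1 →
    (∀ a, a ≠ j → a ≠ k → h1 a = h0 a) → (∀ a, a ≠ j → a ≠ k → h2 a = h0 a) →
    (∀ a : Fin n, h0 a ≠ k.val) → ∀ N : ℕ,
    MvPolynomial.C (1 + Polynomial.X) * F n h1 N =
      MvPolynomial.C Polynomial.X * F n h0 N + F n h2 N
  cut : ∀ (m k : ℕ) (h : Fin (m + k) → ℕ) (h1 : Fin m → ℕ) (h2 : Fin k → ℕ), 0 < m → 0 < k →
    IsHessenberg h → IsHessenberg h1 → IsHessenberg h2 →
    (∀ a : Fin m, h1 a = h (Fin.castAdd k a)) → (∀ a : Fin k, h2 a + m = h (Fin.natAdd m a)) →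
    (∀ a : Fin m, h (Fin.castAdd k a) ≤ m) → ∀ N : ℕ, F (m + k) h N = F m h1 N * F k h2 N
  complete : ∀ (n : ℕ) (h : Fin n → ℕ), (∀ i, h i = n) → ∀ N : ℕ, F n h N = chromaticQSym h N

/-- `H : ℕ → ℕ` (vertices `1..n`) as a function on `Fin n`. -/
def toFin (n : ℕ) (H : ℕ → ℕ) : Fin n → ℕ := fun a => H (a.val + 1)

theorem toFin_hess {n : ℕ} {H : ℕ → ℕ} (hH : Hs n H) : IsHessenberg (toFin n H) := by
  constructor
  · intro a b hab
    exact hH.mono (by omega) (by have : a.val ≤ b.val := hab; omega) (by have := b.isLt; omega)
  · intro a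
    exact hH.1 (a.val + 1) (by omega) (by have := a.isLt; omega)

theorem toFin_update_of_ne {n : ℕ} {H : ℕ → ℕ} {i x : ℕ} (a : Fin n) (h : a.val + 1 ≠ i) :
    toFin n (update H i x) a = H (a.val + 1) := by
  unfold toFin; rw [update_of_ne h]

theorem toFin_update_eq {n : ℕ} {H : ℕ → ℕ} {i x : ℕ} (a : Fin n) (h : a.val + 1 = i) :
    toFin n (update H i x) a = x := by
  unfold toFin; rw [h, update_self]

/-- back to functions on `ℕ`. -/
def ofFin {n : ℕ} (h : Fin n → ℕ) : ℕ → ℕ := fun v => if hv : v - 1 < n then h ⟨v - 1, hv⟩ else 0

theorem toFin_ofFin {n : ℕ} (h : Fin n → ℕ) : toFin n (ofFin h) = h := by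
  funext a
  unfold toFin ofFin
  have : a.val + 1 - 1 < n := by have := a.isLt; omega
  rw [dif_pos this]
  congr 1

theorem Hs_ofFin {n : ℕ} {h : Fin n → ℕ} (hh : IsHessenberg h) : Hs n (ofFin h) := by
  constructor
  · intro v hv hvn
    unfold ofFin
    rw [dif_pos (by omega)]
    have := hh.2 ⟨v - 1, by omega⟩
    simp only at this
    omega
  · intro v hv hvn
    unfold ofFin
    rw [dif_pos (by omega), dif_pos (by omega)]
    apply hh.1
    rw [Fin.le_def]
    simp only
    omega





end Crest.Agent.R059
end

-- ▼ part R059/QFact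
section

set_option autoImplicit false

open Crest.CombinatoricsR.UnitInterval

namespace Crest.Agent.R059

/-- the number of inversions of a permutation, as a double sum. -/
def invs {n : ℕ} (σ : Fin n → Fin n) : ℕ :=
  ∑ i : Fin n, ∑ j : Fin n, if (i < j ∧ σ j < σ i) then 1 else 0

/-- `p` followed by the word of `e` (relabelled). -/
def consFun {n : ℕ} (p : Fin (n + 1)) (e : Equiv.Perm (Fin n)) : Fin (n + 1) → Fin (n + 1) :=
  Fin.cons p (fun i => p.succAbove (e i))

theorem consFun_injective {n : ℕ} (p : Fin (n + 1)) (e : Equiv.Perm (Fin n)) :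
    Function.Injective (consFun p e) := by
  unfold consFun
  rw [Fin.cons_injective_iff]
  constructor
  · rintro ⟨i, hi⟩
    exact Fin.succAbove_ne p (e i) hi
  · exact Fin.succAbove_right_injective.comp e.injective

noncomputable def consPerm {n : ℕ} (p : Fin (n + 1)) (e : Equiv.Perm (Fin n)) :
    Equiv.Perm (Fin (n + 1)) :=
  Equiv.ofBijective (consFun p e) (Finite.injective_iff_bijective.1 (consFun_injective p e))

theorem consPerm_zero {n : ℕ} (p : Fin (n + 1)) (e : Equiv.Perm (Fin n)) :
    consPerm p e 0 = p := by
  simp [consPerm, consFun]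

theorem consPerm_succ {n : ℕ} (p : Fin (n + 1)) (e : Equiv.Perm (Fin n)) (i : Fin n) :
    consPerm p e i.succ = p.succAbove (e i) := by
  simp [consPerm, consFun]

theorem consPerm_injective (n : ℕ) :
    Function.Injective (fun x : Fin (n + 1) × Equiv.Perm (Fin n) => consPerm x.1 x.2) := by
  rintro ⟨p, e⟩ ⟨p', e'⟩ h
  simp only at h
  have h0 : p = p' := by
    have := congrArg (fun σ : Equiv.Perm (Fin (n + 1)) => σ 0) h
    simpa [consPerm_zero] using this
  subst h0
  have h1 : e = e' := by
    ext i
    have := congrArg (fun σ : Equiv.Perm (Fin (n + 1)) => σ i.succ) h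
    simp only [consPerm_succ] at this
    rw [Fin.succAbove_right_injective this]
  rw [h1]

theorem consPerm_bijective (n : ℕ) :
    Function.Bijective (fun x : Fin (n + 1) × Equiv.Perm (Fin n) => consPerm x.1 x.2) := by
  rw [Fintype.bijective_iff_injective_and_card]
  refine ⟨consPerm_injective n, ?_⟩
  rw [Fintype.card_prod, Fintype.card_perm, Fintype.card_perm]
  simp [Nat.factorial_succ]

theorem invs_consPerm {n : ℕ} (p : Fin (n + 1)) (e : Equiv.Perm (Fin n)) :
    invs (consPerm p e) = p.val + invs e := by
  unfold invs
  rw [Fin.sum_univ_succ]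
  congr 1
  · rw [Fin.sum_univ_succ]
    simp only [lt_self_iff_false, false_and, if_false, zero_add, Fin.succ_pos, true_and,
      consPerm_zero, consPerm_succ]
    have h1 : ∀ j : Fin n, (p.succAbove (e j) < p) ↔ (e j).val < p.val := by
      intro j
      rw [Fin.succAbove_lt_iff_castSucc_lt, Fin.lt_def]
      simp
    simp only [h1]
    have h2 : ∑ x : Fin n, (if (e x).val < p.val then 1 else 0) =
        ∑ x : Fin n, (if x.val < p.val then 1 else 0) :=
      Equiv.sum_comp e (fun x : Fin n => if x.val < p.val then 1 else 0)
    rw [h2, ← Finset.card_filter]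
    have h3 : p.val ≤ n := by have := p.isLt; omega
    have h4 : (Finset.univ.filter (fun x : Fin n => x.val < p.val)) =
        (Finset.univ : Finset (Fin p.val)).map (Fin.castLEEmb h3) := by
      ext x
      simp only [Finset.mem_filter, Finset.mem_univ, true_and, Finset.mem_map,
        Fin.castLEEmb_apply]
      constructor
      · intro hx
        exact ⟨⟨x.val, hx⟩, by ext; simp⟩
      · rintro ⟨y, rfl⟩
        simp
    rw [h4, Finset.card_map, Finset.card_univ, Fintype.card_fin]
  · apply Finset.sum_congr rfl
    intro i _
    rw [Fin.sum_univ_succ]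
    simp only [Fin.not_lt_zero, false_and, if_false, zero_add, Fin.succ_lt_succ_iff,
      consPerm_succ]
    apply Finset.sum_congr rfl
    intro j _
    have : (p.succAbove (e j) < p.succAbove (e i)) ↔ e j < e i :=
      (Fin.strictMono_succAbove p).lt_iff_lt
    simp only [this]

/-- `∑_σ q^{inv σ} = [n]!`. -/
theorem sum_q_invs {R : Type*} [CommRing R] (q : R) : ∀ n : ℕ,
    ∑ σ : Equiv.Perm (Fin n), q ^ invs σ =
      ∏ i ∈ Finset.range n, ∑ k ∈ Finset.range (i + 1), q ^ k := by
  intro n
  induction n with
  | zero => simp [invs]
  | succ n ih =>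
    rw [← Function.Bijective.sum_comp (consPerm_bijective n) (fun σ => q ^ invs σ),
      Fintype.sum_prod_type]
    simp only [invs_consPerm, pow_add]
    rw [Finset.prod_range_succ, ← ih]
    simp only [← Finset.mul_sum, ← Finset.sum_mul]
    rw [mul_comm, Finset.sum_range (fun i => q ^ i)]

theorem ginv_eq_invs {n : ℕ} (h : Fin n → ℕ) (hn : ∀ i, h i = n) (σ : Equiv.Perm (Fin n)) :
    ginv h σ = invs σ := by
  classical
  unfold ginv invs
  rw [Finset.card_filter, ← Finset.univ_product_univ, Finset.sum_product]
  apply Finset.sum_congr rfl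
  intro i _
  apply Finset.sum_congr rfl
  intro j _
  have : (i < j ∧ σ j < σ i ∧ IsEdge h (σ i) (σ j)) ↔ (i < j ∧ σ j < σ i) := by
    constructor
    · rintro ⟨h1, h2, _⟩; exact ⟨h1, h2⟩
    · rintro ⟨h1, h2⟩
      refine ⟨h1, h2, Or.inr ⟨h2, ?_⟩⟩
      rw [hn]; exact (σ i).isLt
  simp only [this]

/-- complete graphs: `X = [n]! e_n`. -/
theorem chromatic_complete' {n : ℕ} (h : Fin n → ℕ) (hn : ∀ i, h i = n) (N : ℕ) :
    chromaticQSym h N = MvPolynomial.C (∏ i ∈ Finset.range n, ∑ k ∈ Finset.range (i + 1),
      (Polynomial.X : Polynomial ℤ) ^ k) * MvPolynomial.esymm (Fin N) (Polynomial ℤ) n := by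
  rw [chromatic_complete h hn]
  congr 2
  rw [← sum_q_invs]
  apply Finset.sum_congr rfl
  intro σ _
  rw [ginv_eq_invs h hn]

end Crest.Agent.R059
end

-- ▼ part R059/UniqGen
section

set_option autoImplicit false

open Crest.CombinatoricsR.UnitInterval

/-! General uniqueness: the laws over a commutative domain `A` with an element `q`
(all `[m]_q ≠ 0`, `m ≥ 1`) force `D = 0`.  Same proof as `R059/Uniq.lean`. -/

namespace Crest.Agent.R059.Gen

open Function Crest.Agent.R059

/-- the linear laws (difference of two solutions), values in `A`. -/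
structure Laws {A : Type*} [CommRing A] (q : A) (n : ℕ) (D : (ℕ → ℕ) → A) : Prop where
  ext : ∀ H H' : ℕ → ℕ, (∀ v, 1 ≤ v → v ≤ n → H v = H' v) → D H = D H'
  typeI : ∀ (H : ℕ → ℕ) (i j : ℕ), 1 ≤ i → i < j → j + 1 ≤ n → H j = H (j + 1) →
    Hs n (update H i (j - 1)) → Hs n (update H i (j + 1)) →
    (1 + q) * D (update H i j) = q * D (update H i (j - 1)) + D (update H i (j + 1))
  typeII : ∀ (H : ℕ → ℕ) (t b : ℕ), 1 ≤ t → t + 1 ≤ b → b + 1 ≤ n →
    (∀ v, 1 ≤ v → v ≤ n → v ≠ t → v ≠ t + 1 → H v ≠ t) →
    Hs n (update (update H t b) (t + 1) b) →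
    Hs n (update (update H t (b + 1)) (t + 1) (b + 1)) →
    (1 + q) * D (update (update H t b) (t + 1) (b + 1)) =
      q * D (update (update H t b) (t + 1) b) +
        D (update (update H t (b + 1)) (t + 1) (b + 1))
  disc : ∀ H, Hs n H → ∀ v, 1 ≤ v → v < n → H v = v → D H = 0
  compl : D (fun _ => n) = 0

/-- `[m]_q`. -/
def qz {A : Type*} [CommRing A] (q : A) (m : ℕ) : A := ∑ i ∈ Finset.range m, q ^ i

theorem qz_rec {A : Type*} [CommRing A] (q : A) (m : ℕ) :
    qz q (m + 2) = (1 + q) * qz q (m + 1) - q * qz q m := by
  unfold qz
  rw [Finset.sum_range_succ, Finset.sum_range_succ]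
  ring

section

variable {A : Type*} [CommRing A] [IsDomain A] {q : A} {n : ℕ} {D : (ℕ → ℕ) → A}

theorem zero_of_one_add (hq : ∀ m, 1 ≤ m → qz q m ≠ 0) {x : A}
    (h : (1 + q) * x = 0) : x = 0 := by
  have h2 : (1 + q) ≠ 0 := by
    have := hq 2 (by omega)
    simpa [qz, Finset.sum_range_succ] using this
  exact (mul_eq_zero.1 h).resolve_left h2

theorem lemmaS (L : Laws q n D) (hq : ∀ m, 1 ≤ m → qz q m ≠ 0) : ∀ (m c : ℕ), n - c ≤ m → 2 ≤ c → c ≤ n → ∀ p : ℕ → ℕ,
    (∀ v, 1 ≤ v → v + 2 ≤ c → p v ≠ c - 1) →
    (∀ H, Hs n H → (∀ v, 1 ≤ v → v + 2 ≤ c → H v = p v) → H (c - 1) = H c → D H = 0) →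
    ∀ H, Hs n H → (∀ v, 1 ≤ v → v + 2 ≤ c → H v = p v) → D H = 0 := by
  intro m
  induction m with
  | zero =>
    intro c hnc h2 hcn p hp hz H hH hHp
    have hc : c = n := by omega
    by_cases h1 : H (c - 1) = c - 1
    · exact L.disc H hH (c - 1) (by omega) (by omega) h1
    · have h3 := hH.1 (c - 1) (by omega) (by omega)
      have h4 := hH.1 c (by omega) (by omega)
      exact hz H hH hHp (by omega)
  | succ m ihm =>
    intro c hnc h2 hcn p hp hz
    have key : ∀ g : ℕ, ∀ H, Hs n H → (∀ v, 1 ≤ v → v + 2 ≤ c → H v = p v) →
        H c - H (c - 1) ≤ g → D H = 0 := by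
      intro g
      induction g with
      | zero =>
        intro H hH hHp hg
        have h5 : H (c - 1) ≤ H c := hH.mono (by omega) (by omega) hcn
        exact hz H hH hHp (by omega)
      | succ g ihg =>
        intro H hH hHp hg
        have h3 := hH.1 (c - 1) (by omega) (by omega)
        have h4 := hH.1 c (by omega) (by omega)
        have h5 : H (c - 1) ≤ H c := hH.mono (by omega) (by omega) hcn
        by_cases h1 : H (c - 1) = c - 1
        · exact L.disc H hH (c - 1) (by omega) (by omega) h1
        by_cases h6 : H c - H (c - 1) ≤ g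
        · exact ihg H hH hHp h6
        by_cases h7 : H c = H (c - 1) + 1
        · -- type II
          obtain ⟨t, ht⟩ : ∃ t, c = t + 1 := ⟨c - 1, by omega⟩
          subst ht
          simp only [Nat.add_sub_cancel] at *
          set b := H t with hb
          have e1 : update (update H t b) (t + 1) (b + 1) = H := by
            rw [hb, update_eq_self, ← hb, ← h7, update_eq_self]
          have Hs0 : Hs n (update (update H t b) (t + 1) b) := by
            rw [hb, update_eq_self, ← hb]
            apply hH.update (by omega) (by omega)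
            · intro v hv hv1
              have : v = t := by omega
              subst this; omega
            · intro hlt
              have := hH.mono (a := t + 1) (b := t + 2) (by omega) (by omega) (by omega)
              show b ≤ H (t + 2)
              omega
          have Hs2 : Hs n (update (update H t (b + 1)) (t + 1) (b + 1)) := by
            have : update (update H t (b + 1)) (t + 1) (b + 1) = update H t (b + 1) := by
              funext v
              by_cases hv : v = t + 1
              · rw [hv, update_self, update_of_ne (by omega), h7]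
              · rw [update_of_ne hv]
            rw [this]
            apply hH.update (by omega) (by omega)
            · intro v hv hv1
              have := hH.mono (a := v) (b := t) hv1 (by omega) (by omega)
              omega
            · intro _; omega
          have hlaw := L.typeII H t b (by omega) (by omega) (by omega)
            (fun v hv1 hvn hvt hvt1 hv => by
              by_cases hvl : v < t
              · have := hp v hv1 (by omega)
                rw [← hHp v hv1 (by omega)] at this
                exact this hv
              · have := hH.1 v hv1 hvn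
                omega) Hs0 Hs2
          rw [e1] at hlaw
          have z0 : D (update (update H t b) (t + 1) b) = 0 := by
            apply hz _ Hs0
            · intro v hv1 hv2
              rw [update_of_ne (by omega), update_of_ne (by omega)]
              exact hHp v hv1 hv2
            · rw [update_self, update_of_ne (by omega), update_self]
          have z2 : D (update (update H t (b + 1)) (t + 1) (b + 1)) = 0 := by
            apply hz _ Hs2
            · intro v hv1 hv2
              rw [update_of_ne (by omega), update_of_ne (by omega)]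
              exact hHp v hv1 hv2
            · rw [update_self, update_of_ne (by omega), update_self]
          rw [z0, z2, mul_zero, add_zero] at hlaw
          exact zero_of_one_add hq hlaw
        · -- gap at least 2
          have h8 : H (c - 1) + 2 ≤ H c := by omega
          apply ihm (H c) (by omega) (by omega) (by omega) H
          · intro v hv1 hv2
            by_cases hvc : v ≤ c - 1
            · have := hH.mono (a := v) (b := c - 1) hv1 hvc (by omega)
              omega
            · have := hH.mono (a := c) (b := v) (by omega) (by omega) (by omega)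
              omega
          · intro H' hH' hHp' heq
            have hc' : H' c = H c := hHp' c (by omega) (by omega)
            have hc1' : H' (c - 1) = H (c - 1) := hHp' (c - 1) (by omega) (by omega)
            set e := H c with he
            have hj1 : e - 1 + 1 = e := by omega
            have e2 : update H' c (e - 1 + 1) = H' := by
              rw [hj1, ← hc', update_eq_self]
            have e0' : e - 1 - 1 = e - 2 := by omega
            have hmon : c < n → e ≤ H' (c + 1) := by
              intro hlt
              have := hH'.2 c (by omega) hlt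
              omega
            have Hs0 : Hs n (update H' c (e - 1 - 1)) := by
              apply hH'.update (by omega) (by omega)
              · intro v hv hv1
                have : v = c - 1 := by omega
                subst this; omega
              · intro hlt; have := hmon hlt; omega
            have Hs1 : Hs n (update H' c (e - 1)) := by
              apply hH'.update (by omega) (by omega)
              · intro v hv hv1
                have : v = c - 1 := by omega
                subst this; omega
              · intro hlt; have := hmon hlt; omega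
            have hlaw := L.typeI H' c (e - 1) (by omega) (by omega) (by omega)
              (by rw [hj1]; exact heq) Hs0 (by rw [e2]; exact hH')
            rw [e2] at hlaw
            have z1 : D (update H' c (e - 1)) = 0 := by
              apply ihg _ Hs1
              · intro v hv1 hv2
                rw [update_of_ne (by omega)]
                rw [hHp' v hv1 (by omega)]
                exact hHp v hv1 hv2
              · rw [update_self, update_of_ne (by omega), hc1']
                omega
            have z0 : D (update H' c (e - 1 - 1)) = 0 := by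
              apply ihg _ Hs0
              · intro v hv1 hv2
                rw [update_of_ne (by omega)]
                rw [hHp' v hv1 (by omega)]
                exact hHp v hv1 hv2
              · rw [update_self, update_of_ne (by omega), hc1']
                omega
            rw [z0, z1, mul_zero, mul_zero, zero_add] at hlaw
            exact hlaw.symm
          · exact hH
          · intro v _ _; rfl
    intro H hH hHp
    exact key _ H hH hHp le_rfl

theorem Lk_zero (L : Laws q n D) (hq : ∀ m, 1 ≤ m → qz q m ≠ 0) : ∀ k, 1 ≤ k → k + 1 ≤ n → D (Lk n k) = 0 := by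
  intro k
  induction k with
  | zero => intro h; omega
  | succ k ih =>
    intro _ hkn
    by_cases hk : k = 0
    · subst hk
      rw [L.ext (Lk n (0 + 1)) (fun _ => n)]
      · exact L.compl
      · intro v hv _
        unfold Lk
        rw [if_neg (by omega)]
    · have hk1 : 1 ≤ k := by omega
      have h0 := ih hk1 (by omega)
      have hL : Hs n (Lk n (k + 1)) := Hs_Lk (by omega)
      have hupd : ∀ x, k ≤ x → x ≤ n → Hs n (update (Lk n (k + 1)) k x) := by
        intro x hx hxn
        apply hL.update hx hxn
        · intro v hv hv1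
          unfold Lk
          rw [if_pos (by omega)]; omega
        · intro _
          unfold Lk
          rw [if_neg (by omega)]; exact hxn
      have hd : ∀ s, k + 1 + s ≤ n →
          D (update (Lk n (k + 1)) k (k + 1 + s)) =
            qz q (s + 1) * D (update (Lk n (k + 1)) k (k + 1)) ∧
          (k + 2 + s ≤ n → D (update (Lk n (k + 1)) k (k + 2 + s)) =
            qz q (s + 2) * D (update (Lk n (k + 1)) k (k + 1))) := by
        have hstep : ∀ j, k < j → j + 1 ≤ n →
            D (update (Lk n (k + 1)) k (j + 1)) =
              (1 + q) * D (update (Lk n (k + 1)) k j) -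
              q * D (update (Lk n (k + 1)) k (j - 1)) := by
          intro j hj hjn
          have := L.typeI (Lk n (k + 1)) k j hk1 hj hjn
            (by unfold Lk; rw [if_neg (by omega), if_neg (by omega)])
            (hupd _ (by omega) (by omega)) (hupd _ (by omega) (by omega))
          rw [this]; ring
        have hzero : D (update (Lk n (k + 1)) k k) = 0 := by
          apply L.disc _ (hupd k le_rfl (by omega)) k hk1 (by omega)
          rw [update_self]
        intro s
        induction s with
        | zero =>
          intro hs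
          refine ⟨by simp [qz], ?_⟩
          intro hs2
          rw [show k + 2 + 0 = (k + 1) + 1 by omega, hstep (k + 1) (by omega) (by omega),
            show k + 1 - 1 = k by omega, hzero, mul_zero, sub_zero]
          congr 1
          simp [qz, Finset.sum_range_succ]
        | succ s ihs =>
          intro hs
          obtain ⟨i1, i2⟩ := ihs (by omega)
          have i2' := i2 (by omega)
          refine ⟨?_, ?_⟩
          · rw [show k + 1 + (s + 1) = k + 2 + s by omega]; exact i2'
          · intro hs2
            rw [show k + 2 + (s + 1) = (k + 2 + s) + 1 by omega, hstep (k + 2 + s) (by omega) (by omega),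
              show k + 2 + s - 1 = k + 1 + s by omega, i1, i2', show s + 1 + 2 = (s + 1) + 2 by rfl,
              qz_rec q (s + 1)]
            ring
      have hfin := (hd (n - (k + 1)) (by omega)).1
      rw [show k + 1 + (n - (k + 1)) = n by omega] at hfin
      have e1 : D (update (Lk n (k + 1)) k n) = D (Lk n k) := by
        apply L.ext
        intro v hv _
        by_cases hvk : v = k
        · subst hvk; rw [update_self]; unfold Lk; rw [if_neg (by omega)]
        · rw [update_of_ne hvk]
          unfold Lk
          split_ifs <;> omega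
      have e2 : update (Lk n (k + 1)) k (k + 1) = Lk n (k + 1) := by
        funext v
        by_cases hv : v = k
        · rw [hv, update_self]; unfold Lk; rw [if_pos (by omega)]
        · rw [update_of_ne hv]
      rw [e1, h0, e2] at hfin
      exact (mul_eq_zero.1 hfin.symm).resolve_left (hq _ (by omega))

theorem prefix_zero (L : Laws q n D) (hq : ∀ m, 1 ≤ m → qz q m ≠ 0) (hn : 2 ≤ n) : ∀ d k, k + d = n - 1 → 1 ≤ k →
    ∀ H, Hs n H → (∀ v, 1 ≤ v → v < k → H v = v + 1) → D H = 0 := by
  intro d
  induction d with
  | zero =>
    intro k hk hk1 H hH hpre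
    have h1 := hH.1 (n - 1) (by omega) (by omega)
    by_cases h2 : H (n - 1) = n - 1
    · exact L.disc H hH (n - 1) (by omega) (by omega) h2
    · rw [L.ext H (Lk n (n - 1))]
      · exact Lk_zero L hq (n - 1) (by omega) (by omega)
      · intro v hv hvn
        unfold Lk
        split_ifs with h3
        · exact hpre v hv (by omega)
        · have h4 := hH.1 v hv hvn
          have : v = n - 1 ∨ v = n := by omega
          rcases this with h5 | h5
          · subst h5; omega
          · subst h5; omega
  | succ d ihd =>
    intro k hk hk1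
    -- induction on `H k`
    have key : ∀ m : ℕ, ∀ H, Hs n H → (∀ v, 1 ≤ v → v < k → H v = v + 1) → H k ≤ m → D H = 0 := by
      intro m
      induction m with
      | zero =>
        intro H hH _ hm
        have := hH.1 k hk1 (by omega)
        omega
      | succ m ihm =>
        intro H hH hpre hm
        have h1 := hH.1 k hk1 (by omega)
        by_cases h2 : H k = k
        · exact L.disc H hH k hk1 (by omega) h2
        by_cases h3 : H k = k + 1
        · apply ihd (k + 1) (by omega) (by omega) H hH
          intro v hv hvk
          by_cases h4 : v = k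
          · subst h4; exact h3
          · exact hpre v hv (by omega)
        by_cases h4 : H k ≤ m
        · exact ihm H hH hpre h4
        have h5 : H k = m + 1 := by omega
        apply lemmaS L hq (n - H k) (H k) le_rfl (by omega) (by omega) H
        · intro v hv1 hv2
          by_cases hvk : v < k
          · rw [hpre v hv1 hvk]; omega
          · have := hH.mono (a := k) (b := v) hk1 (by omega) (by omega)
            omega
        · intro H' hH' hHp' heq
          have hk' : H' k = H k := hHp' k hk1 (by omega)
          set e := H k with he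
          have hj1 : e - 1 + 1 = e := by omega
          have e2 : update H' k (e - 1 + 1) = H' := by
            rw [hj1, ← hk', update_eq_self]
          have hmon : k < n → e ≤ H' (k + 1) := by
            intro hlt
            have := hH'.2 k (by omega) hlt
            omega
          have hpre' : ∀ v, 1 ≤ v → v < k → H' v = v + 1 := by
            intro v hv hvk
            rw [hHp' v hv (by omega)]
            exact hpre v hv hvk
          have hs : ∀ x, k ≤ x → x ≤ e → Hs n (update H' k x) := by
            intro x hx hxe
            apply hH'.update hx (by omega)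
            · intro v hv hv1
              rw [hpre' v hv1 (by omega)]; omega
            · intro hlt; have := hmon hlt; omega
          have hlaw := L.typeI H' k (e - 1) hk1 (by omega) (by omega)
            (by rw [hj1]; exact heq) (hs _ (by omega) (by omega)) (by rw [e2]; exact hH')
          rw [e2] at hlaw
          have z1 : D (update H' k (e - 1)) = 0 := by
            apply ihm _ (hs _ (by omega) (by omega))
            · intro v hv hvk
              rw [update_of_ne (by omega)]
              exact hpre' v hv hvk
            · rw [update_self]; omega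
          have z0 : D (update H' k (e - 1 - 1)) = 0 := by
            apply ihm _ (hs _ (by omega) (by omega))
            · intro v hv hvk
              rw [update_of_ne (by omega)]
              exact hpre' v hv hvk
            · rw [update_self]; omega
          rw [z0, z1, mul_zero, mul_zero, zero_add] at hlaw
          exact hlaw.symm
        · exact hH
        · intro v _ _; rfl
    intro H hH hpre
    exact key _ H hH hpre le_rfl

/-- uniqueness: the laws force `D = 0`. -/
theorem laws_unique (L : Laws q n D) (hq : ∀ m, 1 ≤ m → qz q m ≠ 0) : ∀ H, Hs n H → D H = 0 := by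
  intro H hH
  by_cases hn : 2 ≤ n
  · exact prefix_zero L hq hn (n - 2) 1 (by omega) le_rfl H hH (fun v hv hv1 => by omega)
  · rw [L.ext H (fun _ => n)]
    · exact L.compl
    · intro v hv hvn
      have := hH.1 v hv hvn
      show H v = n
      omega

end

/-- the laws of a family of elements of `A` attached to all Hessenberg functions. -/
structure GLaws {A : Type*} [CommRing A] (q : A) (F : ∀ n : ℕ, (Fin n → ℕ) → A) : Prop where
  typeI : ∀ (n : ℕ) (h0 h1 h2 : Fin n → ℕ), IsHessenberg h0 → IsHessenberg h1 → IsHessenberg h2 →
    ∀ i j k : Fin n, k.val = j.val + 1 → h0 i = j.val → h1 i = j.val + 1 → h2 i = j.val + 2 →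
    (∀ a, a ≠ i → h1 a = h0 a) → (∀ a, a ≠ i → h2 a = h0 a) → h0 j = h0 k →
    (1 + q) * F n h1 = q * F n h0 + F n h2
  typeII : ∀ (n : ℕ) (h0 h1 h2 : Fin n → ℕ), IsHessenberg h0 → IsHessenberg h1 → IsHessenberg h2 →
    ∀ j k i : Fin n, k.val = j.val + 1 → k < i →
    h0 j = i.val → h0 k = i.val → h1 j = i.val → h1 k = i.val + 1 →
    h2 j = i.val + 1 → h2 k = i.val + 1 →
    (∀ a, a ≠ j → a ≠ k → h1 a = h0 a) → (∀ a, a ≠ j → a ≠ k → h2 a = h0 a) →
    (∀ a : Fin n, h0 a ≠ k.val) →
    (1 + q) * F n h1 = q * F n h0 + F n h2
  cut : ∀ (m k : ℕ) (h : Fin (m + k) → ℕ) (h1 : Fin m → ℕ) (h2 : Fin k → ℕ), 0 < m → 0 < k →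
    IsHessenberg h → IsHessenberg h1 → IsHessenberg h2 →
    (∀ a : Fin m, h1 a = h (Fin.castAdd k a)) → (∀ a : Fin k, h2 a + m = h (Fin.natAdd m a)) →
    (∀ a : Fin m, h (Fin.castAdd k a) ≤ m) → F (m + k) h = F m h1 * F k h2

section

variable {A : Type*} [CommRing A] {q : A}

theorem laws_of_GLaws {F G : ∀ n : ℕ, (Fin n → ℕ) → A} (L : GLaws q F) (M : GLaws q G) (n : ℕ)
    (hc : ∀ h : Fin n → ℕ, (∀ i, h i = n) → F n h = G n h)
    (ih : ∀ m, m < n → ∀ h : Fin m → ℕ, IsHessenberg h → F m h = G m h) :
    Laws q n (fun H => F n (toFin n H) - G n (toFin n H)) where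
  ext := by
    intro H H' hHH
    have : toFin n H = toFin n H' := by
      funext a
      exact hHH (a.val + 1) (by omega) (by have := a.isLt; omega)
    simp only [this]
  typeI := by
    intro H i j hi hij hjn heq H0 H2
    have H1 : Hs n (update H i j) := by
      constructor
      · intro v hv hvn
        have h0 := H0.1 v hv hvn
        have h2 := H2.1 v hv hvn
        by_cases hvi : v = i
        · subst hvi
          simp only [update_self] at h0 h2 ⊢
          omega
        · rw [update_of_ne hvi] at h0 ⊢
          exact h0
      · intro v hv hvn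
        have h0 := H0.2 v hv hvn
        have h2 := H2.2 v hv hvn
        by_cases hvi : v = i
        · subst hvi
          rw [update_self, update_of_ne (by omega)] at h0 h2 ⊢
          omega
        · by_cases hvi' : v + 1 = i
          · subst hvi'
            rw [update_of_ne hvi, update_self] at h0 h2 ⊢
            omega
          · rw [update_of_ne hvi, update_of_ne hvi'] at h0 ⊢
            exact h0
    have hI := L.typeI n (toFin n (update H i (j - 1))) (toFin n (update H i j))
      (toFin n (update H i (j + 1))) (toFin_hess H0) (toFin_hess H1) (toFin_hess H2)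
      ⟨i - 1, by omega⟩ ⟨j - 1, by omega⟩ ⟨j, by omega⟩ (by simp only; omega)
      (by rw [toFin_update_eq _ (by simp only; omega)])
      (by rw [toFin_update_eq _ (by simp only; omega)]; simp only; omega)
      (by rw [toFin_update_eq _ (by simp only; omega)]; simp only; omega)
      (by
        intro a ha
        have : a.val + 1 ≠ i := fun h => ha (Fin.ext (by simp only; omega))
        rw [toFin_update_of_ne a this, toFin_update_of_ne a this])
      (by
        intro a ha
        have : a.val + 1 ≠ i := fun h => ha (Fin.ext (by simp only; omega))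
        rw [toFin_update_of_ne a this, toFin_update_of_ne a this])
      (by
        rw [toFin_update_of_ne _ (by simp only; omega), toFin_update_of_ne _ (by simp only; omega)]
        simp only
        rw [show j - 1 + 1 = j by omega]
        exact heq)
    have hX := M.typeI n (toFin n (update H i (j - 1))) (toFin n (update H i j))
      (toFin n (update H i (j + 1))) (toFin_hess H0) (toFin_hess H1) (toFin_hess H2)
      ⟨i - 1, by omega⟩ ⟨j - 1, by omega⟩ ⟨j, by omega⟩ (by simp only; omega)
      (by rw [toFin_update_eq _ (by simp only; omega)])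
      (by rw [toFin_update_eq _ (by simp only; omega)]; simp only; omega)
      (by rw [toFin_update_eq _ (by simp only; omega)]; simp only; omega)
      (by
        intro a ha
        have : a.val + 1 ≠ i := fun h => ha (Fin.ext (by simp only; omega))
        rw [toFin_update_of_ne a this, toFin_update_of_ne a this])
      (by
        intro a ha
        have : a.val + 1 ≠ i := fun h => ha (Fin.ext (by simp only; omega))
        rw [toFin_update_of_ne a this, toFin_update_of_ne a this])
      (by
        rw [toFin_update_of_ne _ (by simp only; omega), toFin_update_of_ne _ (by simp only; omega)]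
        simp only
        rw [show j - 1 + 1 = j by omega]
        exact heq)
    rw [mul_sub, mul_sub, hI, hX]
    ring
  typeII := by
    intro H t b ht htb hbn hleft H0 H2
    have H1 : Hs n (update (update H t b) (t + 1) (b + 1)) := by
      constructor
      · intro v hv hvn
        have h0 := H0.1 v hv hvn
        have h2 := H2.1 v hv hvn
        by_cases hv1 : v = t + 1
        · subst hv1
          simp only [update_self] at h0 h2 ⊢
          omega
        · rw [update_of_ne hv1] at h0 ⊢
          exact h0
      · intro v hv hvn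
        have h0 := H0.2 v hv hvn
        have h2 := H2.2 v hv hvn
        by_cases hv1 : v = t + 1
        · subst hv1
          rw [update_self, update_of_ne (by omega), update_of_ne (by omega)] at h2 ⊢
          exact h2
        · by_cases hv2 : v + 1 = t + 1
          · have hvt : v = t := by omega
            subst hvt
            rw [update_of_ne (by omega), update_self, update_self]
            omega
          · rw [update_of_ne hv1, update_of_ne hv2] at h0 ⊢
            exact h0
    have hlt : ∀ a : Fin n, toFin n (update (update H t b) (t + 1) b) a ≠ t := by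
      intro a
      by_cases h1 : a.val + 1 = t + 1
      · rw [toFin_update_eq _ h1]; omega
      · rw [toFin_update_of_ne _ h1]
        by_cases h2 : a.val + 1 = t
        · rw [h2, update_self]; omega
        · rw [update_of_ne h2]
          exact hleft (a.val + 1) (by omega) (by have := a.isLt; omega) h2 h1
    have g1 : ∀ (x y : ℕ) (a : Fin n), a.val + 1 = t →
        toFin n (update (update H t x) (t + 1) y) a = x := by
      intro x y a ha
      rw [toFin_update_of_ne _ (by omega), ha, update_self]
    have g2 : ∀ (x y : ℕ) (a : Fin n), a.val + 1 = t + 1 →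
        toFin n (update (update H t x) (t + 1) y) a = y := by
      intro x y a ha
      rw [toFin_update_eq _ ha]
    have g3 : ∀ (x y : ℕ) (a : Fin n), a.val + 1 ≠ t → a.val + 1 ≠ t + 1 →
        toFin n (update (update H t x) (t + 1) y) a = H (a.val + 1) := by
      intro x y a h1 h2
      rw [toFin_update_of_ne _ h2, update_of_ne h1]
    have hoff : ∀ (x y x' y' : ℕ) (a : Fin n), a ≠ (⟨t - 1, by omega⟩ : Fin n) →
        a ≠ (⟨t, by omega⟩ : Fin n) →
        toFin n (update (update H t x) (t + 1) y) a =
        toFin n (update (update H t x') (t + 1) y') a := by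
      intro x y x' y' a h1 h2
      have h1' : a.val + 1 ≠ t := fun h => h1 (Fin.ext (by simp only; omega))
      have h2' : a.val + 1 ≠ t + 1 := fun h => h2 (Fin.ext (by simp only; omega))
      rw [g3 _ _ _ h1' h2', g3 _ _ _ h1' h2']
    have hI := L.typeII n _ _ _ (toFin_hess H0) (toFin_hess H1) (toFin_hess H2)
      ⟨t - 1, by omega⟩ ⟨t, by omega⟩ ⟨b, by omega⟩ (by simp only; omega)
      (by rw [Fin.lt_def]; simp only; omega)
      (g1 _ _ _ (by simp only; omega)) (g2 _ _ _ (by simp only))
      (g1 _ _ _ (by simp only; omega)) (g2 _ _ _ (by simp only))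
      (g1 _ _ _ (by simp only; omega)) (g2 _ _ _ (by simp only))
      (hoff _ _ _ _) (hoff _ _ _ _) hlt
    have hX := M.typeII n _ _ _ (toFin_hess H0) (toFin_hess H1) (toFin_hess H2)
      ⟨t - 1, by omega⟩ ⟨t, by omega⟩ ⟨b, by omega⟩ (by simp only; omega)
      (by rw [Fin.lt_def]; simp only; omega)
      (g1 _ _ _ (by simp only; omega)) (g2 _ _ _ (by simp only))
      (g1 _ _ _ (by simp only; omega)) (g2 _ _ _ (by simp only))
      (g1 _ _ _ (by simp only; omega)) (g2 _ _ _ (by simp only))
      (hoff _ _ _ _) (hoff _ _ _ _) hlt
    rw [mul_sub, mul_sub, hI, hX]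
    ring
  disc := by
    intro H hH v hv hvn hHv
    obtain ⟨k, rfl⟩ : ∃ k, n = v + k := ⟨n - v, by omega⟩
    have hk : 0 < k := by omega
    have hcut : ∀ a : Fin v, toFin (v + k) H (Fin.castAdd k a) ≤ v := by
      intro a
      unfold toFin
      have := hH.mono (a := a.val + 1) (b := v) (by omega) (by have := a.isLt; omega) (by omega)
      simp only [Fin.val_castAdd]
      omega
    have h1 : IsHessenberg (fun a : Fin v => toFin (v + k) H (Fin.castAdd k a)) := by
      constructor
      · intro a b hab
        exact (toFin_hess hH).1 hab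
      · intro a
        exact ⟨((toFin_hess hH).2 (Fin.castAdd k a)).1, hcut a⟩
    have hge : ∀ a : Fin k, v + a.val + 1 ≤ toFin (v + k) H (Fin.natAdd v a) ∧
        toFin (v + k) H (Fin.natAdd v a) ≤ v + k := by
      intro a
      have := (toFin_hess hH).2 (Fin.natAdd v a)
      simp only [Fin.val_natAdd] at this
      exact this
    have h2 : IsHessenberg (fun a : Fin k => toFin (v + k) H (Fin.natAdd v a) - v) := by
      constructor
      · intro a b hab
        exact Nat.sub_le_sub_right ((toFin_hess hH).1 (by
          rw [Fin.le_def]; simp only [Fin.val_natAdd]; have : a.val ≤ b.val := hab; omega)) v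
      · intro a
        have := hge a
        simp only
        omega
    have e1 := L.cut v k (toFin (v + k) H) _ _ (by omega) hk (toFin_hess hH) h1 h2
      (fun a => rfl) (fun a => by have := hge a; omega) hcut
    have e2 := M.cut v k (toFin (v + k) H) _ _ (by omega) hk (toFin_hess hH) h1 h2
      (fun a => rfl) (fun a => by have := hge a; omega) hcut
    rw [e1, e2, ih v (by omega) _ h1, ih k (by omega) _ h2, sub_self]
  compl := by
    rw [hc (toFin n fun _ => n) (fun i => rfl), sub_self]


/-- two families that satisfy the laws and agree on complete graphs are equal. -/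
theorem eq_of_GLaws [IsDomain A] (hq : ∀ m, 1 ≤ m → qz q m ≠ 0)
    {F G : ∀ n : ℕ, (Fin n → ℕ) → A} (L : GLaws q F) (M : GLaws q G)
    (hc : ∀ (n : ℕ) (h : Fin n → ℕ), (∀ i, h i = n) → F n h = G n h) :
    ∀ (n : ℕ) (h : Fin n → ℕ), IsHessenberg h → F n h = G n h := by
  intro n
  induction n using Nat.strong_induction_on with
  | _ n ih =>
    intro h hh
    have := laws_unique (laws_of_GLaws L M n (hc n) ih) hq (ofFin h) (Hs_ofFin hh)
    simp only [toFin_ofFin] at this
    exact sub_eq_zero.1 this

/-- the image of the chromatic quasisymmetric function under a ring hom satisfies the laws. -/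
theorem GLaws_chromatic {N : ℕ} (φ : MvPolynomial (Fin N) (Polynomial ℤ) →+* A)
    (hφ : φ (MvPolynomial.C Polynomial.X) = q) :
    GLaws q (fun n h => φ (chromaticQSym (n := n) h N)) where
  typeI := by
    intro n h0 h1 h2 H0 _ H2 i j k hk v0 v1 v2 o1 o2 heq
    have := modular_typeI (h0 := h0) (h1 := h1) (h2 := h2) H0.1 H2.1 (fun a => (H0.2 a).1)
      i j k hk v0 v1 v2 o1 o2 heq N
    have h3 := congrArg φ this
    simpa only [map_mul, map_add, map_one, hφ] using h3
  typeII := by
    intro n h0 h1 h2 _ _ _ j k i hk hki v0j v0k v1j v1k v2j v2k o1 o2 hl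
    have := modular_typeII (h0 := h0) (h1 := h1) (h2 := h2) j k i hk hki v0j v0k v1j v1k v2j v2k
      o1 o2 hl N
    have h3 := congrArg φ this
    simpa only [map_mul, map_add, map_one, hφ] using h3
  cut := by
    intro m k h h1 h2 _ _ _ _ _ e1 e2 hc
    have := chromatic_cut h h1 h2 e1 e2 hc N
    simp only [this, map_mul]

/-- the value on complete graphs. -/
theorem chromatic_complete_map {N : ℕ} (φ : MvPolynomial (Fin N) (Polynomial ℤ) →+* A)
    (hφ : φ (MvPolynomial.C Polynomial.X) = q) {n : ℕ} (h : Fin n → ℕ) (hn : ∀ i, h i = n) :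
    φ (chromaticQSym h N) = (∏ i ∈ Finset.range n, qz q (i + 1)) *
      φ (MvPolynomial.esymm (Fin N) (Polynomial ℤ) n) := by
  rw [chromatic_complete' h hn, map_mul]
  congr 1
  simp only [map_prod, map_sum, map_pow, hφ, qz]


/-- `q^m ≠ 1` for all `m ≥ 1` implies `[m]_q ≠ 0`. -/
theorem qz_ne_of_pow_ne (h : ∀ m, 1 ≤ m → q ^ m ≠ 1) : ∀ m, 1 ≤ m → qz q m ≠ 0 := by
  intro m hm h0
  apply h m hm
  have h1 := geom_sum_mul q m
  have h2 : (∑ i ∈ Finset.range m, q ^ i) = 0 := h0
  rw [h2, zero_mul] at h1
  exact (sub_eq_zero.1 h1.symm)

end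

end Crest.Agent.R059.Gen
end

-- ▼ part R059/Stab

set_option autoImplicit false

open Crest.CombinatoricsR.UnitInterval

/-! Symmetry, existence of the `e`-coefficients over `ℤ[q]`, and stability in the number of
variables. -/

namespace Crest.Agent.R059.Stab

open MvPolynomial Crest.Agent.R059.Palin

theorem kill_X {R : Type*} [CommRing R] {M N : ℕ} (ι : Fin M ↪o Fin N) (i : Fin M) :
    killCompl (R := R) ι.injective (X (ι i)) = X i := by
  have := killCompl_rename_app (R := R) ι.injective (X i)
  rwa [rename_X] at this

theorem kill_X' {R : Type*} [CommRing R] {M N : ℕ} (ι : Fin M ↪o Fin N) (j : Fin N)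
    (hj : j ∉ Set.range ι) : killCompl (R := R) ι.injective (X j) = 0 := by
  unfold killCompl
  rw [aeval_X, dif_neg hj]

theorem kill_esymm {R : Type*} [CommRing R] {M N : ℕ} (ι : Fin M ↪o Fin N) (k : ℕ) :
    killCompl (R := R) ι.injective (esymm (Fin N) R k) = esymm (Fin M) R k := by
  classical
  unfold esymm
  rw [map_sum]
  symm
  have h1 : ∀ s : Finset (Fin M), (∏ i ∈ s, X i : MvPolynomial (Fin M) R) =
      killCompl (R := R) ι.injective (∏ i ∈ s.map ι.toEmbedding, X i) := by
    intro s
    rw [map_prod, Finset.prod_map]
    apply Finset.prod_congr rfl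
    intro i _
    exact (kill_X ι i).symm
  simp only [h1]
  have h2 : ∑ s ∈ Finset.powersetCard k (Finset.univ : Finset (Fin M)),
      killCompl (R := R) ι.injective (∏ i ∈ s.map ι.toEmbedding, X i) =
      ∑ t ∈ (Finset.powersetCard k (Finset.univ : Finset (Fin M))).map
        (Finset.mapEmbedding ι.toEmbedding).toEmbedding,
        killCompl (R := R) ι.injective (∏ i ∈ t, X i) := by
    rw [Finset.sum_map]
    rfl
  rw [h2]
  apply Finset.sum_subset
  · intro t ht
    rw [Finset.mem_map] at ht
    obtain ⟨s, hs, rfl⟩ := ht
    rw [Finset.mem_powersetCard] at hs ⊢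
    refine ⟨Finset.subset_univ _, ?_⟩
    change (s.map ι.toEmbedding).card = k
    rw [Finset.card_map, hs.2]
  · intro t ht hnt
    have h3 : ∃ i ∈ t, i ∉ Set.range ι := by
      by_contra h4
      push Not at h4
      apply hnt
      rw [Finset.mem_map]
      refine ⟨Finset.univ.filter (fun i => ι i ∈ t), ?_, ?_⟩
      · rw [Finset.mem_powersetCard]
        refine ⟨Finset.subset_univ _, ?_⟩
        rw [Finset.mem_powersetCard] at ht
        rw [← ht.2, ← Finset.card_map ι.toEmbedding]
        congr 1
        ext j
        simp only [Finset.mem_map, Finset.mem_filter, Finset.mem_univ, true_and]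
        constructor
        · rintro ⟨i, hi, rfl⟩
          exact hi
        · intro hj
          obtain ⟨i, rfl⟩ := h4 j hj
          exact ⟨i, hj, rfl⟩
      · change (Finset.univ.filter (fun i => ι i ∈ t)).map ι.toEmbedding = t
        ext j
        simp only [Finset.mem_map, Finset.mem_filter, Finset.mem_univ, true_and]
        constructor
        · rintro ⟨i, hi, rfl⟩
          exact hi
        · intro hj
          obtain ⟨i, rfl⟩ := h4 j hj
          exact ⟨i, hj, rfl⟩
    obtain ⟨i, hi, hi2⟩ := h3
    rw [map_prod]
    exact Finset.prod_eq_zero hi (kill_X' ι i hi2)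

theorem kill_esymmPart {R : Type*} [CommRing R] {n M N : ℕ} (ι : Fin M ↪o Fin N)
    (μ : Nat.Partition n) :
    killCompl (R := R) ι.injective (esymmPart (Fin N) R μ) = esymmPart (Fin M) R μ := by
  unfold esymmPart
  rw [map_multiset_prod, Multiset.map_map]
  congr 1
  apply Multiset.map_congr rfl
  intro p _
  exact kill_esymm ι p

theorem ascents_comp {n M N : ℕ} (ι : Fin M ↪o Fin N) (h : Fin n → ℕ) (g : Fin n → Fin M) :
    ascents h (fun a => ι (g a)) = ascents h g := by
  unfold ascents
  congr 1
  ext p
  simp only [Finset.mem_filter, Finset.mem_univ, true_and, OrderEmbedding.lt_iff_lt]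

theorem kill_chromatic {n M N : ℕ} (ι : Fin M ↪o Fin N) (h : Fin n → ℕ) :
    killCompl ι.injective (chromaticQSym h N) = chromaticQSym h M := by
  classical
  unfold chromaticQSym
  rw [map_sum]
  symm
  have h1 : ∀ g : Fin n → Fin M,
      (C (Polynomial.X ^ ascents h g) * ∏ a, X (g a) : MvPolynomial (Fin M) (Polynomial ℤ)) =
      killCompl ι.injective (C (Polynomial.X ^ ascents h (fun a => ι (g a))) *
        ∏ a, X (ι (g a))) := by
    intro g
    rw [map_mul, killCompl_C, map_prod, ascents_comp]
    congr 1
    apply Finset.prod_congr rfl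
    intro a _
    exact (kill_X ι (g a)).symm
  simp only [h1]
  have hinj : Function.Injective (fun (g : Fin n → Fin M) (a : Fin n) => ι (g a)) := by
    intro g g' hg
    funext a
    exact ι.injective (congrFun hg a)
  have h2 := Finset.sum_image (s := (Finset.univ : Finset (Fin n → Fin M)).filter
      (fun f => ∀ a b : Fin n, IsEdge h a b → f a ≠ f b))
    (g := fun (g : Fin n → Fin M) (a : Fin n) => ι (g a))
    (f := fun f : Fin n → Fin N => killCompl (R := Polynomial ℤ) ι.injective
      (C (Polynomial.X ^ ascents h f) * ∏ a, X (f a))) (fun a _ b _ hab => hinj hab)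
  rw [← h2]
  apply Finset.sum_subset
  · intro f hf
    rw [Finset.mem_image] at hf
    obtain ⟨g, hg, rfl⟩ := hf
    rw [Finset.mem_filter] at hg ⊢
    refine ⟨Finset.mem_univ _, fun a b hab h3 => hg.2 a b hab (ι.injective h3)⟩
  · intro f hf hnf
    have h3 : ∃ a, f a ∉ Set.range ι := by
      by_contra h4
      push Not at h4
      apply hnf
      choose g hg using h4
      rw [Finset.mem_image]
      refine ⟨g, ?_, funext hg⟩
      rw [Finset.mem_filter] at hf ⊢
      refine ⟨Finset.mem_univ _, fun a b hab h5 => hf.2 a b hab ?_⟩
      rw [← hg a, ← hg b, h5]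
    obtain ⟨a, ha⟩ := h3
    rw [map_mul, map_prod, Finset.prod_eq_zero (Finset.mem_univ a) (kill_X' ι (f a) ha), mul_zero]

theorem homog_esymmPart {R : Type*} [CommRing R] {n N : ℕ} (μ : Nat.Partition n) :
    (esymmPart (Fin N) R μ).IsHomogeneous n := by
  have h1 : ∀ k, (esymm (Fin N) R k).IsHomogeneous k := by
    intro k
    unfold esymm
    apply IsHomogeneous.sum
    intro t ht
    rw [Finset.mem_powersetCard] at ht
    have := IsHomogeneous.prod t (fun i => (X i : MvPolynomial (Fin N) R)) (fun _ => 1)
      (fun i _ => isHomogeneous_X R i)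
    simpa [ht.2] using this
  have h2 : ∀ s : Multiset ℕ, ((s.map (esymm (Fin N) R)).prod).IsHomogeneous s.sum := by
    intro s
    induction s using Multiset.induction_on with
    | empty => simpa using isHomogeneous_one (Fin N) R
    | cons a s ih =>
      rw [Multiset.map_cons, Multiset.prod_cons, Multiset.sum_cons]
      exact (h1 a).mul ih
  have := h2 μ.parts
  rwa [μ.parts_sum] at this

theorem homog_chromatic {n N : ℕ} (h : Fin n → ℕ) : (chromaticQSym h N).IsHomogeneous n := by
  unfold chromaticQSym
  apply IsHomogeneous.sum
  intro f _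
  apply IsHomogeneous.C_mul
  have := IsHomogeneous.prod (Finset.univ : Finset (Fin n))
    (fun a => (X (f a) : MvPolynomial (Fin N) (Polynomial ℤ))) (fun _ => 1)
    (fun a _ => isHomogeneous_X _ (f a))
  simpa using this

/-- **stability**: an `e`-expansion in `N ≥ n` variables holds in any number of variables. -/
theorem expansion_all {n N : ℕ} (hN : n ≤ N) (h : Fin n → ℕ) (c : Nat.Partition n → Polynomial ℤ)
    (hc : chromaticQSym h N = ∑ μ, C (c μ) * esymmPart (Fin N) (Polynomial ℤ) μ) (M : ℕ) :
    chromaticQSym h M = ∑ μ, C (c μ) * esymmPart (Fin M) (Polynomial ℤ) μ := by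
  classical
  rcases le_total M N with hM | hM
  · have h1 := congrArg (killCompl (R := Polynomial ℤ) (Fin.castLEOrderEmb hM).injective) hc
    rw [kill_chromatic, map_sum] at h1
    rw [h1]
    apply Finset.sum_congr rfl
    intro μ _
    rw [map_mul, killCompl_C, kill_esymmPart]
  · ext1 m
    by_cases hd : m.degree = n
    · have hs : m.support.card ≤ N := by
        refine le_trans ?_ hN
        rw [← hd, Finsupp.degree]
        calc m.support.card = ∑ i ∈ m.support, 1 := by simp
          _ ≤ ∑ i ∈ m.support, m i := by
            apply Finset.sum_le_sum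
            intro i hi
            exact Nat.one_le_iff_ne_zero.2 (Finsupp.mem_support_iff.1 hi)
      obtain ⟨S, hS1, _, hS2⟩ := Finset.exists_subsuperset_card_eq (Finset.subset_univ m.support)
        hs (by simpa using hM)
      set ι := S.orderEmbOfFin hS2 with hι
      have hr : (m.support : Set (Fin M)) ⊆ Set.range ι := by
        rw [hι, Finset.range_orderEmbOfFin]
        exact_mod_cast hS1
      have hm : (m.comapDomain ι ι.injective.injOn).mapDomain ι = m :=
        Finsupp.mapDomain_comapDomain ι ι.injective m hr
      have key := congrArg (coeff (m.comapDomain ι ι.injective.injOn)) hc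
      have e1 : coeff (m.comapDomain ι ι.injective.injOn) (chromaticQSym h N) =
          coeff m (chromaticQSym h M) := by
        rw [← kill_chromatic ι h, coeff_killCompl, hm]
      have e2 : ∀ μ : Nat.Partition n, coeff (m.comapDomain ι ι.injective.injOn)
          (C (c μ) * esymmPart (Fin N) (Polynomial ℤ) μ) =
          coeff m (C (c μ) * esymmPart (Fin M) (Polynomial ℤ) μ) := by
        intro μ
        rw [coeff_C_mul, coeff_C_mul, ← kill_esymmPart ι μ, coeff_killCompl, hm]
      rw [e1, coeff_sum] at key
      rw [key, coeff_sum]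
      exact Finset.sum_congr rfl (fun μ _ => e2 μ)
    · rw [(homog_chromatic h).coeff_eq_zero hd, coeff_sum]
      symm
      apply Finset.sum_eq_zero
      intro μ _
      rw [coeff_C_mul, (homog_esymmPart μ).coeff_eq_zero hd, mul_zero]


/-- a polynomial with nonnegative integer coefficients comes from `ℕ[q]`. -/
theorem exists_cast (p : Polynomial ℤ) (hp : ∀ k, 0 ≤ p.coeff k) :
    ∃ r : Polynomial ℕ, cast r = p := by
  refine ⟨∑ k ∈ Finset.range (p.natDegree + 1), Polynomial.monomial k (p.coeff k).toNat, ?_⟩
  unfold cast
  rw [Polynomial.map_sum]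
  conv_rhs => rw [p.as_sum_range]
  apply Finset.sum_congr rfl
  intro k _
  rw [Polynomial.map_monomial]
  congr 1
  simpa using Int.toNat_of_nonneg (hp k)


/-- **symmetry** of the chromatic quasisymmetric function of a Hessenberg function. -/
theorem symm_chromatic {n : ℕ} (h : Fin n → ℕ) (hh : IsHessenberg h) (N : ℕ) :
    (chromaticQSym h N).IsSymmetric := by
  intro e
  have hq : ∀ m, 1 ≤ m → Gen.qz (C Polynomial.X : MvPolynomial (Fin N) (Polynomial ℤ)) m ≠ 0 := by
    apply Gen.qz_ne_of_pow_ne
    intro m hm h1
    rw [← C_pow, ← C_1] at h1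
    have h2 := C_injective (Fin N) (Polynomial ℤ) h1
    have h3 := congrArg Polynomial.natDegree h2
    rw [Polynomial.natDegree_X_pow, Polynomial.natDegree_one] at h3
    omega
  have L1 := Gen.GLaws_chromatic (q := (C Polynomial.X : MvPolynomial (Fin N) (Polynomial ℤ)))
    (RingHom.id (MvPolynomial (Fin N) (Polynomial ℤ))) rfl
  have L2 := Gen.GLaws_chromatic (q := (C Polynomial.X : MvPolynomial (Fin N) (Polynomial ℤ)))
    ((rename e : MvPolynomial (Fin N) (Polynomial ℤ) →ₐ[Polynomial ℤ]
      MvPolynomial (Fin N) (Polynomial ℤ)).toRingHom) (by simp)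
  have := Gen.eq_of_GLaws hq L2 L1 (by
    intro m g hg
    rw [Gen.chromatic_complete_map (q := (C Polynomial.X : MvPolynomial (Fin N) (Polynomial ℤ)))
      _ (by simp) g hg, Gen.chromatic_complete_map
      (q := (C Polynomial.X : MvPolynomial (Fin N) (Polynomial ℤ))) _ (by simp) g hg]
    congr 1
    exact esymm_isSymmetric (Fin N) (Polynomial ℤ) m e) n h hh
  exact this

/-- a homogeneous symmetric polynomial is a combination of `esymmPart`s. -/
theorem exists_coeffs {R : Type*} [CommRing R] {n N : ℕ} (hN : n ≤ N) (F : MvPolynomial (Fin N) R)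
    (hs : F.IsSymmetric) (hh : F.IsHomogeneous n) :
    ∃ c : Nat.Partition n → R, F = ∑ μ, C (c μ) * esymmPart (Fin N) R μ := by
  classical
  obtain ⟨P, hP⟩ := esymmAlgHom_surjective (σ := Fin N) R (n := N) (by simp) ⟨F, hs⟩
  have hP' : ((esymmAlgHom (Fin N) R N) P).val = F := congrArg Subtype.val hP
  refine ⟨fun μ => coeff (expo N μ) P, ?_⟩
  set w : (Fin N →₀ ℕ) → ℕ := fun t => ∑ i : Fin N, t i * (i.val + 1) with hw
  set e : (Fin N →₀ ℕ) → MvPolynomial (Fin N) R := fun t =>
    ∏ i : Fin N, esymm (Fin N) R (i.val + 1) ^ t i with he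
  have h1 : F = ∑ t ∈ P.support, C (coeff t P) * e t := by
    rw [← hP', esymmAlgHom_apply]
    conv_lhs => rw [P.as_sum]
    rw [map_sum]
    apply Finset.sum_congr rfl
    intro t _
    rw [aeval_monomial, Finsupp.prod_fintype _ _ (fun i => pow_zero _)]
    rfl
  have hek : ∀ k, (esymm (Fin N) R k).IsHomogeneous k := by
    intro k
    unfold esymm
    apply IsHomogeneous.sum
    intro t ht
    rw [Finset.mem_powersetCard] at ht
    have := IsHomogeneous.prod t (fun i => (X i : MvPolynomial (Fin N) R)) (fun _ => 1)
      (fun i _ => isHomogeneous_X R i)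
    simpa [ht.2] using this
  have h2 : ∀ t, (e t).IsHomogeneous (w t) := by
    intro t
    have := IsHomogeneous.prod (Finset.univ : Finset (Fin N))
      (fun i => esymm (Fin N) R (i.val + 1) ^ t i) (fun i => (i.val + 1) * t i)
      (fun i _ => (hek (i.val + 1)).pow (t i))
    have h3 : w t = ∑ i : Fin N, (i.val + 1) * t i :=
      Finset.sum_congr rfl (fun i _ => mul_comm _ _)
    rw [h3]
    exact this
  have h3 : F = ∑ t ∈ P.support, if w t = n then C (coeff t P) * e t else 0 := by
    have h4 : homogeneousComponent n F = F := by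
      rw [homogeneousComponent_of_mem hh, if_pos rfl]
    rw [← h4]
    conv_lhs => rw [h1]
    rw [map_sum]
    apply Finset.sum_congr rfl
    intro t _
    rw [homogeneousComponent_of_mem ((h2 t).C_mul (coeff t P))]
    simp only [eq_comm (a := n)]
  rw [h3, ← Finset.sum_filter]
  have h5 : ∀ μ : Nat.Partition n, esymmPart (Fin N) R μ = e (expo N μ) := by
    intro μ
    rw [esymmPart_eq_prod hN μ, esymmAlgHom_apply, aeval_monomial, map_one, one_mul,
      Finsupp.prod_fintype _ _ (fun i => pow_zero _)]
  simp only [h5]
  rw [← Finset.sum_image (s := (Finset.univ : Finset (Nat.Partition n))) (g := expo N)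
    (f := fun t => C (coeff t P) * e t) (fun a _ b _ hab => expo_inj hN hab)]
  have hsurj : ∀ t, w t = n → ∃ μ : Nat.Partition n, expo N μ = t := by
    intro t ht
    refine ⟨⟨∑ i : Fin N, Multiset.replicate (t i) (i.val + 1), ?_, ?_⟩, ?_⟩
    · intro p hp
      rw [Multiset.mem_sum] at hp
      obtain ⟨i, _, hi⟩ := hp
      rw [Multiset.eq_of_mem_replicate hi]
      omega
    · rw [Multiset.sum_sum, ← ht]
      apply Finset.sum_congr rfl
      intro i _
      rw [Multiset.sum_replicate, smul_eq_mul]
    · ext i
      simp only [expo, Finsupp.equivFunOnFinite_symm_apply_apply]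
      rw [Multiset.count_sum', Finset.sum_eq_single i]
      · rw [Multiset.count_replicate_self]
      · intro j _ hj
        rw [Multiset.count_replicate, if_neg]
        intro h6
        exact hj (Fin.ext (by omega))
      · intro h6
        exact absurd (Finset.mem_univ _) h6
  apply Finset.sum_subset
  · intro t ht
    rw [Finset.mem_filter] at ht
    obtain ⟨μ, hμ⟩ := hsurj t ht.2
    rw [Finset.mem_image]
    exact ⟨μ, Finset.mem_univ _, hμ⟩
  · intro t ht hnt
    rw [Finset.mem_image] at ht
    obtain ⟨μ, _, rfl⟩ := ht
    rw [Finset.mem_filter, not_and_or] at hnt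
    rcases hnt with h6 | h6
    · rw [MvPolynomial.notMem_support_iff.1 h6, C_0, zero_mul]
    · exfalso
      apply h6
      have h7 : ∑ i : Fin N, μ.parts.count (i.val + 1) * (i.val + 1) = μ.parts.sum := by
        have h8 : μ.parts.sum = ∑ p ∈ μ.parts.toFinset, μ.parts.count p * p := by
          have := Finset.sum_multiset_count μ.parts
          simpa [smul_eq_mul] using this
        rw [h8]
        have h9 : ∑ i : Fin N, μ.parts.count (i.val + 1) * (i.val + 1) =
            ∑ p ∈ Finset.univ.image (fun i : Fin N => i.val + 1), μ.parts.count p * p := by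
          rw [Finset.sum_image]
          intro a _ b _ hab
          exact Fin.ext (by simpa using hab)
        rw [h9]
        symm
        apply Finset.sum_subset
        · intro p hp
          rw [Multiset.mem_toFinset] at hp
          have h10 := μ.parts_pos hp
          have h11 := (part_le μ hp).trans hN
          rw [Finset.mem_image]
          exact ⟨⟨p - 1, by omega⟩, Finset.mem_univ _, by simp; omega⟩
        · intro p _ hp
          rw [Multiset.mem_toFinset] at hp
          rw [Multiset.count_eq_zero.2 hp, zero_mul]
      rw [hw]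
      simp only [expo, Finsupp.equivFunOnFinite_symm_apply_apply]
      rw [h7, μ.parts_sum]

/-- **existence of the `e`-coefficients** over `ℤ[q]`, uniformly in the number of variables. -/
theorem exists_expansion {n : ℕ} (h : Fin n → ℕ) (hh : IsHessenberg h) :
    ∃ c : Nat.Partition n → Polynomial ℤ, ∀ N, chromaticQSym h N =
      ∑ μ, C (c μ) * esymmPart (Fin N) (Polynomial ℤ) μ := by
  obtain ⟨c, hc⟩ := exists_coeffs le_rfl (chromaticQSym h n) (symm_chromatic h hh n)
    (homog_chromatic h)
  exact ⟨c, expansion_all le_rfl h c hc⟩


end Crest.Agent.R059.Stab
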