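import Crest.Agent.R059.Graph
import Crest.Agent.R059.Stab

-- ▼ part R059/Pieri
section

set_option autoImplicit false

open Crest.CombinatoricsR.UnitInterval

namespace Crest.Agent.R059.Pieri

variable {n : ℕ}

/-- oriented adjacency `a < b`. -/
def Adj (h : Fin n → ℕ) (a b : Fin n) : Prop := a < b ∧ b.val + 1 ≤ h a

instance (h : Fin n → ℕ) (a b : Fin n) : Decidable (Adj h a b) := by
  unfold Adj; infer_instance

/-- stable sets. -/
def Stable (h : Fin n → ℕ) (S : Finset (Fin n)) : Prop := ∀ a ∈ S, ∀ b ∈ S, ¬ Adj h a b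

instance (h : Fin n → ℕ) (S : Finset (Fin n)) : Decidable (Stable h S) := by
  unfold Stable; infer_instance





variable {R : Type*} [CommRing R]







/-- elementary symmetric polynomials of `x 0, …, x (N-1)`. -/
def E (x : ℕ → R) : ℕ → ℕ → R
  | 0, 0 => 1
  | 0, (_ + 1) => 0
  | (_ + 1), 0 => 1
  | (N + 1), (k + 1) => E x N (k + 1) + x N * E x N k

theorem E_zero (x : ℕ → R) (N : ℕ) : E x N 0 = 1 := by
  cases N <;> rfl

theorem E_succ (x : ℕ → R) (N : ℕ) {k : ℕ} (hk : 0 < k) :
    E x (N + 1) k = E x N k + x N * E x N (k - 1) := by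
  cases k with
  | zero => omega
  | succ k => rfl


/-- drop the zero parts. -/
def strip (m : Multiset ℕ) : Multiset ℕ := m.filter (fun p => p ≠ 0)


/-- left side of the Pieri identity of one object `(g, m)`. -/
def pl (x : ℕ × Multiset ℕ) : Multiset (ℕ × ℕ × Multiset ℕ) :=
  x.2.antidiagonal.map (fun y => (x.1, Multiset.card y.2, strip (y.1 + y.2.map Nat.pred)))




/-- all terms of the left side. -/
def PL (A : Finset (Fin n) → Multiset (ℕ × Multiset ℕ)) (U : Finset (Fin n)) :
    Multiset (ℕ × ℕ × Multiset ℕ) := (A U).bind pl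



/-- the variables as a sequence. -/
noncomputable def xv (N : ℕ) (i : ℕ) : MvPolynomial (Fin N) (Polynomial ℤ) :=
  if hi : i < N then MvPolynomial.X ⟨i, hi⟩ else 0







/-- the coefficient polynomial of a multiset of exponents. -/
noncomputable def cf (B : Multiset (ℕ × Multiset ℕ)) : Polynomial ℕ :=
  (B.map (fun z => (Polynomial.X : Polynomial ℕ) ^ z.1)).sum






end Crest.Agent.R059.Pieri
private theorem rz_95257d1fa8 : type_of% @_root_.Crest.Agent.R059.Pieri.E.eq_def := @_root_.Crest.Agent.R059.Pieri.E.eq_def -- L267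
private theorem rz_1d95c089b6 : type_of% @_root_.Crest.Agent.R059.Pieri.E.eq_1 := @_root_.Crest.Agent.R059.Pieri.E.eq_1 -- L267
end

-- ▼ part R059/Bridge37
section

set_option autoImplicit false

open Crest.CombinatoricsR.UnitInterval

namespace Crest.Agent.R059.Bridge37

open Crest.Agent.R059.Pieri

variable {n : ℕ}

/-! ### q-integers -/

variable {K : Type*} [Field K]







/-! ### choosing one element in each class -/

variable {ι : Type*} [DecidableEq ι]



/-! ### the recursion of the weighted sums -/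


variable [Fintype ι]

/-- class sizes of `U`. -/
def kU (π : Fin n → ι) (U : Finset (Fin n)) : ι → ℤ :=
  fun J => ((U.filter (fun b => π b = J)).card : ℤ)

/-- the recursion which characterises the weighted sums `W`. -/
structure IsW (A : ι → ι → Prop) [DecidableRel A] (q : K) (x : ℕ → K)
    (W : (ι → ℤ) → ℕ → K) : Prop where
  zero : ∀ k, W k 0 = if k = 0 then 1 else 0
  succ : ∀ k N, W k (N + 1) = ∑ S ∈ Finset.univ.filter
    (fun S : Finset ι => ∀ a ∈ S, ∀ b ∈ S, ¬ A a b),
    x N ^ S.card * q ^ (∑ b ∈ S, ∑ a ∈ Finset.univ.filter (fun a => A a b), k a) *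
      W (fun i => k i - if i ∈ S then 1 else 0) N

/-- the solution of the recursion. -/
noncomputable def WW (A : ι → ι → Prop) [DecidableRel A] (q : K) (x : ℕ → K) :
    ℕ → (ι → ℤ) → K
  | 0, k => if k = 0 then 1 else 0
  | N + 1, k => ∑ S ∈ Finset.univ.filter
    (fun S : Finset ι => ∀ a ∈ S, ∀ b ∈ S, ¬ A a b),
    x N ^ S.card * q ^ (∑ b ∈ S, ∑ a ∈ Finset.univ.filter (fun a => A a b), k a) *
      WW A q x N (fun i => k i - if i ∈ S then 1 else 0)


theorem IsW.neg {A : ι → ι → Prop} [DecidableRel A] {q : K} {x : ℕ → K}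
    {W : (ι → ℤ) → ℕ → K} (hW : IsW A q x W) (N : ℕ) :
    ∀ k : ι → ℤ, (∃ i, k i < 0) → W k N = 0 := by
  induction N with
  | zero =>
    rintro k ⟨i, hi⟩
    rw [hW.zero, if_neg]
    intro h
    rw [h] at hi
    simp at hi
  | succ N ih =>
    rintro k ⟨i, hi⟩
    rw [hW.succ]
    apply Finset.sum_eq_zero
    intro S _
    rw [ih _ ⟨i, by show k i - (if i ∈ S then 1 else 0) < 0; split_ifs <;> omega⟩, mul_zero]


end Crest.Agent.R059.Bridge37
private theorem rz_0d237d891e : type_of% @_root_.Crest.Agent.R059.Bridge37.WW.eq_def := @_root_.Crest.Agent.R059.Bridge37.WW.eq_def -- L179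
private theorem rz_b08edd35b0 : type_of% @_root_.Crest.Agent.R059.Bridge37.WW.eq_1 := @_root_.Crest.Agent.R059.Bridge37.WW.eq_1 -- L179
end

-- ▼ part R059/Defl
section

set_option autoImplicit false

/-!
# The q-deflation formula

Weighted unit interval graph on a finite linear order `ι` with adjacency `R i j` (`i < j`),
root `o` = least vertex.  `W k N` is the (normalised) chromatic quasisymmetric function of the
blow up `k : ι → ℤ` in `N` variables, given by its one variable recursion.
-/

namespace Crest.Agent.R059.Defl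

open Finset

/-- unit interval adjacency on a linear order. -/
structure UI {ι : Type*} [LinearOrder ι] (R : ι → ι → Prop) : Prop where
  lt : ∀ {i j}, R i j → i < j
  mid : ∀ {i j l}, R i l → i < j → j < l → R i j ∧ R j l

variable {ι : Type*} [LinearOrder ι]
variable {R : ι → ι → Prop} [DecidableRel R]

/-- elements of `V` without larger neighbour in `V`. -/
def Lm (R : ι → ι → Prop) [DecidableRel R] (V : Finset ι) : Finset ι :=
  V.filter (fun i => ∀ j ∈ V, ¬ R i j)

/-- elements of `V` without smaller neighbour in `V`. -/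
def Mm (R : ι → ι → Prop) [DecidableRel R] (V : Finset ι) : Finset ι :=
  V.filter (fun i => ∀ j ∈ V, ¬ R j i)

theorem mem_Lm {V : Finset ι} {i : ι} : i ∈ Lm R V ↔ i ∈ V ∧ ∀ j ∈ V, ¬ R i j := by
  unfold Lm; rw [Finset.mem_filter]

theorem mem_Mm {V : Finset ι} {i : ι} : i ∈ Mm R V ↔ i ∈ V ∧ ∀ j ∈ V, ¬ R j i := by
  unfold Mm; rw [Finset.mem_filter]

theorem card_Lm (hR : UI R) (V : Finset ι) : (Lm R V).card = (Mm R V).card := by
  induction V using Finset.induction_on_max with
  | empty => rfl
  | insert a V ha ih =>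
    have haV : a ∉ V := fun h => lt_irrefl _ (ha a h)
    have hRa : ∀ i ∈ insert a V, ¬ R a i := by
      intro i hi h
      rcases Finset.mem_insert.1 hi with rfl | hi
      · exact lt_irrefl _ (hR.lt h)
      · exact lt_asymm (hR.lt h) (ha i hi)
    by_cases hex : ∃ i ∈ V, R i a
    · obtain ⟨i, hi, hia⟩ := hex
      have hne : V.Nonempty := ⟨i, hi⟩
      set b := V.max' hne with hb
      have hbV : b ∈ V := V.max'_mem hne
      have hba : R b a := by
        rcases lt_or_eq_of_le (V.le_max' i hi) with h | h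
        · exact (hR.mid hia h (ha b hbV)).2
        · rw [← h] at hb; rw [hb]; exact hia
      have hbL : b ∈ Lm R V := by
        refine Finset.mem_filter.2 ⟨hbV, fun j hj h => ?_⟩
        exact not_lt.2 (V.le_max' j hj) (hR.lt h)
      have e1 : Lm R (insert a V) = insert a ((Lm R V).erase b) := by
        ext j
        simp only [Lm, Finset.mem_filter, Finset.mem_insert, Finset.mem_erase]
        constructor
        · rintro ⟨rfl | hj, h2⟩
          · exact Or.inl rfl
          · right
            refine ⟨?_, hj, fun l hl => h2 l (Or.inr hl)⟩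
            rintro rfl
            exact h2 a (Or.inl rfl) hba
        · rintro (rfl | ⟨hjb, hj, h2⟩)
          · refine ⟨Or.inl rfl, fun l hl h => hRa l (Finset.mem_insert.2 hl) h⟩
          · refine ⟨Or.inr hj, ?_⟩
            rintro l (rfl | hl) h
            · have hlt : j < b := lt_of_le_of_ne (V.le_max' j hj) hjb
              exact h2 b hbV (hR.mid h hlt (ha b hbV)).1
            · exact h2 l hl h
      have e2 : Mm R (insert a V) = Mm R V := by
        ext j
        simp only [Mm, Finset.mem_filter, Finset.mem_insert]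
        constructor
        · rintro ⟨rfl | hj, h2⟩
          · exact absurd hia (h2 i (Or.inr hi))
          · exact ⟨hj, fun l hl => h2 l (Or.inr hl)⟩
        · rintro ⟨hj, h2⟩
          refine ⟨Or.inr hj, ?_⟩
          rintro l (rfl | hl) h
          · exact hRa j (Finset.mem_insert.2 (Or.inr hj)) h
          · exact h2 l hl h
      rw [e1, e2, Finset.card_insert_of_notMem, Finset.card_erase_of_mem hbL, ← ih]
      · have : 0 < (Lm R V).card := Finset.card_pos.2 ⟨b, hbL⟩
        omega
      · intro h
        exact haV (Finset.mem_filter.1 (Finset.mem_of_mem_erase h)).1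
    · push Not at hex
      have e1 : Lm R (insert a V) = insert a (Lm R V) := by
        ext j
        simp only [Lm, Finset.mem_filter, Finset.mem_insert]
        constructor
        · rintro ⟨rfl | hj, h2⟩
          · exact Or.inl rfl
          · exact Or.inr ⟨hj, fun l hl => h2 l (Or.inr hl)⟩
        · rintro (rfl | ⟨hj, h2⟩)
          · exact ⟨Or.inl rfl, fun l hl h => hRa l (Finset.mem_insert.2 hl) h⟩
          · refine ⟨Or.inr hj, ?_⟩
            rintro l (rfl | hl) h
            · exact hex j hj h
            · exact h2 l hl h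
      have e2 : Mm R (insert a V) = insert a (Mm R V) := by
        ext j
        simp only [Mm, Finset.mem_filter, Finset.mem_insert]
        constructor
        · rintro ⟨rfl | hj, h2⟩
          · exact Or.inl rfl
          · exact Or.inr ⟨hj, fun l hl => h2 l (Or.inr hl)⟩
        · rintro (rfl | ⟨hj, h2⟩)
          · refine ⟨Or.inl rfl, ?_⟩
            rintro l (rfl | hl) h
            · exact lt_irrefl _ (hR.lt h)
            · exact hex l hl h
          · refine ⟨Or.inr hj, ?_⟩
            rintro l (rfl | hl) h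
            · exact hRa j (Finset.mem_insert.2 (Or.inr hj)) h
            · exact h2 l hl h
      rw [e1, e2, Finset.card_insert_of_notMem, Finset.card_insert_of_notMem, ih]
      · intro h; exact haV (Finset.mem_filter.1 h).1
      · intro h; exact haV (Finset.mem_filter.1 h).1

section step

variable {K : Type*} [CommRing K]

theorem sum_powerset_card_succ (ω : ℕ → K) (A B : Finset ι) (h : A.card = B.card + 1) :
    ∑ S ∈ A.powerset, ω S.card = ∑ S ∈ B.powerset, (ω S.card + ω (S.card + 1)) := by
  classical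
  have hne : A.Nonempty := Finset.card_pos.1 (by omega)
  obtain ⟨x, hx⟩ := hne
  have hA : A = insert x (A.erase x) := (Finset.insert_erase hx).symm
  have hc : (A.erase x).card = B.card := by rw [Finset.card_erase_of_mem hx]; omega
  rw [hA, Finset.sum_powerset_insert (Finset.notMem_erase x A)]
  have e : ∑ t ∈ (A.erase x).powerset, ω (insert x t).card =
      ∑ t ∈ (A.erase x).powerset, ω (t.card + 1) := by
    apply Finset.sum_congr rfl
    intro t ht
    rw [Finset.card_insert_of_notMem]
    intro hxt
    exact Finset.notMem_erase x A (Finset.mem_powerset.1 ht hxt)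
  rw [e, ← Finset.sum_add_distrib]
  have e3 := Finset.sum_powerset_apply_card (fun m => ω m + ω (m + 1)) (x := A.erase x)
  have e4 := Finset.sum_powerset_apply_card (fun m => ω m + ω (m + 1)) (x := B)
  rw [e3, e4, hc]

/-- stable sets. -/
def St (R : ι → ι → Prop) (S : Finset ι) : Prop := ∀ a ∈ S, ∀ b ∈ S, ¬ R a b

instance (S : Finset ι) : Decidable (St R S) := by unfold St; infer_instance

variable [Fintype ι]

/-- the vertices different from the root. -/
def J (o : ι) : Finset ι := Finset.univ.erase o

/-- the vertices outside the closed neighbourhood of the root. -/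
def G' (R : ι → ι → Prop) [DecidableRel R] (o : ι) : Finset ι :=
  Finset.univ.filter (fun j => j ≠ o ∧ ¬ R o j)

/-- expansion of one summand. -/
theorem prod_split (o : ι) (S : Finset ι) (cond : ι → Prop) [DecidablePred cond]
    (hcond : ∀ j ∈ S, ¬ cond j) (u v : ι → K) (w : ι → K)
    (h1 : ∀ j ∈ J o, j ∈ S → w j = u j)
    (h2 : ∀ j ∈ J o, cond j → w j = v j)
    (h3 : ∀ j ∈ J o, j ∉ S → ¬ cond j → w j = u j + v j) :
    ∏ j ∈ J o, w j = ∑ T ∈ (J o).powerset,
      if S.erase o ⊆ T ∧ ∀ j ∈ T, ¬ cond j then (∏ j ∈ T, u j) * ∏ j ∈ J o \ T, v j else 0 := by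
  classical
  have e : ∏ j ∈ J o, w j = ∏ j ∈ J o, ((if cond j then 0 else u j) + (if j ∈ S then 0 else v j)) := by
    apply Finset.prod_congr rfl
    intro j hj
    by_cases hjS : j ∈ S
    · rw [if_neg (hcond j hjS), if_pos hjS, h1 j hj hjS, add_zero]
    · by_cases hc : cond j
      · rw [if_pos hc, if_neg hjS, h2 j hj hc, zero_add]
      · rw [if_neg hc, if_neg hjS, h3 j hj hjS hc]
  rw [e, Finset.prod_add]
  apply Finset.sum_congr rfl
  intro T hT
  rw [Finset.mem_powerset] at hT
  split_ifs with h
  · congr 1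
    · apply Finset.prod_congr rfl
      intro j hj
      rw [if_neg (h.2 j hj)]
    · apply Finset.prod_congr rfl
      intro j hj
      rw [Finset.mem_sdiff] at hj
      rw [if_neg]
      intro hjS
      exact hj.2 (h.1 (Finset.mem_erase.2 ⟨Finset.ne_of_mem_erase hj.1, hjS⟩))
  · rw [not_and_or] at h
    rcases h with h | h
    · rw [Finset.not_subset] at h
      obtain ⟨j, hj, hjT⟩ := h
      have : ∏ i ∈ J o \ T, (if i ∈ S then (0 : K) else v i) = 0 := by
        apply Finset.prod_eq_zero (i := j)
        · rw [Finset.mem_sdiff]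
          exact ⟨Finset.mem_erase.2 ⟨Finset.ne_of_mem_erase hj, Finset.mem_univ _⟩, hjT⟩
        · rw [if_pos (Finset.mem_of_mem_erase hj)]
      rw [this, mul_zero]
    · push Not at h
      obtain ⟨j, hj, hc⟩ := h
      have : ∏ i ∈ T, (if cond i then (0 : K) else u i) = 0 :=
        Finset.prod_eq_zero hj (by rw [if_pos hc])
      rw [this, zero_mul]

/-- the step identity. -/
theorem step (hR : UI R) (o : ι) (ho : ∀ j, o ≤ j) (u v : ι → K) (wL wR : Finset ι → ι → K)
    (ω : ℕ → K)
    (hL1 : ∀ S, St R S → ∀ j ∈ J o, j ∈ S → wL S j = u j)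
    (hL2 : ∀ S, St R S → ∀ j ∈ J o, (∃ i ∈ S, R i j) → wL S j = v j)
    (hL3 : ∀ S, St R S → ∀ j ∈ J o, j ∉ S → (¬ ∃ i ∈ S, R i j) → wL S j = u j + v j)
    (hR1 : ∀ S, St R S → ∀ j ∈ J o, j ∈ S → wR S j = u j)
    (hR2 : ∀ S, St R S → ∀ j ∈ J o, (∃ i ∈ S, R j i) → wR S j = v j)
    (hR3 : ∀ S, St R S → ∀ j ∈ J o, j ∉ S → (¬ ∃ i ∈ S, R j i) → wR S j = u j + v j) :
    ∑ S ∈ (Finset.univ : Finset ι).powerset.filter (fun S => St R S),
        ω S.card * ∏ j ∈ J o, wL S j =
      ∑ S ∈ (G' R o).powerset.filter (fun S => St R S),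
        (ω S.card + ω (S.card + 1)) * ∏ j ∈ J o, wR S j := by
  classical
  have hl : ∑ S ∈ (Finset.univ : Finset ι).powerset.filter (fun S => St R S),
        ω S.card * ∏ j ∈ J o, wL S j =
      ∑ T ∈ (J o).powerset, ((∏ j ∈ T, u j) * ∏ j ∈ J o \ T, v j) *
        ∑ S ∈ (Lm R (insert o T)).powerset, ω S.card := by
    have : ∀ S ∈ (Finset.univ : Finset ι).powerset.filter (fun S => St R S),
        ω S.card * ∏ j ∈ J o, wL S j = ∑ T ∈ (J o).powerset,
          if S.erase o ⊆ T ∧ ∀ j ∈ T, ¬ ∃ i ∈ S, R i j then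
            ω S.card * ((∏ j ∈ T, u j) * ∏ j ∈ J o \ T, v j) else 0 := by
      intro S hS
      have hS' := (Finset.mem_filter.1 hS).2
      rw [prod_split o S (fun j => ∃ i ∈ S, R i j)
        (by rintro j hj ⟨i, hi, hij⟩; exact hS' i hi j hj hij) u v (wL S)
        (hL1 S hS') (hL2 S hS') (hL3 S hS'), Finset.mul_sum]
      apply Finset.sum_congr rfl
      intro T _
      rw [mul_ite, mul_zero]
    rw [Finset.sum_congr rfl this, Finset.sum_comm]
    apply Finset.sum_congr rfl
    intro T hT
    rw [Finset.mem_powerset] at hT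
    rw [← Finset.sum_filter, Finset.mul_sum]
    have e1 : ((Finset.univ : Finset ι).powerset.filter (fun S => St R S)).filter
        (fun S => S.erase o ⊆ T ∧ ∀ j ∈ T, ¬ ∃ i ∈ S, R i j) = (Lm R (insert o T)).powerset := by
      ext S
      simp only [Finset.mem_filter, Finset.mem_powerset]
      constructor
      · rintro ⟨⟨_, hst⟩, h1, h2⟩ i hi
        refine mem_Lm.2 ⟨?_, ?_⟩
        · by_cases hio : i = o
          · exact Finset.mem_insert.2 (Or.inl hio)
          · exact Finset.mem_insert.2 (Or.inr (h1 (Finset.mem_erase.2 ⟨hio, hi⟩)))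
        · intro j hj hij
          rcases Finset.mem_insert.1 hj with rfl | hj
          · exact absurd (hR.lt hij) (not_lt.2 (ho i))
          · exact h2 j hj ⟨i, hi, hij⟩
      · intro h
        have h' : ∀ i ∈ S, i ∈ insert o T ∧ ∀ j ∈ insert o T, ¬ R i j := fun i hi =>
          mem_Lm.1 (h hi)
        refine ⟨⟨Finset.subset_univ _, fun a ha b hb => (h' a ha).2 b (h' b hb).1⟩, ?_, ?_⟩
        · intro i hi
          rcases Finset.mem_insert.1 (h' i (Finset.mem_of_mem_erase hi)).1 with h | h
          · exact absurd h (Finset.ne_of_mem_erase hi)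
          · exact h
        · rintro j hj ⟨i, hi, hij⟩
          exact (h' i hi).2 j (Finset.mem_insert_of_mem hj) hij
    rw [e1]
    apply Finset.sum_congr rfl
    intro S _
    ring
  have hr : ∑ S ∈ (G' R o).powerset.filter (fun S => St R S),
        (ω S.card + ω (S.card + 1)) * ∏ j ∈ J o, wR S j =
      ∑ T ∈ (J o).powerset, ((∏ j ∈ T, u j) * ∏ j ∈ J o \ T, v j) *
        ∑ S ∈ ((Mm R (insert o T)).erase o).powerset, (ω S.card + ω (S.card + 1)) := by
    have : ∀ S ∈ (G' R o).powerset.filter (fun S => St R S),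
        (ω S.card + ω (S.card + 1)) * ∏ j ∈ J o, wR S j = ∑ T ∈ (J o).powerset,
          if S.erase o ⊆ T ∧ ∀ j ∈ T, ¬ ∃ i ∈ S, R j i then
            (ω S.card + ω (S.card + 1)) * ((∏ j ∈ T, u j) * ∏ j ∈ J o \ T, v j) else 0 := by
      intro S hS
      have hS' := (Finset.mem_filter.1 hS).2
      rw [prod_split o S (fun j => ∃ i ∈ S, R j i)
        (by rintro j hj ⟨i, hi, hij⟩; exact hS' j hj i hi hij) u v (wR S)
        (hR1 S hS') (hR2 S hS') (hR3 S hS'), Finset.mul_sum]
      apply Finset.sum_congr rfl
      intro T _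
      rw [mul_ite, mul_zero]
    rw [Finset.sum_congr rfl this, Finset.sum_comm]
    apply Finset.sum_congr rfl
    intro T hT
    rw [Finset.mem_powerset] at hT
    rw [← Finset.sum_filter, Finset.mul_sum]
    have e1 : ((G' R o).powerset.filter (fun S => St R S)).filter
        (fun S => S.erase o ⊆ T ∧ ∀ j ∈ T, ¬ ∃ i ∈ S, R j i) =
          ((Mm R (insert o T)).erase o).powerset := by
      ext S
      simp only [Finset.mem_filter, Finset.mem_powerset]
      constructor
      · rintro ⟨⟨hG, hst⟩, h1, h2⟩ i hi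
        have hiG := hG hi
        simp only [G', Finset.mem_filter, Finset.mem_univ, true_and] at hiG
        refine Finset.mem_erase.2 ⟨hiG.1, mem_Mm.2 ⟨?_, ?_⟩⟩
        · exact Finset.mem_insert.2 (Or.inr (h1 (Finset.mem_erase.2 ⟨hiG.1, hi⟩)))
        · intro j hj hij
          rcases Finset.mem_insert.1 hj with rfl | hj
          · exact hiG.2 hij
          · exact h2 j hj ⟨i, hi, hij⟩
      · intro h
        have h' : ∀ i ∈ S, i ≠ o ∧ i ∈ insert o T ∧ ∀ j ∈ insert o T, ¬ R j i := fun i hi =>
          ⟨Finset.ne_of_mem_erase (h hi), mem_Mm.1 (Finset.mem_of_mem_erase (h hi))⟩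
        refine ⟨⟨?_, fun a ha b hb => (h' b hb).2.2 a (h' a ha).2.1⟩, ?_, ?_⟩
        · intro i hi
          simp only [G', Finset.mem_filter, Finset.mem_univ, true_and]
          exact ⟨(h' i hi).1, (h' i hi).2.2 o (Finset.mem_insert_self _ _)⟩
        · intro i hi
          rcases Finset.mem_insert.1 (h' i (Finset.mem_of_mem_erase hi)).2.1 with h | h
          · exact absurd h (Finset.ne_of_mem_erase hi)
          · exact h
        · rintro j hj ⟨i, hi, hij⟩
          exact (h' i hi).2.2 j (Finset.mem_insert_of_mem hj) hij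
    rw [e1]
    apply Finset.sum_congr rfl
    intro S _
    ring
  rw [hl, hr]
  apply Finset.sum_congr rfl
  intro T _
  congr 1
  apply sum_powerset_card_succ
  have hoM : o ∈ Mm R (insert o T) := by
    refine mem_Mm.2 ⟨Finset.mem_insert_self _ _, fun j _ hj => ?_⟩
    exact absurd (hR.lt hj) (not_lt.2 (ho j))
  rw [card_Lm hR, Finset.card_erase_of_mem hoM]
  have : 0 < (Mm R (insert o T)).card := Finset.card_pos.2 ⟨o, hoM⟩
  omega

end step

/-! ### The function `W` -/

variable [Fintype ι] {F : Type*} [Field F]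

/-- indicator. -/
def ind (S : Finset ι) : ι → ℤ := fun j => if j ∈ S then 1 else 0

/-- weight of the smaller neighbours. -/
def nb (R : ι → ι → Prop) [DecidableRel R] (k : ι → ℤ) (j : ι) : ℤ := ∑ i, if R i j then k i else 0

/-- weight of the larger neighbours. -/
def nf (R : ι → ι → Prop) [DecidableRel R] (k : ι → ℤ) (j : ι) : ℤ := ∑ i, if R j i then k i else 0

/-- normalised chromatic function of the blow up `k` in `N` variables. -/
noncomputable def W (R : ι → ι → Prop) [DecidableRel R] (q : F) (x : ℕ → F) :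
    ℕ → (ι → ℤ) → F
  | 0 => fun k => if k = 0 then 1 else 0
  | N + 1 => fun k => ∑ S ∈ (Finset.univ : Finset ι).powerset.filter (fun S => St R S),
      x N ^ S.card * q ^ (∑ b ∈ S, nb R k b) * W R q x N (k - ind S)

/-- elementary symmetric polynomials with integer index. -/
noncomputable def ee (x : ℕ → F) (N : ℕ) (M : ℤ) : F :=
  if 0 ≤ M then Pieri.E x N M.toNat else 0


theorem ee_succ (x : ℕ → F) (N : ℕ) (M : ℤ) :
    ee x (N + 1) M = ee x N M + x N * ee x N (M - 1) := by
  unfold ee
  rcases lt_trichotomy M 0 with h | h | h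
  · rw [if_neg (by omega), if_neg (by omega), if_neg (by omega)]; ring
  · subst h
    rw [if_pos le_rfl, if_pos le_rfl, if_neg (by omega)]
    simp [Pieri.E_zero]
  · rw [if_pos (by omega), if_pos (by omega), if_pos (by omega),
      Pieri.E_succ x N (by omega : 0 < M.toNat)]
    have : M.toNat - 1 = (M - 1).toNat := by omega
    rw [this]

theorem W_neg (q : F) (x : ℕ → F) (N : ℕ) (k : ι → ℤ) (h : ∃ j, k j < 0) : W R q x N k = 0 := by
  induction N generalizing k with
  | zero =>
    obtain ⟨j, hj⟩ := h
    show (if k = 0 then (1 : F) else 0) = 0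
    rw [if_neg]
    rintro rfl
    exact lt_irrefl _ hj
  | succ N ih =>
    obtain ⟨j, hj⟩ := h
    show ∑ S ∈ _, _ = (0 : F)
    apply Finset.sum_eq_zero
    intro S _
    rw [ih (k - ind S) ⟨j, ?_⟩, mul_zero]
    simp only [Pi.sub_apply, ind]
    split_ifs <;> omega

/-- exponents `Σ_{i~j, i<j} c_j A_i`. -/
def ex (R : ι → ι → Prop) [DecidableRel R] (c A : ι → ℤ) : ℤ := ∑ i, A i * nf R c i

/-- `D_j = k(N⁻(j)) - c(N⁺(j))`. -/
def Dv (R : ι → ι → Prop) [DecidableRel R] (k c : ι → ℤ) (j : ι) : ℤ := nb R k j - nf R c j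

theorem nb_sub (k c : ι → ℤ) (j : ι) : nb R (k - c) j = nb R k j - nb R c j := by
  unfold nb
  rw [← Finset.sum_sub_distrib]
  apply Finset.sum_congr rfl
  intro i _
  split_ifs <;> simp

theorem nb_add (k c : ι → ℤ) (j : ι) : nb R (k + c) j = nb R k j + nb R c j := by
  unfold nb
  rw [← Finset.sum_add_distrib]
  apply Finset.sum_congr rfl
  intro i _
  split_ifs <;> simp

theorem nf_add (k c : ι → ℤ) (j : ι) : nf R (k + c) j = nf R k j + nf R c j := by
  unfold nf
  rw [← Finset.sum_add_distrib]
  apply Finset.sum_congr rfl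
  intro i _
  split_ifs <;> simp

theorem nb_ind (hR : UI R) {S : Finset ι} (hS : St R S) (j : ι) :
    nb R (ind S) j = if ∃ i ∈ S, R i j then 1 else 0 := by
  unfold nb ind
  split_ifs with h
  · obtain ⟨i, hi, hij⟩ := h
    rw [Finset.sum_eq_single i]
    · rw [if_pos hij, if_pos hi]
    · intro b _ hb
      split_ifs with h1 h2
      · exfalso
        rcases lt_or_gt_of_ne hb with h3 | h3
        · exact hS b h2 i hi (hR.mid h1 h3 (hR.lt hij)).1
        · exact hS i hi b h2 (hR.mid hij h3 (hR.lt h1)).1
      · rfl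
      · rfl
    · intro h; exact absurd (Finset.mem_univ _) h
  · apply Finset.sum_eq_zero
    intro i _
    split_ifs with h1 h2
    · exact absurd ⟨i, h2, h1⟩ h
    · rfl
    · rfl

theorem nf_ind (hR : UI R) {S : Finset ι} (hS : St R S) (j : ι) :
    nf R (ind S) j = if ∃ i ∈ S, R j i then 1 else 0 := by
  unfold nf ind
  split_ifs with h
  · obtain ⟨i, hi, hij⟩ := h
    rw [Finset.sum_eq_single i]
    · rw [if_pos hij, if_pos hi]
    · intro b _ hb
      split_ifs with h1 h2
      · exfalso
        rcases lt_or_gt_of_ne hb with h3 | h3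
        · exact hS b h2 i hi (hR.mid hij (hR.lt h1) h3).2
        · exact hS i hi b h2 (hR.mid h1 (hR.lt hij) h3).2
      · rfl
      · rfl
    · intro h; exact absurd (Finset.mem_univ _) h
  · apply Finset.sum_eq_zero
    intro i _
    split_ifs with h1 h2
    · exact absurd ⟨i, h2, h1⟩ h
    · rfl
    · rfl


theorem sum_ind_mul (S : Finset ι) (f : ι → ℤ) : ∑ i, ind S i * f i = ∑ i ∈ S, f i := by
  unfold ind
  rw [← Finset.sum_filter_add_sum_filter_not Finset.univ (fun i => i ∈ S)]
  rw [Finset.sum_congr rfl (g := f), Finset.sum_eq_zero (s := Finset.univ.filter (fun i => ¬ i ∈ S)),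
    add_zero]
  · congr 1
    ext i; simp
  · intro i hi
    rw [if_neg (Finset.mem_filter.1 hi).2, zero_mul]
  · intro i hi
    rw [if_pos (Finset.mem_filter.1 hi).2, one_mul]

theorem swap_sum (A c : ι → ℤ) : ∑ i, A i * nf R c i = ∑ j, c j * nb R A j := by
  unfold nf nb
  simp_rw [Finset.mul_sum]
  rw [Finset.sum_comm]
  apply Finset.sum_congr rfl
  intro i _
  apply Finset.sum_congr rfl
  intro j _
  split_ifs <;> ring

theorem exL (k c : ι → ℤ) (S : Finset ι) :
    (∑ b ∈ S, nb R k b) + ex R c (k - ind S - c) = ex R c (k - c) + ∑ b ∈ S, Dv R k c b := by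
  have h1 : ex R c (k - ind S - c) = ex R c (k - c) - ∑ b ∈ S, nf R c b := by
    unfold ex
    rw [← sum_ind_mul S (fun b => nf R c b), ← Finset.sum_sub_distrib]
    apply Finset.sum_congr rfl
    intro i _
    simp only [Pi.sub_apply]
    ring
  rw [h1]
  unfold Dv
  rw [Finset.sum_sub_distrib]
  ring

theorem exR (hR : UI R) (k c : ι → ℤ) {S : Finset ι} (hS : St R S) :
    (∑ b ∈ S, nb R (c + ind S) b) + ex R (c + ind S) (k - (c + ind S)) =
      ex R c (k - c) + ∑ b ∈ S, Dv R k c b := by
  have h0 : ∀ b ∈ S, nb R (ind S) b = 0 := by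
    intro b hb
    rw [nb_ind hR hS, if_neg]
    rintro ⟨i, hi, hib⟩
    exact hS i hi b hb hib
  have h0' : ∀ b ∈ S, nf R (ind S) b = 0 := by
    intro b hb
    rw [nf_ind hR hS, if_neg]
    rintro ⟨i, hi, hib⟩
    exact hS b hb i hi hib
  have h1 : ex R (c + ind S) (k - (c + ind S)) = ex R c (k - c) + ∑ b ∈ S, nb R (k - c) b
      - ∑ b ∈ S, nf R c b := by
    have e1 : ex R (c + ind S) (k - (c + ind S)) =
        ∑ i, (k - c) i * nf R c i + ∑ i, (k - c) i * nf R (ind S) i
          - ∑ i, ind S i * nf R c i - ∑ i, ind S i * nf R (ind S) i := by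
      unfold ex
      rw [← Finset.sum_add_distrib, ← Finset.sum_sub_distrib, ← Finset.sum_sub_distrib]
      apply Finset.sum_congr rfl
      intro i _
      rw [nf_add]
      simp only [Pi.sub_apply, Pi.add_apply]
      ring
    rw [e1, swap_sum (k - c) (ind S), sum_ind_mul, sum_ind_mul, sum_ind_mul,
      Finset.sum_eq_zero h0']
    unfold ex
    ring
  rw [h1]
  unfold Dv
  have h2 : ∑ b ∈ S, nb R (c + ind S) b = ∑ b ∈ S, nb R c b := by
    apply Finset.sum_congr rfl
    intro b hb
    rw [nb_add, h0 b hb, add_zero]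
  have h3 : ∑ b ∈ S, nb R (k - c) b = ∑ b ∈ S, nb R k b - ∑ b ∈ S, nb R c b := by
    rw [← Finset.sum_sub_distrib]
    apply Finset.sum_congr rfl
    intro b _
    rw [nb_sub]
  rw [h2, h3, Finset.sum_sub_distrib]
  ring

/-- the index set of the deflated weights: supported on `G'`, entries in `[0, B]`. -/
noncomputable def box (R : ι → ι → Prop) [DecidableRel R] (o : ι) (B : ℤ) : Finset (ι → ℤ) :=
  Fintype.piFinset (fun j => if j ∈ G' R o then Finset.Icc 0 B else {0})

theorem mem_box {o : ι} {B : ℤ} {c : ι → ℤ} :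
    c ∈ box R o B ↔ (∀ j ∈ G' R o, 0 ≤ c j ∧ c j ≤ B) ∧ (∀ j ∉ G' R o, c j = 0) := by
  unfold box
  rw [Fintype.mem_piFinset]
  constructor
  · intro H
    refine ⟨fun j hj => ?_, fun j hj => ?_⟩
    · have := H j
      rw [if_pos hj] at this
      exact Finset.mem_Icc.1 this
    · have := H j
      rw [if_neg hj] at this
      exact Finset.mem_singleton.1 this
  · rintro ⟨h1, h2⟩ j
    split_ifs with hj
    · exact Finset.mem_Icc.2 (h1 j hj)
    · exact Finset.mem_singleton.2 (h2 j hj)

variable {P : Type*}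

/-- the kernel function. -/
def Phi (o : ι) (Q : Finset P) (φ : P → ι → ℤ → ℤ → F) (A D : ι → ℤ) : F :=
  ∑ p ∈ Q, ∏ j ∈ J o, φ p j (A j) (D j)

/-- pointwise identity. -/
theorem key (hR : UI R) (o : ι) (ho : ∀ j, o ≤ j) (q : F) (hq : q ≠ 0) (x : ℕ → F)
    (Q : Finset P) (φ : P → ι → ℤ → ℤ → F)
    (hφ : ∀ p ∈ Q, ∀ j ∈ J o, ∀ A D : ℤ, φ p j A D = q ^ D * φ p j (A - 1) D + φ p j A (D - 1))
    (N : ℕ) (M : ℤ) (k c : ι → ℤ) (hc : ∀ j ∉ G' R o, c j = 0) :
    ∑ S ∈ (Finset.univ : Finset ι).powerset.filter (fun S => St R S),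
        x N ^ S.card * q ^ (∑ b ∈ S, nb R k b) *
          (q ^ ex R c (k - ind S - c) * Phi o Q φ (k - ind S - c) (Dv R (k - ind S) c) *
            ee x N (M - S.card)) =
      ∑ S ∈ (G' R o).powerset.filter (fun S => St R S),
        x N ^ S.card * q ^ (∑ b ∈ S, nb R (c + ind S) b) *
          (q ^ ex R (c + ind S) (k - (c + ind S)) *
            Phi o Q φ (k - (c + ind S)) (Dv R k (c + ind S)) * ee x (N + 1) (M - S.card)) := by
  classical
  have hDo : Dv R k c o = 0 := by
    unfold Dv
    have h1 : nb R k o = 0 := by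
      unfold nb
      apply Finset.sum_eq_zero
      intro i _
      rw [if_neg]
      intro h
      exact absurd (hR.lt h) (not_lt.2 (ho i))
    have h2 : nf R c o = 0 := by
      unfold nf
      apply Finset.sum_eq_zero
      intro i _
      split_ifs with h
      · apply hc
        intro hi
        exact (Finset.mem_filter.1 hi).2.2 h
      · rfl
    rw [h1, h2, sub_zero]
  set ω : ℕ → F := fun s => x N ^ s * ee x N (M - s) with hω
  have hprod : ∀ S : Finset ι, q ^ (∑ b ∈ S, Dv R k c b) = ∏ j ∈ J o, (if j ∈ S then q ^ Dv R k c j else 1) := by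
    intro S
    rw [Finset.prod_ite_mem]
    have e1 : ∑ b ∈ S, Dv R k c b = ∑ b ∈ J o ∩ S, Dv R k c b := by
      by_cases hoS : o ∈ S
      · have : J o ∩ S = S.erase o := by
          ext j; simp [J]
        rw [this, ← Finset.add_sum_erase S _ hoS, hDo, zero_add]
      · have : J o ∩ S = S := by
          ext j
          simp only [J, Finset.mem_inter, Finset.mem_erase, Finset.mem_univ, and_true]
          constructor
          · exact fun h => h.2
          · intro h
            exact ⟨fun h' => hoS (h' ▸ h), h⟩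
        rw [this]
    rw [e1]
    clear e1
    induction (J o ∩ S) using Finset.induction_on with
    | empty => simp
    | insert a s ha ih => rw [Finset.sum_insert ha, Finset.prod_insert ha, zpow_add₀ hq, ih]
  have hl : ∀ S ∈ (Finset.univ : Finset ι).powerset.filter (fun S => St R S),
      x N ^ S.card * q ^ (∑ b ∈ S, nb R k b) *
          (q ^ ex R c (k - ind S - c) * Phi o Q φ (k - ind S - c) (Dv R (k - ind S) c) *
            ee x N (M - S.card)) =
      ∑ p ∈ Q, q ^ ex R c (k - c) * (ω S.card * ∏ j ∈ J o, ((if j ∈ S then q ^ Dv R k c j else 1) *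
        φ p j (k j - c j - if j ∈ S then 1 else 0)
          (Dv R k c j - if ∃ i ∈ S, R i j then 1 else 0))) := by
    intro S hS
    have hS' := (Finset.mem_filter.1 hS).2
    have h1 : x N ^ S.card * q ^ (∑ b ∈ S, nb R k b) *
          (q ^ ex R c (k - ind S - c) * Phi o Q φ (k - ind S - c) (Dv R (k - ind S) c) *
            ee x N (M - S.card)) =
        ω S.card * (q ^ ((∑ b ∈ S, nb R k b) + ex R c (k - ind S - c))) *
          Phi o Q φ (k - ind S - c) (Dv R (k - ind S) c) := by
      rw [zpow_add₀ hq, hω]; ring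
    rw [h1, exL, zpow_add₀ hq, hprod, Phi, Finset.mul_sum]
    apply Finset.sum_congr rfl
    intro p _
    rw [Finset.prod_mul_distrib]
    have h2 : ∏ j ∈ J o, φ p j ((k - ind S - c) j) (Dv R (k - ind S) c j) =
        ∏ j ∈ J o, φ p j (k j - c j - if j ∈ S then 1 else 0)
          (Dv R k c j - if ∃ i ∈ S, R i j then 1 else 0) := by
      apply Finset.prod_congr rfl
      intro j _
      congr 1
      · simp only [Pi.sub_apply, ind]; ring
      · unfold Dv
        rw [nb_sub, nb_ind hR hS']; ring
    rw [h2]; ring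
  have hr : ∀ S ∈ (G' R o).powerset.filter (fun S => St R S),
      x N ^ S.card * q ^ (∑ b ∈ S, nb R (c + ind S) b) *
          (q ^ ex R (c + ind S) (k - (c + ind S)) *
            Phi o Q φ (k - (c + ind S)) (Dv R k (c + ind S)) * ee x (N + 1) (M - S.card)) =
      ∑ p ∈ Q, q ^ ex R c (k - c) * ((ω S.card + ω (S.card + 1)) *
        ∏ j ∈ J o, ((if j ∈ S then q ^ Dv R k c j else 1) *
        φ p j (k j - c j - if j ∈ S then 1 else 0)
          (Dv R k c j - if ∃ i ∈ S, R j i then 1 else 0))) := by
    intro S hS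
    have hS' := (Finset.mem_filter.1 hS).2
    have h0 : x N ^ S.card * ee x (N + 1) (M - S.card) = ω S.card + ω (S.card + 1) := by
      rw [hω, ee_succ]
      simp only
      rw [pow_succ]
      have : M - (S.card : ℤ) - 1 = M - ((S.card + 1 : ℕ) : ℤ) := by push_cast; ring
      rw [this]; ring
    have h1 : x N ^ S.card * q ^ (∑ b ∈ S, nb R (c + ind S) b) *
          (q ^ ex R (c + ind S) (k - (c + ind S)) *
            Phi o Q φ (k - (c + ind S)) (Dv R k (c + ind S)) * ee x (N + 1) (M - S.card)) =
        (x N ^ S.card * ee x (N + 1) (M - S.card)) *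
          (q ^ ((∑ b ∈ S, nb R (c + ind S) b) + ex R (c + ind S) (k - (c + ind S)))) *
          Phi o Q φ (k - (c + ind S)) (Dv R k (c + ind S)) := by
      rw [zpow_add₀ hq]; ring
    rw [h1, h0, exR hR k c hS', zpow_add₀ hq, hprod, Phi, Finset.mul_sum]
    apply Finset.sum_congr rfl
    intro p _
    rw [Finset.prod_mul_distrib]
    have h2 : ∏ j ∈ J o, φ p j ((k - (c + ind S)) j) (Dv R k (c + ind S) j) =
        ∏ j ∈ J o, φ p j (k j - c j - if j ∈ S then 1 else 0)
          (Dv R k c j - if ∃ i ∈ S, R j i then 1 else 0) := by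
      apply Finset.prod_congr rfl
      intro j _
      congr 1
      · simp only [Pi.sub_apply, Pi.add_apply, ind]; ring
      · unfold Dv
        rw [nf_add, nf_ind hR hS']; ring
    rw [h2]; ring
  rw [Finset.sum_congr rfl hl, Finset.sum_congr rfl hr, Finset.sum_comm, Finset.sum_comm (t := Q)]
  apply Finset.sum_congr rfl
  intro p hp
  rw [← Finset.mul_sum, ← Finset.mul_sum]
  congr 1
  exact step hR o ho (fun j => q ^ Dv R k c j * φ p j (k j - c j - 1) (Dv R k c j))
    (fun j => φ p j (k j - c j) (Dv R k c j - 1)) _ _ ω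
    (by
      intro S hS j hj hjS
      have hn : ¬ ∃ i ∈ S, R i j := by rintro ⟨i, hi, hij⟩; exact hS i hi j hjS hij
      simp only [if_pos hjS, if_neg hn, sub_zero])
    (by
      intro S hS j hj hex
      have hn : j ∉ S := by obtain ⟨i, hi, hij⟩ := hex; exact fun h => hS i hi j h hij
      simp only [if_pos hex, if_neg hn, sub_zero, one_mul])
    (by
      intro S hS j hj hjS hex
      simp only [if_neg hjS, if_neg hex, sub_zero, one_mul]
      exact hφ p hp j hj _ _)
    (by
      intro S hS j hj hjS
      have hn : ¬ ∃ i ∈ S, R j i := by rintro ⟨i, hi, hij⟩; exact hS j hjS i hi hij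
      simp only [if_pos hjS, if_neg hn, sub_zero])
    (by
      intro S hS j hj hex
      have hn : j ∉ S := by obtain ⟨i, hi, hij⟩ := hex; exact fun h => hS j h i hi hij
      simp only [if_pos hex, if_neg hn, sub_zero, one_mul])
    (by
      intro S hS j hj hjS hex
      simp only [if_neg hjS, if_neg hex, sub_zero, one_mul]
      exact hφ p hp j hj _ _)


theorem shift (q : F) (x : ℕ → F) (o : ι) (N : ℕ) (B M : ℤ) (hMB : M ≤ B) (H : (ι → ℤ) → F)
    (hH : ∀ c, M < ∑ j, c j → H c = 0) (S : Finset ι) (hS : S ⊆ G' R o) :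
    ∑ c ∈ box R o B, H c * W R q x N (c - ind S) =
      ∑ c ∈ box R o B, H (c + ind S) * W R q x N c := by
  classical
  have hSo : ∀ j ∉ G' R o, ind S j = 0 := by
    intro j hj
    unfold ind
    rw [if_neg (fun h => hj (hS h))]
  have hi01 : ∀ j, 0 ≤ ind S j := by intro j; unfold ind; split_ifs <;> omega
  refine Finset.sum_bij_ne_zero (fun c _ _ => c - ind S) ?_ ?_ ?_ ?_
  · intro c hc hne
    rw [mem_box] at hc ⊢
    have hW : W R q x N (c - ind S) ≠ 0 := right_ne_zero_of_mul hne
    have hpos : ∀ j, 0 ≤ (c - ind S) j := by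
      intro j
      by_contra hj
      exact hW (W_neg q x N _ ⟨j, not_le.1 hj⟩)
    refine ⟨fun j hj => ⟨hpos j, ?_⟩, fun j hj => ?_⟩
    · have := (hc.1 j hj).2
      have := hi01 j
      simp only [Pi.sub_apply]
      omega
    · simp only [Pi.sub_apply]
      rw [hc.2 j hj, hSo j hj, sub_zero]
  · intro c₁ _ _ c₂ _ _ h
    exact sub_left_injective h
  · intro b hb hne
    rw [mem_box] at hb
    have hHb : H (b + ind S) ≠ 0 := left_ne_zero_of_mul hne
    have hsum : ∑ j, (b + ind S) j ≤ M := by
      by_contra hj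
      exact hHb (hH _ (not_le.1 hj))
    have hpos : ∀ j, 0 ≤ (b + ind S) j := by
      intro j
      by_cases hj : j ∈ G' R o
      · have := (hb.1 j hj).1
        have := hi01 j
        simp only [Pi.add_apply]
        omega
      · simp only [Pi.add_apply]
        rw [hb.2 j hj, hSo j hj]
        simp
    refine ⟨b + ind S, ?_, ?_, ?_⟩
    · rw [mem_box]
      refine ⟨fun j hj => ⟨hpos j, ?_⟩, fun j hj => ?_⟩
      · have : (b + ind S) j ≤ ∑ j, (b + ind S) j :=
          Finset.single_le_sum (fun i _ => hpos i) (Finset.mem_univ j)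
        omega
      · simp only [Pi.add_apply]
        rw [hb.2 j hj, hSo j hj]
        simp
    · rw [add_sub_cancel_right]
      exact hne
    · exact add_sub_cancel_right b (ind S)
  · intro c _ _
    rw [sub_add_cancel]


end Crest.Agent.R059.Defl
private theorem rz_4fc6367e2a : type_of% @_root_.Crest.Agent.R059.Defl.W.eq_def := @_root_.Crest.Agent.R059.Defl.W.eq_def -- L359
private theorem rz_f499b16766 : type_of% @_root_.Crest.Agent.R059.Defl.W.eq_1 := @_root_.Crest.Agent.R059.Defl.W.eq_1 -- L359
end

-- ▼ part R059/MutInit1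
section

set_option autoImplicit false

set_option linter.unusedSectionVars false

/-! Regularity of the initial seed of the mutation game (row 59). -/

namespace Crest.Agent.R059.MutInit

open Finset Crest.Agent.R059.Defl


section form

variable {ι : Type*} [LinearOrder ι] [Fintype ι] (R : ι → ι → Prop) [DecidableRel R]











end form

section step

variable {ι : Type*} [LinearOrder ι] [Fintype ι] {R : ι → ι → Prop} [DecidableRel R]










variable {K : Type*} [Field K] {A : Type*} [AddCommGroup A] [Module K A]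






end step

section W

variable {ι : Type*} [LinearOrder ι] [Fintype ι] (R : ι → ι → Prop) [DecidableRel R]
variable {K : Type*} [Field K]

/-- exponent of the normalisation. -/
def th (k : ι → ℤ) : ℤ := - ∑ j, k j * nb R k j

/-- bar-symmetric normalisation of `W`. -/
noncomputable def Wn (v : K) (x : ℕ → K) (N : ℕ) (k : ι → ℤ) : K :=
  v ^ th R k * W R (v ^ 2) x N k

variable {R}






end W

end Crest.Agent.R059.MutInit
end

-- ▼ part R059/MutFinal
section

set_option autoImplicit false

open Crest.CombinatoricsR.UnitInterval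

/-! (L5): from the positive cone for the normalised function `Wn` at `k = 1` to `EPos`. -/

namespace Crest.Agent.R059.MutFinal

open MvPolynomial Crest.Agent.R059.Pieri
open Crest.Agent.R059.Defl (ee W nb ind)
open Crest.Agent.R059.MutInit (Wn)

/-! ### `chr` and ring homomorphisms -/

section chrmap

variable {R S : Type*} [CommRing R] [CommRing S] {n : ℕ}




end chrmap

/-! ### the field -/

/-- the polynomial ring in `x_1..x_N` over `ℤ[v]`. -/
abbrev Pv (N : ℕ) : Type := MvPolynomial (Fin N) (Polynomial ℤ)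

/-- its fraction field. -/
abbrev Kv (N : ℕ) : Type := FractionRing (Pv N)

/-- the parameter `v` (`q = v ^ 2`). -/
noncomputable def vv (N : ℕ) : Kv N := algebraMap (Pv N) (Kv N) (C Polynomial.X)

/-- the variables. -/
noncomputable def xx (N : ℕ) : ℕ → Kv N := fun i => algebraMap (Pv N) (Kv N) (xv N i)







/-! ### integral representatives -/

















/-! ### the bridge -/

variable {n : ℕ}







end Crest.Agent.R059.MutFinal
end

-- ▼ part R059/MutConn

set_option autoImplicit false

open Crest.CombinatoricsR.UnitInterval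

/-! Reduction of `EPos` to connected unit interval graphs. -/

namespace Crest.Agent.R059.MutConn

/-- connected: `a` and `a + 1` are adjacent for all `a`. -/
def Conn {n : ℕ} (h : Fin n → ℕ) : Prop := ∀ a : Fin n, a.val + 1 < n → a.val + 2 ≤ h a

theorem EPos_of_conn (H : ∀ (n : ℕ) (h : Fin n → ℕ), IsHessenberg h → Conn h → EPos h) :
    ∀ (n : ℕ) (h : Fin n → ℕ), IsHessenberg h → EPos h := by
  intro n
  induction n using Nat.strong_induction_on with
  | _ n ih =>
    intro h hh
    by_cases hc : Conn h
    · exact H n h hh hc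
    · unfold Conn at hc
      push Not at hc
      obtain ⟨a, ha, ha2⟩ := hc
      have hha : h a = a.val + 1 := by
        have := (hh.2 a).1
        omega
      obtain ⟨k, hk⟩ : ∃ k, n = (a.val + 1) + k := ⟨n - (a.val + 1), by omega⟩
      obtain ⟨m, hm⟩ : ∃ m, m = a.val + 1 := ⟨_, rfl⟩
      rw [← hm] at hk
      subst hk
      have hma : ∀ b : Fin m, h (Fin.castAdd k b) ≤ m := by
        intro b
        have h1 : Fin.castAdd k b ≤ a := by
          rw [Fin.le_def]
          simp only [Fin.val_castAdd]
          have := b.isLt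
          omega
        have := hh.1 h1
        omega
      have hbig : ∀ b : Fin k, m + b.val + 1 ≤ h (Fin.natAdd m b) := by
        intro b
        have := (hh.2 (Fin.natAdd m b)).1
        simpa using this
      have e1 : IsHessenberg (fun b : Fin m => h (Fin.castAdd k b)) := by
        refine ⟨fun b c hbc => hh.1 ?_, fun b => ⟨?_, hma b⟩⟩
        · rw [Fin.le_def] at hbc ⊢
          simpa using hbc
        · have := (hh.2 (Fin.castAdd k b)).1
          simpa using this
      have e2 : IsHessenberg (fun b : Fin k => h (Fin.natAdd m b) - m) := by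
        refine ⟨fun b c hbc => ?_, fun b => ⟨?_, ?_⟩⟩
        · have h2 : h (Fin.natAdd m b) ≤ h (Fin.natAdd m c) := hh.1 (by
            rw [Fin.le_def] at hbc ⊢
            simpa using hbc)
          show h (Fin.natAdd m b) - m ≤ h (Fin.natAdd m c) - m
          omega
        · have := hbig b
          show b.val + 1 ≤ h (Fin.natAdd m b) - m
          omega
        · have := (hh.2 (Fin.natAdd m b)).2
          show h (Fin.natAdd m b) - m ≤ k
          omega
      exact EP_cut h _ _ (fun _ => rfl)
        (fun b => by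
          have := hbig b
          show h (Fin.natAdd m b) - m + m = h (Fin.natAdd m b)
          omega)
        hma (ih m (by omega) _ e1) (ih k (by omega) _ e2)


end Crest.Agent.R059.MutConn
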