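import Crest.Agent.R059.FlowV_999
import Crest.Agent.R059.Fac_150
import Crest.Agent.R059.Tr_201
import Crest.Agent.R059.TransA_569
import Crest.Agent.R059.CloB_987
import Crest.Agent.R059.JDefs_853
import Crest.Agent.R059.ABOut_883
import Crest.Agent.R059.Dilog_344
import Crest.Agent.R059.Grnd_883
import Crest.Agent.R059.Att_201
import Crest.Agent.R059.Trans_569

-- ▼ part R059/Wall_999
section

/-!
# Row 59, WALL: binding of the flow theorem to the twisted power series ring (helper999)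
-/

set_option autoImplicit false
set_option linter.unusedSectionVars false

open Finset

namespace Crest.Agent.R059.Wall999

open TPS FlowV999

/-! ### passing from `ι →₀ ℕ` to `ι →₀ ℤ` -/

section cast

variable {ι : Type*}

/-- the inclusion `ι →₀ ℕ → ι →₀ ℤ` -/
noncomputable def cz : (ι →₀ ℕ) →+ (ι →₀ ℤ) :=
  Finsupp.mapRange.addMonoidHom (Nat.castAddMonoidHom ℤ)

@[simp] theorem cz_apply (m : ι →₀ ℕ) (i : ι) : cz m i = (m i : ℤ) := rfl

theorem cz_single (i : ι) (k : ℕ) : cz (Finsupp.single i k) = Finsupp.single i (k : ℤ) := by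
  classical
  ext j
  simp [Finsupp.single_apply]

theorem cz_injective : Function.Injective (cz : (ι →₀ ℕ) → (ι →₀ ℤ)) := by
  intro a b h
  ext i
  have := DFunLike.congr_fun h i
  simpa using this

theorem exists_cz_sub (v : ι →₀ ℤ) : ∃ a b : ι →₀ ℕ, v = cz a - cz b := by
  refine ⟨v.mapRange Int.toNat rfl, (-v).mapRange Int.toNat rfl, ?_⟩
  ext i
  simp only [Finsupp.coe_sub, Pi.sub_apply, cz_apply, Finsupp.mapRange_apply, Finsupp.coe_neg,
    Pi.neg_apply]
  omega

variable {V : Type*} [AddCommGroup V]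

/-- extension of a functional to the group -/
noncomputable def ext (x : (ι →₀ ℕ) →+ V) : (ι →₀ ℤ) →+ V :=
  Finsupp.liftAddHom fun i => zmultiplesHom V (x (Finsupp.single i 1))

theorem ext_cz (x : (ι →₀ ℕ) →+ V) (m : ι →₀ ℕ) : ext x (cz m) = x m := by
  have : (ext x).comp cz = x := by
    apply Finsupp.addHom_ext
    intro i k
    rw [AddMonoidHom.comp_apply, cz_single, ext, Finsupp.liftAddHom_apply_single,
      zmultiplesHom_apply, natCast_zsmul, ← map_nsmul, Finsupp.smul_single, smul_eq_mul, mul_one]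
  exact DFunLike.congr_fun this m

/-- the bilinear form on the group -/
noncomputable def ext2 (s : (ι →₀ ℕ) →+ (ι →₀ ℕ) →+ ℤ) : (ι →₀ ℤ) →+ (ι →₀ ℤ) →+ ℤ :=
  ext (V := (ι →₀ ℤ) →+ ℤ)
    { toFun := fun a => ext (s a)
      map_zero' := by
        apply Finsupp.addHom_ext
        intro i k
        simp [ext]
      map_add' := fun a b => by
        apply Finsupp.addHom_ext
        intro i k
        simp [ext, mul_add] }

theorem ext2_cz (s : (ι →₀ ℕ) →+ (ι →₀ ℕ) →+ ℤ) (a b : ι →₀ ℕ) :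
    ext2 s (cz a) (cz b) = s a b := by
  rw [ext2, ext_cz]
  exact ext_cz (s a) b


theorem ext2_skew {s : (ι →₀ ℕ) →+ (ι →₀ ℕ) →+ ℤ} (hs : ∀ a b, s a b = - s b a) (u v : ι →₀ ℤ) :
    ext2 s v u = - ext2 s u v := by
  obtain ⟨a, b, rfl⟩ := exists_cz_sub u
  obtain ⟨c, d, rfl⟩ := exists_cz_sub v
  simp only [map_sub, AddMonoidHom.sub_apply, ext2_cz]
  rw [hs c a, hs c b, hs d a, hs d b]
  ring

end cast

/-! ### kernels -/

section ker

variable {ι : Type} {V : Type} [AddCommGroup V] [LinearOrder V] [IsOrderedAddMonoid V]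

theorem ker_of_kerRay {x : (ι →₀ ℕ) →+ V} {c : ι →₀ ℕ} (h : Trans569.KerRay x c) :
    Ker (ext x) (cz c) := by
  obtain ⟨_, h1, h2⟩ := h
  refine ⟨by rw [ext_cz]; exact h1, fun v hv => ?_⟩
  obtain ⟨a, b, rfl⟩ := exists_cz_sub v
  rw [map_sub, ext_cz, ext_cz, sub_eq_zero] at hv
  obtain ⟨k, i, j, hk, hkij⟩ := h2 a b hv
  refine ⟨k, (j : ℤ) - i, by exact_mod_cast hk.ne', ?_⟩
  have h3 := congrArg cz hkij
  simp only [map_add, map_nsmul] at h3
  rw [sub_smul, smul_sub, natCast_zsmul, natCast_zsmul, natCast_zsmul, natCast_zsmul]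
  rw [sub_eq_sub_iff_add_eq_add, h3]
  abel

theorem kerRay_of_ker {x : (ι →₀ ℕ) →+ V} {c : ι →₀ ℕ} (hc : c ≠ 0) (h : Ker (ext x) (cz c)) :
    Trans569.KerRay x c := by
  obtain ⟨h1, h2⟩ := h
  rw [ext_cz] at h1
  refine ⟨hc, h1, fun a b hab => ?_⟩
  obtain ⟨p, q, hp, hpq⟩ := h2 (cz a - cz b) (by rw [map_sub, ext_cz, ext_cz, hab, sub_self])
  wlog hp0 : 0 < p generalizing p q
  · exact this (-p) (-q) (neg_ne_zero.2 hp) (by rw [neg_smul, neg_smul, hpq])
      (by omega)
  refine ⟨p.toNat, (-q).toNat, q.toNat, by omega, ?_⟩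
  apply cz_injective
  ext i
  have h4 := DFunLike.congr_fun hpq i
  simp only [Finsupp.coe_smul, Finsupp.coe_sub, Pi.smul_apply, Pi.sub_apply, cz_apply,
    smul_eq_mul] at h4
  simp only [cz_apply, Finsupp.coe_add, Finsupp.coe_smul, Pi.add_apply, Pi.smul_apply,
    smul_eq_mul]
  push_cast
  have e1 : (p.toNat : ℤ) = p := Int.toNat_of_nonneg hp0.le
  rcases le_total 0 q with hq | hq
  · have e2 : (q.toNat : ℤ) = q := Int.toNat_of_nonneg hq
    have e3 : ((-q).toNat : ℤ) = 0 := by omega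
    rw [e1, e2, e3]; linarith
  · have e2 : (q.toNat : ℤ) = 0 := by omega
    have e3 : ((-q).toNat : ℤ) = -q := by omega
    rw [e1, e2, e3]; linarith

end ker

/-! ### the flow theorem on the ring of twisted power series -/

section flow

variable {ι : Type} [DecidableEq ι] {R : Type*} [CommRing R] {T : Tw (ι →₀ ℕ) R}

theorem finite_Iic (d : ι →₀ ℕ) : (Set.Iic d).Finite := Set.finite_Iic d

/-- part of slope zero, for functionals on the group -/
noncomputable def ZZ (V : Type) [AddCommGroup V] [LinearOrder V] [IsOrderedAddMonoid V]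
    (X : (ι →₀ ℤ) →+ V) (a : TPS T) : TPS T := zer (X.comp cz) a

theorem zer_congr' {V W : Type} [AddCommGroup V] [LinearOrder V] [IsOrderedAddMonoid V]
    [AddCommGroup W] [LinearOrder W] [IsOrderedAddMonoid W] (x : (ι →₀ ℕ) →+ V)
    (x' : (ι →₀ ℕ) →+ W) {a a' : TPS T} (ha : a.co 0 = 1) (d : ι →₀ ℕ)
    (haa : ∀ c ≤ d, a.co c = a'.co c) (h : ∀ c ≤ d, SameSg (x c) (x' c)) :
    (zer x a).co d = (zer x' a').co d := by
  refine (zer_congr x x' ha d haa (fun c hc => (h c hc).1) (fun c hc => ?_)).1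
  obtain ⟨h1, h2⟩ := h c hc
  constructor
  · intro h0
    rcases lt_trichotomy (x' c) 0 with h3 | h3 | h3
    · exact absurd (h2.2 h3) (by rw [h0]; exact lt_irrefl _)
    · exact h3
    · exact absurd (h1.2 h3) (by rw [h0]; exact lt_irrefl _)
  · intro h0
    rcases lt_trichotomy (x c) 0 with h3 | h3 | h3
    · exact absurd (h2.1 h3) (by rw [h0]; exact lt_irrefl _)
    · exact h3
    · exact absurd (h1.1 h3) (by rw [h0]; exact lt_irrefl _)

/-- `x` is a joint containing `d` -/
def JointAt (T : Tw (ι →₀ ℕ) R) {V : Type} [AddCommGroup V] [LinearOrder V]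
    [IsOrderedAddMonoid V] (x : (ι →₀ ℕ) →+ V) (d : ι →₀ ℕ) : Prop :=
  IsJoint (ext2 T.β) (ext x) (cz d)

/-- **walls**: box version, abstract positivity predicate. -/
theorem wall_box (hs : ∀ a b, T.β a b = - T.β b a) {A : TPS T} (hA : A.co 0 = 1)
    (Pos : (ι →₀ ℕ) → TPS T → Prop)
    (hloc : ∀ k b b', (∀ c ≤ k, b.co c = b'.co c) → Pos k b → Pos k b')
    (h2D : ∀ (V : Type) [AddCommGroup V] [LinearOrder V] [IsOrderedAddMonoid V]
      (x : (ι →₀ ℕ) →+ V) (d : ι →₀ ℕ), d ≠ 0 → JointAt T x d → x d = 0 →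
      (∀ k ≤ d, k ≠ 0 → x k = 0 → Pos k (zer (T.β k) (zer x A))) →
      Pos d (zer (- T.β d) (zer x A)))
    (hAT : ∀ (V : Type) [AddCommGroup V] [LinearOrder V] [IsOrderedAddMonoid V]
      (x : (ι →₀ ℕ) →+ V) (d : ι →₀ ℕ), Trans569.KerRay x d →
      (∀ c ≤ d, T.β d c ≠ 0 → SameSg (x c) (T.β d c)) → Pos d (zer x A)) :
    ∀ (V : Type) [AddCommGroup V] [LinearOrder V] [IsOrderedAddMonoid V]
      (x : (ι →₀ ℕ) →+ V) (d : ι →₀ ℕ), Trans569.KerRay x d → Pos d (zer x A) := by
  intro V _ _ _ x d hd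
  have key := flowV (fun d : ι →₀ ℕ => finite_Iic d) (cz : (ι →₀ ℕ) → (ι →₀ ℤ))
    (fun k hk h0 => hk (cz_injective (by rw [h0, map_zero]))) (ext2 T.β) (ext2_skew hs)
    (fun (b : TPS T) c => b.co c) (fun V _ _ _ X a => ZZ V X a) A ?_ ?_ Pos hloc ?_ ?_ d hd.1 V
    (ext x) (ker_of_kerRay hd)
  · exact hloc d _ _ (fun c _ => by
      have : (ext x).comp cz = x := AddMonoidHom.ext fun m => ext_cz x m
      change (zer ((ext x).comp cz) A).co c = _
      rw [this]) key
  · intro V V' _ _ _ _ _ _ X X' d h c hc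
    exact zer_congr' _ _ hA c (fun _ _ => rfl) (fun e he => h e (he.trans hc))
  · intro V _ _ _ X Y d c _
    change (zer ((lexF X Y).comp cz) A).co c = (zer (Y.comp cz) (zer (X.comp cz) A)).co c
    rw [← (parts_lex (X.comp cz) (Y.comp cz) hA).2.1]
    refine zer_congr' _ _ hA c (fun _ _ => rfl) (fun e _ => ?_)
    exact ⟨by rw [lexHom_pos]; exact lexF_pos, by rw [lexHom_neg]; exact lexF_neg⟩
  · intro V _ _ _ X d hd0 hJ hXd hk
    have hX : ext (X.comp cz) = X := by
      apply Finsupp.addHom_ext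
      intro i k
      rw [ext, Finsupp.liftAddHom_apply_single, zmultiplesHom_apply, AddMonoidHom.comp_apply,
        cz_single, ← map_zsmul, Finsupp.smul_single]
      simp
    have e1 : ∀ k : ι →₀ ℕ, (ext2 T.β (cz k)).comp cz = T.β k := fun k =>
      AddMonoidHom.ext fun m => ext2_cz _ _ _
    have e2 : (-(ext2 T.β (cz d))).comp cz = - T.β d := AddMonoidHom.ext fun m => by
      change -(ext2 T.β (cz d) (cz m)) = -(T.β d m)
      rw [ext2_cz]
    have := h2D V (X.comp cz) d hd0 (by unfold JointAt; rw [hX]; exact hJ) hXd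
      (fun k hkd hk0 hXk => by
        have := hk k hkd hk0 hXk
        change Pos k (zer ((ext2 T.β (cz k)).comp cz) (zer (X.comp cz) A)) at this
        rw [e1] at this
        exact this)
    change Pos d (zer ((-(ext2 T.β (cz d))).comp cz) (zer (X.comp cz) A))
    rw [e2]
    exact this
  · intro V _ _ _ X d hd0 hK hsg _
    have hX : ext (X.comp cz) = X := by
      apply Finsupp.addHom_ext
      intro i k
      rw [ext, Finsupp.liftAddHom_apply_single, zmultiplesHom_apply, AddMonoidHom.comp_apply,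
        cz_single, ← map_zsmul, Finsupp.smul_single]
      simp
    refine hAT V (X.comp cz) d (kerRay_of_ker hd0 (by rw [hX]; exact hK)) (fun c hc h => ?_)
    have := hsg c hc (by rw [ext2_cz]; exact h)
    rwa [ext2_cz] at this

end flow

/-! ### the attractor chamber -/

section att

open Tr201 HasAntidiagonal

variable {ι : Type} [DecidableEq ι] {R : Type*} [CommRing R] {T : Tw (ι →₀ ℕ) R}

theorem lam_congr (h : (ι →₀ ℕ) →+ R) {d : ι →₀ ℕ} {a b : TPS T}
    (hab : ∀ e ≤ d, a.co e = b.co e) : lam h d a (inv a) = lam h d b (inv b) :=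
  co_mul_congr_le d (fun e he => by rw [co_der, co_der, hab e he])
    (fun e he => co_inv_congr_le e (fun e' he' => hab e' (he'.trans he)))

theorem lam_top (h : (ι →₀ ℕ) →+ R) {d : ι →₀ ℕ} {a b : TPS T}
    (hab : ∀ e < d, a.co e = b.co e) :
    lam h d a (inv a) - lam h d b (inv b) = h d * (a.co d - b.co d) := by
  have hinv : ∀ e < d, (TPS.inv a).co e = (TPS.inv b).co e := fun e he =>
    co_inv_congr_le e (fun e' he' => hab e' (lt_of_le_of_lt he' he))
  rw [lam, lam, co_mul, co_mul, ← Finset.sum_sub_distrib, Finset.sum_eq_single (d, 0)]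
  · simp only [co_der, wt_zero_right, TPS.inv_zero]
    ring
  · rintro ⟨x, y⟩ hp hne
    have hy : y ≠ 0 := by
      rintro rfl
      rw [HasAntidiagonal.mem_antidiagonal, add_zero] at hp
      exact hne (Prod.ext hp rfl)
    have hx := fst_lt_of_mem hp hy
    simp only at hx
    by_cases hx0 : x = 0
    · subst hx0; rw [co_der_zero, co_der_zero]; ring
    · have hy' := snd_lt_of_mem hp hx0
      simp only at hy'
      rw [co_der, co_der, hab x hx, hinv y hy', sub_self]
  · intro h4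
    exact absurd (by simp [HasAntidiagonal.mem_antidiagonal]) h4

theorem eq_of_lam_ray [IsDomain R] (h : (ι →₀ ℕ) →+ R) (hreg : ∀ d, d ≠ 0 → h d ≠ 0)
    {P : (ι →₀ ℕ) → Prop} {z w : TPS T} (hz : z.co 0 = 1) (hw : w.co 0 = 1) (d : ι →₀ ℕ)
    (hlam : ∀ e ≤ d, e ≠ 0 → P e → lam h e z (inv z) = lam h e w (inv w))
    (hout : ∀ e ≤ d, e ≠ 0 → ¬ P e → z.co e = w.co e) : ∀ e ≤ d, z.co e = w.co e := by
  intro e
  induction e using WellFoundedLT.induction with
  | ind e ih =>
    intro he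
    by_cases he0 : e = 0
    · rw [he0, hz, hw]
    by_cases hP : P e
    · have h1 := lam_top h (a := z) (b := w) (fun e' he' => ih e' he' (he'.le.trans he))
      rw [hlam e he he0 hP, sub_self] at h1
      rcases mul_eq_zero.1 h1.symm with h2 | h2
      · exact absurd h2 (hreg e he0)
      · exact sub_eq_zero.1 h2
    · exact hout e he he0 hP

theorem lam_zer (h : (ι →₀ ℕ) →+ R) {d : ι →₀ ℕ} {V : Type} [AddCommGroup V] [LinearOrder V]
    [IsOrderedAddMonoid V] (x : (ι →₀ ℕ) →+ V) (hxd : x d = 0) {B : TPS T} (hB : B.co 0 = 1)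
    (hBs : In1 (fun e => com T d e = 0) B) :
    lam h d (zer x B) (inv (zer x B)) = lam h d B (inv B) := by
  have hadd : ∀ a b, com T d a = 0 → com T d b = 0 → com T d (a + b) = 0 := fun a b ha hb => by
    rw [map_add, ha, hb, add_zero]
  have hp := hBs.pos hadd x
  have hz := hBs.zer hadd x
  have e1 : pos x B * zer x B * neg x B = B := pos_mul_zer_mul_neg x hB
  have e2 : inv B = inv (neg x B) * (inv (zer x B) * inv (pos x B)) := by
    rw [← inv_mul_rev (pos_co_zero x B) (zer_co_zero x B), ← inv_mul_rev ?_ (neg_co_zero x B), e1]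
    rw [co_mul_zero', pos_co_zero, zer_co_zero, one_mul]
  have toS : ∀ {f : TPS T} {Q : (ι →₀ ℕ) → Prop}, In1 (fun e => Q e ∧ com T d e = 0) f →
      SuppIn (comKer T d) f := fun {f Q} hf e he => by
    rcases hf.eq_zero_or he with h0 | h0
    · rw [h0]; exact (comKer T d).zero_mem
    · exact h0.2
  have key := lam_parts x h hxd (p := pos x B) (p' := inv (pos x B)) (z := zer x B)
    (z' := inv (zer x B)) (n := neg x B) (n' := inv (neg x B)) (toS hp) (toS hz)
    (fun e he => (in1_pos x B).eq_zero_or he)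
    (fun e he => ((in1_pos x B).inv (closed_pos x)).eq_zero_or he)
    (fun e he => (in1_neg x B).eq_zero_or he)
    (fun e he => ((in1_neg x B).inv (closed_neg x)).eq_zero_or he)
    (inv_mul (pos_co_zero x B)) (mul_inv (zer_co_zero x B)) (inv_mul (zer_co_zero x B))
    (mul_inv (neg_co_zero x B))
  rw [e1, ← e2] at key
  exact key.symm

/-- in the attractor chamber of `d` the logarithmic coefficient of the zero part is the attractor
datum. -/
theorem lam_chamber (hs : ∀ a b, T.β a b = - T.β b a) (h : (ι →₀ ℕ) →+ R) {d : ι →₀ ℕ}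
    {V : Type} [AddCommGroup V] [LinearOrder V]
    [IsOrderedAddMonoid V] (x : (ι →₀ ℕ) →+ V) (hxd : x d = 0) {A : TPS T} (hA : A.co 0 = 1)
    (hsg : ∀ c ≤ d, T.β d c ≠ 0 → SameSg (x c) (T.β d c)) :
    lam h d (zer x A) (inv (zer x A)) = lam h d (zer (T.β d) A) (inv (zer (T.β d) A)) := by
  have hz0 : (zer (T.β d) A).co 0 = 1 := zer_co_zero _ _
  have h1 : ∀ e ≤ d, (zer x A).co e = (zer x (zer (T.β d) A)).co e := by
    intro e he
    rw [← (parts_lex (T.β d) x hA).2.1]
    refine zer_congr' _ _ hA e (fun _ _ => rfl) (fun c hc => ?_)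
    by_cases h0 : T.β d c = 0
    · exact ⟨by rw [lexHom_pos, h0]; simp, by rw [lexHom_neg, h0]; simp⟩
    · have h2 := hsg c (hc.trans he) h0
      constructor
      · rw [lexHom_pos, h2.1]
        exact ⟨fun h => Or.inl h, fun h => h.resolve_right fun h' => h0 h'.1⟩
      · rw [lexHom_neg, h2.2]
        exact ⟨fun h => Or.inl h, fun h => h.resolve_right fun h' => h0 h'.1⟩
  rw [lam_congr h h1]
  refine lam_zer h x hxd hz0 ((in1_zer (T.β d) A).mono fun e _ he => ?_)
  rw [com_apply, he, hs e d, he]; simp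

/-- `e` is on the ray of `c` -/
def OnRay (e c : ι →₀ ℕ) : Prop := ∃ i j : ℕ, 0 < i ∧ 0 < j ∧ i • e = j • c

omit [DecidableEq ι] in
theorem OnRay.symm {e c : ι →₀ ℕ} (h : OnRay e c) : OnRay c e := by
  obtain ⟨i, j, hi, hj, hij⟩ := h
  exact ⟨j, i, hj, hi, hij.symm⟩

omit [DecidableEq ι] in
theorem OnRay.trans {a b c : ι →₀ ℕ} (h : OnRay a b) (h' : OnRay b c) : OnRay a c := by
  obtain ⟨i, j, hi, hj, hij⟩ := h
  obtain ⟨k, l, hk, hl, hkl⟩ := h'
  refine ⟨k * i, j * l, by positivity, by positivity, ?_⟩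
  rw [mul_smul, hij, smul_comm, hkl, mul_smul]

omit [DecidableEq ι] in
theorem OnRay.refl (c : ι →₀ ℕ) : OnRay c c := ⟨1, 1, one_pos, one_pos, rfl⟩

omit [DecidableEq ι] in
theorem nsmul_inj' {k : ℕ} (hk : 0 < k) {a b : ι →₀ ℕ} (h : k • a = k • b) : a = b := by
  ext i
  have := DFunLike.congr_fun h i
  simp only [Finsupp.coe_smul, Pi.smul_apply, smul_eq_mul] at this
  exact Nat.eq_of_mul_eq_mul_left hk this

omit [DecidableEq ι] in
theorem OnRay.ne_zero {e c : ι →₀ ℕ} (h : OnRay e c) (hc : c ≠ 0) : e ≠ 0 := by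
  rintro rfl
  obtain ⟨i, j, hi, hj, hij⟩ := h
  rw [smul_zero] at hij
  exact hc (nsmul_inj' hj (by rw [smul_zero, ← hij]))

omit [DecidableEq ι] in
theorem onRay_of_kerRay {V : Type} [AddCommGroup V] [LinearOrder V]
    [IsOrderedAddMonoid V] {x : (ι →₀ ℕ) →+ V} {d e : ι →₀ ℕ} (h : Trans569.KerRay x d)
    (he : e ≠ 0) (hxe : x e = 0) : OnRay e d := by
  obtain ⟨hd, _, h2⟩ := h
  obtain ⟨k, i, j, hk, hkij⟩ := h2 e 0 (by rw [hxe, map_zero])
  rw [smul_zero, zero_add] at hkij
  have hij : i < j := by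
    by_contra hcon
    apply he
    apply nsmul_inj' hk
    rw [smul_zero]
    ext t
    have := DFunLike.congr_fun hkij t
    simp only [Finsupp.coe_smul, Finsupp.coe_add, Pi.add_apply, Pi.smul_apply, smul_eq_mul] at this
    simp only [Finsupp.coe_smul, Pi.smul_apply, smul_eq_mul, Finsupp.coe_zero, Pi.zero_apply]
    have h3 : j * d t ≤ i * d t := Nat.mul_le_mul_right _ (not_lt.1 hcon)
    omega
  refine ⟨k, j - i, hk, by omega, ?_⟩
  ext t
  have := DFunLike.congr_fun hkij t
  simp only [Finsupp.coe_smul, Finsupp.coe_add, Pi.add_apply, Pi.smul_apply, smul_eq_mul] at this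
  simp only [Finsupp.coe_smul, Pi.smul_apply, smul_eq_mul]
  rw [Nat.sub_mul]; omega

omit [DecidableEq ι] in
theorem OnRay.apply_eq_zero {V : Type} [AddCommGroup V] [LinearOrder V]
    [IsOrderedAddMonoid V] {x : (ι →₀ ℕ) →+ V} {d e : ι →₀ ℕ} (h : OnRay e d) (hd : x d = 0) :
    x e = 0 := by
  obtain ⟨i, j, hi, hj, hij⟩ := h
  have h1 := congrArg x hij
  rw [map_nsmul, map_nsmul, hd, smul_zero] at h1
  exact (smul_eq_zero.1 h1).resolve_left hi.ne'

omit [DecidableEq ι] in
theorem kerRay_onRay {V : Type} [AddCommGroup V] [LinearOrder V]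
    [IsOrderedAddMonoid V] {x : (ι →₀ ℕ) →+ V} {d e : ι →₀ ℕ} (h : Trans569.KerRay x d)
    (he : OnRay e d) : Trans569.KerRay x e := by
  refine ⟨he.ne_zero h.1, he.apply_eq_zero h.2.1, fun a b hab => ?_⟩
  obtain ⟨k, i, j, hk, hkij⟩ := h.2.2 a b hab
  obtain ⟨p, q, hp, hq, hpq⟩ := he
  refine ⟨q * k, i * p, j * p, by positivity, ?_⟩
  have h1 := congrArg (fun t => q • t) hkij
  simp only [smul_add, smul_smul] at h1
  rw [mul_smul i p, mul_smul j p, hpq, smul_smul, smul_smul, mul_comm i q, mul_comm j q]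
  exact h1

omit [DecidableEq ι] in
/-- signs along a ray -/
theorem OnRay.sameSg (s : (ι →₀ ℕ) →+ (ι →₀ ℕ) →+ ℤ) {e d : ι →₀ ℕ} (h : OnRay e d)
    (c : ι →₀ ℕ) : SameSg (s e c) (s d c) := by
  obtain ⟨i, j, hi, hj, hij⟩ := h
  have h1 := congrArg (fun t => s t c) hij
  simp only [map_nsmul, AddMonoidHom.nsmul_apply, nsmul_eq_mul] at h1
  have hi' : (0 : ℤ) < i := by exact_mod_cast hi
  have hj' : (0 : ℤ) < j := by exact_mod_cast hj
  constructor
  · rw [← mul_pos_iff_of_pos_left hi', h1, mul_pos_iff_of_pos_left hj']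
  · constructor
    · intro h
      have : (i : ℤ) * s e c < 0 := mul_neg_of_pos_of_neg hi' h
      rw [h1] at this
      exact (pos_iff_neg_of_mul_neg this).1 hj'
    · intro h
      have : (j : ℤ) * s d c < 0 := mul_neg_of_pos_of_neg hj' h
      rw [← h1] at this
      exact (pos_iff_neg_of_mul_neg this).1 hi'

/-- the zero part in the attractor chamber agrees with a series with the same data. -/
theorem att_box [IsDomain R] (hs : ∀ a b, T.β a b = - T.β b a) (h : (ι →₀ ℕ) →+ R)
    (hreg : ∀ d, d ≠ 0 → h d ≠ 0) {V : Type} [AddCommGroup V] [LinearOrder V]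
    [IsOrderedAddMonoid V] (x : (ι →₀ ℕ) →+ V) {d : ι →₀ ℕ} (hK : Trans569.KerRay x d)
    {A : TPS T} (hA : A.co 0 = 1)
    (hsg : ∀ c ≤ d, T.β d c ≠ 0 → SameSg (x c) (T.β d c))
    {w : TPS T} (hw : In1 (fun e => OnRay e d) w)
    (hdata : ∀ e ≤ d, e ≠ 0 → OnRay e d →
      lam h e (zer (T.β e) A) (inv (zer (T.β e) A)) = lam h e w (inv w)) :
    ∀ e ≤ d, (zer x A).co e = w.co e := by
  refine eq_of_lam_ray h hreg (P := fun e => OnRay e d) (zer_co_zero _ _) hw.one d ?_ ?_
  · intro e he he0 hed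
    rw [← hdata e he he0 hed]
    refine lam_chamber hs h x (hed.apply_eq_zero hK.2.1) hA (fun c hc h0 => ?_)
    have h1 := hed.sameSg T.β c
    have h2 : T.β d c ≠ 0 := fun h2 => by
      rcases lt_or_gt_of_ne h0 with h3 | h3
      · have := h1.2.1 h3
        rw [h2] at this; exact lt_irrefl _ this
      · have := h1.1.1 h3
        rw [h2] at this; exact lt_irrefl _ this
    have h3 := hsg c (hc.trans he) h2
    exact ⟨h3.1.trans h1.1.symm, h3.2.trans h1.2.symm⟩
  · intro e he he0 hed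
    rw [hw.supp e he0 hed]
    refine (in1_zer x A).supp e he0 (fun h0 => hed (onRay_of_kerRay hK he0 h0))

end att

end Crest.Agent.R059.Wall999
end

-- ▼ part R059/CloC_987
section

set_option autoImplicit false

/-!
Row 59 (S0081).  The factors `lft P a`, `rgt P a` and the inverse of Fac_150 are continuous
functions of `a` (every coefficient is a polynomial in finitely many coefficients of `a`).
-/

namespace Crest.Agent.R059

open Finset Topology HasAntidiagonal

namespace TPS

section cont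

variable {M : Type*} [AddCommMonoid M] [PartialOrder M] [IsOrderedCancelAddMonoid M]
  [CanonicallyOrderedAdd M] [WellFoundedLT M] [HasAntidiagonal M]
variable {R : Type*} [CommRing R] [TopologicalSpace R] [IsTopologicalRing R] {T : Tw M R}

theorem continuous_unk (P : M → Prop) (d : M) : Continuous (fun a : TPS T => unk P a d) := by
  classical
  induction d using WellFoundedLT.induction with
  | ind d ih =>
    simp only [unk_eq P _ d]
    refine (continuous_co d).sub (continuous_finsetSum _ fun p hp => ?_)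
    by_cases h : p.1 ≠ 0 ∧ p.2 ≠ 0
    · simp only [if_pos h]
      refine continuous_const.mul (Continuous.mul ?_ ?_)
      · by_cases hP : P p.1
        · simp only [if_pos hP]
          exact ih _ (fst_lt_of_mem hp h.2)
        · simp only [if_neg hP]
          exact continuous_const
      · by_cases hP : P p.2
        · simp only [if_pos hP]
          exact continuous_const
        · simp only [if_neg hP]
          exact ih _ (snd_lt_of_mem hp h.1)
    · simp only [if_neg h]
      exact continuous_const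

theorem continuous_lft (P : M → Prop) : Continuous (lft P : TPS T → TPS T) := by
  classical
  refine continuous_iff_co.2 fun d => ?_
  simp only [lft]
  by_cases h0 : d = 0
  · simp only [if_pos h0]; exact continuous_const
  · simp only [if_neg h0]
    by_cases hP : P d
    · simp only [if_pos hP]; exact continuous_unk P d
    · simp only [if_neg hP]; exact continuous_const

theorem continuous_rgt (P : M → Prop) : Continuous (rgt P : TPS T → TPS T) := by
  classical
  refine continuous_iff_co.2 fun d => ?_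
  simp only [rgt]
  by_cases h0 : d = 0
  · simp only [if_pos h0]; exact continuous_const
  · simp only [if_neg h0]
    by_cases hP : P d
    · simp only [if_pos hP]; exact continuous_const
    · simp only [if_neg hP]; exact continuous_unk P d

theorem continuous_inv : Continuous (inv : TPS T → TPS T) := by
  classical
  refine continuous_iff_co.2 fun d => ?_
  induction d using WellFoundedLT.induction with
  | ind d ih =>
    change Continuous (fun a : TPS T => invCo a d)
    simp only [invCo_eq _ d]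
    by_cases h0 : d = 0
    · simp only [if_pos h0]; exact continuous_const
    · simp only [if_neg h0]
      refine (continuous_finsetSum _ fun p hp => ?_).neg
      by_cases h : p.1 ≠ 0
      · simp only [if_pos h]
        exact continuous_const.mul ((continuous_co _).mul (ih _ (snd_lt_of_mem hp h)))
      · simp only [if_neg h]
        exact continuous_const


omit [PartialOrder M] [IsOrderedCancelAddMonoid M] [CanonicallyOrderedAdd M] [WellFoundedLT M] in
theorem continuous_prod_map {ι : Type*} (l : List ι) :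
    Continuous (fun u : ι → TPS T => (l.map u).prod) := by
  induction l with
  | nil => simp only [List.map_nil, List.prod_nil]; exact continuous_const
  | cons i l ih =>
    simp only [List.map_cons, List.prod_cons]
    exact (continuous_apply i).mul ih



omit [PartialOrder M] [IsOrderedCancelAddMonoid M] [CanonicallyOrderedAdd M] [WellFoundedLT M]
  [HasAntidiagonal M] [IsTopologicalRing R] in
/-- supports and constant terms pass to closures. -/
theorem closure_co_eq [T1Space R] {D : Set (TPS T)} {d : M} {r : R} (h : ∀ g ∈ D, g.co d = r)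
    {f : TPS T} (hf : f ∈ closure D) : f.co d = r :=
  (closure_minimal h (isClosed_co_eq d r)) hf

omit [PartialOrder M] [IsOrderedCancelAddMonoid M] [CanonicallyOrderedAdd M] [WellFoundedLT M] in
/-- **Limit principle for ordered products**: if a continuous `Φ` (for instance `zer x`) sends the
ordered product of elements of the sets `D i` into `closure E`, the same holds for ordered products
of elements of the closures. -/
theorem map_prod_closure {ι : Type*} (l : List ι) {D : ι → Set (TPS T)} {E : Set (TPS T)}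
    {Φ : TPS T → TPS T} (hΦ : Continuous Φ)
    (h : ∀ u : ι → TPS T, (∀ i, u i ∈ D i) → Φ (l.map u).prod ∈ closure E) (u : ι → TPS T)
    (hu : ∀ i, u i ∈ closure (D i)) : Φ (l.map u).prod ∈ closure E :=
  map_closure_pi (Φ := fun u : ι → TPS T => Φ (l.map u).prod)
    (hΦ.comp (continuous_prod_map l)) h u hu


end cont

end TPS

end Crest.Agent.R059
end

-- ▼ part R059/JTwo_269
section

set_option autoImplicit false
set_option linter.unusedSectionVars false
set_option linter.unusedVariables false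

/-!
Row 59 (S0081), block JOINT (JB).  Two dimensional positivity for closures from the case of finite
products (`JMAIN` of JDefs_853).
-/

namespace Crest.Agent.R059.JTwo269

open Finset TPS

section parts

variable {M : Type*} [AddCommMonoid M] [PartialOrder M] [IsOrderedCancelAddMonoid M]
  [CanonicallyOrderedAdd M] [WellFoundedLT M] [HasAntidiagonal M]
variable {R : Type*} [CommRing R] {T : Tw M R}
variable {V : Type*} [AddCommGroup V] [LinearOrder V] [IsOrderedAddMonoid V]
variable {V' : Type*} [AddCommGroup V'] [LinearOrder V'] [IsOrderedAddMonoid V']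

theorem In1.list {P : M → Prop} (hP : ∀ a b, P a → P b → P (a + b)) (l : List (TPS T))
    (h : ∀ f ∈ l, In1 P f) : In1 P l.prod := by
  induction l with
  | nil => exact in1_one P
  | cons f l IH =>
    rw [List.prod_cons]
    exact (h f (by simp)).mul hP (IH fun g hg => h g (by simp [hg]))

/-- products of series with constant term one that agree below `d` and at `d`. -/
theorem mul3_congr {p z n p' z' n' : TPS T} (d : M)
    (h : ∀ c ≤ d, p.co c = p'.co c ∧ z.co c = z'.co c ∧ n.co c = n'.co c) :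
    (p * z * n).co d = (p' * z' * n').co d :=
  co_mul_congr_le d (fun e he => co_mul_congr_le e (fun e' he' => (h e' (he'.trans he)).1)
    (fun e' he' => (h e' (he'.trans he)).2.1)) (fun e he => (h e he).2.2)

/-- **(JUNIQ)**: a series on `L` is determined in degrees `≤ d₀` by its zero parts for `s(k, ·)`. -/
theorem juniq (s : M →+ M →+ ℤ) (L : AddSubmonoid M) {a a' : TPS T}
    (ha : In1 (· ∈ L) a) (ha' : In1 (· ∈ L) a') (hself : ∀ d ∈ L, s d d = 0) (d₀ : M)
    (hz : ∀ k ∈ L, k ≠ 0 → k ≤ d₀ → (zer (s k) a).co k = (zer (s k) a').co k) :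
    ∀ c ≤ d₀, a.co c = a'.co c := by
  intro c
  induction c using WellFoundedLT.induction with
  | ind c ih =>
    intro hc
    by_cases h0 : c = 0
    · subst h0; rw [ha.one, ha'.one]
    by_cases hL : c ∈ L
    · have hlow : ∀ e < c, ∀ e' ≤ e, a.co e' = a'.co e' := fun e he e' he' =>
        ih e' (he'.trans_lt he) ((he'.trans he.le).trans hc)
      rw [← pos_mul_zer_mul_neg (s c) ha.one, ← pos_mul_zer_mul_neg (s c) ha'.one]
      refine mul3_congr c fun e he => ?_
      rcases he.eq_or_lt with rfl | he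
      · refine ⟨?_, hz e hL h0 hc, ?_⟩
        · rw [(in1_pos (s e) a).supp e h0 (by rw [hself e hL]; exact lt_irrefl 0),
            (in1_pos (s e) a').supp e h0 (by rw [hself e hL]; exact lt_irrefl 0)]
        · rw [(in1_neg (s e) a).supp e h0 (by rw [hself e hL]; exact lt_irrefl 0),
            (in1_neg (s e) a').supp e h0 (by rw [hself e hL]; exact lt_irrefl 0)]
      · have h1 := pos_congr (s c) (s c) ha.one e (hlow e he) (fun _ _ => Iff.rfl)
        have h2 := zer_congr (s c) (s c) ha.one e (hlow e he) (fun _ _ => Iff.rfl)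
          (fun _ _ => Iff.rfl)
        exact ⟨h1.1, h2.1, h2.2⟩
    · rw [ha.supp c h0 hL, ha'.supp c h0 hL]

/-- the zero part of an ordered product. -/
theorem zer_list (x : M →+ V) (l1 l2 : List (TPS T)) (z : TPS T)
    (h1 : ∀ f ∈ l1, In1 (fun d => 0 < x d) f) (hz : In1 (fun d => x d = 0) z)
    (h2 : ∀ f ∈ l2, In1 (fun d => x d < 0) f) : zer x ((l1 ++ z :: l2).prod) = z :=
  (pzn_unique' x (In1.list (closed_pos x) l1 h1) hz (In1.list (closed_neg x) l2 h2)
    (by rw [List.prod_append, List.prod_cons, mul_assoc])).2.1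

end parts

section slopes

variable {M : Type*} [AddCommMonoid M] {s : M →+ M →+ ℤ} {L : AddSubmonoid M} {ht : M →+ ℕ}

/-- skew on `L` -/
def SkewOn (s : M →+ M →+ ℤ) (L : AddSubmonoid M) : Prop := ∀ a ∈ L, ∀ b ∈ L, s a b = - s b a

/-- the rank two identity (heights) -/
def Rank2 (s : M →+ M →+ ℤ) (ht : M →+ ℕ) (L : AddSubmonoid M) : Prop :=
  ∀ d ∈ L, ∀ e ∈ L, ∀ k ∈ L, s d e * (ht k : ℤ) + s e k * (ht d : ℤ) + s k d * (ht e : ℤ) = 0

/-- transfer along a ray -/
theorem transfer (hsk : SkewOn s L) (hrk : Rank2 s ht L) {k c e : M} (hk : k ∈ L) (hc : c ∈ L)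
    (he : e ∈ L) (hkc : s k c = 0) : (ht k : ℤ) * s c e = (ht c : ℤ) * s k e := by
  have h := hrk k hk c hc e he
  rw [hkc, hsk e he k hk] at h
  linarith

theorem transfer' (hsk : SkewOn s L) (hrk : Rank2 s ht L) {k c e : M} (hk : k ∈ L) (hc : c ∈ L)
    (he : e ∈ L) (hkc : s k c = 0) : (ht k : ℤ) * s e c = (ht c : ℤ) * s e k := by
  have h := transfer hsk hrk hk hc he hkc
  rw [hsk e he c hc, hsk e he k hk]
  linarith

/-- the slope with respect to `s(d, ·)` -/
noncomputable def slope (s : M →+ M →+ ℤ) (ht : M →+ ℕ) (d k : M) : ℚ := (s d k : ℚ) / (ht k : ℚ)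

theorem slope_sub (ht0 : ∀ a, ht a = 0 → a = 0) (hsk : SkewOn s L) (hrk : Rank2 s ht L)
    {d k k' : M} (hd : d ∈ L) (hk : k ∈ L) (hk' : k' ∈ L) (hd0 : d ≠ 0) (hk0 : k ≠ 0)
    (hk0' : k' ≠ 0) :
    (s k k' : ℚ) = (ht k * ht k' / ht d : ℚ) * (slope s ht d k' - slope s ht d k) := by
  have h := hrk d hd k hk k' hk'
  rw [hsk k' hk' d hd] at h
  have h1 : (ht d : ℚ) ≠ 0 := fun h => hd0 (ht0 _ (by exact_mod_cast h))
  have h2 : (ht k : ℚ) ≠ 0 := fun h => hk0 (ht0 _ (by exact_mod_cast h))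
  have h3 : (ht k' : ℚ) ≠ 0 := fun h => hk0' (ht0 _ (by exact_mod_cast h))
  have h' : (s d k : ℚ) * ht k' + s k k' * ht d + -s d k' * ht k = 0 := by exact_mod_cast h
  unfold slope
  field_simp
  linarith

theorem ht_factor_pos (ht0 : ∀ a, ht a = 0 → a = 0) {d k k' : M} (hd0 : d ≠ 0) (hk0 : k ≠ 0)
    (hk0' : k' ≠ 0) : 0 < (ht k * ht k' / ht d : ℚ) := by
  have h1 : 0 < (ht d : ℚ) := by
    exact_mod_cast Nat.pos_of_ne_zero fun h => hd0 (ht0 _ h)
  have h2 : 0 < (ht k : ℚ) := by
    exact_mod_cast Nat.pos_of_ne_zero fun h => hk0 (ht0 _ h)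
  have h3 : 0 < (ht k' : ℚ) := by
    exact_mod_cast Nat.pos_of_ne_zero fun h => hk0' (ht0 _ h)
  positivity

theorem neg_iff_slope (ht0 : ∀ a, ht a = 0 → a = 0) (hsk : SkewOn s L) (hrk : Rank2 s ht L)
    {d k k' : M} (hd : d ∈ L) (hk : k ∈ L) (hk' : k' ∈ L) (hd0 : d ≠ 0) (hk0 : k ≠ 0)
    (hk0' : k' ≠ 0) : s k k' < 0 ↔ slope s ht d k' < slope s ht d k := by
  have h := slope_sub ht0 hsk hrk hd hk hk' hd0 hk0 hk0'
  have h4 := ht_factor_pos ht0 hd0 hk0 hk0'
  constructor
  · intro hlt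
    have : (s k k' : ℚ) < 0 := by exact_mod_cast hlt
    rw [h] at this
    have := neg_of_mul_neg_right this h4.le
    linarith
  · intro hlt
    have : (s k k' : ℚ) < 0 := by
      rw [h]
      exact mul_neg_of_pos_of_neg h4 (by linarith)
    exact_mod_cast this

theorem zero_iff_slope (ht0 : ∀ a, ht a = 0 → a = 0) (hsk : SkewOn s L) (hrk : Rank2 s ht L)
    {d k k' : M} (hd : d ∈ L) (hk : k ∈ L) (hk' : k' ∈ L) (hd0 : d ≠ 0) (hk0 : k ≠ 0)
    (hk0' : k' ≠ 0) : s k k' = 0 ↔ slope s ht d k' = slope s ht d k := by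
  have h := slope_sub ht0 hsk hrk hd hk hk' hd0 hk0 hk0'
  have h4 := ht_factor_pos ht0 hd0 hk0 hk0'
  constructor
  · intro h5
    have : (s k k' : ℚ) = 0 := by exact_mod_cast h5
    rw [h] at this
    rcases mul_eq_zero.1 this with h6 | h6
    · exact absurd h6 h4.ne'
    · linarith
  · intro h5
    have : (s k k' : ℚ) = 0 := by rw [h, h5, sub_self, mul_zero]
    exact_mod_cast this

/-- signs along a ray: if `s(k, c) = 0` then `s(c, ·)` and `s(k, ·)` have the same signs on `L`. -/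
theorem sign_ray (ht0 : ∀ a, ht a = 0 → a = 0) (hsk : SkewOn s L) (hrk : Rank2 s ht L)
    {k c e : M} (hk : k ∈ L) (hc : c ∈ L) (he : e ∈ L) (hk0 : k ≠ 0) (hc0 : c ≠ 0)
    (hkc : s k c = 0) : (0 < s c e ↔ 0 < s k e) ∧ (s c e = 0 ↔ s k e = 0) := by
  have h := transfer hsk hrk hk hc he hkc
  have h1 : 0 < (ht k : ℤ) := by
    exact_mod_cast Nat.pos_of_ne_zero fun h => hk0 (ht0 _ h)
  have h2 : 0 < (ht c : ℤ) := by
    exact_mod_cast Nat.pos_of_ne_zero fun h => hc0 (ht0 _ h)
  constructor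
  · rw [← mul_pos_iff_of_pos_left h1, h, mul_pos_iff_of_pos_left h2]
  · constructor
    · intro h3
      rw [h3, mul_zero] at h
      exact (mul_eq_zero.1 h.symm).resolve_left h2.ne'
    · intro h3
      rw [h3, mul_zero] at h
      exact (mul_eq_zero.1 h).resolve_left h1.ne'

end slopes

section DT

variable {M : Type*} [AddCommMonoid M] [PartialOrder M] [IsOrderedCancelAddMonoid M]
  [CanonicallyOrderedAdd M] [WellFoundedLT M] [HasAntidiagonal M]
variable {K : Type*} [CommRing K] {T : Tw M K} {s : M →+ M →+ ℤ} {L : AddSubmonoid M} {ht : M →+ ℕ}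

/-- the factors on the ray of `k` -/
def DGen (Dil : M → ℤ → TPS T) (L : AddSubmonoid M) (s : M →+ M →+ ℤ) (k : M) : Set (TPS T) :=
  {f | ∃ (c : M) (a : ℤ), c ∈ L ∧ c ≠ 0 ∧ s k c = 0 ∧ f = Dil c a}

theorem in1_gen (ht0 : ∀ a, ht a = 0 → a = 0) (hsk : SkewOn s L) (hrk : Rank2 s ht L)
    {Dil : M → ℤ → TPS T} (hDil : ∀ c ∈ L, c ≠ 0 → ∀ a, In1 (fun d => d ∈ L ∧ s c d = 0) (Dil c a))
    {k : M} (hk : k ∈ L) (hk0 : k ≠ 0) {f : TPS T} (hf : f ∈ DGen Dil L s k) :
    In1 (fun d => d ∈ L ∧ s k d = 0) f := by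
  obtain ⟨c, a, hc, hc0, hkc, rfl⟩ := hf
  exact (hDil c hc hc0 a).mono fun d _ h =>
    ⟨h.1, (sign_ray ht0 hsk hrk hk hc h.1 hk0 hc0 hkc).2.1 h.2⟩

theorem closed_ray (s : M →+ M →+ ℤ) (L : AddSubmonoid M) (k : M) (a b : M)
    (ha : a ∈ L ∧ s k a = 0) (hb : b ∈ L ∧ s k b = 0) : a + b ∈ L ∧ s k (a + b) = 0 :=
  ⟨L.add_mem ha.1 hb.1, by rw [map_add, ha.2, hb.2, add_zero]⟩

theorem in1_closure (ht0 : ∀ a, ht a = 0 → a = 0) (hsk : SkewOn s L) (hrk : Rank2 s ht L)
    {Dil : M → ℤ → TPS T} (hDil : ∀ c ∈ L, c ≠ 0 → ∀ a, In1 (fun d => d ∈ L ∧ s c d = 0) (Dil c a))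
    {k : M} (hk : k ∈ L) (hk0 : k ≠ 0) {f : TPS T}
    (hf : f ∈ Submonoid.closure (DGen Dil L s k)) :
    In1 (fun d => d ∈ L ∧ s k d = 0) f := by
  induction hf using Submonoid.closure_induction with
  | mem f hf => exact in1_gen ht0 hsk hrk hDil hk hk0 hf
  | one => exact in1_one _
  | mul f f' _ _ h1 h2 => exact h1.mul (closed_ray s L k) h2

theorem exists_list {Dil : M → ℤ → TPS T} {k : M} {f : TPS T}
    (hf : f ∈ Submonoid.closure (DGen Dil L s k)) :
    ∃ l : List (M × ℤ), (∀ q ∈ l, q.1 ∈ L ∧ q.1 ≠ 0 ∧ s k q.1 = 0) ∧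
      (l.map (fun q => Dil q.1 q.2)).prod = f := by
  induction hf using Submonoid.closure_induction with
  | mem f hf =>
    obtain ⟨c, a, hc, hc0, hkc, rfl⟩ := hf
    exact ⟨[(c, a)], by simp [hc, hc0, hkc], by simp⟩
  | one => exact ⟨[], by simp, by simp⟩
  | mul f f' _ _ h1 h2 =>
    obtain ⟨l, hl, rfl⟩ := h1
    obtain ⟨l', hl', rfl⟩ := h2
    refine ⟨l ++ l', ?_, by rw [List.map_append, List.prod_append]⟩
    intro q hq
    rcases List.mem_append.1 hq with h | h
    · exact hl q h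
    · exact hl' q h

variable [TopologicalSpace K]

/-- limits of finite products of factors on the ray of `k` -/
def DTg (Dil : M → ℤ → TPS T) (L : AddSubmonoid M) (s : M →+ M →+ ℤ) (k : M) : Set (TPS T) :=
  closure (Submonoid.closure (DGen Dil L s k) : Set (TPS T))

theorem isClosed_in1 [T1Space K] (P : M → Prop) : IsClosed {f : TPS T | In1 P f} := by
  have : {f : TPS T | In1 P f} = {f : TPS T | f.co 0 = 1} ∩
      ⋂ d : M, {f | d ≠ 0 → ¬ P d → f.co d = 0} := by
    ext f
    simp only [Set.mem_ofPred_eq, Set.mem_inter_iff, Set.mem_iInter]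
    exact ⟨fun h => ⟨h.one, h.supp⟩, fun h => ⟨h.1, h.2⟩⟩
  rw [this]
  refine (isClosed_co_eq 0 1).inter (isClosed_iInter fun d => ?_)
  by_cases h : d ≠ 0 ∧ ¬ P d
  · have : {f : TPS T | d ≠ 0 → ¬ P d → f.co d = 0} = {f | f.co d = 0} := by
      ext f; simp only [Set.mem_ofPred_eq]; exact ⟨fun h' => h' h.1 h.2, fun h' _ _ => h'⟩
    rw [this]
    exact isClosed_co_eq d 0
  · have : {f : TPS T | d ≠ 0 → ¬ P d → f.co d = 0} = Set.univ := by
      ext f; simp only [Set.mem_ofPred_eq, Set.mem_univ, iff_true]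
      intro h1 h2; exact absurd ⟨h1, h2⟩ h
    rw [this]
    exact isClosed_univ

theorem in1_DTg [T1Space K] (ht0 : ∀ a, ht a = 0 → a = 0) (hsk : SkewOn s L)
    (hrk : Rank2 s ht L)
    {Dil : M → ℤ → TPS T} (hDil : ∀ c ∈ L, c ≠ 0 → ∀ a, In1 (fun d => d ∈ L ∧ s c d = 0) (Dil c a))
    {k : M} (hk : k ∈ L) (hk0 : k ≠ 0) {f : TPS T} (hf : f ∈ DTg Dil L s k) :
    In1 (fun d => d ∈ L ∧ s k d = 0) f :=
  closure_minimal (fun f hf => in1_closure ht0 hsk hrk hDil hk hk0 hf) (isClosed_in1 _) hf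

end DT

section main

variable {M : Type*} [AddCommMonoid M] [PartialOrder M] [IsOrderedCancelAddMonoid M]
  [CanonicallyOrderedAdd M] [WellFoundedLT M] [HasAntidiagonal M]
variable {K : Type*} [CommRing K] {T : Tw M K} {s : M →+ M →+ ℤ} {L : AddSubmonoid M} {ht : M →+ ℕ}

/-- rays other than the ray of `k` lie strictly on one side. -/
theorem in1_side (ht0 : ∀ a, ht a = 0 → a = 0) (hsk : SkewOn s L) (hrk : Rank2 s ht L)
    {k k' : M} (hk : k ∈ L) (hk' : k' ∈ L) (hk0 : k' ≠ 0) {f : TPS T}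
    (hf : In1 (fun d => d ∈ L ∧ s k' d = 0) f) :
    (0 < s k k' → In1 (fun d => 0 < s k d) f) ∧ (s k k' < 0 → In1 (fun d => s k d < 0) f) := by
  have h1 : 0 < (ht k' : ℤ) := by
    exact_mod_cast Nat.pos_of_ne_zero fun h => hk0 (ht0 _ h)
  constructor
  · intro h
    refine hf.mono fun d hd h' => ?_
    have h2 : 0 < (ht d : ℤ) := by
      exact_mod_cast Nat.pos_of_ne_zero fun h => hd (ht0 _ h)
    have h3 := transfer' hsk hrk hk' h'.1 hk h'.2
    have h4 : 0 < (ht k' : ℤ) * s k d := by rw [h3]; exact mul_pos h2 h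
    exact (mul_pos_iff_of_pos_left h1).1 h4
  · intro h
    refine hf.mono fun d hd h' => ?_
    have h2 : 0 < (ht d : ℤ) := by
      exact_mod_cast Nat.pos_of_ne_zero fun h => hd (ht0 _ h)
    have h3 := transfer' hsk hrk hk' h'.1 hk h'.2
    have h4 : (ht k' : ℤ) * s k d < 0 := by rw [h3]; exact mul_neg_of_pos_of_neg h2 h
    exact neg_of_mul_neg_right h4 h1.le

/-- the zero part of a series on `L` only depends on the ray of the functional `s(k, ·)`. -/
theorem zer_ray (ht0 : ∀ a, ht a = 0 → a = 0) (hsk : SkewOn s L) (hrk : Rank2 s ht L)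
    {k k' : M} (hk : k ∈ L) (hk' : k' ∈ L) (hk0 : k ≠ 0) (hk0' : k' ≠ 0) (h : s k' k = 0)
    {a : TPS T} (ha : In1 (· ∈ L) a) : zer (s k) a = zer (s k') a := by
  have hadd : ∀ a b : M, a ∈ L → b ∈ L → a + b ∈ L := fun a b => L.add_mem
  have hp := ha.pos hadd (s k')
  have hz := ha.zer hadd (s k')
  have hn := ha.neg hadd (s k')
  refine (pzn_unique' (s k) (p := pos (s k') a) (z := zer (s k') a) (n := neg (s k') a)
    ?_ ?_ ?_ (pos_mul_zer_mul_neg _ ha.one)).2.1
  · exact hp.mono fun d _ hd => (sign_ray ht0 hsk hrk hk' hk hd.2 hk0' hk0 h).1.2 hd.1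
  · exact hz.mono fun d _ hd => (sign_ray ht0 hsk hrk hk' hk hd.2 hk0' hk0 h).2.2 hd.1
  · refine hn.mono fun d _ hd => ?_
    have h1 := (sign_ray ht0 hsk hrk hk' hk hd.2 hk0' hk0 h).1
    have h2 := (sign_ray ht0 hsk hrk hk' hk hd.2 hk0' hk0 h).2
    by_contra hcon
    rcases (not_lt.1 hcon).lt_or_eq with h3 | h3
    · exact absurd (h1.1 h3) (not_lt.2 hd.1.le)
    · exact absurd (h2.1 h3.symm) hd.1.ne

theorem prod_flatMap_map {ι α : Type*} {N : Type*} [Monoid N] (l : List ι) (g : ι → List α)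
    (φ : α → N) : ((l.flatMap g).map φ).prod = (l.map fun i => ((g i).map φ).prod).prod := by
  induction l with
  | nil => simp
  | cons i l ih => simp [ih]

variable [TopologicalSpace K] [IsTopologicalRing K] [T1Space K]

theorem continuous_zer {V : Type*} [AddCommGroup V] [LinearOrder V] (x : M →+ V) :
    Continuous (zer x : TPS T → TPS T) :=
  (continuous_lft _).comp (continuous_rgt _)

open Classical in
/-- **(JTWOD)** two dimensional positivity in a joint, for closures, truncated form. -/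
theorem jtwod (ht0 : ∀ a, ht a = 0 → a = 0) (hsk : SkewOn s L) (hrk : Rank2 s ht L)
    (hpar : ∀ k ∈ L, ∀ c ∈ L, k ≠ 0 → s k c = 0 → ht c ≤ ht k → c ≤ k)
    {Dil : M → ℤ → TPS T} (hDil : ∀ c ∈ L, c ≠ 0 → ∀ a, In1 (fun d => d ∈ L ∧ s c d = 0) (Dil c a))
    (hJ : JMAIN T L s Dil (DTg Dil L s)) {a : TPS T} (ha : In1 (· ∈ L) a) {d : M} (hd : d ∈ L)
    (hd0 : d ≠ 0)
    (H : ∀ k ∈ L, k ≠ 0 → k ≤ d → ∃ f ∈ DTg Dil L s k, ∀ c ≤ k, (zer (s k) a).co c = f.co c) :
    ∃ f ∈ DTg Dil L s d, ∀ c ≤ d, (zer (-(s d)) a).co c = f.co c := by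
  have hself : ∀ c ∈ L, s c c = 0 := fun c hc => by have := hsk c hc c hc; omega
  -- slopes and representatives
  let Kf : Finset M := (down d).filter fun k => k ∈ L ∧ k ≠ 0
  have hKf : ∀ k, k ∈ Kf ↔ k ≤ d ∧ k ∈ L ∧ k ≠ 0 := fun k => by
    simp only [Kf, Finset.mem_filter, mem_down]
  let Sg : Finset ℚ := Kf.image (slope s ht d)
  have hrep : ∀ q : ℚ, ∃ k : M, q ∈ Sg → (k ∈ L ∧ k ≠ 0 ∧ k ≤ d ∧ slope s ht d k = q ∧
      ∀ c ∈ L, c ≠ 0 → c ≤ d → slope s ht d c = q → c ≤ k) := by
    intro q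
    by_cases hq : q ∈ Sg
    · obtain ⟨k₁, hk₁, hq₁⟩ := Finset.mem_image.1 hq
      obtain ⟨k, hk, hmax⟩ := Finset.exists_max_image (Kf.filter fun k => slope s ht d k = q)
        (fun k => ht k) ⟨k₁, by simp [hk₁, hq₁]⟩
      rw [Finset.mem_filter, hKf] at hk
      refine ⟨k, fun _ => ⟨hk.1.2.1, hk.1.2.2, hk.1.1, hk.2, fun c hc hc0 hcd hcq => ?_⟩⟩
      refine hpar k hk.1.2.1 c hc hk.1.2.2 ?_ ?_
      · rw [zero_iff_slope ht0 hsk hrk hd hk.1.2.1 hc hd0 hk.1.2.2 hc0, hcq, hk.2]
      · exact hmax c (by rw [Finset.mem_filter, hKf]; exact ⟨⟨hcd, hc, hc0⟩, hcq⟩)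
    · exact ⟨0, fun h => absurd h hq⟩
  choose r hr using hrep
  have hfex : ∀ q : ℚ, ∃ f : TPS T, q ∈ Sg → (f ∈ DTg Dil L s (r q) ∧
      ∀ c ≤ r q, (zer (s (r q)) a).co c = f.co c) := by
    intro q
    by_cases hq : q ∈ Sg
    · obtain ⟨h1, h2, h3, -, -⟩ := hr q hq
      obtain ⟨f, hf, hf'⟩ := H (r q) h1 h2 h3
      exact ⟨f, fun _ => ⟨hf, hf'⟩⟩
    · exact ⟨0, fun h => absurd h hq⟩
  choose f hf using hfex
  let l : List ℚ := Sg.sort (· ≥ ·)
  have hl : ∀ q, q ∈ l ↔ q ∈ Sg := fun q => by simp only [l, Finset.mem_sort]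
  have hlp : l.Pairwise (fun p q => q < p) := by
    have h1 : l.Pairwise (fun p q => p ≥ q) := Finset.pairwise_sort _ _
    have h2 : l.Pairwise (fun p q => p ≠ q) := Finset.sort_nodup _ _
    exact (h1.and h2).imp fun {p q} h => lt_of_le_of_ne h.1 (Ne.symm h.2)
  have hin : ∀ q ∈ Sg, In1 (fun e => e ∈ L ∧ s (r q) e = 0) (f q) := fun q hq =>
    in1_DTg ht0 hsk hrk hDil (hr q hq).1 (hr q hq).2.1 (hf q hq).1
  have hlt : ∀ p ∈ Sg, ∀ q ∈ Sg, q < p → s (r p) (r q) < 0 := fun p hp q hq hpq => by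
    rw [neg_iff_slope ht0 hsk hrk hd (hr p hp).1 (hr q hq).1 hd0 (hr p hp).2.1 (hr q hq).2.1,
      (hr p hp).2.2.2.1, (hr q hq).2.2.2.1]
    exact hpq
  -- the product
  have hz' : ∀ q ∈ Sg, zer (s (r q)) ((l.map f).prod) = f q := by
    intro q hq
    obtain ⟨l1, l2, hl12⟩ := List.append_of_mem ((hl q).2 hq)
    rw [hl12] at hlp ⊢
    rw [List.map_append, List.map_cons]
    rw [List.pairwise_append] at hlp
    obtain ⟨-, hp2, hp3⟩ := hlp
    rw [List.pairwise_cons] at hp2
    have hm1 : ∀ p ∈ l1, p ∈ Sg := fun p hp => (hl p).1 (by rw [hl12]; simp [hp])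
    have hm2 : ∀ p ∈ l2, p ∈ Sg := fun p hp => (hl p).1 (by rw [hl12]; simp [hp])
    refine zer_list _ _ _ _ ?_ ((hin q hq).mono fun _ _ h => h.2) ?_
    · intro g hg
      obtain ⟨p, hp, rfl⟩ := List.mem_map.1 hg
      refine (in1_side ht0 hsk hrk (hr q hq).1 (hr p (hm1 p hp)).1 (hr p (hm1 p hp)).2.1
        (hin p (hm1 p hp))).1 ?_
      have h1 := hlt p (hm1 p hp) q hq (hp3 p hp q (by simp))
      rw [hsk _ (hr p (hm1 p hp)).1 _ (hr q hq).1] at h1
      linarith
    · intro g hg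
      obtain ⟨p, hp, rfl⟩ := List.mem_map.1 hg
      exact (in1_side ht0 hsk hrk (hr q hq).1 (hr p (hm2 p hp)).1 (hr p (hm2 p hp)).2.1
        (hin p (hm2 p hp))).2 (hlt q hq p (hm2 p hp) (hp2.1 p hp))
  have ha' : In1 (· ∈ L) ((l.map f).prod) := by
    refine In1.list (fun a b => L.add_mem) _ fun g hg => ?_
    obtain ⟨p, hp, rfl⟩ := List.mem_map.1 hg
    exact (hin p ((hl p).1 hp)).mono fun _ _ h => h.1
  -- the two series agree in degrees `≤ d`
  have hagree : ∀ c ≤ d, a.co c = ((l.map f).prod).co c := by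
    refine juniq s L ha ha' hself d fun k hk hk0 hkd => ?_
    have hq : slope s ht d k ∈ Sg := Finset.mem_image_of_mem _ ((hKf k).2 ⟨hkd, hk, hk0⟩)
    obtain ⟨h1, h2, h3, h4, h5⟩ := hr _ hq
    have h6 : s (r (slope s ht d k)) k = 0 := by
      rw [zero_iff_slope ht0 hsk hrk hd h1 hk hd0 h2 hk0, h4]
    rw [zer_ray ht0 hsk hrk hk h1 hk0 h2 h6 ha, zer_ray ht0 hsk hrk hk h1 hk0 h2 h6 ha',
      hz' _ hq]
    exact (hf _ hq).2 k (h5 k hk hk0 hkd rfl)
  refine ⟨zer (-(s d)) ((l.map f).prod), ?_, fun c hc =>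
    (zer_congr _ _ ha.one c (fun e he => hagree e (he.trans hc)) (fun _ _ => Iff.rfl)
      (fun _ _ => Iff.rfl)).1⟩
  -- the limit argument
  let D : ℚ → Set (TPS T) := fun q =>
    if q ∈ Sg then (Submonoid.closure (DGen Dil L s (r q)) : Set (TPS T)) else Set.univ
  refine map_prod_closure (D := D) (E := (Submonoid.closure (DGen Dil L s d) : Set (TPS T)))
    l (continuous_zer (-(s d))) ?_ f ?_
  · intro u hu
    have hex : ∀ q : ℚ, ∃ ll : List (M × ℤ), q ∈ Sg →
        ((∀ w ∈ ll, w.1 ∈ L ∧ w.1 ≠ 0 ∧ s (r q) w.1 = 0) ∧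
          (ll.map (fun w => Dil w.1 w.2)).prod = u q) := by
      intro q
      by_cases hq : q ∈ Sg
      · have h1 := hu q
        simp only [D, if_pos hq] at h1
        obtain ⟨ll, h2⟩ := exists_list h1
        exact ⟨ll, fun _ => h2⟩
      · exact ⟨[], fun h => absurd h hq⟩
    choose g hg using hex
    have hprod : (l.map u).prod = ((l.flatMap g).map (fun w => Dil w.1 w.2)).prod := by
      rw [prod_flatMap_map]
      congr 1
      refine List.map_congr_left fun q hq => ?_
      exact (hg q ((hl q).1 hq)).2.symm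
    have hpw : (l.flatMap g).Pairwise (fun v w => s v.1 w.1 ≤ 0) := by
      rw [List.pairwise_flatMap]
      constructor
      · intro q hq
        have hq' := (hl q).1 hq
        refine List.pairwise_of_forall_mem_list fun v hv w hw => ?_
        have h1 := (hg q hq').1 v hv
        have h2 := (hg q hq').1 w hw
        exact ((sign_ray ht0 hsk hrk (hr q hq').1 h1.1 h2.1 (hr q hq').2.1 h1.2.1 h1.2.2).2.2
          h2.2.2).le
      · refine (List.Pairwise.imp_of_mem ?_ hlp)
        intro p q hp hq hpq v hv w hw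
        have hp' := (hl p).1 hp
        have hq' := (hl q).1 hq
        have h1 := (hg p hp').1 v hv
        have h2 := (hg q hq').1 w hw
        -- signs
        have h3 : s (r p) (r q) < 0 := hlt p hp' q hq' hpq
        have e1 := transfer hsk hrk (hr p hp').1 h1.1 h2.1 h1.2.2
        have e2 := transfer' hsk hrk (hr q hq').1 h2.1 (hr p hp').1 h2.2.2
        have p1 : 0 < (ht (r p) : ℤ) := by
          exact_mod_cast Nat.pos_of_ne_zero fun h => (hr p hp').2.1 (ht0 _ h)
        have p2 : 0 < (ht (r q) : ℤ) := by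
          exact_mod_cast Nat.pos_of_ne_zero fun h => (hr q hq').2.1 (ht0 _ h)
        have n1 : (0 : ℤ) ≤ ht v.1 := by positivity
        have n2 : (0 : ℤ) ≤ ht w.1 := by positivity
        have f1 : s (r p) w.1 ≤ 0 := by
          by_contra hcon
          have : 0 < (ht (r q) : ℤ) * s (r p) w.1 := mul_pos p2 (not_le.1 hcon)
          rw [e2] at this
          exact absurd this (not_lt.2 (mul_nonpos_of_nonneg_of_nonpos n2 h3.le))
        by_contra hcon
        have : 0 < (ht (r p) : ℤ) * s v.1 w.1 := mul_pos p1 (not_le.1 hcon)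
        rw [e1] at this
        exact absurd this (not_lt.2 (mul_nonpos_of_nonneg_of_nonpos n1 f1))
    have hmem : ∀ w ∈ l.flatMap g, w.1 ∈ L ∧ w.1 ≠ 0 := by
      intro w hw
      obtain ⟨q, hq, hwq⟩ := List.mem_flatMap.1 hw
      have := (hg q ((hl q).1 hq)).1 w hwq
      exact ⟨this.1, this.2.1⟩
    have h0 : ((l.map u).prod).co 0 = 1 := by
      rw [hprod]
      refine (In1.list (P := fun _ => True) (fun _ _ _ _ => trivial) _ fun g' hg' => ?_).one
      obtain ⟨w, hw, rfl⟩ := List.mem_map.1 hg'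
      exact (hDil w.1 (hmem w hw).1 (hmem w hw).2 w.2).mono fun _ _ _ => trivial
    refine hJ (l.flatMap g) hmem hpw d hd hd0 (pos (-(s d)) ((l.map u).prod)) _
      (neg (-(s d)) ((l.map u).prod)) ?_ ?_ ?_ ?_
    · refine (in1_pos (-(s d)) _).mono fun m _ h => ?_
      rw [AddMonoidHom.neg_apply] at h; linarith
    · refine (in1_zer (-(s d)) _).mono fun m _ h => ?_
      rw [AddMonoidHom.neg_apply] at h; linarith
    · refine (in1_neg (-(s d)) _).mono fun m _ h => ?_
      rw [AddMonoidHom.neg_apply] at h; linarith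
    · rw [pos_mul_zer_mul_neg _ h0, hprod]
  · intro q
    by_cases hq : q ∈ Sg
    · simp only [D, if_pos hq]
      exact (hf q hq).1
    · simp only [D, if_neg hq, closure_univ]
      exact Set.mem_univ _

end main

section inst

variable {M : Type*} [AddCommMonoid M] [PartialOrder M] [IsOrderedCancelAddMonoid M]
  [CanonicallyOrderedAdd M] [WellFoundedLT M] [HasAntidiagonal M]
variable {R : Type*} [CommRing R] {T : Tw M R} {s : M →+ M →+ ℤ} {L : AddSubmonoid M} {ht : M →+ ℕ}

theorem nsmul_injective (ht0 : ∀ a, ht a = 0 → a = 0) {c : M} (hc : c ≠ 0) :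
    Function.Injective (fun k : ℕ => k • c) := by
  intro a b hab
  have h := congrArg ht hab
  simp only [map_nsmul, smul_eq_mul] at h
  exact Nat.eq_of_mul_eq_mul_right (Nat.pos_of_ne_zero fun h => hc (ht0 _ h)) h

theorem in1_QDil (ht0 : ∀ a, ht a = 0 → a = 0) (Q : M → ZMod 2) {c : M} (hc : c ∈ L) (hc0 : c ≠ 0)
    (hself : s c c = 0) (a : ℤ) : In1 (fun d => d ∈ L ∧ s c d = 0) (QDil T Q c a) := by
  refine ⟨co_dil_zero (nsmul_injective ht0 hc0) _ _, fun d hd hP => ?_⟩
  by_contra hne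
  obtain ⟨k, hk⟩ := exists_of_co_ev_ne hne
  apply hP
  rw [hk]
  exact ⟨L.nsmul_mem hc k, by rw [map_nsmul, hself, smul_zero]⟩


variable [TopologicalSpace R] [IsTopologicalRing R] [T1Space R]


/-- **(JTWOD)** for 853's `QDil`, `DT`. -/
theorem jtwod_DT (ht0 : ∀ a, ht a = 0 → a = 0) (hsk : SkewOn s L) (hrk : Rank2 s ht L)
    (hpar : ∀ k ∈ L, ∀ c ∈ L, k ≠ 0 → s k c = 0 → ht c ≤ ht k → c ≤ k) {Q : M → ZMod 2}
    (hJ : JMAIN T L s (QDil T Q) (DT T Q L s)) {a : TPS T} (ha : In1 (· ∈ L) a) {d : M} (hd : d ∈ L)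
    (hd0 : d ≠ 0)
    (H : ∀ k ∈ L, k ≠ 0 → k ≤ d → ∃ f ∈ DT T Q L s k, ∀ c ≤ k, (zer (s k) a).co c = f.co c) :
    ∃ f ∈ DT T Q L s d, ∀ c ≤ d, (zer (-(s d)) a).co c = f.co c :=
  jtwod ht0 hsk hrk hpar (Dil := QDil T Q)
    (fun c hc hc0 a => in1_QDil ht0 Q hc hc0 (by have := hsk c hc c hc; omega) a) hJ ha hd hd0 H

end inst

end Crest.Agent.R059.JTwo269
end

-- ▼ part R059/Wall2_999
section

/-!
# Row 59, WALL: positivity of every wall of a plain element, all degrees (helper999)
-/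

set_option autoImplicit false
set_option linter.unusedSectionVars false

open Finset

namespace Crest.Agent.R059.Wall999

open TPS FlowV999

section ray

variable {ι : Type}

theorem OnRay.add {a b c : ι →₀ ℕ} (ha : OnRay a c) (hb : OnRay b c) : OnRay (a + b) c := by
  obtain ⟨i, j, hi, hj, hij⟩ := ha
  obtain ⟨k, l, hk, hl, hkl⟩ := hb
  refine ⟨i * k, j * k + l * i, by positivity, by positivity, ?_⟩
  have h1 : (i * k) • a = (j * k) • c := by
    rw [mul_comm i k, mul_comm j k, mul_smul, mul_smul, hij]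
  have h2 : (i * k) • b = (l * i) • c := by
    rw [mul_comm l i, mul_smul, mul_smul, hkl]
  rw [smul_add, h1, h2, add_smul]

theorem onRay_nsmul {k : ℕ} (hk : 0 < k) (c : ι →₀ ℕ) : OnRay (k • c) c :=
  ⟨1, k, one_pos, hk, by rw [one_smul]⟩

/-- multiples of a basis vector -/
theorem onRay_single [DecidableEq ι] {e : ι →₀ ℕ} {i : ι} {k : ℕ} (h : OnRay e (Finsupp.single i k)) :
    e = Finsupp.single i (e i) := by
  obtain ⟨a, b, ha, _, hab⟩ := h
  ext j
  by_cases hj : j = i
  · subst hj; simp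
  · have := DFunLike.congr_fun hab j
    simp only [Finsupp.coe_smul, Pi.smul_apply, smul_eq_mul, Finsupp.single_apply,
      if_neg (Ne.symm hj), mul_zero] at this
    rw [Finsupp.single_apply, if_neg (Ne.symm hj)]
    rcases mul_eq_zero.1 this with h | h
    · omega
    · exact h

end ray

section dt

variable {ι : Type} [DecidableEq ι] {R : Type*} [CommRing R] [TopologicalSpace R]
  {T : Tw (ι →₀ ℕ) R}

/-- the factors of the ray of `k` -/
def RGen (Dil : (ι →₀ ℕ) → ℤ → TPS T) (k : ι →₀ ℕ) : Set (TPS T) :=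
  {f | ∃ (c : ι →₀ ℕ) (a : ℤ), OnRay c k ∧ f = Dil c a}

/-- limits of finite products of factors of the ray of `k` -/
def DTr (Dil : (ι →₀ ℕ) → ℤ → TPS T) (k : ι →₀ ℕ) : Set (TPS T) :=
  closure (Submonoid.closure (RGen Dil k) : Set (TPS T))

theorem RGen_congr (Dil : (ι →₀ ℕ) → ℤ → TPS T) {k k' : ι →₀ ℕ} (h : OnRay k k') :
    RGen Dil k = RGen Dil k' := by
  ext f
  constructor
  · rintro ⟨c, a, hc, rfl⟩; exact ⟨c, a, hc.trans h, rfl⟩
  · rintro ⟨c, a, hc, rfl⟩; exact ⟨c, a, hc.trans h.symm, rfl⟩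

theorem DTr_congr (Dil : (ι →₀ ℕ) → ℤ → TPS T) {k k' : ι →₀ ℕ} (h : OnRay k k') :
    DTr Dil k = DTr Dil k' := by
  rw [DTr, DTr, RGen_congr Dil h]

theorem one_mem_DTr (Dil : (ι →₀ ℕ) → ℤ → TPS T) (k : ι →₀ ℕ) : (1 : TPS T) ∈ DTr Dil k :=
  subset_closure (Submonoid.one_mem _)

theorem dil_mem_DTr (Dil : (ι →₀ ℕ) → ℤ → TPS T) {k c : ι →₀ ℕ} (a : ℤ) (h : OnRay c k) :
    Dil c a ∈ DTr Dil k :=
  subset_closure (Submonoid.subset_closure ⟨c, a, h, rfl⟩)

theorem in1_closure_RGen (Dil : (ι →₀ ℕ) → ℤ → TPS T)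
    (hDil : ∀ c a, c ≠ 0 → In1 (fun e => OnRay e c) (Dil c a)) {k : ι →₀ ℕ} (hk : k ≠ 0)
    {f : TPS T} (hf : f ∈ Submonoid.closure (RGen Dil k)) : In1 (fun e => OnRay e k) f := by
  induction hf using Submonoid.closure_induction with
  | mem f hf =>
    obtain ⟨c, a, hc, rfl⟩ := hf
    exact (hDil c a (hc.ne_zero hk)).mono fun e _ he => he.trans hc
  | one => exact in1_one _
  | mul f g _ _ hf hg => exact In1.mul (fun a b ha hb => ha.add hb) hf hg

theorem in1_DTr [T1Space R] (Dil : (ι →₀ ℕ) → ℤ → TPS T)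
    (hDil : ∀ c a, c ≠ 0 → In1 (fun e => OnRay e c) (Dil c a)) {k : ι →₀ ℕ} (hk : k ≠ 0)
    {f : TPS T} (hf : f ∈ DTr Dil k) : In1 (fun e => OnRay e k) f := by
  refine ⟨?_, fun d hd hdk => ?_⟩
  · exact closure_co_eq (fun g hg => (in1_closure_RGen Dil hDil hk hg).one) hf
  · exact closure_co_eq (fun g hg => (in1_closure_RGen Dil hDil hk hg).supp d hd hdk) hf

theorem mem_closure_of_fin {D : Set (TPS T)} {f : TPS T}
    (h : ∀ S : Finset (ι →₀ ℕ), ∃ g ∈ D, ∀ d ∈ S, g.co d = f.co d) : f ∈ closure D := by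
  rw [mem_closure_iff]
  rintro _ ⟨U, hU, rfl⟩ hf
  obtain ⟨I, u, hu, hIu⟩ := isOpen_pi_iff.1 hU _ hf
  obtain ⟨g, hg, hgf⟩ := h I
  refine ⟨g, hIu fun a ha => ?_, hg⟩
  rw [hgf a ha]
  exact (hu a ha).2

/-- box version of positivity -/
def PosBox (Dil : (ι →₀ ℕ) → ℤ → TPS T) (k : ι →₀ ℕ) (b : TPS T) : Prop :=
  ∃ f ∈ DTr Dil k, ∀ c ≤ k, f.co c = b.co c

theorem PosBox.loc (Dil : (ι →₀ ℕ) → ℤ → TPS T) (k : ι →₀ ℕ) (b b' : TPS T)
    (h : ∀ c ≤ k, b.co c = b'.co c) (hb : PosBox Dil k b) : PosBox Dil k b' := by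
  obtain ⟨f, hf, hfb⟩ := hb
  exact ⟨f, hf, fun c hc => (hfb c hc).trans (h c hc)⟩

/-- from boxes to all degrees -/
theorem mem_DTr_of_box [T1Space R] (Dil : (ι →₀ ℕ) → ℤ → TPS T)
    (hDil : ∀ c a, c ≠ 0 → In1 (fun e => OnRay e c) (Dil c a)) {c : ι →₀ ℕ} (hc : c ≠ 0)
    {b : TPS T} (hb : In1 (fun e => OnRay e c) b) (h : ∀ d, OnRay d c → PosBox Dil d b) :
    b ∈ DTr Dil c := by
  classical
  unfold DTr
  rw [← closure_closure]
  refine mem_closure_of_fin fun S => ?_
  set d : ι →₀ ℕ := c + ∑ e ∈ S.filter (fun e => OnRay e c), e with hd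
  have hdc : OnRay d c := by
    have key : ∀ S' : Finset (ι →₀ ℕ), (∀ e ∈ S', OnRay e c) → OnRay (c + ∑ e ∈ S', e) c := by
      intro S'
      induction S' using Finset.induction_on with
      | empty => intro _; simpa using OnRay.refl c
      | insert a s ha ih =>
        intro h1
        rw [Finset.sum_insert ha, add_left_comm]
        exact (h1 a (Finset.mem_insert_self a s)).add
          (ih fun e he => h1 e (Finset.mem_insert_of_mem he))
    exact key _ fun e he => (Finset.mem_filter.1 he).2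
  obtain ⟨f, hf, hfb⟩ := h d hdc
  rw [DTr_congr Dil hdc] at hf
  refine ⟨f, hf, fun e he => ?_⟩
  by_cases he0 : e = 0
  · rw [he0]; exact hfb 0 (zero_le)
  by_cases hec : OnRay e c
  · refine hfb e ?_
    have h1 : e ≤ ∑ e ∈ S.filter (fun e => OnRay e c), e :=
      Finset.single_le_sum (f := fun e => e) (fun _ _ => zero_le)
        (Finset.mem_filter.2 ⟨he, hec⟩)
    exact h1.trans (le_add_self)
  · rw [(in1_DTr Dil hDil hc hf).supp e he0 hec, hb.supp e he0 hec]

end dt

section wall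

open Tr201

variable {ι : Type} [DecidableEq ι] {R : Type*} [CommRing R] [IsDomain R] [TopologicalSpace R]
  [T1Space R] {T : Tw (ι →₀ ℕ) R}

/-- plain attractor data: node series `nd i` on the basis vectors, nothing else. -/
structure PlainData (h : (ι →₀ ℕ) →+ R) (nd : ι → TPS T) (A : TPS T) : Prop where
  one : A.co 0 = 1
  node : ∀ i k, 0 < k → lam h (Finsupp.single i k) (zer (T.β (Finsupp.single i k)) A)
    (TPS.inv (zer (T.β (Finsupp.single i k)) A)) =
      lam h (Finsupp.single i k) (nd i) (TPS.inv (nd i))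
  zero : ∀ d, d ≠ 0 → (∀ i k, d ≠ Finsupp.single i k) →
    lam h d (zer (T.β d) A) (TPS.inv (zer (T.β d) A)) = 0

/-- **WALLS**: every wall of a plain element is positive. -/
theorem wall (hs : ∀ a b, T.β a b = - T.β b a) (h : (ι →₀ ℕ) →+ R)
    (hreg : ∀ d, d ≠ 0 → h d ≠ 0) (Dil : (ι →₀ ℕ) → ℤ → TPS T)
    (hDil : ∀ c a, c ≠ 0 → In1 (fun e => OnRay e c) (Dil c a))
    (nd : ι → TPS T) (hnd : ∀ i, nd i ∈ DTr Dil (Finsupp.single i 1))
    {A : TPS T} (hA : PlainData h nd A)
    (h2D : ∀ (V : Type) [AddCommGroup V] [LinearOrder V] [IsOrderedAddMonoid V]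
      (x : (ι →₀ ℕ) →+ V) (d : ι →₀ ℕ), d ≠ 0 → JointAt T x d → x d = 0 →
      (∀ k ≤ d, k ≠ 0 → x k = 0 → PosBox Dil k (zer (T.β k) (zer x A))) →
      PosBox Dil d (zer (- T.β d) (zer x A)))
    (V : Type) [AddCommGroup V] [LinearOrder V] [IsOrderedAddMonoid V]
    (x : (ι →₀ ℕ) →+ V) (c : ι →₀ ℕ) (hc : Trans569.KerRay x c) : zer x A ∈ DTr Dil c := by
  have hAT : ∀ (V : Type) [AddCommGroup V] [LinearOrder V] [IsOrderedAddMonoid V]
      (x : (ι →₀ ℕ) →+ V) (d : ι →₀ ℕ), Trans569.KerRay x d →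
      (∀ c ≤ d, T.β d c ≠ 0 → SameSg (x c) (T.β d c)) → PosBox Dil d (zer x A) := by
    intro V _ _ _ x d hK hsg
    by_cases hd : ∃ i k, d = Finsupp.single i k
    · obtain ⟨i, k, rfl⟩ := hd
      have hk : 0 < k := Nat.pos_of_ne_zero fun h0 => hK.1 (by rw [h0, Finsupp.single_zero])
      have hr : OnRay (Finsupp.single i k) (Finsupp.single i 1) := by
        have := onRay_nsmul hk (Finsupp.single i 1)
        simpa [Finsupp.smul_single] using this
      have h1 : nd i ∈ DTr Dil (Finsupp.single i k) := by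
        rw [DTr_congr Dil hr]; exact hnd i
      refine ⟨nd i, h1, fun e he => ?_⟩
      refine (att_box hs h hreg x hK hA.one hsg (in1_DTr Dil hDil hK.1 h1) ?_ e he).symm
      intro e _ he0 hed
      have h2 := onRay_single hed
      have h3 : 0 < e i := Nat.pos_of_ne_zero fun h0 => he0 (by
        rw [h2, h0, Finsupp.single_zero])
      rw [h2]
      exact hA.node i (e i) h3
    · refine ⟨1, one_mem_DTr Dil d, fun e he => ?_⟩
      refine (att_box hs h hreg x hK hA.one hsg (in1_one _) ?_ e he).symm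
      intro e _ he0 hed
      rw [TPS.inv_one, lam_one]
      refine hA.zero e he0 fun i k hik => hd ?_
      rw [hik] at hed
      exact ⟨i, d i, onRay_single hed.symm⟩
  refine mem_DTr_of_box Dil hDil hc.1
    ((in1_zer x A).mono fun e he0 he => onRay_of_kerRay hc he0 he) fun d hd => ?_
  exact wall_box hs hA.one (PosBox Dil) (PosBox.loc Dil) h2D hAT V x d (kerRay_onRay hc hd)

end wall

end Crest.Agent.R059.Wall999
end

-- ▼ part R059/Wall3_999
section

/-!
# Row 59, WALL: the two dimensional input (853/269) bound to the flow theorem (helper999)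
-/

set_option autoImplicit false
set_option linter.unusedSectionVars false

open Finset

namespace Crest.Agent.R059.Wall999

open TPS FlowV999

section joint

variable {ι : Type} [DecidableEq ι] {R : Type*} [CommRing R] {T : Tw (ι →₀ ℕ) R}
variable {V : Type} [AddCommGroup V] [LinearOrder V] [IsOrderedAddMonoid V]

/-- total degree -/
noncomputable def dg : (ι →₀ ℕ) →+ ℕ := Finsupp.degree

omit [DecidableEq ι] in
theorem dg_eq_zero (a : ι →₀ ℕ) (h : dg a = 0) : a = 0 := (Finsupp.degree_eq_zero_iff a).1 h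

/-- joints: rank two identity for a submonoid -/
def Plane (s : (ι →₀ ℕ) →+ (ι →₀ ℕ) →+ ℤ) (L : AddSubmonoid (ι →₀ ℕ)) : Prop :=
  (∀ u ∈ L, ∀ v ∈ L, ∀ w ∈ L, ∀ i, s u w * (v i : ℤ) = s u v * (w i : ℤ) + s v w * (u i : ℤ)) ∧
  (∀ k ∈ L, k ≠ 0 → ∀ c ∈ L, c ≠ 0 → s k c = 0 → OnRay c k)

theorem plane_of_joint {x : (ι →₀ ℕ) →+ V} {d : ι →₀ ℕ}
    (hJ : JointAt T x d) (hd : x d = 0) : Plane T.β (AddMonoidHom.mker x) := by
  refine ⟨fun u hu v hv w hw i => ?_, fun k hk hk0 c hc hc0 h => ?_⟩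
  · have h1 := hJ.1 (cz u) (cz v) (cz w) (by rw [ext_cz]; exact hu) (by rw [ext_cz]; exact hv)
      (by rw [ext_cz]; exact hw)
    have h2 := DFunLike.congr_fun h1 i
    simp only [ext2_cz, Finsupp.coe_smul, Finsupp.coe_add, Pi.add_apply, Pi.smul_apply,
      smul_eq_mul, cz_apply] at h2
    exact h2
  · obtain ⟨a, b, ha, hab⟩ := IsJoint.par hJ (by rw [ext_cz]; exact hd)
      (k := cz k) (v := cz c) (by rw [ext_cz]; exact hk)
      (fun h0 => hk0 (cz_injective (by rw [h0, map_zero]))) (by rw [ext_cz]; exact hc)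
      (by rw [ext2_cz]; exact h)
    wlog ha0 : 0 < a generalizing a b
    · exact this (-a) (-b) (neg_ne_zero.2 ha) (by rw [neg_smul, neg_smul, hab]) (by omega)
    have hb0 : 0 < b := by
      by_contra hb
      apply hc0
      ext t
      have h4 := DFunLike.congr_fun hab t
      simp only [Finsupp.coe_smul, Pi.smul_apply, cz_apply, smul_eq_mul] at h4
      have h5 : b * (k t : ℤ) ≤ 0 :=
        mul_nonpos_of_nonpos_of_nonneg (not_lt.1 hb) (by positivity)
      have h6 : (c t : ℤ) ≤ 0 := by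
        by_contra h7
        have : 0 < a * (c t : ℤ) := mul_pos ha0 (not_le.1 h7)
        omega
      simp only [Finsupp.coe_zero, Pi.zero_apply]
      omega
    refine ⟨a.toNat, b.toNat, by omega, by omega, ?_⟩
    ext t
    have h4 := DFunLike.congr_fun hab t
    simp only [Finsupp.coe_smul, Pi.smul_apply, cz_apply, smul_eq_mul] at h4
    simp only [Finsupp.coe_smul, Pi.smul_apply, smul_eq_mul]
    have e1 : (a.toNat : ℤ) = a := Int.toNat_of_nonneg ha0.le
    have e2 : (b.toNat : ℤ) = b := Int.toNat_of_nonneg hb0.le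
    have : ((a.toNat * c t : ℕ) : ℤ) = ((b.toNat * k t : ℕ) : ℤ) := by
      push_cast; rw [e1, e2]; exact h4
    exact_mod_cast this

omit [DecidableEq ι] in
theorem Plane.rank2 {s : (ι →₀ ℕ) →+ (ι →₀ ℕ) →+ ℤ} (hs : ∀ a b, s a b = - s b a)
    {L : AddSubmonoid (ι →₀ ℕ)} (h : Plane s L) : JTwo269.Rank2 s dg L := by
  intro d hd e he k hk
  have h1 : ∀ i, s d k * (e i : ℤ) = s d e * (k i : ℤ) + s e k * (d i : ℤ) := h.1 d hd e he k hk
  have h2 : s d k • cz e = s d e • cz k + s e k • cz d := by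
    ext i
    simpa using h1 i
  have h3 := congrArg (ext (((Nat.castAddMonoidHom ℤ).comp dg : (ι →₀ ℕ) →+ ℤ))) h2
  simp only [map_add, map_zsmul, ext_cz, smul_eq_mul, AddMonoidHom.comp_apply,
    Nat.coe_castAddMonoidHom] at h3
  rw [hs k d]
  linarith

omit [DecidableEq ι] in
theorem Plane.par {s : (ι →₀ ℕ) →+ (ι →₀ ℕ) →+ ℤ} {L : AddSubmonoid (ι →₀ ℕ)} (h : Plane s L) :
    ∀ k ∈ L, ∀ c ∈ L, k ≠ 0 → s k c = 0 → dg c ≤ dg k → c ≤ k := by
  intro k hk c hc hk0 hkc hle
  by_cases hc0 : c = 0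
  · rw [hc0]; exact zero_le
  obtain ⟨i, j, hi, hj, hij⟩ := h.2 k hk hk0 c hc hc0 hkc
  have h1 : i * dg c = j * dg k := by
    have := congrArg dg hij
    simpa only [map_nsmul, smul_eq_mul] using this
  have hdk : 0 < dg k := Nat.pos_of_ne_zero fun h0 => hk0 (dg_eq_zero k h0)
  have hji : j ≤ i := by
    by_contra hcon
    have h2 : i * dg k < j * dg k := Nat.mul_lt_mul_of_pos_right (not_le.1 hcon) hdk
    have h3 : i * dg c ≤ i * dg k := Nat.mul_le_mul_left i hle
    omega
  intro t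
  have h4 := DFunLike.congr_fun hij t
  simp only [Finsupp.coe_smul, Pi.smul_apply, smul_eq_mul] at h4
  have h5 : i * c t ≤ i * k t := by rw [h4]; exact Nat.mul_le_mul_right _ hji
  exact Nat.le_of_mul_le_mul_left h5 hi

end joint

section bind

variable {ι : Type} [DecidableEq ι] {R : Type*} [CommRing R] [TopologicalSpace R]
  {T : Tw (ι →₀ ℕ) R}
variable {V : Type} [AddCommGroup V] [LinearOrder V] [IsOrderedAddMonoid V]

/-- at a joint the positive sets of 853 are those of the ray. -/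
theorem DT_eq_DTr (hs : ∀ a b, T.β a b = - T.β b a) (Q : (ι →₀ ℕ) → ZMod 2)
    {x : (ι →₀ ℕ) →+ V} (hP : Plane T.β (AddMonoidHom.mker x)) {k : ι →₀ ℕ} (hk : x k = 0)
    (hk0 : k ≠ 0) : DT T Q (AddMonoidHom.mker x) T.β k = DTr (QDil T Q) k := by
  have : RayGen T Q (AddMonoidHom.mker x) T.β k = RGen (QDil T Q) k := by
    ext f
    constructor
    · rintro ⟨c, a, hc, hc0, hkc, rfl⟩
      exact ⟨c, a, hP.2 k hk hk0 c hc hc0 hkc, rfl⟩
    · rintro ⟨c, a, hc, rfl⟩
      refine ⟨c, a, hc.apply_eq_zero hk, hc.ne_zero hk0, ?_, rfl⟩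
      have h1 : T.β k k = 0 := by have := hs k k; omega
      exact hc.apply_eq_zero (x := T.β k) h1
  rw [DT, DTr, this]

variable [IsTopologicalRing R] [T1Space R]

/-- the two dimensional positivity in the form consumed by `wall`. -/
theorem h2D_of_jmain (hs : ∀ a b, T.β a b = - T.β b a) (Q : (ι →₀ ℕ) → ZMod 2)
    (hJ : ∀ L : AddSubmonoid (ι →₀ ℕ), Plane T.β L → JMAIN T L T.β (QDil T Q) (DT T Q L T.β))
    (A : TPS T)
    (V : Type) [AddCommGroup V] [LinearOrder V] [IsOrderedAddMonoid V]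
    (x : (ι →₀ ℕ) →+ V) (d : ι →₀ ℕ) (hd0 : d ≠ 0) (hJt : JointAt T x d) (hd : x d = 0)
    (H : ∀ k ≤ d, k ≠ 0 → x k = 0 → PosBox (QDil T Q) k (zer (T.β k) (zer x A))) :
    PosBox (QDil T Q) d (zer (- T.β d) (zer x A)) := by
  have hP := plane_of_joint hJt hd
  obtain ⟨f, hf, hfa⟩ := JTwo269.jtwod_DT (L := AddMonoidHom.mker x) (ht := dg) (T := T)
    (s := T.β) dg_eq_zero (fun a _ b _ => hs a b) (hP.rank2 hs) hP.par (hJ _ hP) (a := zer x A)
    ((in1_zer x A).mono fun _ _ h => h) (d := d) hd hd0 (fun k hk hk0 hkd => by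
      obtain ⟨f, hf, hfa⟩ := H k hkd hk0 hk
      rw [← DT_eq_DTr hs Q hP hk hk0] at hf
      exact ⟨f, hf, fun c hc => (hfa c hc).symm⟩)
  rw [DT_eq_DTr hs Q hP hd hd0] at hf
  exact ⟨f, hf, fun c hc => (hfa c hc).symm⟩

theorem in1_QDil' (Q : (ι →₀ ℕ) → ZMod 2) (c : ι →₀ ℕ) (a : ℤ) (hc : c ≠ 0) :
    In1 (fun e => OnRay e c) (QDil T Q c a) := by
  refine ⟨co_dil_zero (nsmul_inj hc) _ _, fun d hd hP => ?_⟩
  by_contra hne
  obtain ⟨k, hk⟩ := exists_of_co_ev_ne hne
  apply hP
  rw [hk]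
  exact onRay_nsmul (Nat.pos_of_ne_zero fun h => hd (by rw [hk, h, zero_smul])) c

/-- **WALLS** in the frozen language. -/
theorem wall_of_jmain [IsDomain R] (hs : ∀ a b, T.β a b = - T.β b a) (h : (ι →₀ ℕ) →+ R)
    (hreg : ∀ d, d ≠ 0 → h d ≠ 0) (Q : (ι →₀ ℕ) → ZMod 2)
    (hJ : ∀ L : AddSubmonoid (ι →₀ ℕ), Plane T.β L → JMAIN T L T.β (QDil T Q) (DT T Q L T.β))
    (nd : ι → TPS T) (hnd : ∀ i, nd i ∈ DTr (QDil T Q) (Finsupp.single i 1))
    {A : TPS T} (hA : PlainData h nd A)
    (V : Type) [AddCommGroup V] [LinearOrder V] [IsOrderedAddMonoid V]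
    (x : (ι →₀ ℕ) →+ V) (c : ι →₀ ℕ) (hc : Trans569.KerRay x c) :
    zer x A ∈ DTr (QDil T Q) c :=
  wall hs h hreg (QDil T Q) (fun c a hc => in1_QDil' Q c a hc) nd hnd hA
    (fun V _ _ _ x d hd0 hJt hd H => h2D_of_jmain hs Q hJ A V x d hd0 hJt hd H) V x c hc

end bind

end Crest.Agent.R059.Wall999
end

-- ▼ part R059/Push_853
section

set_option autoImplicit false

/-!
Row 59 (S0081), JOINT block (J1): push-forward of twisted power series along a homomorphism of
lattices `φ : M →+ M'` with finite fibres and a cocycle `lam`.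
-/

namespace Crest.Agent.R059

open Finset HasAntidiagonal PowerSeries

namespace TPS

variable {M M' : Type*} [AddCommMonoid M] [AddCommMonoid M'] {R : Type*} [CommRing R]

/-- data for a push-forward `X_m ↦ lam m • X_{φ m}`. -/
structure PushData (T : Tw M R) (T' : Tw M' R) where
  /-- the map of lattices -/
  φ : M →+ M'
  /-- the fibres -/
  fib : M' → Finset M
  mem_fib : ∀ m' m, m ∈ fib m' ↔ φ m = m'
  /-- the cocycle -/
  lam : M → R
  lam_zero : lam 0 = 1
  lam_mul : ∀ a b, lam a * lam b * wt T' (φ a) (φ b) = wt T a b * lam (a + b)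

variable {T : Tw M R} {T' : Tw M' R}

/-- push-forward as a map. -/
def pushFun (D : PushData T T') (f : TPS T) : TPS T' :=
  ⟨fun m' => ∑ m ∈ D.fib m', D.lam m * f.co m⟩

theorem co_pushFun (D : PushData T T') (f : TPS T) (m' : M') :
    (pushFun D f).co m' = ∑ m ∈ D.fib m', D.lam m * f.co m := rfl

theorem pushFun_one (D : PushData T T') : pushFun D (1 : TPS T) = 1 := by
  classical
  ext m'
  rw [co_pushFun, co_one]
  by_cases h : m' = 0
  · subst h
    rw [if_pos rfl, Finset.sum_eq_single 0]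
    · rw [D.lam_zero, co_one_zero, one_mul]
    · intro b _ hb
      rw [co_one_ne hb, mul_zero]
    · intro h0
      exact absurd ((D.mem_fib 0 0).2 (map_zero _)) h0
  · rw [if_neg h]
    refine Finset.sum_eq_zero fun m hm => ?_
    rw [D.mem_fib] at hm
    have : m ≠ 0 := by
      rintro rfl
      exact h (by rw [← hm, map_zero])
    rw [co_one_ne this, mul_zero]

variable [HasAntidiagonal M] [HasAntidiagonal M']

theorem pushFun_mul (D : PushData T T') (f g : TPS T) :
    pushFun D (f * g) = pushFun D f * pushFun D g := by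
  classical
  ext m'
  rw [co_pushFun, co_mul]
  simp only [co_mul, co_pushFun, Finset.mul_sum, Finset.sum_mul, Finset.sum_sigma']
  apply Finset.sum_nbij' (fun x => ⟨(D.φ x.2.1, D.φ x.2.2), ⟨x.2.2, x.2.1⟩⟩)
    (fun y => ⟨y.2.2 + y.2.1, (y.2.2, y.2.1)⟩)
  · rintro ⟨m, ⟨a, b⟩⟩ hx
    simp only [mem_sigma, HasAntidiagonal.mem_antidiagonal, D.mem_fib] at hx ⊢
    obtain ⟨h1, h2⟩ := hx
    subst h2
    exact ⟨by rw [← map_add]; exact h1, trivial, trivial⟩
  · rintro ⟨⟨a', b'⟩, ⟨b, a⟩⟩ hx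
    simp only [mem_sigma, HasAntidiagonal.mem_antidiagonal, D.mem_fib] at hx ⊢
    obtain ⟨h1, h2, h3⟩ := hx
    exact ⟨by rw [map_add, h2, h3]; exact h1, trivial⟩
  · rintro ⟨m, ⟨a, b⟩⟩ hx
    simp only [mem_sigma, HasAntidiagonal.mem_antidiagonal] at hx
    obtain ⟨h1, h2⟩ := hx
    subst h2
    rfl
  · rintro ⟨⟨a', b'⟩, ⟨b, a⟩⟩ hx
    simp only [mem_sigma, HasAntidiagonal.mem_antidiagonal, D.mem_fib] at hx
    obtain ⟨h1, h2, h3⟩ := hx
    subst h2
    subst h3
    rfl
  · rintro ⟨m, ⟨a, b⟩⟩ hx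
    simp only [mem_sigma, HasAntidiagonal.mem_antidiagonal] at hx
    obtain ⟨h1, h2⟩ := hx
    subst h2
    simp only
    have h := D.lam_mul a b
    linear_combination (- (f.co a * g.co b)) * h

/-- push-forward as a ring homomorphism. -/
noncomputable def push (D : PushData T T') : TPS T →+* TPS T' where
  toFun := pushFun D
  map_one' := pushFun_one D
  map_mul' := pushFun_mul D
  map_zero' := by
    ext m'; rw [co_pushFun]; simp
  map_add' f g := by
    ext m'
    rw [co_add, co_pushFun, co_pushFun, co_pushFun, ← Finset.sum_add_distrib]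
    exact Finset.sum_congr rfl fun m _ => by rw [co_add, mul_add]

theorem co_push (D : PushData T T') (f : TPS T) (m' : M') :
    (push D f).co m' = ∑ m ∈ D.fib m', D.lam m * f.co m := rfl

theorem exists_of_co_push_ne {D : PushData T T'} {f : TPS T} {m' : M'}
    (h : (push D f).co m' ≠ 0) : ∃ m, D.φ m = m' ∧ f.co m ≠ 0 := by
  rw [co_push] at h
  obtain ⟨m, hm, hne⟩ := Finset.exists_ne_zero_of_sum_ne_zero h
  exact ⟨m, (D.mem_fib _ _).1 hm, fun h0 => hne (by rw [h0, mul_zero])⟩

theorem co_push_zero {D : PushData T T'} (hφ : ∀ m, D.φ m = 0 → m = 0) (f : TPS T) :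
    (push D f).co 0 = f.co 0 := by
  rw [co_push, Finset.sum_eq_single 0]
  · rw [D.lam_zero, one_mul]
  · intro b hb hb0
    exact absurd (hφ b ((D.mem_fib _ _).1 hb)) hb0
  · intro h0
    exact absurd ((D.mem_fib 0 0).2 (map_zero _)) h0

theorem In1.push {D : PushData T T'} (hφ : ∀ m, D.φ m = 0 → m = 0) {P : M → Prop}
    {P' : M' → Prop} (hP : ∀ m, P m → P' (D.φ m)) {f : TPS T} (hf : In1 P f) :
    In1 P' (TPS.push D f) := by
  refine ⟨by rw [co_push_zero hφ, hf.one], fun d' hd' hPd' => ?_⟩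
  by_contra hne
  obtain ⟨m, hm, hfm⟩ := exists_of_co_push_ne hne
  rcases hf.eq_zero_or hfm with h | h
  · exact hd' (by rw [← hm, h, map_zero])
  · exact hPd' (hm ▸ hP m h)

theorem continuous_push [TopologicalSpace R] [IsTopologicalRing R] (D : PushData T T') :
    Continuous (push D : TPS T → TPS T') := by
  rw [continuous_iff_co]
  intro d
  simp only [co_push]
  exact continuous_finsetSum _ fun m _ => continuous_const.mul (continuous_co m)

omit [HasAntidiagonal M] [HasAntidiagonal M'] in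
theorem co_ray_nsmul {c : M} (hc : Function.Injective (fun k : ℕ => k • c)) (e : ℕ → R) (k : ℕ) :
    (ray T c e).co (k • c) = e k := by
  have h := hc.extend_apply e (0 : M → R) k
  exact h

omit [HasAntidiagonal M] [HasAntidiagonal M'] in
theorem co_ray_of_not {c : M} (e : ℕ → R) {d : M} (hd : ∀ k : ℕ, d ≠ k • c) :
    (ray T c e).co d = 0 := by
  have : ¬ ∃ k : ℕ, k • c = d := by rintro ⟨k, hk⟩; exact hd k hk.symm
  simp [ray, Function.extend_apply' _ _ _ this]

omit [HasAntidiagonal M] [HasAntidiagonal M'] in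
theorem ev_eq_ray (c : M) (f : R⟦X⟧) : ev T c f = ray T c (fun k => coeff k f * pw T c k) := rfl

/-- push-forward of a series on a ray. -/
theorem push_ray (D : PushData T T') {c : M} (hc : Function.Injective (fun k : ℕ => k • c))
    (hc' : Function.Injective (fun k : ℕ => k • D.φ c)) (e : ℕ → R) :
    push D (ray T c e) = ray T' (D.φ c) (fun k => D.lam (k • c) * e k) := by
  classical
  ext m'
  by_cases h : ∃ k : ℕ, m' = k • D.φ c
  · obtain ⟨k, rfl⟩ := h
    rw [co_ray_nsmul hc', co_push, Finset.sum_eq_single (k • c)]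
    · rw [co_ray_nsmul hc]
    · intro b hb hbk
      rw [D.mem_fib] at hb
      by_cases h' : ∃ j : ℕ, b = j • c
      · obtain ⟨j, rfl⟩ := h'
        exfalso
        apply hbk
        rw [map_nsmul] at hb
        rw [hc' hb]
      · push Not at h'
        rw [co_ray_of_not _ h', mul_zero]
    · intro h0
      exact absurd ((D.mem_fib _ _).2 (map_nsmul _ _ _)) h0
  · push Not at h
    rw [co_ray_of_not _ h]
    by_contra hne
    obtain ⟨m, hm, hfm⟩ := exists_of_co_push_ne hne
    by_cases h' : ∃ j : ℕ, m = j • c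
    · obtain ⟨j, rfl⟩ := h'
      exact h j (by rw [← hm, map_nsmul])
    · push Not at h'
      exact hfm (co_ray_of_not _ h')

end TPS

end Crest.Agent.R059
end

-- ▼ part R059/JQ_853
section

set_option autoImplicit false

/-!
Row 59 (S0081), JOINT block (J2), (J3): the acyclic quiver of a list of dilogarithm factors, the
push-forward of its series is the ordered product of the factors, the push-forward of a letter is a
factor.
-/

namespace Crest.Agent.R059

open Finset HasAntidiagonal PowerSeries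

namespace TPS

section aux

variable {M : Type*} [AddCommMonoid M]

theorem nsmul_inj_of_ht (ht : M →+ ℕ) (hht : ∀ m, ht m = 0 → m = 0) {c : M} (hc : c ≠ 0) :
    Function.Injective (fun k : ℕ => k • c) := by
  intro a b hab
  have h : ht (a • c) = ht (b • c) := congrArg ht hab
  rw [map_nsmul, map_nsmul, smul_eq_mul, smul_eq_mul] at h
  exact Nat.eq_of_mul_eq_mul_right (Nat.pos_of_ne_zero fun h0 => hc (hht c h0)) h

theorem QDil_eq_ray (β : M →+ M →+ ℤ) (Q : M → ZMod 2) {c : M} (hc : β c c = 0) (a : ℤ) :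
    QDil (twK β) Q c a = ray (twK β) c (eco vv (Q c) a) := by
  rw [QDil, dil, ev_eq_ray]
  congr 1
  funext k
  rw [pw_one_of c (by exact hc), mul_one, par]
  exact coeff_EE_eq_eco vv (Q c) a k

end aux

section quiver

variable {M : Type*} [AddCommMonoid M] (β : M →+ M →+ ℤ) (Q : M → ZMod 2) {n : ℕ}
  (c : Fin n → M) (av : Fin n → ℤ)

/-- arrows of the quiver of a list of factors. -/
def kq (i j : Fin n) : ℕ :=
  if i = j then (if Q (c i) = 1 then 0 else 1) else if j < i then (β (c i) (c j)).toNat else 0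

/-- the map of lattices. -/
def phi : (Fin n →₀ ℕ) →+ M where
  toFun d := ∑ i, d i • c i
  map_zero' := by simp
  map_add' a b := by simp [add_nsmul, Finset.sum_add_distrib]

theorem phi_apply (d : Fin n →₀ ℕ) : phi c d = ∑ i, d i • c i := rfl

theorem phi_single (i : Fin n) (m : ℕ) : phi c (Finsupp.single i m) = m • c i := by
  rw [phi_apply, Finset.sum_eq_single i]
  · rw [Finsupp.single_eq_same]
  · intro j _ hj
    rw [Finsupp.single_eq_of_ne hj, zero_nsmul]
  · simp

variable {β} {Q} {c}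

theorem beta_phi (hβ : ∀ a b, β a b = - β b a) (hord : ∀ i j, i < j → β (c i) (c j) ≤ 0)
    (a b : Fin n →₀ ℕ) :
    β (phi c a) (phi c b) = ABOut.kk (kq β Q c) a b - ABOut.kk (kq β Q c) b a := by
  have h1 : ABOut.kk (kq β Q c) b a =
      ∑ i, ∑ j, (kq β Q c j i : ℤ) * (b j : ℤ) * (a i : ℤ) := by
    rw [ABOut.kk_apply, Finset.sum_comm]
  rw [h1, ABOut.kk_apply, ← Finset.sum_sub_distrib, phi_apply, phi_apply, map_sum β,
    AddMonoidHom.finsetSum_apply]
  refine Finset.sum_congr rfl fun i _ => ?_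
  rw [map_sum, ← Finset.sum_sub_distrib]
  refine Finset.sum_congr rfl fun j _ => ?_
  rw [map_nsmul, map_nsmul, AddMonoidHom.nsmul_apply]
  simp only [nsmul_eq_mul]
  have key : β (c i) (c j) = (kq β Q c i j : ℤ) - (kq β Q c j i : ℤ) := by
    rcases lt_trichotomy i j with h | h | h
    · have h2 := hord i j h
      have h3 := hβ (c j) (c i)
      rw [kq, kq, if_neg h.ne, if_neg (not_lt.2 h.le), if_neg h.ne', if_pos h,
        Int.toNat_of_nonneg (by omega)]
      push_cast
      omega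
    · subst h
      have := hβ (c i) (c i)
      omega
    · have h2 := hord j i h
      have h3 := hβ (c i) (c j)
      rw [kq, kq, if_neg h.ne', if_pos h, if_neg h.ne, if_neg (not_lt.2 h.le),
        Int.toNat_of_nonneg (by omega)]
      push_cast
      omega
  rw [key]
  ring

variable (β) (Q) (c)

/-- the linear part of the exponent -/
def lin : (Fin n →₀ ℕ) →+ ℤ where
  toFun d := ∑ i, (d i : ℤ) * (av i + (kq β Q c i i : ℤ))
  map_zero' := by simp
  map_add' a b := by simp [add_mul, Finset.sum_add_distrib]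

theorem lin_apply (d : Fin n →₀ ℕ) :
    lin β Q c av d = ∑ i, (d i : ℤ) * (av i + (kq β Q c i i : ℤ)) := rfl

/-- the exponent of the cocycle -/
noncomputable def lexp (d : Fin n →₀ ℕ) : ℤ := lin β Q c av d - ABOut.kk (kq β Q c) d d

theorem lexp_nsmul (m : ℕ) (d : Fin n →₀ ℕ) :
    lexp β Q c av (m • d) = m * lin β Q c av d - m * m * ABOut.kk (kq β Q c) d d := by
  rw [lexp, map_nsmul, map_nsmul, map_nsmul, AddMonoidHom.nsmul_apply]
  simp only [nsmul_eq_mul]
  ring

variable {β} {Q} {c}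

theorem finite_fib (ht : M →+ ℕ) (hht : ∀ m, ht m = 0 → m = 0) (hc : ∀ i, c i ≠ 0) (m' : M) :
    {d : Fin n →₀ ℕ | phi c d = m'}.Finite := by
  classical
  have hfin : (Set.Icc (0 : Fin n →₀ ℕ)
      (Finsupp.equivFunOnFinite.symm fun _ => ht m')).Finite := Set.finite_Icc _ _
  refine hfin.subset fun d hd => ?_
  refine ⟨zero_le, fun i => ?_⟩
  have h1 : ht (phi c d) = ∑ i, d i * ht (c i) := by
    rw [phi_apply, map_sum]
    exact Finset.sum_congr rfl fun i _ => by rw [map_nsmul, smul_eq_mul]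
  rw [Set.mem_ofPred_eq] at hd
  rw [hd] at h1
  have h2 : d i * ht (c i) ≤ ht m' := by
    rw [h1]
    exact Finset.single_le_sum (f := fun i => d i * ht (c i)) (fun _ _ => Nat.zero_le _)
      (Finset.mem_univ i)
  have h3 : 1 ≤ ht (c i) := Nat.pos_of_ne_zero fun h0 => hc i (hht _ h0)
  change d i ≤ ht m'
  nlinarith

/-- the push-forward datum of a list of factors. -/
noncomputable def pushD (hβ : ∀ a b, β a b = - β b a)
    (hord : ∀ i j, i < j → β (c i) (c j) ≤ 0) (ht : M →+ ℕ) (hht : ∀ m, ht m = 0 → m = 0)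
    (hc : ∀ i, c i ≠ 0) : PushData (ABOut.TW (kq β Q c)) (twK β) where
  φ := phi c
  fib m' := (finite_fib ht hht hc m').toFinset
  mem_fib m' m := by simp
  lam d := ((vv ^ (lexp β Q c av d) : KKˣ) : KK)
  lam_zero := by
    have : lexp β Q c av (0 : Fin n →₀ ℕ) = 0 := by
      rw [lexp, map_zero, map_zero, sub_zero]
    rw [this, zpow_zero, Units.val_one]
  lam_mul a b := by
    rw [wt_twK', wt, ABOut.TW]
    simp only
    rw [← Units.val_mul, ← Units.val_mul, ← Units.val_mul, ← zpow_natCast vv 2, ← zpow_mul,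
      ← zpow_add, ← zpow_add, ← zpow_add]
    congr 2
    rw [beta_phi (Q := Q) hβ hord, lexp, lexp, lexp, map_add, map_add, map_add,
      AddMonoidHom.add_apply, AddMonoidHom.add_apply]
    push_cast
    ring

theorem pushD_φ (hβ : ∀ a b, β a b = - β b a)
    (hord : ∀ i j, i < j → β (c i) (c j) ≤ 0) (ht : M →+ ℕ) (hht : ∀ m, ht m = 0 → m = 0)
    (hc : ∀ i, c i ≠ 0) : (pushD (Q := Q) av hβ hord ht hht hc).φ = phi c := rfl

theorem pushD_lam (hβ : ∀ a b, β a b = - β b a)
    (hord : ∀ i j, i < j → β (c i) (c j) ≤ 0) (ht : M →+ ℕ) (hht : ∀ m, ht m = 0 → m = 0)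
    (hc : ∀ i, c i ≠ 0) (d : Fin n →₀ ℕ) :
    (pushD (Q := Q) av hβ hord ht hht hc).lam d = ((vv ^ (lexp β Q c av d) : KKˣ) : KK) := rfl

theorem phi_ne_zero (ht : M →+ ℕ) (hht : ∀ m, ht m = 0 → m = 0) (hc : ∀ i, c i ≠ 0)
    {d : Fin n →₀ ℕ} (hd : phi c d = 0) : d = 0 := by
  ext i
  have h1 : ht (phi c d) = ∑ i, d i * ht (c i) := by
    rw [phi_apply, map_sum]
    exact Finset.sum_congr rfl fun i _ => by rw [map_nsmul, smul_eq_mul]
  rw [hd, map_zero] at h1
  have h2 := (Finset.sum_eq_zero_iff.1 h1.symm) i (Finset.mem_univ i)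
  have h3 : ht (c i) ≠ 0 := fun h0 => hc i (hht _ h0)
  rcases Nat.mul_eq_zero.1 h2 with h | h
  · exact h
  · exact absurd h h3

/-- the parity of a class of the quiver is the parity of its image. -/
theorem par_phi (hβ : ∀ a b, β a b = - β b a) (hord : ∀ i j, i < j → β (c i) (c j) ≤ 0)
    (hQ : ∀ a b, Q (a + b) = Q a + Q b + (β a b : ZMod 2)) (d : Fin n →₀ ℕ) :
    ABOut.par (kq β Q c) d = Q (phi c d) := by
  have hadd : ∀ a b : Fin n →₀ ℕ, ABOut.par (kq β Q c) (a + b) =
      ABOut.par (kq β Q c) a + ABOut.par (kq β Q c) b + (β (phi c a) (phi c b) : ZMod 2) := by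
    intro a b
    rw [beta_phi (Q := Q) hβ hord]
    simp only [ABOut.par, map_add, AddMonoidHom.add_apply, Finsupp.add_apply,
      Finset.sum_add_distrib]
    push_cast
    have h2 : ((ABOut.kk (kq β Q c) b a : ℤ) : ZMod 2) = -((ABOut.kk (kq β Q c) b a : ℤ) : ZMod 2) :=
      (ZMod.neg_eq_self_mod_two _).symm
    linear_combination h2
  have hQ0 : Q 0 = 0 := by
    have := hQ 0 0
    simp only [add_zero, map_zero, Int.cast_zero] at this
    exact (left_eq_add.1 this)
  have hQn : ∀ (m : ℕ) (e : M), Q (m • e) = m * Q e := by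
    intro m e
    have h0 : β e e = 0 := by have := hβ e e; omega
    induction m with
    | zero => simp [hQ0]
    | succ m ih =>
      rw [succ_nsmul, hQ, ih, map_nsmul, AddMonoidHom.nsmul_apply, h0]
      push_cast
      simp
      ring
  induction d using Finsupp.induction_linear with
  | zero => simp [ABOut.par, hQ0]
  | add f g hf hg => rw [hadd, hf, hg, map_add, hQ]
  | single i m =>
    rw [phi_single, hQn]
    have hs : ∑ j, (Finsupp.single i m) j = m := by
      rw [Finset.sum_eq_single i]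
      · rw [Finsupp.single_eq_same]
      · intro j _ hj
        exact Finsupp.single_eq_of_ne hj
      · simp
    have hk : ABOut.kk (kq β Q c) (Finsupp.single i m) (Finsupp.single i m) =
        (kq β Q c i i : ℤ) * m * m := by
      rw [ABOut.kk_apply, Finset.sum_eq_single i, Finset.sum_eq_single i]
      · rw [Finsupp.single_eq_same]
      · intro j _ hj
        rw [Finsupp.single_eq_of_ne hj]; simp
      · simp
      · intro j _ hj
        rw [Finsupp.single_eq_of_ne hj]; simp
      · simp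
    rw [ABOut.par, hs, hk, kq, if_pos rfl]
    have hm : ((m : ZMod 2)) * m = m := by
      have h2 : ∀ x : ZMod 2, x * x = x := by decide
      exact h2 _
    have hcase : Q (c i) = 0 ∨ Q (c i) = 1 := by
      generalize Q (c i) = x
      revert x; decide
    rcases hcase with h | h
    · rw [if_neg (by rw [h]; decide), h]
      push_cast
      rw [one_mul, hm, mul_zero]
      exact CharTwo.add_self_eq_zero _
    · rw [if_pos h, h]
      push_cast
      ring

end quiver

section product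

variable {n : ℕ} {R : Type*} [CommRing R] {T : Tw (Fin n →₀ ℕ) R}

/-- partial product of the one vertex series -/
noncomputable def ppart (T : Tw (Fin n →₀ ℕ) R) (e : ℕ → R) (m : ℕ) : TPS T := by
  classical exact ⟨fun d => if ∀ i : Fin n, m ≤ (i : ℕ) → d i = 0 then ∏ i, e (d i) else 0⟩

theorem co_ppart (e : ℕ → R) (m : ℕ) (d : Fin n →₀ ℕ)
    [Decidable (∀ i : Fin n, m ≤ (i : ℕ) → d i = 0)] :
    (ppart T e m).co d = if ∀ i : Fin n, m ≤ (i : ℕ) → d i = 0 then ∏ i, e (d i) else 0 := by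
  unfold ppart
  simp only
  congr

theorem single_inj (i : Fin n) :
    Function.Injective (fun k : ℕ => k • (Finsupp.single i 1 : Fin n →₀ ℕ)) :=
  nsmul_inj (Finsupp.single_ne_zero.2 one_ne_zero)

theorem ppart_succ (e : ℕ → R) (he : e 0 = 1) (i : Fin n)
    (hT : ∀ j : Fin n, j < i → T.β (Finsupp.single j 1) (Finsupp.single i 1) = 0) :
    ppart T e (i : ℕ) * ray T (Finsupp.single i 1) e = ppart T e ((i : ℕ) + 1) := by
  classical
  ext d
  rw [co_mul, co_ppart]
  have hne : ∀ p : (Fin n →₀ ℕ) × (Fin n →₀ ℕ), p ∈ antidiagonal d →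
      wt T p.1 p.2 * ((ppart T e (i : ℕ)).co p.1 * (ray T (Finsupp.single i 1) e).co p.2) ≠ 0 →
      p = (d.erase i, Finsupp.single i (d i)) ∧ (∀ j : Fin n, (i : ℕ) + 1 ≤ (j : ℕ) → d j = 0) := by
    rintro ⟨a, b⟩ hp hne
    rw [HasAntidiagonal.mem_antidiagonal] at hp
    simp only at hp hne
    have h1 : (ppart T e (i : ℕ)).co a ≠ 0 := fun h => hne (by rw [h]; ring)
    have h2 : (ray T (Finsupp.single i 1) e).co b ≠ 0 := fun h => hne (by rw [h]; ring)
    have ha : ∀ j : Fin n, (i : ℕ) ≤ (j : ℕ) → a j = 0 := by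
      by_contra hc
      rw [co_ppart, if_neg hc] at h1
      exact h1 rfl
    have hb : ∃ k : ℕ, b = k • Finsupp.single i 1 := by
      by_contra hc
      push Not at hc
      exact h2 (co_ray_of_not _ hc)
    obtain ⟨k, rfl⟩ := hb
    have hk : k = d i := by
      rw [← hp]; simp [ha i le_rfl]
    have hd : ∀ j, j ≠ i → d j = a j := by
      intro j hj
      rw [← hp]
      simp [hj]
    refine ⟨?_, ?_⟩
    · refine Prod.ext ?_ ?_
      · simp only
        ext j
        by_cases hj : j = i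
        · subst hj; rw [Finsupp.erase_same, ha j le_rfl]
        · rw [Finsupp.erase_ne hj, hd j hj]
      · simp only
        rw [← hk]; simp
    · intro j hj
      have hji : j ≠ i := by rintro rfl; omega
      rw [hd j hji]
      exact ha j (by omega)
  by_cases hd : ∀ j : Fin n, (i : ℕ) + 1 ≤ (j : ℕ) → d j = 0
  · rw [if_pos hd, Finset.sum_eq_single (d.erase i, Finsupp.single i (d i))]
    · have h1 : (ppart T e (i : ℕ)).co (d.erase i) = ∏ j, e ((d.erase i) j) := by
        rw [co_ppart, if_pos]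
        intro j hj
        by_cases hji : j = i
        · subst hji; rw [Finsupp.erase_same]
        · rw [Finsupp.erase_ne hji]
          exact hd j (by have : (j : ℕ) ≠ (i : ℕ) := fun h => hji (Fin.ext h); omega)
      have h2 : (ray T (Finsupp.single i 1) e).co (Finsupp.single i (d i)) = e (d i) := by
        have := co_ray_nsmul (T := T) (single_inj i) e (d i)
        rwa [show (d i) • (Finsupp.single i 1 : Fin n →₀ ℕ) = Finsupp.single i (d i) by simp] at this
      have h3 : wt T (d.erase i) (Finsupp.single i (d i)) = 1 := by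
        rw [wt, form_eq_sum T.β, Finset.sum_eq_zero, zpow_zero, Units.val_one]
        intro j _
        refine Finset.sum_eq_zero fun l _ => ?_
        by_cases hl : l = i
        · subst hl
          by_cases hj : j < l
          · rw [hT j hj]; ring
          · by_cases hjl : j = l
            · subst hjl; rw [Finsupp.erase_same]; simp
            · rw [Finsupp.erase_ne hjl, hd j (by
                have h5 : (j : ℕ) ≠ (l : ℕ) := fun h => hjl (Fin.ext h)
                have h6 : ¬ ((j : ℕ) < (l : ℕ)) := hj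
                omega)]
              simp
        · have : Finsupp.single i (d i) l = 0 := Finsupp.single_eq_of_ne hl
          rw [this]; simp
      simp only
      rw [h1, h2, h3, one_mul, ← Finset.mul_prod_erase _ _ (Finset.mem_univ i),
        ← Finset.mul_prod_erase (Finset.univ : Finset (Fin n)) (fun j => e (d j))
          (Finset.mem_univ i), Finsupp.erase_same, he, one_mul, mul_comm]
      congr 1
      refine Finset.prod_congr rfl fun j hj => ?_
      rw [Finsupp.erase_ne (Finset.ne_of_mem_erase hj)]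
    · intro p hp hpne
      by_contra h
      exact hpne (hne p hp h).1
    · intro h
      exfalso
      apply h
      rw [HasAntidiagonal.mem_antidiagonal]
      simp only
      exact Finsupp.erase_add_single i d
  · rw [if_neg hd]
    refine Finset.sum_eq_zero fun p hp => ?_
    by_contra h
    exact hd (hne p hp h).2

/-- the ordered product of the one vertex series. -/
theorem prod_ray (e : ℕ → R) (he : e 0 = 1)
    (hT : ∀ i j : Fin n, j < i → T.β (Finsupp.single j 1) (Finsupp.single i 1) = 0) :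
    (List.ofFn fun i : Fin n => ray T (Finsupp.single i 1) e).prod = ⟨fun d => ∏ i, e (d i)⟩ := by
  classical
  have key : ∀ m : ℕ, m ≤ n →
      ((List.ofFn fun i : Fin n => ray T (Finsupp.single i 1) e).take m).prod = ppart T e m := by
    intro m
    induction m with
    | zero =>
      intro _
      rw [List.take_zero, List.prod_nil]
      ext d
      rw [co_one, co_ppart]
      by_cases h : d = 0
      · subst h
        simp [he]
      · rw [if_neg h, if_neg]
        intro h'
        exact h (Finsupp.ext fun i => h' i (Nat.zero_le _))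
    | succ m ih =>
      intro hm
      rw [List.prod_take_succ _ _ (by rw [List.length_ofFn]; omega), ih (by omega),
        List.getElem_ofFn]
      exact ppart_succ e he ⟨m, by omega⟩ (hT _)
  have h := key n le_rfl
  rw [List.take_of_length_le (by rw [List.length_ofFn])] at h
  rw [h]
  ext d
  rw [co_ppart, if_pos]
  intro i hi
  exact absurd i.2 (by omega)

end product

end TPS

end Crest.Agent.R059
end

-- ▼ part R059/JMain_853
section

set_option autoImplicit false

/-!
Row 59 (S0081), JOINT block: **JMAIN** from the output of Theorems A + B.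
-/

namespace Crest.Agent.R059

open Finset HasAntidiagonal PowerSeries

namespace TPS

section lists

variable {M : Type*} [AddCommMonoid M] {β : M →+ M →+ ℤ} {Q : M → ZMod 2} {n : ℕ}
  {c : Fin n → M} (av : Fin n → ℤ)

theorem vv_combine (x y : ℤ) (P : ZMod 2) (a b : ℤ) (m : ℕ) (h : x + y + a * m = b * m) :
    ((vv ^ x : KKˣ) : KK) * (eco vv P a m * ((vv ^ y : KKˣ) : KK)) = eco vv P b m := by
  rw [eco, eco]
  have : ((vv ^ (b * (m : ℤ)) : KKˣ) : KK) =
      ((vv ^ x : KKˣ) : KK) * ((vv ^ y : KKˣ) : KK) * ((vv ^ (a * (m : ℤ)) : KKˣ) : KK) := by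
    rw [← Units.val_mul, ← Units.val_mul, ← zpow_add, ← zpow_add, h]
  rw [this]
  ring

/-- image of a letter. -/
theorem push_letter (hβ : ∀ a b, β a b = - β b a) (hord : ∀ i j, i < j → β (c i) (c j) ≤ 0)
    (hQ : ∀ a b, Q (a + b) = Q a + Q b + (β a b : ZMod 2)) (ht : M →+ ℕ)
    (hht : ∀ m, ht m = 0 → m = 0) (hc : ∀ i, c i ≠ 0) [HasAntidiagonal M] {d : Fin n →₀ ℕ}
    (hd : d ≠ 0) (p : ℕ) :
    push (pushD (Q := Q) av hβ hord ht hht hc) (ABOut.letter (kq β Q c) d p) =
      QDil (twK β) Q (phi c d)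
        (lin β Q c av d + 2 * p - ABOut.kk (kq β Q c) d d) := by
  have hd' : phi c d ≠ 0 := fun h => hd (phi_ne_zero ht hht hc h)
  have h0 : β (phi c d) (phi c d) = 0 := by have := hβ (phi c d) (phi c d); omega
  rw [ABOut.letter, push_ray _ (nsmul_inj hd) (nsmul_inj_of_ht ht hht (by exact hd')),
    QDil_eq_ray β Q h0, ← par_phi hβ hord hQ]
  congr 1
  funext m
  rw [pushD_lam]
  apply vv_combine
  rw [lexp_nsmul]
  have hm : ((m * (m - 1) : ℕ) : ℤ) = m * m - m := by
    cases m with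
    | zero => simp
    | succ m => rw [Nat.add_sub_cancel]; push_cast; ring
  rw [hm]
  ring

/-- image of a one vertex series. -/
theorem push_vertex (hβ : ∀ a b, β a b = - β b a) (hord : ∀ i j, i < j → β (c i) (c j) ≤ 0)
    (ht : M →+ ℕ) (hht : ∀ m, ht m = 0 → m = 0) (hc : ∀ i, c i ≠ 0) [HasAntidiagonal M]
    (i : Fin n) :
    push (pushD (Q := Q) av hβ hord ht hht hc)
      (ray (ABOut.TW (kq β Q c)) (Finsupp.single i 1) (eco vv 1 0)) =
      QDil (twK β) Q (c i) (av i) := by
  have h0 : β (c i) (c i) = 0 := by have := hβ (c i) (c i); omega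
  have hphi : (pushD (Q := Q) av hβ hord ht hht hc).φ (Finsupp.single i 1) = c i := by
    rw [pushD_φ, phi_single, one_nsmul]
  rw [push_ray _ (single_inj i) (by rw [hphi]; exact nsmul_inj_of_ht ht hht (hc i)), hphi,
    QDil_eq_ray β Q h0]
  congr 1
  funext m
  rw [pushD_lam, lexp_nsmul]
  have hl : lin β Q c av (Finsupp.single i 1) = av i + (kq β Q c i i : ℤ) := by
    rw [lin_apply, Finset.sum_eq_single i]
    · rw [Finsupp.single_eq_same]; push_cast; ring
    · intro j _ hj
      rw [Finsupp.single_eq_of_ne hj]; simp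
    · simp
  have hk : ABOut.kk (kq β Q c) (Finsupp.single i 1) (Finsupp.single i 1) =
      (kq β Q c i i : ℤ) := by
    rw [ABOut.kk_apply, Finset.sum_eq_single i, Finset.sum_eq_single i]
    · rw [Finsupp.single_eq_same]; push_cast; ring
    · intro j _ hj
      rw [Finsupp.single_eq_of_ne hj]; simp
    · simp
    · intro j _ hj
      rw [Finsupp.single_eq_of_ne hj]; simp
    · simp
  rw [hl, hk]
  have hcase : Q (c i) = 0 ∨ Q (c i) = 1 := by
    generalize Q (c i) = x
    revert x; decide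
  have hm : ((m * (m - 1) : ℕ) : ℤ) = m * m - m := by
    cases m with
    | zero => simp
    | succ m => rw [Nat.add_sub_cancel]; push_cast; ring
  have hpow : (vv : KK) ^ (m * (m - 1)) = ((vv ^ ((m : ℤ) * m - m) : KKˣ) : KK) := by
    rw [← hm, zpow_natCast, Units.val_pow_eq_pow_val]
  rcases hcase with h | h
  · have hk0 : (kq β Q c i i : ℤ) = 1 := by
      rw [kq, if_pos rfl, if_neg (by rw [h]; decide)]; rfl
    rw [hk0, h, eco, eco, if_neg one_ne_zero, if_pos rfl, hpow, zero_mul, zpow_zero, Units.val_one,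
      one_mul, mul_one, ← mul_div_assoc, ← Units.val_mul, ← zpow_add]
    have e1 : (m : ℤ) * (av i + 1) - (m : ℤ) * m + ((m : ℤ) * m - m) = av i * m := by ring
    rw [e1, mul_one]
  · have hk0 : (kq β Q c i i : ℤ) = 0 := by
      rw [kq, if_pos rfl, if_pos h]; rfl
    rw [hk0, h, eco, eco, if_neg one_ne_zero, zero_mul, zpow_zero, Units.val_one, one_mul,
      ← mul_div_assoc]
    have e1 : (m : ℤ) * (av i + 0) - (m : ℤ) * m * 0 = av i * m := by ring
    rw [e1]

end lists

section main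

variable {M : Type*} [AddCommMonoid M] [PartialOrder M] [IsOrderedCancelAddMonoid M]
  [CanonicallyOrderedAdd M] [WellFoundedLT M] [HasAntidiagonal M]

/-- **JMAIN in GRND's ring**, from the output of Theorems A + B. -/
theorem jmain (hAB : ABOut) (β : M →+ M →+ ℤ) (hβ : ∀ a b, β a b = - β b a) (Q : M → ZMod 2)
    (hQ : ∀ a b, Q (a + b) = Q a + Q b + (β a b : ZMod 2)) (ht : M →+ ℕ)
    (hht : ∀ m, ht m = 0 → m = 0) (L : AddSubmonoid M)
    (hsym : ∀ k ∈ L, k ≠ 0 → ∀ a ∈ L, ∀ b ∈ L, β k a = 0 → β k b = 0 → β a b = 0) :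
    JMAIN (twK β) L β (QDil (twK β) Q) (DT (twK β) Q L β) := by
  intro l hl hord k hk hk0 p z nn hp hz hn hprod
  set N := l.length with hN
  set c : Fin N → M := fun i => (l.get i).1 with hcdef
  set av : Fin N → ℤ := fun i => (l.get i).2 with havdef
  have hc : ∀ i, c i ≠ 0 := fun i => (hl _ (List.get_mem l i)).2
  have hcL : ∀ i, c i ∈ L := fun i => (hl _ (List.get_mem l i)).1
  have hord' : ∀ i j, i < j → β (c i) (c j) ≤ 0 := by
    intro i j hij
    exact (List.pairwise_iff_get.1 hord) i j hij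
  -- the functional on the quiver side
  let θ : Fin N → ℤ := fun i => - β k (c i)
  have hθ : ∀ d, ABOut.th θ d = - β k (phi c d) := by
    intro d
    rw [ABOut.th_apply, phi_apply, map_sum, ← Finset.sum_neg_distrib]
    refine Finset.sum_congr rfl fun i _ => ?_
    rw [map_nsmul, nsmul_eq_mul]
    simp only [θ]
    push_cast
    ring
  have hphiL : ∀ d : Fin N →₀ ℕ, phi c d ∈ L := by
    intro d
    rw [phi_apply]
    exact L.sum_mem fun i _ => L.nsmul_mem (hcL i) _
  have hkk : ∀ d e : Fin N →₀ ℕ, ABOut.th θ d = 0 → ABOut.th θ e = 0 →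
      ABOut.kk (kq β Q c) d e = ABOut.kk (kq β Q c) e d := by
    intro d e hd he
    rw [hθ, neg_eq_zero] at hd he
    have h := hsym k hk hk0 _ (hphiL d) _ (hphiL e) hd he
    rw [beta_phi (Q := Q) hβ hord'] at h
    omega
  have hAB' := hAB (Fin N) (kq β Q c) θ hkk
  set D := pushD (Q := Q) av hβ hord' ht hht hc with hD
  have hφ0 : ∀ m, D.φ m = 0 → m = 0 := fun m hm => phi_ne_zero ht hht hc hm
  -- the quiver series is the ordered product
  have hT : ∀ i j : Fin N, j < i →
      (ABOut.TW (kq β Q c)).β (Finsupp.single j 1) (Finsupp.single i 1) = 0 := by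
    intro i j hji
    show ABOut.kk (kq β Q c) _ _ = 0
    rw [ABOut.kk_apply, Finset.sum_eq_single j, Finset.sum_eq_single i]
    · rw [kq, if_neg hji.ne, if_neg (not_lt.2 hji.le)]; simp
    · intro a _ ha
      rw [Finsupp.single_eq_of_ne ha]; simp
    · simp
    · intro a _ ha
      rw [Finsupp.single_eq_of_ne ha]; simp
    · simp
  have hgser : ABOut.gser (kq β Q c) = (List.ofFn fun i : Fin N =>
      ray (ABOut.TW (kq β Q c)) (Finsupp.single i 1) (eco vv 1 0)).prod := by
    rw [prod_ray (eco vv 1 0) _ hT]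
    · rfl
    · rw [eco]; simp [qpo]
  have hpush : push D (ABOut.gser (kq β Q c)) = (l.map fun u => QDil (twK β) Q u.1 u.2).prod := by
    rw [hgser, map_list_prod, List.map_ofFn]
    congr 1
    have h1 : (fun i : Fin N => push D
        (ray (ABOut.TW (kq β Q c)) (Finsupp.single i 1) (eco vv 1 0))) =
        fun i => QDil (twK β) Q (l.get i).1 (l.get i).2 := by
      funext i
      exact push_vertex av hβ hord' ht hht hc i
    show List.ofFn (fun i : Fin N => push D
        (ray (ABOut.TW (kq β Q c)) (Finsupp.single i 1) (eco vv 1 0))) = _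
    rw [h1]
    have h2 : List.map (fun u : M × ℤ => QDil (twK β) Q u.1 u.2) (List.ofFn l.get) =
        List.ofFn ((fun u : M × ℤ => QDil (twK β) Q u.1 u.2) ∘ l.get) := List.map_ofFn
    rw [List.ofFn_get] at h2
    rw [h2]
    rfl
  -- factorisation
  have hg0 : (ABOut.gser (kq β Q c)).co 0 = 1 := by
    show ∏ i, eco vv 1 0 ((0 : Fin N →₀ ℕ) i) = 1
    refine Finset.prod_eq_one fun i _ => ?_
    rw [Finsupp.zero_apply, eco]; simp [qpo]
  have hfac := pos_mul_zer_mul_neg (ABOut.th θ) hg0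
  have hfac' : push D (pos (ABOut.th θ) (ABOut.gser (kq β Q c))) *
      push D (zer (ABOut.th θ) (ABOut.gser (kq β Q c))) *
      push D (neg (ABOut.th θ) (ABOut.gser (kq β Q c))) =
      (l.map fun u => QDil (twK β) Q u.1 u.2).prod := by
    rw [← map_mul, ← map_mul, hfac, hpush]
  have hp' : In1 (fun m => 0 < (-(β k)) m) (push D (pos (ABOut.th θ) (ABOut.gser (kq β Q c)))) :=
    (in1_pos _ _).push hφ0 fun m hm => by
      rw [hθ] at hm
      exact hm
  have hz' : In1 (fun m => (-(β k)) m = 0)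
      (push D (zer (ABOut.th θ) (ABOut.gser (kq β Q c)))) :=
    (in1_zer _ _).push hφ0 fun m hm => by
      rw [hθ] at hm
      exact hm
  have hn' : In1 (fun m => (-(β k)) m < 0)
      (push D (neg (ABOut.th θ) (ABOut.gser (kq β Q c)))) :=
    (in1_neg _ _).push hφ0 fun m hm => by
      rw [hθ] at hm
      exact hm
  have hu' := pzn_unique' (-(β k)) hp' hz' hn' hfac'
  have hu := pzn_unique' (-(β k)) (hp.mono fun m _ h => by
      show 0 < -(β k m); omega) (hz.mono fun m _ h => by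
      show -(β k m) = 0; omega) (hn.mono fun m _ h => by
      show -(β k m) < 0; omega) hprod
  have hzz : z = push D (zer (ABOut.th θ) (ABOut.gser (kq β Q c))) := by
    rw [← hu.2.1, hu'.2.1]
  rw [hzz]
  -- closure
  have hmaps : Set.MapsTo (push D)
      (Submonoid.closure (ABOut.Letters (kq β Q c) θ) : Set (TPS (ABOut.TW (kq β Q c))))
      (Submonoid.closure (RayGen (twK β) Q L β k) : Set (TPS (twK β))) := by
    intro f hf
    have h1 : Submonoid.closure (ABOut.Letters (kq β Q c) θ) ≤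
        (Submonoid.closure (RayGen (twK β) Q L β k)).comap (push D).toMonoidHom := by
      rw [Submonoid.closure_le]
      rintro g ⟨d, q, hd, hdθ, rfl⟩
      apply Submonoid.subset_closure
      refine ⟨phi c d, _, hphiL d, fun h => hd (hφ0 d h), ?_,
        push_letter av hβ hord' hQ ht hht hc hd q⟩
      rw [hθ, neg_eq_zero] at hdθ
      exact hdθ
    exact h1 hf
  exact hmaps.closure (continuous_push D) hAB'

end main

end TPS

end Crest.Agent.R059
end

-- ▼ part R059/CloD_987
section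

set_option autoImplicit false
set_option linter.unusedSectionVars false

/-!
Row 59 (S0081).  Crossing positivity passes to limits of finite products of dilogarithm factors
(C3), in the form `CrossPos` consumed by TRANS (569).
-/

namespace Crest.Agent.R059

open Finset Topology HasAntidiagonal

namespace TPS

section abstract

variable {M : Type*} [AddCommMonoid M] [PartialOrder M] [IsOrderedCancelAddMonoid M]
  [CanonicallyOrderedAdd M] [WellFoundedLT M] [HasAntidiagonal M]
variable {R : Type*} [CommRing R] {T : Tw M R}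

/-- conjugation by a finite product: a property of `h` stable under `h ↦ e h e⁻¹` for all
generators `e` is stable under conjugation by the submonoid. -/
theorem conj_submonoid {Gen : Set (TPS T)} {Fam : TPS T → Prop}
    (hG : ∀ e ∈ Gen, e.co 0 = 1 ∧ ∀ h, Fam h → Fam (e * h * inv e)) {f : TPS T}
    (hf : f ∈ Submonoid.closure Gen) : f.co 0 = 1 ∧ ∀ h, Fam h → Fam (f * h * inv f) := by
  induction hf using Submonoid.closure_induction with
  | mem e he => exact hG e he
  | one =>
    refine ⟨co_one_zero, fun h hh => ?_⟩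
    rw [one_mul, inv_one, mul_one]; exact hh
  | mul f g _ _ ihf ihg =>
    refine ⟨by rw [co_mul_zero', ihf.1, ihg.1, one_mul], fun h hh => ?_⟩
    rw [inv_mul_rev ihf.1 ihg.1]
    have := ihf.2 _ (ihg.2 h hh)
    simpa only [mul_assoc] using this

/-- the same for `h ↦ e⁻¹ h e`. -/
theorem conj_submonoid' {Gen : Set (TPS T)} {Fam : TPS T → Prop}
    (hG : ∀ e ∈ Gen, e.co 0 = 1 ∧ ∀ h, Fam h → Fam (inv e * h * e)) {f : TPS T}
    (hf : f ∈ Submonoid.closure Gen) : f.co 0 = 1 ∧ ∀ h, Fam h → Fam (inv f * h * f) := by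
  induction hf using Submonoid.closure_induction with
  | mem e he => exact hG e he
  | one =>
    refine ⟨co_one_zero, fun h hh => ?_⟩
    rw [mul_one, inv_one, one_mul]; exact hh
  | mul f g _ _ ihf ihg =>
    refine ⟨by rw [co_mul_zero', ihf.1, ihg.1, one_mul], fun h hh => ?_⟩
    rw [inv_mul_rev ihf.1 ihg.1]
    have := ihg.2 _ (ihf.2 h hh)
    simpa only [mul_assoc] using this

variable [TopologicalSpace R] [IsTopologicalRing R]

/-- coefficientwise closed conditions pass to the closure. -/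
theorem closure_conj_mem {D : Set (TPS T)} {S : Set R} (hS : IsClosed S) {h : TPS T}
    (hD : ∀ f ∈ D, ∀ d, (f * h * inv f).co d ∈ S) {f : TPS T} (hf : f ∈ closure D) :
    ∀ d, (f * h * inv f).co d ∈ S := by
  intro d
  have hc : IsClosed {f : TPS T | (f * h * inv f).co d ∈ S} :=
    hS.preimage ((continuous_co (T := T) d).comp
      ((continuous_id.mul continuous_const).mul continuous_inv))
  exact closure_minimal (fun f hf => hD f hf d) hc hf

theorem closure_conj_mem' {D : Set (TPS T)} {S : Set R} (hS : IsClosed S) {h : TPS T}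
    (hD : ∀ f ∈ D, ∀ d, (inv f * h * f).co d ∈ S) {f : TPS T} (hf : f ∈ closure D) :
    ∀ d, (inv f * h * f).co d ∈ S := by
  intro d
  have hc : IsClosed {f : TPS T | (inv f * h * f).co d ∈ S} :=
    hS.preimage ((continuous_co (T := T) d).comp
      ((continuous_inv.mul continuous_const).mul continuous_id))
  exact closure_minimal (fun f hf => hD f hf d) hc hf

section parts

variable {V : Type*} [AddCommGroup V] [LinearOrder V] [IsOrderedAddMonoid V]







end parts

end abstract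

/-! ### families of dilogarithm factors -/

section dilog

open Dilog344

variable {M : Type*} [AddCommMonoid M] [PartialOrder M] [IsOrderedCancelAddMonoid M]
  [CanonicallyOrderedAdd M] [WellFoundedLT M] [HasAntidiagonal M]
variable {R : Type*} [CommRing R] {T : Tw M R}

variable (T) in
/-- dilogarithm factors (both parities, all shifts) of the classes in `Cl`. -/
def CGen (Cl : M → Prop) : Set (TPS T) :=
  {f | ∃ (c : M) (p : Bool) (a : ℤ), Cl c ∧ f = dil T c p a}

theorem inv_dil {c : M} (hc : Function.Injective (fun k : ℕ => k • c))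
    (hq : QReg ((T.v : R) ^ 2)) (p : Bool) (a : ℤ) : inv (dil T c p a) = dili T c p a :=
  inv_eq_of_mul (co_dil_zero hc p a) (dil_mul_dili hc hq p a)

omit [PartialOrder M] [IsOrderedCancelAddMonoid M] [CanonicallyOrderedAdd M]
  [WellFoundedLT M] in
/-- supports of `g * f(Y_c)`. -/
theorem supp_mul_ev {c : M} {g : TPS T} {f : PowerSeries R} {a : M}
    (h : (g * ev T c f).co a ≠ 0) : ∃ (b : M) (k : ℕ), g.co b ≠ 0 ∧ a = b + k • c := by
  classical
  by_contra hcon
  push Not at hcon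
  apply h
  rw [co_mul]
  apply Finset.sum_eq_zero
  rintro ⟨x, y⟩ hxy
  rw [HasAntidiagonal.mem_antidiagonal] at hxy
  by_contra hne
  have h1 : g.co x ≠ 0 := fun h => hne (by simp [h])
  have h2 : (ev T c f).co y ≠ 0 := fun h => hne (by simp [h])
  obtain ⟨k, rfl⟩ := exists_of_co_ev_ne h2
  exact hcon x k h1 hxy.symm

variable {Cl : M → Prop}

/-- **(C3), finite products, `K ≥ 0`.** -/
theorem cgen_conj {S : Subsemiring R} (h1 : (T.v : R) ∈ S) (h2 : ((T.v⁻¹ : Rˣ) : R) ∈ S)
    (hq : QReg ((T.v : R) ^ 2)) (hcl : ∀ c, Cl c → Function.Injective (fun k : ℕ => k • c))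
    (hcc : ∀ c c', Cl c → Cl c' → T.β c c' = T.β c' c) {m : M}
    (hK : ∀ c, Cl c → ∃ K : ℕ, T.β m c - T.β c m = 2 * K) {f : TPS T}
    (hf : f ∈ Submonoid.closure (CGen T Cl)) (r : R) (hr : r ∈ S) :
    ∀ d, (f * mono T m r * inv f).co d ∈ S := by
  classical
  have key := conj_submonoid (T := T) (Gen := CGen T Cl)
    (Fam := fun h => (∀ d, h.co d ∈ S) ∧ ∀ a, h.co a ≠ 0 → ∀ c, Cl c →
      T.β a c - T.β c a = T.β m c - T.β c m) (fun e he => ?_) hf
  · refine (key.2 (mono T m r) ⟨fun d => ?_, fun a ha c _ => ?_⟩).1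
    · rw [co_mono]; split_ifs
      · exact hr
      · exact S.zero_mem
    · by_cases h : a = m
      · rw [h]
      · exact absurd (co_mono_ne h r) ha
  · obtain ⟨c, p, a, hc, rfl⟩ := he
    refine ⟨co_dil_zero (hcl c hc) p a, fun h hh => ?_⟩
    obtain ⟨K, hKc⟩ := hK c hc
    have hs : ∀ b, h.co b ≠ 0 → T.β b c - T.β c b = 2 * K := fun b hb => by
      rw [hh.2 b hb c hc, hKc]
    rw [inv_dil (hcl c hc) hq]
    refine ⟨dil_conj_mem (h1 := h1) (h2 := h2) (hcl c hc) hq p a hh.1 hs, fun b hb c' hc' => ?_⟩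
    rw [dil_mul_mul_dili (hcl c hc) hq p a hs] at hb
    obtain ⟨b', k, hb', rfl⟩ := supp_mul_ev hb
    have e := hh.2 b' hb' c' hc'
    simp only [map_add, map_nsmul, AddMonoidHom.add_apply, AddMonoidHom.nsmul_apply,
      hcc c c' hc hc']
    linarith

/-- **(C3), finite products, `K ≤ 0`.** -/
theorem cgen_conj' {S : Subsemiring R} (h1 : (T.v : R) ∈ S) (h2 : ((T.v⁻¹ : Rˣ) : R) ∈ S)
    (hq : QReg ((T.v : R) ^ 2)) (hcl : ∀ c, Cl c → Function.Injective (fun k : ℕ => k • c))
    (hcc : ∀ c c', Cl c → Cl c' → T.β c c' = T.β c' c) {m : M}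
    (hK : ∀ c, Cl c → ∃ K : ℕ, T.β m c - T.β c m = -(2 * K)) {f : TPS T}
    (hf : f ∈ Submonoid.closure (CGen T Cl)) (r : R) (hr : r ∈ S) :
    ∀ d, (inv f * mono T m r * f).co d ∈ S := by
  classical
  have key := conj_submonoid' (T := T) (Gen := CGen T Cl)
    (Fam := fun h => (∀ d, h.co d ∈ S) ∧ ∀ a, h.co a ≠ 0 → ∀ c, Cl c →
      T.β a c - T.β c a = T.β m c - T.β c m) (fun e he => ?_) hf
  · refine (key.2 (mono T m r) ⟨fun d => ?_, fun a ha c _ => ?_⟩).1
    · rw [co_mono]; split_ifs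
      · exact hr
      · exact S.zero_mem
    · by_cases h : a = m
      · rw [h]
      · exact absurd (co_mono_ne h r) ha
  · obtain ⟨c, p, a, hc, rfl⟩ := he
    refine ⟨co_dil_zero (hcl c hc) p a, fun h hh => ?_⟩
    obtain ⟨K, hKc⟩ := hK c hc
    have hs : ∀ b, h.co b ≠ 0 → T.β b c - T.β c b = -(2 * K) := fun b hb => by
      rw [hh.2 b hb c hc, hKc]
    rw [inv_dil (hcl c hc) hq]
    refine ⟨dili_conj_mem (h1 := h1) (h2 := h2) (hcl c hc) hq p a hh.1 hs, fun b hb c' hc' => ?_⟩
    rw [dili_mul_mul_dil' (hcl c hc) hq p a hs] at hb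
    obtain ⟨b', k, hb', rfl⟩ := supp_mul_ev hb
    have e := hh.2 b' hb' c' hc'
    simp only [map_add, map_nsmul, AddMonoidHom.add_apply, AddMonoidHom.nsmul_apply,
      hcc c c' hc hc']
    linarith

variable [TopologicalSpace R] [IsTopologicalRing R]

variable (T) in
/-- the positive ray elements: limits of finite products of dilogarithm factors. -/
def CDT (Cl : M → Prop) : Set (TPS T) := closure (Submonoid.closure (CGen T Cl) : Set (TPS T))

theorem CDT_conj {S : Subsemiring R} (hS : IsClosed (S : Set R)) (h1 : (T.v : R) ∈ S)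
    (h2 : ((T.v⁻¹ : Rˣ) : R) ∈ S)
    (hq : QReg ((T.v : R) ^ 2)) (hcl : ∀ c, Cl c → Function.Injective (fun k : ℕ => k • c))
    (hcc : ∀ c c', Cl c → Cl c' → T.β c c' = T.β c' c) {m : M}
    (hK : ∀ c, Cl c → ∃ K : ℕ, T.β m c - T.β c m = 2 * K) {f : TPS T}
    (hf : f ∈ CDT T Cl) (r : R) (hr : r ∈ S) :
    ∀ d, (f * mono T m r * inv f).co d ∈ S :=
  closure_conj_mem hS (fun _ hg => cgen_conj h1 h2 hq hcl hcc hK hg r hr) hf

theorem CDT_conj' {S : Subsemiring R} (hS : IsClosed (S : Set R)) (h1 : (T.v : R) ∈ S)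
    (h2 : ((T.v⁻¹ : Rˣ) : R) ∈ S)
    (hq : QReg ((T.v : R) ^ 2)) (hcl : ∀ c, Cl c → Function.Injective (fun k : ℕ => k • c))
    (hcc : ∀ c c', Cl c → Cl c' → T.β c c' = T.β c' c) {m : M}
    (hK : ∀ c, Cl c → ∃ K : ℕ, T.β m c - T.β c m = -(2 * K)) {f : TPS T}
    (hf : f ∈ CDT T Cl) (r : R) (hr : r ∈ S) :
    ∀ d, (inv f * mono T m r * f).co d ∈ S :=
  closure_conj_mem' hS (fun _ hg => cgen_conj' h1 h2 hq hcl hcc hK hg r hr) hf

omit [IsTopologicalRing R] in
theorem CDT_co_zero [T1Space R] (hcl : ∀ c, Cl c → Function.Injective (fun k : ℕ => k • c))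
    {f : TPS T} (hf : f ∈ CDT T Cl) : f.co 0 = 1 := by
  refine closure_co_eq (fun g hg => ?_) hf
  exact (conj_submonoid (Gen := CGen T Cl) (Fam := fun _ => True) (fun e he => by
    obtain ⟨c, p, a, hc, rfl⟩ := he
    exact ⟨co_dil_zero (hcl c hc) p a, fun _ _ => trivial⟩) hg).1


end dilog

/-! ### `CrossPos` -/

section cross

open Trans569

variable {ι : Type} [DecidableEq ι] {R : Type*} [CommRing R] {T : Tw (ι →₀ ℕ) R}

/-- nonzero classes on the ray of `d`. -/
def PRay (d c : ι →₀ ℕ) : Prop := c ≠ 0 ∧ ∃ i j : ℕ, 0 < i ∧ i • c = j • d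

/-- classes (zero allowed) on the ray of `d`. -/
def ORay (d c : ι →₀ ℕ) : Prop := ∃ i j : ℕ, 0 < i ∧ i • c = j • d

theorem ORay.add {d a b : ι →₀ ℕ} (ha : ORay d a) (hb : ORay d b) : ORay d (a + b) := by
  obtain ⟨i, j, hi, h⟩ := ha
  obtain ⟨i', j', hi', h'⟩ := hb
  refine ⟨i * i', i' * j + i * j', Nat.mul_pos hi hi', ?_⟩
  calc (i * i') • (a + b) = i' • (i • a) + i • (i' • b) := by
        rw [smul_add, smul_smul, smul_smul, mul_comm i' i]
    _ = _ := by rw [h, h', smul_smul, smul_smul, add_smul]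

theorem ORay.zero (d : ι →₀ ℕ) : ORay d 0 := ⟨1, 0, one_pos, by simp⟩

theorem PRay.oRay {d c : ι →₀ ℕ} (h : PRay d c) : ORay d c := h.2


theorem ORay.le {c e e' : ι →₀ ℕ} (h : ORay c e') (he : e' ≤ e) {N : ℕ}
    (hN : ∀ t, e t ≤ N) : e' ≤ N • c := by
  obtain ⟨i, j, hi, h⟩ := h
  intro t
  rw [Finsupp.smul_apply, smul_eq_mul]
  by_cases h0 : e' t = 0
  · rw [h0]; exact Nat.zero_le _
  · have h1 := DFunLike.congr_fun h t
    rw [Finsupp.smul_apply, Finsupp.smul_apply, smul_eq_mul, smul_eq_mul] at h1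
    have h2 : 1 ≤ c t := by
      rw [Nat.one_le_iff_ne_zero]
      intro h2
      rw [h2, mul_zero] at h1
      rcases Nat.mul_eq_zero.1 h1 with h3 | h3
      · omega
      · exact h0 h3
    calc e' t ≤ e t := he t
      _ ≤ N * 1 := by rw [mul_one]; exact hN t
      _ ≤ N * c t := Nat.mul_le_mul_left _ h2

variable {V : Type} [AddCommGroup V] [LinearOrder V] [IsOrderedAddMonoid V]



/-- the pairing with classes of the ray. -/
theorem ORay.pair {φ : (ι →₀ ℕ) →+ ℤ} {c e : ι →₀ ℕ} (h : ORay c e) :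
    ∃ i j : ℕ, 0 < i ∧ (i : ℤ) * φ e = j * φ c := by
  obtain ⟨i, j, hi, h⟩ := h
  refine ⟨i, j, hi, ?_⟩
  have := congrArg φ h
  rwa [map_nsmul, map_nsmul, nsmul_eq_mul, nsmul_eq_mul] at this

theorem ORay.pair_nonneg {φ : (ι →₀ ℕ) →+ ℤ} {c e : ι →₀ ℕ} (h : ORay c e) (hc : 0 ≤ φ c) :
    0 ≤ φ e := by
  obtain ⟨i, j, hi, h⟩ := h.pair (φ := φ)
  by_contra hcon
  push Not at hcon
  have h1 : (i : ℤ) * φ e < 0 := mul_neg_of_pos_of_neg (by exact_mod_cast hi) hcon
  have h2 : (0 : ℤ) ≤ j * φ c := mul_nonneg (by positivity) hc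
  omega

theorem ORay.pair_nonpos {φ : (ι →₀ ℕ) →+ ℤ} {c e : ι →₀ ℕ} (h : ORay c e) (hc : φ c ≤ 0) :
    φ e ≤ 0 := by
  have := ORay.pair_nonneg (φ := -φ) h (by simpa using hc)
  simpa using this

theorem ORay.pair_zero {φ : (ι →₀ ℕ) →+ ℤ} {c e : ι →₀ ℕ} (h : ORay c e) (hc : φ c = 0) :
    φ e = 0 := le_antisymm (h.pair_nonpos hc.le) (h.pair_nonneg hc.ge)

theorem pray_orth (hskew : ∀ a b, T.β a b = - T.β b a) {c a b : ι →₀ ℕ} (ha : ORay c a)
    (hb : ORay c b) : T.β a b = 0 := by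
  have hcc : T.β c c = 0 := by have := hskew c c; omega
  have h1 : T.β c b = 0 := hb.pair_zero (φ := T.β c) hcc
  have h2 : T.β b a = 0 := ha.pair_zero (φ := T.β b) (by rw [hskew, h1, neg_zero])
  rw [hskew, h2, neg_zero]

variable [TopologicalSpace R] [IsTopologicalRing R] [T1Space R]



theorem CDT_mono {Gen : Set (TPS T)} {Cl : (ι →₀ ℕ) → Prop} (hG : Gen ⊆ CGen T Cl) :
    closure (Submonoid.closure Gen : Set (TPS T)) ⊆ CDT T Cl :=
  closure_mono (Submonoid.closure_mono hG)

/-- **CrossPos** for a series `z` which is a limit of finite products of dilogarithm factors of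
classes on the ray of `c`. -/
theorem crossPos_of_mem (hskew : ∀ a b, T.β a b = - T.β b a) {S : Subsemiring R}
    (hS : IsClosed (S : Set R)) (h1 : (T.v : R) ∈ S) (h2 : ((T.v⁻¹ : Rˣ) : R) ∈ S)
    (hq : Dilog344.QReg ((T.v : R) ^ 2)) {c : ι →₀ ℕ} {Gen : Set (TPS T)}
    (hG : Gen ⊆ CGen T (PRay c)) {z : TPS T}
    (hzG : z ∈ closure (Submonoid.closure Gen : Set (TPS T)))
    (m : ι →₀ ℕ) (r : R) (hr : r ∈ S) :
    (0 ≤ T.β m c → ∃ U : TPS T, (∀ d, U.co d ∈ S) ∧ z * mono T m r = U * z) ∧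
    (T.β m c ≤ 0 → ∃ U : TPS T, (∀ d, U.co d ∈ S) ∧ mono T m r * z = z * U) := by
  have hzD := CDT_mono hG hzG
  have hz : z.co 0 = 1 := CDT_co_zero (fun c' hc' => nsmul_inj hc'.1) hzD
  constructor
  · intro hm
    refine ⟨z * mono T m r * inv z, CDT_conj (m := m) hS h1 h2 hq
      (fun c' hc' => nsmul_inj hc'.1)
        (fun c' c'' hc' hc'' => by
          rw [pray_orth hskew hc'.oRay hc''.oRay, pray_orth hskew hc''.oRay hc'.oRay])
        (fun c' hc' => by
          refine ⟨(T.β m c').toNat, ?_⟩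
          have h4 : 0 ≤ T.β m c' := hc'.oRay.pair_nonneg (φ := T.β m) hm
          rw [Int.toNat_of_nonneg h4, hskew c' m]; ring) hzD r hr, ?_⟩
    rw [mul_assoc _ (inv _), inv_mul hz, mul_one]
  · intro hm
    refine ⟨inv z * mono T m r * z, CDT_conj' (m := m) hS h1 h2 hq
      (fun c' hc' => nsmul_inj hc'.1)
        (fun c' c'' hc' hc'' => by
          rw [pray_orth hskew hc'.oRay hc''.oRay, pray_orth hskew hc''.oRay hc'.oRay])
        (fun c' hc' => by
          refine ⟨(-(T.β m c')).toNat, ?_⟩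
          have h4 : T.β m c' ≤ 0 := hc'.oRay.pair_nonpos (φ := T.β m) hm
          rw [Int.toNat_of_nonneg (by omega), hskew c' m]; ring) hzD r hr, ?_⟩
    rw [← mul_assoc, ← mul_assoc, mul_inv hz, one_mul]

end cross

end TPS

/-! ### `KK` -/

theorem isClosed_Kpos : IsClosed (Kpos : Set KK) :=
  isClosed_lcoeff_all ℚ fun _ => Set.Ici 0

theorem qreg_vv : Dilog344.QReg (((vv : KKˣ) : KK) ^ 2) := by
  intro k
  apply isUnit_iff_ne_zero.2
  rw [← pow_mul, vv_pow, sub_ne_zero]
  intro h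
  have h1 := congrArg (fun f : KK => HahnSeries.coeff f 0) h
  rw [HahnSeries.coeff_single_of_ne, HahnSeries.coeff_one, if_pos rfl] at h1
  · exact zero_ne_one h1
  · intro h0
    push_cast at h0
    omega

end Crest.Agent.R059
end

-- ▼ part R059/Wall4_999

/-!
# Row 59, WALL: composition `ABOut → CrossPos` for plain elements (helper999)
-/

set_option autoImplicit false
set_option linter.unusedSectionVars false

open Finset

namespace Crest.Agent.R059.Wall999

open TPS FlowV999 Tr201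

section node

variable {ι : Type} [DecidableEq ι] {R : Type*} [CommRing R] [IsDomain R] {T : Tw (ι →₀ ℕ) R}

/-- the wall of a basis vector is the node series. -/
theorem zer_node (hs : ∀ a b, T.β a b = - T.β b a) (h : (ι →₀ ℕ) →+ R)
    (hreg : ∀ d, d ≠ 0 → h d ≠ 0) {nd : ι → TPS T}
    (hnd : ∀ i, In1 (fun e => OnRay e (Finsupp.single i 1)) (nd i))
    {A : TPS T} (hA : PlainData h nd A)
    {V : Type} [AddCommGroup V] [LinearOrder V] [IsOrderedAddMonoid V]
    (x : (ι →₀ ℕ) →+ V) (i : ι) (hK : Trans569.KerRay x (Finsupp.single i 1)) :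
    zer x A = nd i := by
  have key : ∀ k : ℕ, 0 < k → ∀ e ≤ Finsupp.single i k, (zer x A).co e = (nd i).co e := by
    intro k hk
    have hr : OnRay (Finsupp.single i k) (Finsupp.single i 1) := by
      have := onRay_nsmul hk (Finsupp.single i 1)
      simpa [Finsupp.smul_single] using this
    refine att_box hs h hreg x (kerRay_onRay hK hr) hA.one (fun c hc h0 => ?_)
      ((hnd i).mono fun e _ he => he.trans hr.symm) (fun e _ he0 hed => ?_)
    · exfalso
      apply h0
      have h1 : c = Finsupp.single i (c i) := by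
        ext j
        by_cases hj : j = i
        · subst hj; simp
        · have := hc j
          rw [Finsupp.single_apply, if_neg (Ne.symm hj)] at this
          rw [Finsupp.single_apply, if_neg (Ne.symm hj)]
          omega
      have h2 : ∀ m : ℕ, Finsupp.single i m = m • (Finsupp.single i 1 : ι →₀ ℕ) := fun m => by
        rw [Finsupp.smul_single, smul_eq_mul, mul_one]
      have h3 : T.β (Finsupp.single i 1) (Finsupp.single i 1) = 0 := by
        have := hs (Finsupp.single i 1) (Finsupp.single i 1); omega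
      rw [h1, h2 k, h2 (c i), map_nsmul T.β k, map_nsmul, AddMonoidHom.nsmul_apply, h3, smul_zero,
        smul_zero]
    · have h2 := onRay_single hed
      have h3 : 0 < e i := Nat.pos_of_ne_zero fun h0 => he0 (by
        rw [h2, h0, Finsupp.single_zero])
      rw [h2]
      exact hA.node i (e i) h3
  ext e
  by_cases he0 : e = 0
  · rw [he0, zer_co_zero, (hnd i).one]
  by_cases he : OnRay e (Finsupp.single i 1)
  · have h2 := onRay_single he
    have h3 : 0 < e i := Nat.pos_of_ne_zero fun h0 => he0 (by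
      rw [h2, h0, Finsupp.single_zero])
    exact key (e i) h3 e h2.le
  · rw [(hnd i).supp e he0 he]
    exact (in1_zer x A).supp e he0 fun h0 => he (onRay_of_kerRay hK he0 h0)

end node

section final

variable {I : Type} [Fintype I] [DecidableEq I]

theorem exists_parity' (β : (I →₀ ℕ) →+ (I →₀ ℕ) →+ ℤ) (hβ : ∀ a b, β a b = - β b a)
    (q0 : I → ZMod 2) :
    ∃ Q : (I →₀ ℕ) → ZMod 2, (∀ a b, Q (a + b) = Q a + Q b + (β a b : ZMod 2)) ∧
      ∀ i, Q (Finsupp.single i 1) = q0 i := by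
  let _ : LinearOrder I := LinearOrder.lift' (Fintype.equivFin I) (Fintype.equivFin I).injective
  exact exists_parity β hβ q0

/-- the degree with values in `KK` -/
noncomputable def hK : (I →₀ ℕ) →+ KK := (Nat.castAddMonoidHom KK).comp dg

theorem hK_ne (d : I →₀ ℕ) (hd : d ≠ 0) : (hK d : KK) ≠ 0 := by
  have : CharZero KK := algebraRat.charZero KK
  change ((dg d : ℕ) : KK) ≠ 0
  exact Nat.cast_ne_zero.2 fun h => hd (dg_eq_zero d h)

open Classical in
/-- node series: `P(τ X_i)` for `i ∈ S`. -/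
noncomputable def ndS (β : (I →₀ ℕ) →+ (I →₀ ℕ) →+ ℤ) (S : Set I) (i : I) : TPS (twK β) :=
  if i ∈ S then dil (twK β) (Finsupp.single i 1) true 1 else 1

/-- plain elements with nodes `single i 1`, `i ∈ S`. -/
def PlainS (β : (I →₀ ℕ) →+ (I →₀ ℕ) →+ ℤ) (S : Set I) (A : TPS (twK β)) : Prop :=
  PlainData hK (ndS β S) A

theorem single_ne (i : I) : (Finsupp.single i 1 : I →₀ ℕ) ≠ 0 := by
  simp

theorem in1_ndS (β : (I →₀ ℕ) →+ (I →₀ ℕ) →+ ℤ) (S : Set I) (i : I) :
    In1 (fun e => OnRay e (Finsupp.single i 1)) (ndS β S i) := by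
  unfold ndS
  split_ifs
  · exact in1_QDil' (T := twK β) (fun _ => 1) (Finsupp.single i 1) 1 (single_ne i)
  · exact in1_one _

/-- **from Theorems A + B to the crossing positivity of every plain element.** -/
theorem crossPos_plain (hAB : ABOut) (β : (I →₀ ℕ) →+ (I →₀ ℕ) →+ ℤ)
    (hβ : ∀ a b, β a b = - β b a) (S : Set I) (A : TPS (twK β)) (hA : PlainS β S A) :
    Trans569.CrossPos β Kpos A := by
  obtain ⟨Q, hQ, hQ1⟩ := exists_parity' β hβ (fun _ => 1)
  have hnd : ∀ i, ndS β S i ∈ DTr (QDil (twK β) Q) (Finsupp.single i 1) := by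
    intro i
    unfold ndS
    split_ifs
    · have : dil (twK β) (Finsupp.single i 1) true 1 = QDil (twK β) Q (Finsupp.single i 1) 1 := by
        unfold QDil TPS.par
        rw [hQ1 i]
        simp
      rw [this]
      exact dil_mem_DTr _ _ (OnRay.refl _)
    · exact one_mem_DTr _ _
  intro V _ _ _ p c hc m
  have hw := wall_of_jmain (T := twK β) hβ hK hK_ne Q (fun L hL => by
      refine jmain hAB β hβ Q hQ dg dg_eq_zero L ?_
      intro k hk hk0 a ha b hb hka hkb
      by_cases ha0 : a = 0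
      · rw [ha0]; simp
      by_cases hb0 : b = 0
      · rw [hb0]; simp
      have h1 := hL.2 k hk hk0 a ha ha0 hka
      have h2 := hL.2 k hk hk0 b hb hb0 hkb
      have h3 : OnRay b a := h2.trans h1.symm
      have h4 : β a a = 0 := by have := hβ a a; omega
      exact h3.apply_eq_zero (x := β a) h4)
    (ndS β S) hnd hA V p c hc
  have hv1 : ((twK β).v : KK) ∈ Kpos := by
    have := vv_zpow_mem 1
    rw [zpow_one] at this
    exact this
  have hv2 : (((twK β).v⁻¹ : KKˣ) : KK) ∈ Kpos := by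
    have := vv_zpow_mem (-1)
    rw [zpow_neg, zpow_one] at this
    exact this
  have hcr := crossPos_of_mem (T := twK β) hβ (S := Kpos) isClosed_Kpos hv1 hv2 qreg_vv (c := c)
    (Gen := RGen (QDil (twK β) Q) c) (by
      rintro f ⟨e, a, he, rfl⟩
      obtain ⟨i, j, hi, hj, hij⟩ := he
      exact ⟨e, par Q e, a, ⟨OnRay.ne_zero ⟨i, j, hi, hj, hij⟩ hc.1, i, j, hi, hij⟩, rfl⟩) hw m 1
    Kpos.one_mem
  exact ⟨fun hm => hcr.1 hm.le, fun hm => hcr.2 hm.le⟩

/-- the walls of the basis vectors. -/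
theorem zer_plain (β : (I →₀ ℕ) →+ (I →₀ ℕ) →+ ℤ)
    (hβ : ∀ a b, β a b = - β b a) (S : Set I) (A : TPS (twK β)) (hA : PlainS β S A)
    {V : Type} [AddCommGroup V] [LinearOrder V] [IsOrderedAddMonoid V]
    (x : (I →₀ ℕ) →+ V) (i : I) (hi : i ∈ S)
    (hx : Trans569.KerRay x (Finsupp.single i 1)) :
    zer x A = dil (twK β) (Finsupp.single i 1) true 1 := by
  rw [zer_node (T := twK β) hβ hK hK_ne (in1_ndS β S) hA x i hx, ndS, if_pos hi]

end final

end Crest.Agent.R059.Wall999
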