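import Crest.Agent.R059.FMono_998
import Crest.Agent.R059.Trans_569
import Mathlib
import Crest.Agent.R059.Frame_436
import Crest.Agent.R059.FrameB0_436_Mg
import Crest.Agent.R059.Att_201
import Crest.Agent.R059.TransA_569
import Crest.Agent.R059.Grnd_883
import Crest.Agent.R059.Step4_227
import Crest.Agent.R059.TPS_883
import Crest.Agent.R059.Kill_153
import Crest.Agent.R059.Stab
import Crest.Agent.R059.Graph
import Crest.Agent.R059.MutConn
import Crest.Agent.R059.Fac_150
import Crest.Agent.R059.Dilog_344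
import Crest.Agent.R059.EPsiK_998
import Crest.Agent.R059.Wall4_999
import Crest.Agent.R059.Mu3_456_Mg

-- ▼ part R059/CrossGlue_998
section

/-!
# Row 59, track T: transfers of `CrossPos`

* `crossPos_compat`, `crossPos_map` : coefficient change `KK → R`;
* `crossPos_zer` : from `a` to `zer x a` (used for `A_W = zer udeg A'`).
-/

set_option autoImplicit false

namespace Crest.Agent.R059.CrossGlue998

open Finset TPS FMono998 Trans569

section

variable {ι : Type} [DecidableEq ι] {R R' : Type*} [CommRing R] [CommRing R']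
  {T : Tw (ι →₀ ℕ) R} {T' : Tw (ι →₀ ℕ) R'}







end

section K

open EPsi998 Sc998 Dilog344 Crest.CombinatoricsR.UnitInterval

variable {n : ℕ}





section T

variable {R : Type*} [CommRing R] (T : Tw (Fin n →₀ ℕ) R)

/-- `Ψ = P(x_1) ⋯ P(x_n)` in `TPS T`. -/
noncomputable def PsiT : TPS T := Psi T ux (List.finRange n)

theorem PsiT_ofFn :
    PsiT T = (List.ofFn (fun i : Fin n => ev T (ux i) (Dilog344.EE T.v true 1))).prod := by
  rw [List.ofFn_eq_map]
  rfl





theorem in1_PsiT : In1 (fun d => 0 < udeg n d) (PsiT T) := by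
  unfold PsiT Psi
  have key : ∀ L : List (TPS T), (∀ f ∈ L, In1 (fun d => 0 < udeg n d) f) →
      In1 (fun d => 0 < udeg n d) L.prod := by
    intro L hL
    induction L with
    | nil => rw [List.prod_nil]; exact in1_one _
    | cons f L ih =>
      rw [List.prod_cons]
      exact (hL f (by simp)).mul (fun a b ha hb => by rw [map_add]; omega)
        (ih (fun g hg => hL g (by simp [hg])))
  apply key
  intro f hf
  rw [List.mem_map] at hf
  obtain ⟨i, _, rfl⟩ := hf
  refine ⟨co_dil_zero (ux_inj' i) _ _, ?_⟩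
  intro d hd hP
  by_contra hc
  obtain ⟨k, rfl⟩ := exists_of_co_ev_ne hc
  rw [map_nsmul, udeg_ux, smul_eq_mul, mul_one] at hP
  have hk : k = 0 := by omega
  exact hd (by rw [hk, zero_nsmul])

variable {V : Type*} [AddCommGroup V] [LinearOrder V] [IsOrderedAddMonoid V]





end T

/-! ### over `KK` -/


theorem qreg_twK (h : Fin n → ℕ) : QReg (((twK (form h)).v : KK) ^ 2) := qreg_KK



end K

end Crest.Agent.R059.CrossGlue998
end

-- ▼ part R059/FrameK_436
section

set_option autoImplicit false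
set_option linter.unusedSectionVars false

/-!
Row 59 (S0081), leaf 20 FRAME (helper436): binding of 227's Step 3 in the frozen language of
`Grnd_883`.

`E1_pos` / `FF_pos`: from `CrossPos` of the framed element `emb (PsiK * AW)` one gets that every
coefficient of `conj x AW (FF h N)` is monomially positive, for EVERY functional `x`.
-/

namespace Crest.Agent.R059

open Finset TPS Sc998 Trans569 EPsi998 FMono998 Crest.CombinatoricsR.UnitInterval

namespace Frame436

variable {n : ℕ}

/-- an injective functional on `Fin n →₀ ℕ`. -/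
noncomputable def etaFin (n : ℕ) : (Fin n →₀ ℕ) →+ Lex (Fin n →₀ ℤ) where
  toFun m := toLex (m.mapRange (Nat.cast : ℕ → ℤ) Nat.cast_zero)
  map_zero' := by rw [Finsupp.mapRange_zero]; rfl
  map_add' a b := by
    rw [Finsupp.mapRange_add (fun x y => Nat.cast_add x y)]; rfl

theorem etaFin_injective (n : ℕ) : Function.Injective (etaFin n) := by
  intro a b hab
  have h1 : a.mapRange (Nat.cast : ℕ → ℤ) Nat.cast_zero = b.mapRange Nat.cast Nat.cast_zero :=
    toLex.injective hab
  exact Finsupp.mapRange_injective _ Nat.cast_zero Nat.cast_injective h1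

variable {V : Type} [AddCommGroup V] [LinearOrder V] [IsOrderedAddMonoid V]

/-- `Ψ` as an element of `TPS (twK (form h))`. -/
noncomputable def Psi1 (h : Fin n → ℕ) : TPS (twK (form h)) :=
  Psi (twK (form h)) ux (List.finRange n)

theorem tw_KK {M : Type*} [AddCommMonoid M] (β : M →+ M →+ ℤ) : tw KK β = twK β := by
  have h : Units.map (algebraMap KK KK).toMonoidHom tau⁻¹ = tau⁻¹ := by
    ext
    rfl
  show (⟨Units.map (algebraMap KK KK).toMonoidHom tau⁻¹, β⟩ : Tw M KK) = ⟨tau⁻¹, β⟩
  rw [h]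

theorem in1_Psi1 (h : Fin n → ℕ) : In1 (fun d => 0 < udeg n d) (Psi1 h) := by
  have key : ∀ T : Tw (Fin n →₀ ℕ) KK, tw KK (form h) = T →
      In1 (fun d => 0 < udeg n d) (Psi T ux (List.finRange n)) := by
    rintro T rfl
    exact in1_PsiK KK h
  exact key _ (tw_KK (form h))

theorem cls1 (h : Fin n → ℕ) (hh : IsHessenberg h) :
    Cls (twK (form h)) (adjH h) (ux : Fin n → Fin n →₀ ℕ) := by
  have key : ∀ T : Tw (Fin n →₀ ℕ) KK, tw KK (form h) = T →
      Cls T (adjH h) (ux : Fin n → Fin n →₀ ℕ) := by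
    rintro T rfl
    exact cls h hh
  exact key _ (tw_KK (form h))

theorem EI_eq_E1 (h : Fin n → ℕ) :
    EI (twK (form h)) (adjH h) ux (List.finRange n) = E1 h := by
  classical
  have hv : (((twK (form h)).v ^ (-1 : ℤ) : KKˣ) : KK) = tau := by
    show (((tau⁻¹ : KKˣ) ^ (-1 : ℤ) : KKˣ) : KK) = tau
    simp
  unfold EI Es E1 XI
  rw [hv]
  apply Finset.sum_congr
  · ext S
    simp only [Finset.mem_filter, Finset.mem_powerset, indep, List.toFinset_finRange,
      Finset.subset_univ, true_and, Ind, adjH]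
  · intro S _
    rfl

theorem sig_Psi1 (h : Fin n → ℕ) (hh : IsHessenberg h) :
    scale (chiF (twK (form h)) (udeg n)) (Psi1 h) = Psi1 h * E1 h := by
  rw [← EI_eq_E1]
  exact scale_Psi_right (cls1 h hh) qreg_KK (fun i => ux_inj' i) (chiF (twK (form h)) (udeg n))
    (fun i => by rw [chiF, chiN_apply, udeg_ux, pow_one]) _ (finRange_lt n)

theorem twK_zpow_mem {M : Type*} [AddCommMonoid M] (β : M →+ M →+ ℤ) (z : ℤ) :
    ((((twK β).v ^ z : KKˣ)) : KK) ∈ Kpos := by
  show (((tau⁻¹ : KKˣ) ^ z : KKˣ) : KK) ∈ Kpos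
  rw [inv_zpow']
  exact tau_zpow_mem _

/-- **FRAME, `E` form**: every coefficient of `E^x` is in the cone. -/
theorem E1_pos (h : Fin n → ℕ) (hh : IsHessenberg h) (AW : TPS (twK (form h)))
    (hAW : In1 (fun d => udeg n d = 0) AW)
    (hcr : CrossPos (frame (twK (form h)) (udeg n)).β Kpos
      ((embF (twK (form h)) (udeg n)).hom (Psi1 h * AW)))
    (x : (Fin n →₀ ℕ) →+ V) (m : Fin n →₀ ℕ) : (conj x AW (E1 h)).co m ∈ Kpos := by
  have hs : ∀ a b, (twK (form h)).β a b = - (twK (form h)).β b a := form_skew h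
  have hΨ : In1 (fun d => 0 < udeg n d) (Psi1 h) := in1_Psi1 h
  have h0 : (Psi1 h * AW).co 0 = 1 := by rw [co_mul_zero', hΨ.one, hAW.one, one_mul]
  have h0' : ((embF (twK (form h)) (udeg n)).hom (Psi1 h * AW)).co 0 = 1 :=
    (grd_hom (embF (twK (form h)) (udeg n))).one h0
  refine E_pos (twK (form h)) hs (udeg n) Kpos (twK_zpow_mem (form h)) (etaFin_injective n)
    hΨ hAW ?_ (tdata (frame_skew hs) h0' hcr (Y _ ff)) (fun x m => tdata_c _ _ _ _ x m) x m
  exact sig_Psi1 h hh

/-- **FRAME, final form**: `F^x` is monomially positive, `F = ∏_{j<N} E(z_j)`. -/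
theorem FF_pos (h : Fin n → ℕ) (hh : IsHessenberg h) (AW : TPS (twK (form h)))
    (hAW : In1 (fun d => udeg n d = 0) AW)
    (hcr : CrossPos (frame (twK (form h)) (udeg n)).β Kpos
      ((embF (twK (form h)) (udeg n)).hom (Psi1 h * AW)))
    (x : (Fin n →₀ ℕ) →+ V) (N : ℕ) (m : Fin n →₀ ℕ) :
    (conj x (TPS.map (twK (form h)) (algebraMap KK (MvPolynomial (Fin N) KK)) AW) (FF h N) :
      TPS (tw (MvPolynomial (Fin N) KK) (form h))).co m ∈ PM N :=
  F_pos_of_E_pos h AW hAW x (E1_pos h hh AW hAW hcr x) N m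

end Frame436

end Crest.Agent.R059
end

-- ▼ part R059/FrameP_436
section

set_option autoImplicit false
set_option linter.unusedSectionVars false

/-!
Row 59 (S0081), leaf 20 FRAME, part P (helper436): attractor data of the framed element.

`dat h' (emb a) (inc d) = dat (h' ∘ inc) a d`, `dat h' (emb a) d' = 0` if `d'` contains the framing
class.  So `emb` of a plain element is plain for the same set of nodes.
-/

namespace Crest.Agent.R059

open Finset TPS Att201

namespace Frame436

section general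

variable {M : Type*} [AddCommMonoid M] [PartialOrder M] [IsOrderedCancelAddMonoid M]
  [CanonicallyOrderedAdd M] [WellFoundedLT M] [HasAntidiagonal M]
variable {M' : Type*} [AddCommMonoid M'] [PartialOrder M'] [IsOrderedCancelAddMonoid M']
  [CanonicallyOrderedAdd M'] [WellFoundedLT M'] [HasAntidiagonal M']
variable {R : Type*} [CommRing R] {T : Tw M R} {T' : Tw M' R}






end general

section framed

variable {ι : Type*} [DecidableEq ι] {R : Type*} [CommRing R]




omit [DecidableEq ι] in
theorem degree_inc (d : ι →₀ ℕ) : (inc d : Option ι →₀ ℕ).degree = d.degree := by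
  have key : (Finsupp.degree.comp inc : (ι →₀ ℕ) →+ ℕ) = Finsupp.degree := by
    classical
    apply Finsupp.addHom_ext
    intro i n
    show (inc (Finsupp.single i n) : Option ι →₀ ℕ).degree = (Finsupp.single i n).degree
    have h1 : (inc (Finsupp.single i n) : Option ι →₀ ℕ) = Finsupp.single (some i) n := by
      ext k
      cases k with
      | none => simp
      | some k => simp [Finsupp.single_apply]
    rw [h1, Finsupp.degree_single, Finsupp.degree_single]
  exact DFunLike.congr_fun key d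


end framed

end Frame436

end Crest.Agent.R059
end

-- ▼ part R059/Path_227
section

/-!
Row 59 (S0081), helper227.  Block PATH: from the abstract transport data of `TransA_569` (over the
lattice of `Grnd_883`) and the full bend at the plain walls `W_j` to
`T_g = 0` unless `g ≥ 0` and `s(g, u_c) ≥ 0` for all `c`.
-/

set_option autoImplicit false

open Crest.CombinatoricsR.UnitInterval Crest.Agent.R059.MutConn

namespace Crest.Agent.R059.Path227

open Crest.Agent.R059 Trans569 Step4 Kill

variable {n : ℕ}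

theorem val_add (x : Fin n → ℝ) (v w : Fin n → ℤ) : val x (v + w) = val x v + val x w := by
  simp [val, mul_add, Finset.sum_add_distrib]

theorem val_zero (x : Fin n → ℝ) : val x (0 : Fin n → ℤ) = 0 := by simp [val]

/-- the functional on exponents given by its values at the `u_i`. -/
noncomputable def xM (x : Fin n → ℝ) : (Fin n →₀ ℕ) →+ ℝ where
  toFun e := val x (uco e)
  map_zero' := by rw [uco_zero, val_zero]
  map_add' a b := by rw [uco_add, val_add]

@[simp] theorem xM_apply (x : Fin n → ℝ) (e : Fin n →₀ ℕ) : xM x e = val x (uco e) := rfl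

theorem e_eq_sg (h : Fin n → ℕ) (a b : Fin n) : Kill59.e h a b = sg h a b := rfl

theorem s_eq (h : Fin n → ℕ) (m w : Fin n → ℤ) :
    Kill59.s h m w = ∑ c, phi h m c * w c := by
  unfold Kill59.s phi
  rw [Finset.sum_comm]
  refine Finset.sum_congr rfl fun c _ => ?_
  rw [Finset.sum_mul]
  refine Finset.sum_congr rfl fun a _ => ?_
  rw [e_eq_sg]; ring

theorem val_phR' (h : Fin n → ℕ) (m w : Fin n → ℤ) :
    val (phR h m) w = (Kill59.s h m w : ℝ) := by
  rw [val_phR, s_eq]

theorem W_eq (j : ℕ) (hj : j + 1 < n) : (Kill59.W j hj : Fin n → ℤ) = Kill.W j hj := rfl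

theorem form_single (h : Fin n → ℕ) (m : Fin n →₀ ℕ) (j : ℕ) (hj : j + 1 < n) :
    form h m (Finsupp.single ⟨j + 1, hj⟩ 1) = K h (uco m) j hj := by
  rw [form_apply, uco_single, W_eq]
  have h1 := val_phR' h (uco m) (Kill.W j hj)
  rw [val_phR_W] at h1
  exact_mod_cast h1.symm

theorem gen_inj {x : Fin n → ℝ} (hx : Gen x) : Function.Injective (xM x) := by
  intro a b hab
  apply uco_injective
  have h1 : val x (uco a - uco b) = 0 := by
    rw [val_sub]
    exact sub_eq_zero.2 hab
  exact sub_eq_zero.1 (hx _ h1)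

theorem uco_nsmul' (k : ℕ) (a : Fin n →₀ ℕ) : uco (k • a) = (k : ℤ) • uco a := uco_nsmul k a

theorem wgen_ker {x : Fin n → ℝ} {j : ℕ} {hj : j + 1 < n} (hx : WGen j hj x) :
    KerRay (xM x) (Finsupp.single (⟨j + 1, hj⟩ : Fin n) 1) := by
  refine ⟨by simp, ?_, fun a b hab => ?_⟩
  · rw [xM_apply, uco_single, W_eq]; exact hx.1
  · have h1 : val x (uco a - uco b) = 0 := by
      rw [val_sub]; exact sub_eq_zero.2 hab
    obtain ⟨k, i, hk, hki⟩ := hx.2 _ h1
    -- `k (a - b) = i W`
    rcases lt_or_gt_of_ne hk with hk' | hk'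
    · refine ⟨(-k).toNat, i.toNat, (-i).toNat, by omega, uco_injective ?_⟩
      rw [uco_add, uco_add, uco_nsmul', uco_nsmul', uco_nsmul', uco_nsmul', uco_single, W_eq]
      funext c
      have h2 := congrFun hki c
      simp only [Pi.smul_apply, Pi.sub_apply, Pi.add_apply, smul_eq_mul] at h2 ⊢
      have e1 : (((-k).toNat : ℕ) : ℤ) = -k := by omega
      have e2 : ((i.toNat : ℕ) : ℤ) - (((-i).toNat : ℕ) : ℤ) = i := by omega
      rw [e1]
      have e3 : ((i.toNat : ℕ) : ℤ) = i + (((-i).toNat : ℕ) : ℤ) := by omega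
      rw [e3]
      linarith
    · refine ⟨k.toNat, (-i).toNat, i.toNat, by omega, uco_injective ?_⟩
      rw [uco_add, uco_add, uco_nsmul', uco_nsmul', uco_nsmul', uco_nsmul', uco_single, W_eq]
      funext c
      have h2 := congrFun hki c
      simp only [Pi.smul_apply, Pi.sub_apply, Pi.add_apply, smul_eq_mul] at h2 ⊢
      have e1 : ((k.toNat : ℕ) : ℤ) = k := by omega
      rw [e1]
      have e3 : ((i.toNat : ℕ) : ℤ) = i + (((-i).toNat : ℕ) : ℤ) := by omega
      rw [e3]
      linarith

theorem lex_inj {M V : Type} [AddCommMonoid M] [IsCancelAdd M] [AddCommGroup V] [LinearOrder V]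
    [IsOrderedAddMonoid V] (hM : ∀ (k : ℕ) (a b : M), 0 < k → k • a = k • b → a = b)
    {p : M →+ V} {g : M} (hp : KerRay p g) {s : M →+ ℤ} (hs : s g ≠ 0) :
    Function.Injective (lexF p s) := by
  intro a b hab
  rw [lexF_inj] at hab
  obtain ⟨k, i, j, hk, hkij⟩ := hp.2.2 a b hab.1
  have h1 := congrArg s hkij
  simp only [map_add, map_nsmul] at h1
  rw [hab.2, add_right_inj] at h1
  have h2 : ((i : ℤ) - j) * s g = 0 := by
    simp only [nsmul_eq_mul] at h1
    linarith
  have h3 : (i : ℤ) = j := by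
    rcases mul_eq_zero.1 h2 with h | h
    · linarith
    · exact absurd h hs
  have h4 : i = j := by exact_mod_cast h3
  subst h4
  exact hM k a b hk (add_right_cancel hkij)

theorem nsmul_inj' (k : ℕ) (a b : Fin n →₀ ℕ) (hk : 0 < k) (h : k • a = k • b) : a = b := by
  ext i
  have := DFunLike.congr_fun h i
  simp only [Finsupp.smul_apply, smul_eq_mul] at this
  exact Nat.eq_of_mul_eq_mul_left hk this

/-- signs for small perturbations. -/
theorem exists_same (x y : Fin n → ℝ) (m : Fin n →₀ ℕ) :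
    ∃ d : ℝ, 0 < d ∧ ∀ e, 0 < e → e < d → ∀ c ≤ m,
      SameSign (xM (x + e • y)) (lexF (xM x) (xM y)) c := by
  classical
  have hfin : (Set.Iic m).Finite := Set.finite_Iic m
  have h1 : ∀ c : Fin n →₀ ℕ, ∃ d : ℝ, 0 < d ∧ ∀ e : ℝ, 0 < e → e < d →
      SameSign (xM (x + e • y)) (lexF (xM x) (xM y)) c := by
    intro c
    have hv : ∀ e : ℝ, xM (x + e • y) c = xM x c + e * xM y c := by
      intro e; simp [val_add_left, val_smul_left]
    rcases lt_trichotomy (xM x c) 0 with h | h | h
    · refine ⟨-(xM x c) / (|xM y c| + 1), div_pos (by linarith) (by positivity), ?_⟩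
      intro e he he'
      rw [lt_div_iff₀ (by positivity)] at he'
      have h2 : xM (x + e • y) c < 0 := by
        rw [hv]
        nlinarith [le_abs_self (xM y c), abs_nonneg (xM y c)]
      have h3 : lexF (xM x) (xM y) c < 0 := lexF_neg.2 (Or.inl h)
      exact ⟨⟨fun h' => absurd h' (not_lt.2 h2.le), fun h' => absurd h' (not_lt.2 h3.le)⟩,
        ⟨fun _ => h3, fun _ => h2⟩⟩
    · refine ⟨1, one_pos, fun e he _ => ?_⟩
      refine ⟨?_, ?_⟩
      · rw [lexF_pos, hv, h, zero_add]
        constructor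
        · intro h'; exact Or.inr ⟨rfl, (mul_pos_iff_of_pos_left he).1 h'⟩
        · rintro (h' | h')
          · exact absurd h' (lt_irrefl _)
          · exact mul_pos he h'.2
      · rw [lexF_neg, hv, h, zero_add]
        constructor
        · intro h'; exact Or.inr ⟨rfl, by nlinarith⟩
        · rintro (h' | h')
          · exact absurd h' (lt_irrefl _)
          · nlinarith [h'.2]
    · refine ⟨(xM x c) / (|xM y c| + 1), div_pos h (by positivity), ?_⟩
      intro e he he'
      rw [lt_div_iff₀ (by positivity)] at he'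
      have h2 : 0 < xM (x + e • y) c := by
        rw [hv]
        nlinarith [neg_abs_le (xM y c), abs_nonneg (xM y c)]
      have h3 : 0 < lexF (xM x) (xM y) c := lexF_pos.2 (Or.inl h)
      exact ⟨⟨fun _ => h3, fun _ => h2⟩,
        ⟨fun h' => absurd h' (not_lt.2 h2.le), fun h' => absurd h' (not_lt.2 h3.le)⟩⟩
  choose d hd hd' using h1
  obtain ⟨c0, hc0, hmin⟩ := Set.exists_min_image (Set.Iic m) d hfin ⟨m, Set.mem_Iic.2 le_rfl⟩
  exact ⟨d c0, hd c0, fun e h0 h1 c hc => hd' c e h0 (lt_of_lt_of_le h1 (hmin c hc))⟩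

/-- lexicographic refinements with the same signs on the ray. -/
theorem lex_same {M V W W' : Type} [AddCommMonoid M] [AddCommGroup V] [LinearOrder V]
    [IsOrderedAddMonoid V] [AddCommGroup W] [LinearOrder W] [IsOrderedAddMonoid W]
    [AddCommGroup W'] [LinearOrder W'] [IsOrderedAddMonoid W']
    {p : M →+ V} {g : M} (hp : KerRay p g) {y : M →+ W} {y' : M →+ W'}
    (hy : 0 < y g) (hy' : 0 < y' g) (c : M) : SameSign (lexF p y) (lexF p y') c := by
  by_cases hpc : p c = 0
  · -- `c` is on the ray of `g`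
    obtain ⟨k, i, j, hk, hkij⟩ := hp.2.2 c 0 (by rw [hpc, map_zero])
    rw [smul_zero, zero_add] at hkij
    -- k y(c) = (j - i) y(g)
    have h1 : k • y c = ((j : ℤ) - i) • y g := by
      have := congrArg y hkij
      simp only [map_add, map_nsmul] at this
      rw [sub_zsmul, natCast_zsmul, natCast_zsmul, ← this]
      abel
    have h2 : k • y' c = ((j : ℤ) - i) • y' g := by
      have := congrArg y' hkij
      simp only [map_add, map_nsmul] at this
      rw [sub_zsmul, natCast_zsmul, natCast_zsmul, ← this]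
      abel
    have key : ∀ {U : Type} [AddCommGroup U] [LinearOrder U] [IsOrderedAddMonoid U] (z : M →+ U),
        0 < z g → k • z c = ((j : ℤ) - i) • z g →
        (0 < z c ↔ 0 < (j : ℤ) - i) ∧ (z c < 0 ↔ (j : ℤ) - i < 0) := by
      intro U _ _ _ z hz h
      rcases lt_trichotomy ((j : ℤ) - i) 0 with hji | hji | hji
      · have h3 : ((j : ℤ) - i) • z g < 0 := by
          rw [← neg_pos, ← neg_zsmul]
          exact zsmul_pos hz (by omega)
        have h4 : z c < 0 := by
          rw [← h] at h3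
          by_contra hcon
          exact absurd h3 (not_lt.2 (nsmul_nonneg (not_lt.1 hcon) k))
        exact ⟨⟨fun h' => absurd h' (not_lt.2 h4.le), fun h' => absurd h' (not_lt.2 hji.le)⟩,
          ⟨fun _ => hji, fun _ => h4⟩⟩
      · rw [hji, zero_smul] at h
        have h4 : z c = 0 := by
          rcases lt_trichotomy (z c) 0 with h5 | h5 | h5
          · have := nsmul_pos (neg_pos.2 h5) (Nat.pos_iff_ne_zero.1 hk)
            rw [smul_neg, h, neg_zero] at this
            exact absurd this (lt_irrefl _)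
          · exact h5
          · have := nsmul_pos h5 (Nat.pos_iff_ne_zero.1 hk)
            rw [h] at this
            exact absurd this (lt_irrefl _)
        rw [h4, hji]
        simp
      · have h3 : 0 < ((j : ℤ) - i) • z g := zsmul_pos hz hji
        have h4 : 0 < z c := by
          rw [← h] at h3
          by_contra hcon
          have := nsmul_nonneg (neg_nonneg.2 (not_lt.1 hcon)) k
          rw [smul_neg] at this
          exact absurd h3 (not_lt.2 (neg_nonneg.1 this))
        exact ⟨⟨fun _ => hji, fun _ => h4⟩,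
          ⟨fun h' => absurd h' (not_lt.2 h4.le), fun h' => absurd h' (not_lt.2 hji.le)⟩⟩
    have k1 := key y hy h1
    have k2 := key y' hy' h2
    refine ⟨?_, ?_⟩
    · rw [lexF_pos, lexF_pos, hpc, k1.1, k2.1]
    · rw [lexF_neg, lexF_neg, hpc, k1.2, k2.2]
  · refine ⟨?_, ?_⟩
    · rw [lexF_pos, lexF_pos]
      simp [hpc]
    · rw [lexF_neg, lexF_neg]
      simp [hpc]

section main

variable {R : Type*} [CommRing R] {P : Subsemiring R} {h : Fin n → ℕ}

/-- the full bend at the plain wall `W_j` has an invertible coefficient. -/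
def FullBend (D : TData (form h) P) : Prop :=
  ∀ {V : Type} [AddCommGroup V] [LinearOrder V] [IsOrderedAddMonoid V]
    (p : (Fin n →₀ ℕ) →+ V) (j : ℕ) (hj : j + 1 < n),
    KerRay p (Finsupp.single (⟨j + 1, hj⟩ : Fin n) 1) →
    ∀ (a : Fin n →₀ ℕ) (k : ℕ), 0 < k → form h a (Finsupp.single (⟨j + 1, hj⟩ : Fin n) 1) = k →
    ∃ κ : (Fin n →₀ ℕ) → R, (∀ e, κ e ∈ P) ∧ IsUnit (κ a) ∧
      D.c (lexF p (-(form h (a + k • Finsupp.single (⟨j + 1, hj⟩ : Fin n) 1))))
          (a + k • Finsupp.single (⟨j + 1, hj⟩ : Fin n) 1) =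
        ∑ e ∈ Finset.Iic (a + k • Finsupp.single (⟨j + 1, hj⟩ : Fin n) 1), κ e *
          D.c (lexF p (form h (a + k • Finsupp.single (⟨j + 1, hj⟩ : Fin n) 1))) e

/-- **PATH**. -/
theorem path (hh : IsHessenberg h) (hc : Conn h) (D : TData (form h) P) (C : AddSubmonoid R)
    (hPC : ∀ p ∈ P, ∀ a ∈ C, p * a ∈ C) (hsal : ∀ a ∈ C, -a ∈ C → a = 0)
    (hfull : FullBend D)
    (T : (Fin n →₀ ℕ) → R)
    (hT : ∀ g, ∀ {V : Type} [AddCommGroup V] [LinearOrder V] [IsOrderedAddMonoid V]
      (x : (Fin n →₀ ℕ) →+ V), D.c (lexF (form h g) x) g = T g)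
    (hTC : ∀ g, T g ∈ C)
    (hinc : ∀ (x : (Fin n →₀ ℕ) →+ ℝ),
      (∀ (j : ℕ) (hj : j + 1 < n), x (Finsupp.single (⟨j + 1, hj⟩ : Fin n) 1) < 0) →
      ∀ m, D.c x m ≠ 0 → ∀ c, 0 ≤ uco m c)
    (g : Fin n →₀ ℕ) (hg : T g ≠ 0) : (∀ c, 0 ≤ uco g c) ∧ ∀ c, 0 ≤ phi h (uco g) c := by
  classical
  have hposall : ∀ m : Fin n →₀ ℕ, ∀ {V : Type} [AddCommGroup V] [LinearOrder V]
      [IsOrderedAddMonoid V] (x : (Fin n →₀ ℕ) →+ V), Function.Injective x →
      D.c x m ∈ C ∧ D.c x m - T m ∈ C := by
    intro m V _ _ _ x hx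
    exact D.pos_of_terminal C hPC T hT m (fun g _ => hTC g) x hx
  -- F_g(x) ≠ 0 for every injective x
  have hg1 : ∀ x : (Fin n →₀ ℕ) →+ ℝ, Function.Injective x → D.c x g ≠ 0 := by
    intro x hx h0
    have h1 := (hposall g x hx).2
    rw [h0, zero_sub] at h1
    exact hg (hsal _ (hTC g) h1)
  have hgpos : ∀ c, 0 ≤ uco g c := by
    obtain ⟨x, hx, hxn, -⟩ := exists_gen (n := n) 1
    refine hinc (xM x) (fun j hj => ?_) g (hg1 _ (gen_inj hx))
    have := hxn j hj
    rw [wv_eq hj] at this
    rw [xM_apply, uco_single, W_eq]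
    exact this
  refine ⟨hgpos, ?_⟩
  let Nz : (Fin n → ℤ) → (Fin n → ℝ) → Prop := fun m x =>
    ∃ e : Fin n →₀ ℕ, uco e = m ∧ D.c (xM x) e ≠ 0
  refine step4 hh hc hgpos Nz ?_ ?_ ?_ ?_
  · -- N1
    intro x hx
    exact ⟨g, rfl, hg1 _ (gen_inj hx)⟩
  · -- N2
    rintro m x t hx ht hxt ⟨e, rfl, hne⟩
    refine ⟨e, rfl, fun h0 => hne ?_⟩
    have hval : ∀ c : Fin n →₀ ℕ, xM (x + t • phR h (uco e)) c =
        xM x c + t * (form h e c : ℝ) := by
      intro c
      rw [xM_apply, val_add_left, val_smul_left, val_phR', form_apply, xM_apply]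
    have hxi := gen_inj hx
    have hyi := gen_inj hxt
    have h1 : D.c (xM x) e - D.c (xM (x + t • phR h (uco e))) e ∈ C := by
      refine D.mono C hPC e (fun e' _ V _ _ _ x' hx' => (hposall e' x' hx').1)
        (xM (x + t • phR h (uco e))) _ (xM x)
        ((Finset.Iic e).filter (fun c => Opp (xM x) (form h e) c ∧
          |xM x c| < t * |(form h e c : ℝ)|)) rfl hxi ?_ ?_ ?_ ?_
      · intro c hc
        rw [Finset.mem_filter, Finset.mem_Iic] at hc
        exact ⟨hc.1, hc.2.1⟩
      · intro a ha b hb hbo hble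
        rw [Finset.mem_filter, Finset.mem_Iic] at ha ⊢
        refine ⟨hb, hbo, ?_⟩
        have h2 := ha.2.2
        unfold Le at hble
        rw [nsmul_eq_mul, nsmul_eq_mul, Nat.cast_natAbs, Nat.cast_natAbs] at hble
        have h3 : (0 : ℝ) < |(form h e a : ℝ)| := abs_pos.2 (by exact_mod_cast ha.2.1.ne_zero)
        have h4 : (0 : ℝ) < |(form h e b : ℝ)| := abs_pos.2 (by exact_mod_cast hbo.ne_zero)
        push_cast at hble
        have h5 : |(form h e a : ℝ)| * |xM x b| < |(form h e a : ℝ)| * (t * |(form h e b : ℝ)|) := by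
          calc |(form h e a : ℝ)| * |xM x b| ≤ |(form h e b : ℝ)| * |xM x a| := hble
            _ < |(form h e b : ℝ)| * (t * |(form h e a : ℝ)|) := mul_lt_mul_of_pos_left h2 h4
            _ = _ := by ring
        exact lt_of_mul_lt_mul_left h5 h3.le
      · intro c hc hcF
        by_cases hc0 : c = 0
        · subst hc0
          rw [SameSign, map_zero, map_zero]
          exact ⟨Iff.rfl, Iff.rfl⟩
        have hxc : xM x c ≠ 0 := fun h' => hc0 (hxi (by rw [h', map_zero]))
        have hyc : xM (x + t • phR h (uco e)) c ≠ 0 :=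
          fun h' => hc0 (hyi (by rw [h', map_zero]))
        have hv := hval c
        by_cases ho : Opp (xM x) (form h e) c
        · have h2 : t * |(form h e c : ℝ)| ≤ |xM x c| := by
            by_contra h2
            exact hcF (Finset.mem_filter.2 ⟨Finset.mem_Iic.2 hc, ho, not_le.1 h2⟩)
          rcases ho with ⟨h3, h4⟩ | ⟨h3, h4⟩
          · have h4' : (form h e c : ℝ) < 0 := by exact_mod_cast h4
            rw [abs_of_neg h4', abs_of_pos h3] at h2
            have h5 : 0 < xM (x + t • phR h (uco e)) c :=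
              lt_of_le_of_ne (by rw [hv]; linarith) (Ne.symm hyc)
            exact ⟨⟨fun _ => h5, fun _ => h3⟩,
              ⟨fun h' => absurd h' (not_lt.2 h3.le), fun h' => absurd h' (not_lt.2 h5.le)⟩⟩
          · have h4' : 0 < (form h e c : ℝ) := by exact_mod_cast h4
            rw [abs_of_pos h4', abs_of_neg h3] at h2
            have h5 : xM (x + t • phR h (uco e)) c < 0 :=
              lt_of_le_of_ne (by rw [hv]; linarith) hyc
            exact ⟨⟨fun h' => absurd h' (not_lt.2 h3.le), fun h' => absurd h' (not_lt.2 h5.le)⟩,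
              ⟨fun _ => h5, fun _ => h3⟩⟩
        · rcases lt_or_gt_of_ne hxc with h3 | h3
          · have h4 : form h e c ≤ 0 := by
              by_contra h4; exact ho (Or.inr ⟨h3, not_le.1 h4⟩)
            have h4' : (form h e c : ℝ) ≤ 0 := by exact_mod_cast h4
            have h5 : xM (x + t • phR h (uco e)) c < 0 := by rw [hv]; nlinarith
            exact ⟨⟨fun h' => absurd h' (not_lt.2 h3.le), fun h' => absurd h' (not_lt.2 h5.le)⟩,
              ⟨fun _ => h5, fun _ => h3⟩⟩
          · have h4 : 0 ≤ form h e c := by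
              by_contra h4; exact ho (Or.inl ⟨h3, not_le.1 h4⟩)
            have h4' : (0 : ℝ) ≤ (form h e c : ℝ) := by exact_mod_cast h4
            have h5 : 0 < xM (x + t • phR h (uco e)) c := by rw [hv]; nlinarith
            exact ⟨⟨fun _ => h5, fun _ => h3⟩,
              ⟨fun h' => absurd h' (not_lt.2 h3.le), fun h' => absurd h' (not_lt.2 h5.le)⟩⟩
      · intro c hc
        rw [Finset.mem_filter] at hc
        have hv := hval c
        obtain ⟨-, ho, h2⟩ := hc
        rcases ho with ⟨h3, h4⟩ | ⟨h3, h4⟩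
        · have h4' : (form h e c : ℝ) < 0 := by exact_mod_cast h4
          rw [abs_of_neg h4', abs_of_pos h3] at h2
          have h5 : xM (x + t • phR h (uco e)) c < 0 := by rw [hv]; linarith
          exact ⟨⟨fun h' => absurd h' (not_lt.2 h5.le), fun h' => absurd h' (not_lt.2 h3.le)⟩,
            ⟨fun _ => h3, fun _ => h5⟩⟩
        · have h4' : 0 < (form h e c : ℝ) := by exact_mod_cast h4
          rw [abs_of_pos h4', abs_of_neg h3] at h2
          have h5 : 0 < xM (x + t • phR h (uco e)) c := by rw [hv]; linarith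
          exact ⟨⟨fun _ => h3, fun _ => h5⟩,
            ⟨fun h' => absurd h' (not_lt.2 h5.le), fun h' => absurd h' (not_lt.2 h3.le)⟩⟩
    rw [h0, zero_sub] at h1
    exact hsal _ ((hposall e _ hyi).1) h1
  · -- N3
    intro m j hj x y hW hy hK
    by_cases hm : ∃ a : Fin n →₀ ℕ, uco a = m
    · obtain ⟨a, rfl⟩ := hm
      obtain ⟨k, hk⟩ : ∃ k : ℕ, (k : ℤ) = K h (uco a) j hj := ⟨(K h (uco a) j hj).toNat, by omega⟩
      have hk0 : 0 < k := by omega
      set gj : Fin n →₀ ℕ := Finsupp.single (⟨j + 1, hj⟩ : Fin n) 1 with hgj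
      set b : Fin n →₀ ℕ := a + k • gj with hb
      have hub : uco b = uco a + K h (uco a) j hj • W j hj := by
        rw [hb, uco_add, uco_nsmul', hgj, uco_single, W_eq, hk]
      have hker := wgen_ker hW
      have hsa : form h a gj = k := by rw [hgj, form_single, hk]
      have hsb : form h b gj = k := by
        rw [hgj, form_single, hub, K_add_W, hk]
      have hsb' : (0 : ℤ) < form h b gj := by rw [hsb]; exact_mod_cast hk0
      obtain ⟨κ, hκP, hκu, hκ⟩ := hfull (xM x) j hj hker a k hk0 hsa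
      obtain ⟨d1, hd1, hs1⟩ := exists_same x y a
      obtain ⟨d2, hd2, hs2⟩ := exists_same x (-y) b
      have hyg : 0 < xM y gj := by
        rw [xM_apply, hgj, uco_single, W_eq]; exact hy
      refine ⟨min d1 d2, lt_min hd1 hd2, ?_⟩
      rintro e he0 he1 ⟨a', ha', hne⟩
      have haa : a' = a := uco_injective ha'
      subst haa
      refine ⟨b, hub, ?_⟩
      have he2 : x - e • y = x + e • (-y) := by rw [smul_neg, sub_eq_add_neg]
      have h1 : D.c (xM (x - e • y)) b = D.c (lexF (xM x) (-(form h b))) b := by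
        rw [he2]
        refine D.loc _ _ b (fun c hc => ?_)
        refine SameSign.trans (hs2 e he0 (lt_of_lt_of_le he1 (min_le_right _ _)) c hc) ?_
        -- signs of `lex (x, -y)` and `lex (x, -s)`
        have h3 := lex_same hker hyg hsb' c
        have h4 : ∀ c : Fin n →₀ ℕ, xM (-y) c = - xM y c := by
          intro c; simp [val]
        refine ⟨?_, ?_⟩
        · rw [lexF_pos, lexF_pos]
          have h5 := h3.2
          rw [lexF_neg, lexF_neg] at h5
          rw [h4]
          simp only [AddMonoidHom.neg_apply, Left.neg_pos_iff]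
          constructor
          · rintro (h6 | ⟨h6, h7⟩)
            · exact Or.inl h6
            · rcases h5.1 (Or.inr ⟨h6, h7⟩) with h8 | h8
              · rw [h6] at h8; exact absurd h8 (lt_irrefl _)
              · exact Or.inr h8
          · rintro (h6 | ⟨h6, h7⟩)
            · exact Or.inl h6
            · rcases h5.2 (Or.inr ⟨h6, h7⟩) with h8 | h8
              · rw [h6] at h8; exact absurd h8 (lt_irrefl _)
              · exact Or.inr h8
        · rw [lexF_neg, lexF_neg]
          have h5 := h3.1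
          rw [lexF_pos, lexF_pos] at h5
          rw [h4]
          simp only [AddMonoidHom.neg_apply, Left.neg_neg_iff]
          constructor
          · rintro (h6 | ⟨h6, h7⟩)
            · exact Or.inl h6
            · rcases h5.1 (Or.inr ⟨h6, h7⟩) with h8 | h8
              · rw [h6] at h8; exact absurd h8 (lt_irrefl _)
              · exact Or.inr h8
          · rintro (h6 | ⟨h6, h7⟩)
            · exact Or.inl h6
            · rcases h5.2 (Or.inr ⟨h6, h7⟩) with h8 | h8
              · rw [h6] at h8; exact absurd h8 (lt_irrefl _)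
              · exact Or.inr h8
      have h2 : D.c (xM (x + e • y)) a' = D.c (lexF (xM x) (form h b)) a' := by
        refine D.loc _ _ a' (fun c hc => ?_)
        exact SameSign.trans (hs1 e he0 (lt_of_lt_of_le he1 (min_le_left _ _)) c hc)
          (lex_same hker hyg hsb' c)
      rw [h1, hκ]
      intro h0
      -- all terms are in the cone
      have hinj : Function.Injective (lexF (xM x) (form h b)) :=
        lex_inj nsmul_inj' hker hsb'.ne'
      have hterm : ∀ c, κ c * D.c (lexF (xM x) (form h b)) c ∈ C :=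
        fun c => hPC _ (hκP c) _ (hposall c _ hinj).1
      have hmem : a' ∈ Finset.Iic b := by
        rw [Finset.mem_Iic, hb]
        exact le_self_add
      rw [← Finset.add_sum_erase _ _ hmem] at h0
      have h3 : κ a' * D.c (lexF (xM x) (form h b)) a' = 0 := by
        refine hsal _ (hterm a') ?_
        have h4 : -(κ a' * D.c (lexF (xM x) (form h b)) a') =
            ∑ c ∈ (Finset.Iic b).erase a', κ c * D.c (lexF (xM x) (form h b)) c := by
          linear_combination -h0
        rw [h4]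
        exact C.sum_mem (fun c _ => hterm c)
      rw [h2] at hne
      exact hne ((hκu.mul_right_eq_zero).1 h3)
    · refine ⟨1, one_pos, ?_⟩
      rintro e _ _ ⟨a, ha, _⟩
      exact absurd ⟨a, ha⟩ hm
  · -- N4
    rintro m x hx hneg ⟨e, rfl, hne⟩
    refine hinc (xM x) (fun j hj => ?_) e hne
    rw [xM_apply, uco_single, W_eq]
    exact hneg j hj

end main

end Crest.Agent.R059.Path227
end

-- ▼ part R059/Good_153
section

set_option autoImplicit false

/-!
Row 59 (S0081), helper153: leaf GOOD.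

* `co_conj`: conjugation by series supported in `ζ > 0` does not change a coefficient of weight
  `ζ g = 0` of a series supported in `ζ ≥ 0`.
* `co_prod_E`: the coefficients of `∏_j E(z_j)` at exponents supported on an independent set.
-/

namespace Crest.Agent.R059.Good

open Finset Crest.Agent.R059 TPS

section conj

variable {M : Type*} [AddCommMonoid M] [HasAntidiagonal M] {R : Type*} [CommRing R] {T : Tw M R}
variable {V : Type*} [AddCommGroup V] [LinearOrder V] [IsOrderedAddMonoid V]

/-- multiplication on the right by `1 + (ζ > 0)`. -/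
theorem co_mul_right (ζ : M →+ V) (F p : TPS T) (hp0 : p.co 0 = 1)
    (hp : ∀ d, d ≠ 0 → p.co d ≠ 0 → 0 < ζ d) (hF : ∀ m, F.co m ≠ 0 → 0 ≤ ζ m)
    {g : M} (hg : ζ g ≤ 0) : (F * p).co g = F.co g := by
  classical
  rw [co_mul, Finset.sum_eq_single (g, 0)]
  · rw [wt_zero_right, hp0]; simp
  · rintro ⟨a, b⟩ hab hne
    rw [HasAntidiagonal.mem_antidiagonal] at hab
    by_contra hcon
    have h1 : F.co a ≠ 0 := fun h => hcon (by simp [h])
    have h2 : p.co b ≠ 0 := fun h => hcon (by simp [h])
    have hb : b ≠ 0 := by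
      rintro rfl
      apply hne
      simp only [add_zero] at hab
      rw [hab]
    have h3 := hp b hb h2
    have h4 := hF a h1
    have h5 : ζ a + ζ b = ζ g := by rw [← map_add]; exact congrArg ζ hab
    have h6 : 0 < ζ a + ζ b := add_pos_of_nonneg_of_pos h4 h3
    exact absurd hg (not_le.2 (h5 ▸ h6))
  · intro h; exact absurd (by simp [HasAntidiagonal.mem_antidiagonal]) h

theorem co_mul_left (ζ : M →+ V) (F p : TPS T) (hp0 : p.co 0 = 1)
    (hp : ∀ d, d ≠ 0 → p.co d ≠ 0 → 0 < ζ d) (hF : ∀ m, F.co m ≠ 0 → 0 ≤ ζ m)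
    {g : M} (hg : ζ g ≤ 0) : (p * F).co g = F.co g := by
  classical
  rw [co_mul, Finset.sum_eq_single (0, g)]
  · rw [wt_zero_left, hp0]; simp
  · rintro ⟨a, b⟩ hab hne
    rw [HasAntidiagonal.mem_antidiagonal] at hab
    by_contra hcon
    have h1 : F.co b ≠ 0 := fun h => hcon (by simp [h])
    have h2 : p.co a ≠ 0 := fun h => hcon (by simp [h])
    have ha : a ≠ 0 := by
      rintro rfl
      apply hne
      simp only [zero_add] at hab
      rw [hab]
    have h3 := hp a ha h2
    have h4 := hF b h1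
    have h5 : ζ a + ζ b = ζ g := by rw [← map_add]; exact congrArg ζ hab
    have h6 : 0 < ζ a + ζ b := add_pos_of_pos_of_nonneg h3 h4
    exact absurd hg (not_le.2 (h5 ▸ h6))
  · intro h; exact absurd (by simp [HasAntidiagonal.mem_antidiagonal]) h

theorem supp_mul (ζ : M →+ V) (F p : TPS T) (hp : ∀ d, p.co d ≠ 0 → 0 ≤ ζ d)
    (hF : ∀ m, F.co m ≠ 0 → 0 ≤ ζ m) : ∀ m, (F * p).co m ≠ 0 → 0 ≤ ζ m := by
  classical
  intro m hm
  rw [co_mul] at hm
  obtain ⟨⟨a, b⟩, hab, hne⟩ := Finset.exists_ne_zero_of_sum_ne_zero hm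
  rw [HasAntidiagonal.mem_antidiagonal] at hab
  have h1 : F.co a ≠ 0 := fun h => hne (by simp [h])
  have h2 : p.co b ≠ 0 := fun h => hne (by simp [h])
  have h5 : ζ a + ζ b = ζ m := by rw [← map_add]; exact congrArg ζ hab
  rw [← h5]
  exact add_nonneg (hF a h1) (hp b h2)

/-- **(G1)** -/
theorem co_conj (ζ : M →+ V) (F p p' : TPS T) (hp0 : p.co 0 = 1) (hp0' : p'.co 0 = 1)
    (hp : ∀ d, d ≠ 0 → p.co d ≠ 0 → 0 < ζ d) (hp' : ∀ d, d ≠ 0 → p'.co d ≠ 0 → 0 < ζ d)
    (hF : ∀ m, F.co m ≠ 0 → 0 ≤ ζ m) {g : M} (hg : ζ g ≤ 0) :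
    (p' * F * p).co g = F.co g := by
  have h1 : ∀ m, (p' * F).co m ≠ 0 → 0 ≤ ζ m := by
    refine supp_mul ζ p' F hF (fun d hd => ?_)
    by_cases h0 : d = 0
    · subst h0; simp
    · exact (hp' d h0 hd).le
  rw [co_mul_right ζ (p' * F) p hp0 hp h1 hg, co_mul_left ζ F p' hp0' hp' hF hg]

end conj

section prodE

variable {M : Type*} [AddCommMonoid M] [HasAntidiagonal M] {R : Type*} [CommRing R] {T : Tw M R}
variable {ι : Type*} [DecidableEq ι]

/-- indicator vector. -/
def ind (I : Finset ι) : ι → ℕ := fun i => if i ∈ I then 1 else 0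





/-- abstract independent set generating series. -/
structure EData (T : Tw M R) (ι : Type*) [DecidableEq ι] where
  /-- the exponents. -/
  U : (ι → ℕ) →+ M
  U_inj : Function.Injective U
  /-- independent sets. -/
  indep : Finset ι → Prop
  indep_mono : ∀ I J, I ⊆ J → indep J → indep I
  /-- the unit. -/
  t : R
  /-- the generating series. -/
  E : R → TPS T
  E_supp : ∀ z d, (E z).co d ≠ 0 → ∃ I, indep I ∧ d = U (ind I)
  E_co : ∀ z I, indep I → (E z).co (U (ind I)) = t ^ I.card * z ^ I.card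
  β_indep : ∀ (S : Finset ι), indep S → ∀ a b : ι → ℕ, (∀ c, c ∉ S → a c = 0) →
    (∀ c, c ∉ S → b c = 0) → T.β (U a) (U b) = 0

variable (D : EData T ι)



end prodE

end Crest.Agent.R059.Good
end

-- ▼ part R059/End_157
section

set_option autoImplicit false

open Crest.CombinatoricsR.UnitInterval MvPolynomial

namespace Crest.Agent.R059.End157

open Crest.Agent.R059

variable {K : Type*} [CommRing K]

/-- polynomials in the elementary symmetric polynomials with coefficients in `P`. -/
noncomputable def PE (N : ℕ) (P : Subsemiring K) : Subsemiring (MvPolynomial (Fin N) K) :=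
  Subsemiring.closure ({f | ∃ a ∈ P, f = C a} ∪ {f | ∃ k, f = esymm (Fin N) K k})





/-- elements of the multiplicative closure of the generators. -/
theorem gen_form {N : ℕ} {P : Subsemiring K} {f : MvPolynomial (Fin N) K}
    (hf : f ∈ Submonoid.closure ({f : MvPolynomial (Fin N) K | ∃ a ∈ P, f = C a} ∪
      {f | ∃ k, f = esymm (Fin N) K k})) :
    ∃ a ∈ P, ∃ s : Multiset ℕ, f = C a * (s.map (fun k => esymm (Fin N) K k)).prod := by
  induction hf using Submonoid.closure_induction with
  | mem x hx =>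
    rcases hx with ⟨a, ha, rfl⟩ | ⟨k, rfl⟩
    · exact ⟨a, ha, 0, by simp⟩
    · exact ⟨1, P.one_mem, {k}, by simp⟩
  | one => exact ⟨1, P.one_mem, 0, by simp⟩
  | mul x y _ _ hx hy =>
    obtain ⟨a, ha, s, rfl⟩ := hx
    obtain ⟨b, hb, t, rfl⟩ := hy
    refine ⟨a * b, P.mul_mem ha hb, s + t, ?_⟩
    rw [Multiset.map_add, Multiset.prod_add, C_mul]
    ring

theorem homog_prod_esymm (N : ℕ) (s : Multiset ℕ) :
    ((s.map (fun k => esymm (Fin N) K k)).prod).IsHomogeneous s.sum := by
  have h1 : ∀ k, (esymm (Fin N) K k).IsHomogeneous k := by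
    intro k
    unfold esymm
    apply IsHomogeneous.sum
    intro t ht
    rw [Finset.mem_powersetCard] at ht
    have := IsHomogeneous.prod t (fun i => (X i : MvPolynomial (Fin N) K)) (fun _ => 1)
      (fun i _ => isHomogeneous_X K i)
    simpa [ht.2] using this
  induction s using Multiset.induction_on with
  | empty => simpa using isHomogeneous_one (Fin N) K
  | cons a s ih =>
    rw [Multiset.map_cons, Multiset.prod_cons, Multiset.sum_cons]
    exact (h1 a).mul ih

theorem prod_esymm_eq (N : ℕ) {n : ℕ} (s : Multiset ℕ) (hs : s.sum = n) :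
    (s.map (fun k => esymm (Fin N) K k)).prod = esymmPart (Fin N) K (Nat.Partition.ofSums n s hs) := by
  unfold esymmPart
  have h1 : (Nat.Partition.ofSums n s hs).parts = s.filter (· ≠ 0) := rfl
  rw [h1]
  clear h1 hs
  induction s using Multiset.induction_on with
  | empty => simp
  | cons a s ih =>
    by_cases ha : a = 0
    · subst ha
      rw [Multiset.map_cons, Multiset.prod_cons, ih, esymm_zero, one_mul,
        Multiset.filter_cons_of_neg s (p := fun x => x ≠ 0) (by simp)]
    · rw [Multiset.map_cons, Multiset.prod_cons, ih, Multiset.filter_cons_of_pos s (p := fun x => x ≠ 0) ha,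
        Multiset.map_cons, Multiset.prod_cons]

/-- the degree `n` part of an element of `PE` is a `P`-combination of the `e_μ`, `μ ⊢ n`. -/
theorem comp_of_mem {N : ℕ} {P : Subsemiring K} (n : ℕ) {f : MvPolynomial (Fin N) K}
    (hf : f ∈ PE N P) : ∃ c : Nat.Partition n → K, (∀ μ, c μ ∈ P) ∧
      homogeneousComponent n f = ∑ μ, C (c μ) * esymmPart (Fin N) K μ := by
  classical
  unfold PE at hf
  rw [Subsemiring.mem_closure_iff] at hf
  induction hf using AddSubmonoid.closure_induction with
  | mem x hx =>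
    obtain ⟨a, ha, s, rfl⟩ := gen_form hx
    by_cases hs : s.sum = n
    · refine ⟨fun μ => if μ = Nat.Partition.ofSums n s hs then a else 0, ?_, ?_⟩
      · intro μ
        beta_reduce
        split_ifs
        · exact ha
        · exact P.zero_mem
      · rw [homogeneousComponent_of_mem ((homog_prod_esymm N s).C_mul a), if_pos hs.symm,
          prod_esymm_eq N s hs, Finset.sum_eq_single (Nat.Partition.ofSums n s hs)]
        · simp only [if_true]
        · intro ν _ hν
          beta_reduce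
          rw [if_neg hν, C_0, zero_mul]
        · intro h; exact absurd (Finset.mem_univ _) h
    · refine ⟨fun _ => 0, fun _ => P.zero_mem, ?_⟩
      rw [homogeneousComponent_of_mem ((homog_prod_esymm N s).C_mul a), if_neg (Ne.symm hs)]
      simp
  | zero => exact ⟨fun _ => 0, fun _ => P.zero_mem, by simp⟩
  | add x y _ _ hx hy =>
    obtain ⟨c, hc, hc'⟩ := hx
    obtain ⟨d, hd, hd'⟩ := hy
    refine ⟨fun μ => c μ + d μ, fun μ => P.add_mem (hc μ) (hd μ), ?_⟩
    rw [map_add, hc', hd', ← Finset.sum_add_distrib]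
    apply Finset.sum_congr rfl
    intro μ _
    rw [C_add, add_mul]

theorem map_esymmPart {R S : Type*} [CommRing R] [CommRing S] (φ : R →+* S) {n N : ℕ}
    (μ : Nat.Partition n) :
    MvPolynomial.map φ (esymmPart (Fin N) R μ) = esymmPart (Fin N) S μ := by
  unfold esymmPart
  rw [map_multiset_prod, Multiset.map_map]
  congr 1
  apply Multiset.map_congr rfl
  intro p _
  exact map_esymm (Fin N) R p φ

/-- **END**: `e`-positivity from one positive expression of a multiple of the image of `X_G`. -/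
theorem EPos_of_mem {n N : ℕ} (hN : n ≤ N) (h : Fin n → ℕ) (hh : IsHessenberg h)
    (P : Subsemiring K) (φ : Polynomial ℤ →+* K) (u : K)
    (hP : ∀ p : Polynomial ℤ, u * φ p ∈ P → ∀ k, 0 ≤ p.coeff k)
    (hF : C u * MvPolynomial.map φ (chromaticQSym h N) ∈ PE N P) : EPos h := by
  classical
  obtain ⟨c, hc⟩ := Stab.exists_expansion h hh
  obtain ⟨d, hd, hd'⟩ := comp_of_mem n hF
  have h1 : C u * MvPolynomial.map φ (chromaticQSym h N) =
      ∑ μ, C (u * φ (c μ)) * esymmPart (Fin N) K μ := by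
    rw [hc N, map_sum, Finset.mul_sum]
    apply Finset.sum_congr rfl
    intro μ _
    rw [map_mul, map_C, map_esymmPart, C_mul, mul_assoc]
  have hhom : (C u * MvPolynomial.map φ (chromaticQSym h N)).IsHomogeneous n := by
    rw [h1]
    apply IsHomogeneous.sum
    intro μ _
    exact (Stab.homog_esymmPart μ).C_mul _
  rw [homogeneousComponent_of_mem hhom, if_pos rfl, h1] at hd'
  have h2 : ∑ μ, C (u * φ (c μ) - d μ) * esymmPart (Fin N) K μ = 0 := by
    simp only [C_sub, sub_mul, Finset.sum_sub_distrib]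
    rw [hd', sub_self]
  have h3 := Palin.esymmPart_indep hN _ h2
  have h4 : ∀ μ, ∃ r : Polynomial ℕ, cast r = c μ := fun μ =>
    Stab.exists_cast (c μ) (hP (c μ) (by rw [sub_eq_zero.1 (h3 μ)]; exact hd μ))
  choose r hr using h4
  refine ⟨r, fun M => ?_⟩
  rw [hc M]
  apply Finset.sum_congr rfl
  intro μ _
  rw [← hr μ]

end Crest.Agent.R059.End157
end

-- ▼ part R059/Link_157
section

set_option autoImplicit false

open Crest.CombinatoricsR.UnitInterval Finset

namespace Crest.Agent.R059.Link157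

open Crest.Agent.R059 TPS

section general

variable {M : Type*} [AddCommMonoid M] {R : Type*} [CommRing R] (T : Tw M R)

/-- expansion of an ordered product of sums of monomials. -/
theorem prod_ofFn_sum [HasAntidiagonal M] {α : Type*} [Fintype α] (N : ℕ) (m : Fin N → α → M)
    (r : Fin N → α → R) :
    (List.ofFn (fun c => ∑ x : α, mono T (m c x) (r c x))).prod =
      ∑ x : Fin N → α, mono T (∑ c, m c (x c))
        (((T.v ^ (∑ c, ∑ c', if c < c' then T.β (m c (x c)) (m c' (x c')) else 0) : Rˣ) : R) *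
          ∏ c, r c (x c)) := by
  induction N with
  | zero => simp [one_def]
  | succ N ih =>
    rw [List.ofFn_succ, List.prod_cons, ih (fun c => m c.succ) (fun c => r c.succ),
      Finset.sum_mul_sum, ← Fintype.sum_prod_type']
    apply Fintype.sum_equiv (Fin.consEquiv (fun _ => α))
    rintro ⟨a, y⟩
    rw [mono_mul_mono]
    have e1 : (Fin.consEquiv (fun _ : Fin (N + 1) => α)) (a, y) = Fin.cons a y := rfl
    rw [e1]
    simp only [Fin.sum_univ_succ, Fin.prod_univ_succ, Fin.cons_zero, Fin.cons_succ,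
      Fin.succ_pos, Fin.not_lt_zero, Fin.succ_lt_succ_iff, if_true, if_false, zero_add]
    congr 1
    rw [wt, map_sum, zpow_add, Units.val_mul]
    ring

theorem co_sum {ι : Type*} (s : Finset ι) (f : ι → TPS T) (d : M) :
    (∑ i ∈ s, f i).co d = ∑ i ∈ s, (f i).co d := by
  classical
  induction s using Finset.induction_on with
  | empty => simp
  | insert a s ha ih => rw [Finset.sum_insert ha, Finset.sum_insert ha, co_add, ih]

variable {n : ℕ}

/-- the class `u_I`. -/
def uS (U : Fin n → M) (I : Finset (Fin n)) : M := ∑ i ∈ I, U i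

/-- independent sets. -/
def Indep (adj : Fin n → Fin n → Prop) (I : Finset (Fin n)) : Prop := ∀ a ∈ I, ∀ b ∈ I, ¬ adj a b

open Classical in
/-- `E(z) = ∑_{I independent} z^|I| Y_{u_I}`. -/
noncomputable def Ez (adj : Fin n → Fin n → Prop) (U : Fin n → M) (z : R) : TPS T :=
  ∑ I ∈ (Finset.univ : Finset (Finset (Fin n))).filter (Indep adj), mono T (uS U I) (z ^ I.card)

theorem mono_zero (m : M) : mono T m (0 : R) = 0 := by
  classical
  ext d
  rw [co_mono]
  simp

open Classical in
theorem Ez_eq (adj : Fin n → Fin n → Prop) (U : Fin n → M) (z : R) :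
    Ez T adj U z = ∑ I : Finset (Fin n), mono T (uS U I) (if Indep adj I then z ^ I.card else 0) := by
  unfold Ez
  rw [Finset.sum_filter]
  apply Finset.sum_congr rfl
  intro I _
  split_ifs
  · rfl
  · rw [mono_zero]

/-- `F = E(z_0) E(z_1) ⋯ E(z_{N-1})`. -/
noncomputable def Fz [HasAntidiagonal M] {N : ℕ} (adj : Fin n → Fin n → Prop) (U : Fin n → M)
    (z : Fin N → R) : TPS T :=
  (List.ofFn (fun c => Ez T adj U (z c))).prod

/-- exponent of `v` in a term. -/
def expo {N : ℕ} (U : Fin n → M) (y : Fin n → Finset (Fin N)) : ℤ :=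
  ∑ i, ∑ j, T.β (U i) (U j) *
    (((Finset.univ : Finset (Fin N × Fin N)).filter
      (fun p => p.1 < p.2 ∧ p.1 ∈ y i ∧ p.2 ∈ y j)).card : ℤ)

/-- transposition of families of subsets. -/
def tr {n N : ℕ} (x : Fin N → Finset (Fin n)) : Fin n → Finset (Fin N) :=
  fun i => Finset.univ.filter (fun c => i ∈ x c)

theorem mem_tr {n N : ℕ} (x : Fin N → Finset (Fin n)) (i : Fin n) (c : Fin N) :
    c ∈ tr x i ↔ i ∈ x c := by simp [tr]

theorem tr_tr {n N : ℕ} (x : Fin N → Finset (Fin n)) : tr (tr x) = x := by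
  funext c
  ext i
  rw [mem_tr, mem_tr]

/-- transposition as an equivalence. -/
def trE (n N : ℕ) : (Fin N → Finset (Fin n)) ≃ (Fin n → Finset (Fin N)) where
  toFun := tr
  invFun := tr
  left_inv := tr_tr
  right_inv := tr_tr

theorem expo_eq {N : ℕ} (U : Fin n → M) (x : Fin N → Finset (Fin n)) :
    (∑ c, ∑ c', if c < c' then T.β (uS U (x c)) (uS U (x c')) else 0) = expo T U (tr x) := by
  classical
  unfold expo
  have h1 : ∀ c c' : Fin N, (if c < c' then T.β (uS U (x c)) (uS U (x c')) else 0) =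
      ∑ i : Fin n, ∑ j : Fin n, if c < c' ∧ i ∈ x c ∧ j ∈ x c' then T.β (U i) (U j) else 0 := by
    intro c c'
    unfold uS
    by_cases h : c < c'
    · simp only [h, if_true, true_and, map_sum, AddMonoidHom.finsetSum_apply]
      rw [Finset.sum_comm]
      rw [← Finset.sum_filter_add_sum_filter_not (Finset.univ : Finset (Fin n)) (fun i => i ∈ x c)]
      rw [Finset.sum_eq_zero (s := Finset.univ.filter (fun i => ¬ i ∈ x c))]
      · rw [add_zero]
        have e1 : (Finset.univ : Finset (Fin n)).filter (fun i => i ∈ x c) = x c := by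
          ext i; simp
        rw [e1]
        apply Finset.sum_congr rfl
        intro i hi
        simp only [hi, true_and]
        rw [← Finset.sum_filter]
        congr 1
        ext j; simp
      · intro i hi
        rw [Finset.mem_filter] at hi
        simp [hi.2]
    · simp [h]
  simp only [h1]
  have h2 : ∀ i j : Fin n, T.β (U i) (U j) *
    (((Finset.univ : Finset (Fin N × Fin N)).filter
      (fun p => p.1 < p.2 ∧ p.1 ∈ tr x i ∧ p.2 ∈ tr x j)).card : ℤ) =
      ∑ c : Fin N, ∑ c' : Fin N,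
        if c < c' ∧ i ∈ x c ∧ j ∈ x c' then T.β (U i) (U j) else 0 := by
    intro i j
    rw [← Fintype.sum_prod_type' (f := fun c c' => if c < c' ∧ i ∈ x c ∧ j ∈ x c' then
      T.β (U i) (U j) else 0), ← Finset.sum_filter, Finset.sum_const, nsmul_eq_mul, mul_comm]
    simp only [mem_tr]
  simp only [h2]
  have h3 : ∀ (f : Fin N → Fin N → Fin n → Fin n → ℤ),
      ∑ c, ∑ c', ∑ i, ∑ j, f c c' i j = ∑ i, ∑ j, ∑ c, ∑ c', f c c' i j := by
    intro f
    calc ∑ c, ∑ c', ∑ i, ∑ j, f c c' i j = ∑ c, ∑ i, ∑ c', ∑ j, f c c' i j :=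
          Finset.sum_congr rfl (fun c _ => Finset.sum_comm)
      _ = ∑ i, ∑ c, ∑ c', ∑ j, f c c' i j := Finset.sum_comm
      _ = ∑ i, ∑ c, ∑ j, ∑ c', f c c' i j :=
          Finset.sum_congr rfl (fun i _ => Finset.sum_congr rfl (fun c _ => Finset.sum_comm))
      _ = ∑ i, ∑ j, ∑ c, ∑ c', f c c' i j :=
          Finset.sum_congr rfl (fun i _ => Finset.sum_comm)
  exact h3 _

theorem sum_uS {N : ℕ} (U : Fin n → M) (x : Fin N → Finset (Fin n)) :
    ∑ c, uS U (x c) = ∑ i, (tr x i).card • U i := by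
  classical
  unfold uS
  have h1 : ∀ c, ∑ i ∈ x c, U i = ∑ i : Fin n, if i ∈ x c then U i else 0 := by
    intro c
    rw [← Finset.sum_filter]
    congr 1
    ext i; simp
  simp only [h1]
  rw [Finset.sum_comm]
  apply Finset.sum_congr rfl
  intro i _
  rw [← Finset.sum_filter, Finset.sum_const]
  congr 2

theorem prod_pow_eq {N : ℕ} (z : Fin N → R) (x : Fin N → Finset (Fin n)) :
    ∏ c, z c ^ (x c).card = ∏ i, ∏ c ∈ tr x i, z c := by
  classical
  have h1 : ∀ c, z c ^ (x c).card = ∏ i : Fin n, if i ∈ x c then z c else 1 := by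
    intro c
    rw [← Finset.prod_filter, Finset.prod_const]
    congr 2
    ext i; simp
  simp only [h1]
  rw [Finset.prod_comm]
  apply Finset.prod_congr rfl
  intro i _
  rw [← Finset.prod_filter]
  congr 1

open Classical in
/-- **general coefficient formula.** -/
theorem co_Fz [HasAntidiagonal M] {N : ℕ} (adj : Fin n → Fin n → Prop) (U : Fin n → M)
    (hU : Function.Injective (fun g : Fin n → ℕ => ∑ i, g i • U i)) (z : Fin N → R)
    (g : Fin n → ℕ) :
    (Fz T adj U z).co (∑ i, g i • U i) =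
      ∑ y ∈ (Finset.univ : Finset (Fin n → Finset (Fin N))).filter
        (fun y => (∀ i, (y i).card = g i) ∧ ∀ a b, adj a b → Disjoint (y a) (y b)),
        ((T.v ^ expo T U y : Rˣ) : R) * ∏ i, ∏ c ∈ y i, z c := by
  unfold Fz
  have h0 : (fun c => Ez T adj U (z c)) = fun c => ∑ I : Finset (Fin n),
      mono T (uS U I) (if Indep adj I then z c ^ I.card else 0) := by
    funext c
    exact Ez_eq T adj U (z c)
  rw [h0, prod_ofFn_sum T N (fun _ I => uS U I), co_sum]
  rw [Finset.sum_filter]
  apply Fintype.sum_equiv (trE n N)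
  intro x
  have e1 : (trE n N) x = tr x := rfl
  rw [e1, co_mono, sum_uS, expo_eq]
  have h1 : (∑ i, g i • U i = ∑ i, (tr x i).card • U i) ↔ ∀ i, (tr x i).card = g i := by
    constructor
    · intro h i
      have := hU h
      exact (congrFun this i).symm
    · intro h
      exact Finset.sum_congr rfl (fun i _ => by rw [h i])
  have h2 : (∀ c, Indep adj (x c)) ↔ ∀ a b, adj a b → Disjoint (tr x a) (tr x b) := by
    constructor
    · intro h a b hab
      rw [Finset.disjoint_left]
      intro c hc hc'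
      rw [mem_tr] at hc hc'
      exact h c a hc b hc' hab
    · intro h c a ha b hb hab
      exact Finset.disjoint_left.1 (h a b hab) ((mem_tr x a c).2 ha) ((mem_tr x b c).2 hb)
  by_cases hc : ∀ i, (tr x i).card = g i
  · rw [if_pos (h1.2 hc)]
    by_cases hi : ∀ c, Indep adj (x c)
    · rw [if_pos ⟨hc, h2.1 hi⟩, ← prod_pow_eq]
      congr 1
      exact Finset.prod_congr rfl (fun c _ => if_pos (hi c))
    · rw [if_neg (fun h => hi (h2.2 h.2))]
      push Not at hi
      obtain ⟨c, hc'⟩ := hi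
      rw [Finset.prod_eq_zero (Finset.mem_univ c) (if_neg hc'), mul_zero]
  · rw [if_neg (fun h => hc (h1.1 h)), if_neg (fun h => hc h.1)]

open Classical in
/-- **good classes** (Step 1): independent support. -/
theorem co_Fz_good [HasAntidiagonal M] {N : ℕ} (adj : Fin n → Fin n → Prop) (U : Fin n → M)
    (hU : Function.Injective (fun g : Fin n → ℕ => ∑ i, g i • U i)) (z : Fin N → R)
    (g : Fin n → ℕ) (hg : ∀ a b, 0 < g a → 0 < g b → ¬ adj a b)
    (hβ : ∀ a b, 0 < g a → 0 < g b → T.β (U a) (U b) = 0) :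
    (Fz T adj U z).co (∑ i, g i • U i) =
      ∏ i, ∑ A ∈ Finset.powersetCard (g i) (Finset.univ : Finset (Fin N)), ∏ c ∈ A, z c := by
  rw [co_Fz T adj U hU z g, Finset.prod_univ_sum]
  have h1 : (Finset.univ : Finset (Fin n → Finset (Fin N))).filter
        (fun y => (∀ i, (y i).card = g i) ∧ ∀ a b, adj a b → Disjoint (y a) (y b)) =
      Fintype.piFinset (fun i => Finset.powersetCard (g i) (Finset.univ : Finset (Fin N))) := by
    ext y
    simp only [Finset.mem_filter, Finset.mem_univ, true_and, Fintype.mem_piFinset,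
      Finset.mem_powersetCard, Finset.subset_univ]
    constructor
    · exact fun h => h.1
    · intro h
      refine ⟨h, fun a b hab => ?_⟩
      rcases Nat.eq_zero_or_pos (g a) with ha | ha
      · rw [← h a, Finset.card_eq_zero] at ha
        rw [ha]
        exact Finset.disjoint_empty_left _
      · rcases Nat.eq_zero_or_pos (g b) with hb | hb
        · rw [← h b, Finset.card_eq_zero] at hb
          rw [hb]
          exact Finset.disjoint_empty_right _
        · exact absurd hab (hg a b ha hb)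
  rw [h1]
  apply Finset.sum_congr rfl
  intro y hy
  rw [Fintype.mem_piFinset] at hy
  have h2 : expo T U y = 0 := by
    unfold expo
    apply Finset.sum_eq_zero
    intro i _
    apply Finset.sum_eq_zero
    intro j _
    have hi := (Finset.mem_powersetCard.1 (hy i)).2
    have hj := (Finset.mem_powersetCard.1 (hy j)).2
    rcases Nat.eq_zero_or_pos (g i) with ha | ha
    · rw [ha, Finset.card_eq_zero] at hi
      simp [hi]
    · rcases Nat.eq_zero_or_pos (g j) with hb | hb
      · rw [hb, Finset.card_eq_zero] at hj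
        simp [hj]
      · rw [hβ i j ha hb, zero_mul]
  rw [h2, zpow_zero, Units.val_one, one_mul]

open Classical in
/-- the thin coefficient as a sum over proper colourings. -/
theorem co_Fz_thin [HasAntidiagonal M] {N : ℕ} (adj : Fin n → Fin n → Prop) (U : Fin n → M)
    (hU : Function.Injective (fun g : Fin n → ℕ => ∑ i, g i • U i)) (z : Fin N → R) :
    (Fz T adj U z).co (∑ i, U i) =
      ∑ f ∈ (Finset.univ : Finset (Fin n → Fin N)).filter (fun f => ∀ a b, adj a b → f a ≠ f b),
        ((T.v ^ (∑ i, ∑ j, if f i < f j then T.β (U i) (U j) else 0) : Rˣ) : R) *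
          ∏ i, z (f i) := by
  have h0 : ∑ i, U i = ∑ i, (fun _ : Fin n => 1) i • U i := by simp
  rw [h0, co_Fz T adj U hU z (fun _ => 1)]
  symm
  refine Finset.sum_bij' (fun (f : Fin n → Fin N) _ => fun i => ({f i} : Finset (Fin N)))
    (fun y hy => fun i => (Finset.card_eq_one.1 ((Finset.mem_filter.1 hy).2.1 i)).choose)
    ?_ ?_ ?_ ?_ ?_
  · intro f hf
    rw [Finset.mem_filter] at hf ⊢
    refine ⟨Finset.mem_univ _, fun i => Finset.card_singleton _, fun a b hab => ?_⟩
    rw [Finset.disjoint_singleton]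
    exact hf.2 a b hab
  · intro y hy
    rw [Finset.mem_filter]
    refine ⟨Finset.mem_univ _, fun a b hab => ?_⟩
    have h1 := (Finset.card_eq_one.1 ((Finset.mem_filter.1 hy).2.1 a)).choose_spec
    have h2 := (Finset.card_eq_one.1 ((Finset.mem_filter.1 hy).2.1 b)).choose_spec
    have h3 := (Finset.mem_filter.1 hy).2.2 a b hab
    intro h4
    rw [h1, h2, Finset.disjoint_singleton] at h3
    exact h3 h4
  · intro f hf
    funext i
    have h2 := (Finset.card_eq_one.1 (Finset.card_singleton (f i))).choose_spec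
    exact (Finset.singleton_injective h2).symm
  · intro y hy
    funext i
    exact (Finset.card_eq_one.1 ((Finset.mem_filter.1 hy).2.1 i)).choose_spec.symm
  · intro f hf
    have e1 : expo T U (fun i => ({f i} : Finset (Fin N))) =
        ∑ i, ∑ j, if f i < f j then T.β (U i) (U j) else 0 := by
      unfold expo
      apply Finset.sum_congr rfl
      intro i _
      apply Finset.sum_congr rfl
      intro j _
      by_cases h : f i < f j
      · have : (Finset.univ : Finset (Fin N × Fin N)).filter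
            (fun p => p.1 < p.2 ∧ p.1 ∈ ({f i} : Finset (Fin N)) ∧
              p.2 ∈ ({f j} : Finset (Fin N))) = {(f i, f j)} := by
          ext ⟨c, c'⟩
          simp only [Finset.mem_filter, Finset.mem_univ, true_and, Finset.mem_singleton,
            Prod.mk.injEq]
          constructor
          · exact fun h => h.2
          · rintro ⟨rfl, rfl⟩
            exact ⟨h, rfl, rfl⟩
        rw [this, Finset.card_singleton, if_pos h]
        simp
      · have : (Finset.univ : Finset (Fin N × Fin N)).filter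
            (fun p => p.1 < p.2 ∧ p.1 ∈ ({f i} : Finset (Fin N)) ∧
              p.2 ∈ ({f j} : Finset (Fin N))) = ∅ := by
          rw [Finset.filter_eq_empty_iff]
          rintro ⟨c, c'⟩ _
          simp only [Finset.mem_singleton]
          rintro ⟨h1, rfl, rfl⟩
          exact h h1
        rw [this, Finset.card_empty, if_neg h]
        simp
    rw [e1]
    simp

end general

section chrom

variable {n : ℕ}

/-- the form on the classes of the vertices. -/
def sgE (h : Fin n → ℕ) (i j : Fin n) : ℤ := if IsEdge h i j then (if i < j then 1 else -1) else 0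

theorem isEdge_symm {h : Fin n → ℕ} {a b : Fin n} (hab : IsEdge h a b) : IsEdge h b a := by
  unfold IsEdge at hab ⊢
  exact hab.symm

theorem isEdge_irrefl {h : Fin n → ℕ} {a : Fin n} : ¬ IsEdge h a a := by
  unfold IsEdge
  rintro (h | h) <;> exact lt_irrefl _ h.1

theorem sum_sgE {N : ℕ} (h : Fin n → ℕ) (f : Fin n → Fin N)
    (hf : ∀ a b : Fin n, IsEdge h a b → f a ≠ f b) :
    (∑ i, ∑ j, if f i < f j then sgE h i j else 0) =
      2 * (ascents h f : ℤ) - (Palin.ne h : ℤ) := by
  classical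
  have h1 : (∑ i, ∑ j, if f i < f j then sgE h i j else 0) =
      ∑ p : Fin n × Fin n, (if p.1 < p.2 ∧ IsEdge h p.1 p.2 ∧ f p.1 < f p.2 then (1 : ℤ) else 0) -
      ∑ p : Fin n × Fin n, (if p.1 < p.2 ∧ IsEdge h p.1 p.2 ∧ f p.2 < f p.1 then (1 : ℤ) else 0) := by
    have h2 : ∑ p : Fin n × Fin n,
        (if p.1 < p.2 ∧ IsEdge h p.1 p.2 ∧ f p.2 < f p.1 then (1 : ℤ) else 0) =
        ∑ p : Fin n × Fin n,
        (if p.2 < p.1 ∧ IsEdge h p.1 p.2 ∧ f p.1 < f p.2 then (1 : ℤ) else 0) := by
      apply Fintype.sum_equiv (Equiv.prodComm (Fin n) (Fin n))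
      rintro ⟨a, b⟩
      simp only [Equiv.prodComm_apply, Prod.swap_prod_mk]
      have : IsEdge h a b ↔ IsEdge h b a := ⟨isEdge_symm, isEdge_symm⟩
      exact if_congr (and_congr_right fun _ => and_congr_left fun _ => this) rfl rfl
    rw [h2, ← Finset.sum_sub_distrib, ← Fintype.sum_prod_type'
      (f := fun i j => if f i < f j then sgE h i j else 0)]
    apply Finset.sum_congr rfl
    rintro ⟨a, b⟩ _
    simp only [sgE]
    by_cases e : IsEdge h a b
    · rcases lt_trichotomy a b with hl | hl | hl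
      · simp [e, hl, hl.not_gt]
      · exact absurd (hl ▸ e) isEdge_irrefl
      · simp [e, hl, hl.not_gt]
        split_ifs <;> simp
    · simp [e]
  rw [h1, ← Finset.sum_filter, ← Finset.sum_filter]
  simp only [Finset.sum_const, nsmul_eq_mul, mul_one]
  have h3 : ascents h f + ((Finset.univ : Finset (Fin n × Fin n)).filter
      (fun p => p.1 < p.2 ∧ IsEdge h p.1 p.2 ∧ f p.2 < f p.1)).card = Palin.ne h := by
    unfold ascents Palin.ne
    rw [← Finset.card_union_of_disjoint]
    · congr 1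
      ext p
      simp only [Finset.mem_union, Finset.mem_filter, Finset.mem_univ, true_and]
      constructor
      · rintro (h1 | h1)
        · exact ⟨h1.1, h1.2.1⟩
        · exact ⟨h1.1, h1.2.1⟩
      · rintro ⟨h1, h2⟩
        rcases lt_or_gt_of_ne (hf p.1 p.2 h2) with h3 | h3
        · exact Or.inl ⟨h1, h2, h3⟩
        · exact Or.inr ⟨h1, h2, h3⟩
    · rw [Finset.disjoint_left]
      intro p h1 h2
      rw [Finset.mem_filter] at h1 h2
      exact lt_asymm h1.2.2.2 h2.2.2.2
  have h4 : ((Finset.univ : Finset (Fin n × Fin n)).filter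
      (fun p => p.1 < p.2 ∧ IsEdge h p.1 p.2 ∧ f p.1 < f p.2)).card = ascents h f := rfl
  rw [h4]
  omega

variable {M : Type*} [AddCommMonoid M] [HasAntidiagonal M] {K : Type*} [CommRing K]

/-- `ℤ[q] → K`, `q ↦ v^{2b}`. -/
noncomputable def phi (v : Kˣ) (b : ℤ) : Polynomial ℤ →+* K :=
  Polynomial.eval₂RingHom (Int.castRingHom K) ((v ^ (2 * b) : Kˣ) : K)

theorem phi_X (v : Kˣ) (b : ℤ) : phi v b Polynomial.X = ((v ^ (2 * b) : Kˣ) : K) := by
  simp [phi]

/-- **LINK**: the thin coefficient is the chromatic quasisymmetric function. -/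
theorem thin_eq {N : ℕ} (h : Fin n → ℕ) (T : Tw M (MvPolynomial (Fin N) K)) (v : Kˣ)
    (hv : T.v = Units.map (MvPolynomial.C : K →+* MvPolynomial (Fin N) K).toMonoidHom v) (b : ℤ)
    (U : Fin n → M) (hU : Function.Injective (fun g : Fin n → ℕ => ∑ i, g i • U i))
    (hβ : ∀ i j, T.β (U i) (U j) = b * sgE h i j) (w : K) :
    (Fz T (IsEdge h) U (fun c => MvPolynomial.C w * MvPolynomial.X c)).co (∑ i, U i) =
      MvPolynomial.C (w ^ n * ((v ^ (-(b * Palin.ne h)) : Kˣ) : K)) *
        MvPolynomial.map (phi v b) (chromaticQSym h N) := by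
  classical
  rw [co_Fz_thin T (IsEdge h) U hU]
  unfold chromaticQSym
  rw [map_sum, Finset.mul_sum]
  apply Finset.sum_congr
  · ext f; simp
  intro f hf
  rw [Finset.mem_filter] at hf
  have e1 : (∑ i, ∑ j, if f i < f j then T.β (U i) (U j) else 0) =
      b * (2 * (ascents h f : ℤ) - (Palin.ne h : ℤ)) := by
    rw [← sum_sgE h f hf.2, Finset.mul_sum]
    apply Finset.sum_congr rfl
    intro i _
    rw [Finset.mul_sum]
    apply Finset.sum_congr rfl
    intro j _
    rw [hβ]
    split_ifs <;> simp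
  have e2 : ((T.v ^ (b * (2 * (ascents h f : ℤ) - (Palin.ne h : ℤ))) :
      (MvPolynomial (Fin N) K)ˣ) : MvPolynomial (Fin N) K) =
      MvPolynomial.C (((v ^ (-(b * Palin.ne h)) : Kˣ) : K) *
        ((v ^ (2 * b) : Kˣ) : K) ^ ascents h f) := by
    rw [hv, ← map_zpow]
    have : v ^ (b * (2 * (ascents h f : ℤ) - (Palin.ne h : ℤ))) =
        v ^ (-(b * Palin.ne h)) * (v ^ (2 * b)) ^ ascents h f := by
      rw [← zpow_natCast, ← zpow_mul, ← zpow_add]
      congr 1
      ring
    rw [this, Units.coe_map, Units.val_mul, Units.val_pow_eq_pow_val]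
    rfl
  rw [e1, e2]
  simp only [map_mul, map_prod, MvPolynomial.map_C, map_pow, phi_X, Finset.prod_mul_distrib,
    MvPolynomial.map_X, Finset.prod_const, Finset.card_univ, Fintype.card_fin]
  ring

/-- Step 1: the good classes give products of elementary symmetric polynomials. -/
theorem good_eq {N : ℕ} (h : Fin n → ℕ) (T : Tw M (MvPolynomial (Fin N) K))
    (b : ℤ) (U : Fin n → M) (hU : Function.Injective (fun g : Fin n → ℕ => ∑ i, g i • U i))
    (hβ : ∀ i j, T.β (U i) (U j) = b * sgE h i j) (w : K) (g : Fin n → ℕ)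
    (hg : ∀ a b, 0 < g a → 0 < g b → ¬ IsEdge h a b) :
    (Fz T (IsEdge h) U (fun c => MvPolynomial.C w * MvPolynomial.X c)).co (∑ i, g i • U i) =
      MvPolynomial.C (w ^ (∑ i, g i)) * ∏ i, MvPolynomial.esymm (Fin N) K (g i) := by
  classical
  rw [co_Fz_good T (IsEdge h) U hU _ g hg (by
    intro a b' ha hb
    rw [hβ, sgE, if_neg (hg a b' ha hb), mul_zero])]
  rw [← Finset.prod_pow_eq_pow_sum, map_prod, ← Finset.prod_mul_distrib]
  apply Finset.prod_congr rfl
  intro i _
  unfold MvPolynomial.esymm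
  rw [Finset.mul_sum]
  apply Finset.sum_congr rfl
  intro A hA
  rw [Finset.prod_mul_distrib, Finset.prod_const, (Finset.mem_powersetCard.1 hA).2, map_pow]

end chrom

end Crest.Agent.R059.Link157
end

-- ▼ part R059/End2_157
section

set_option autoImplicit false

open Crest.CombinatoricsR.UnitInterval MvPolynomial

namespace Crest.Agent.R059.End157

open Crest.Agent.R059

/-- Laurent series over `ℚ` with nonnegative coefficients. -/
def LSpos : Subsemiring (LaurentSeries ℚ) where
  carrier := {f | ∀ k : ℤ, 0 ≤ f.coeff k}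
  mul_mem' := by
    intro a b ha hb k
    rw [HahnSeries.coeff_mul]
    apply Finset.sum_nonneg
    intro p _
    exact mul_nonneg (ha p.1) (hb p.2)
  one_mem' := by
    intro k
    rw [HahnSeries.coeff_one]
    split_ifs <;> norm_num
  add_mem' := by
    intro a b ha hb k
    rw [HahnSeries.coeff_add]
    exact add_nonneg (ha k) (hb k)
  zero_mem' := by
    intro k
    rw [HahnSeries.coeff_zero]


/-- `hP` of `EPos_of_mem` for `u = τ^c`, `q ↦ τ^e`, `e ≠ 0`. -/
theorem LS_hP (φ : Polynomial ℤ →+* LaurentSeries ℚ) (c e : ℤ) (he : e ≠ 0)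
    (hφ : φ Polynomial.X = HahnSeries.single e 1) (p : Polynomial ℤ)
    (hp : (HahnSeries.single c 1 : LaurentSeries ℚ) * φ p ∈ LSpos) (k : ℕ) : 0 ≤ p.coeff k := by
  have h1 : ∀ j : ℕ, (HahnSeries.single e (1 : ℚ) : LaurentSeries ℚ) ^ j =
      HahnSeries.single (e * j) 1 := by
    intro j
    rw [HahnSeries.single_pow, one_pow]
    congr 2
    simp [mul_comm]
  have h2 : (HahnSeries.single c 1 : LaurentSeries ℚ) * φ p =
      ∑ j ∈ Finset.range (p.natDegree + 1),
        HahnSeries.single (c + e * j) ((p.coeff j : ℤ) : ℚ) := by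
    conv_lhs => rw [p.as_sum_range]
    rw [map_sum, Finset.mul_sum]
    apply Finset.sum_congr rfl
    intro j _
    rw [← Polynomial.C_mul_X_pow_eq_monomial, map_mul, map_pow, hφ, h1]
    have h3 : φ (Polynomial.C (p.coeff j)) = HahnSeries.single 0 ((p.coeff j : ℤ) : ℚ) := by
      have : (Polynomial.C (p.coeff j) : Polynomial ℤ) = ((p.coeff j : ℤ) : Polynomial ℤ) := by
        simp
      rw [this, map_intCast]
      rfl
    rw [h3, HahnSeries.single_mul_single, HahnSeries.single_mul_single]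
    congr 1
    · ring_nf
    · ring
  have h4 := hp (c + e * k)
  rw [h2] at h4
  have h5 : (∑ j ∈ Finset.range (p.natDegree + 1),
      (HahnSeries.single (c + e * j) ((p.coeff j : ℤ) : ℚ) : LaurentSeries ℚ)).coeff (c + e * k) =
      ((p.coeff k : ℤ) : ℚ) := by
    rw [HahnSeries.coeff_sum]
    by_cases hk : k ∈ Finset.range (p.natDegree + 1)
    · rw [Finset.sum_eq_single k]
      · rw [HahnSeries.coeff_single_same]
      · intro j _ hj
        rw [HahnSeries.coeff_single_of_ne]
        intro h6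
        apply hj
        have h7 : e * (k : ℤ) = e * j := by linarith
        have h8 := mul_left_cancel₀ he h7
        exact_mod_cast h8.symm
      · intro h6; exact absurd hk h6
    · rw [Finset.sum_eq_zero]
      · have : p.coeff k = 0 := by
          apply Polynomial.coeff_eq_zero_of_natDegree_lt
          rw [Finset.mem_range, not_lt] at hk
          omega
        rw [this]; simp
      · intro j hj
        rw [HahnSeries.coeff_single_of_ne]
        intro h6
        have h7 : e * (k : ℤ) = e * j := by linarith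
        have h8 := mul_left_cancel₀ he h7
        have h9 : k = j := by exact_mod_cast h8
        exact hk (h9 ▸ hj)
  rw [h5] at h4
  exact_mod_cast h4

/-- **END** over `LaurentSeries ℚ`. -/
theorem EPos_of_LS {n N : ℕ} (hN : n ≤ N) (h : Fin n → ℕ) (hh : IsHessenberg h)
    (φ : Polynomial ℤ →+* LaurentSeries ℚ) (c e : ℤ) (he : e ≠ 0)
    (hφ : φ Polynomial.X = HahnSeries.single e 1)
    (hF : C (HahnSeries.single c 1 : LaurentSeries ℚ) * MvPolynomial.map φ (chromaticQSym h N) ∈
      PE N LSpos) : EPos h :=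
  EPos_of_mem hN h hh LSpos φ (HahnSeries.single c 1) (LS_hP φ c e he hφ) hF

end Crest.Agent.R059.End157
end

-- ▼ part R059/Final_157
section

set_option autoImplicit false

open Crest.CombinatoricsR.UnitInterval

namespace Crest.Agent.R059.Final157

open Crest.Agent.R059 TPS

variable {n : ℕ}

theorem e_eq_sgE (h : Fin n → ℕ) (i j : Fin n) : Kill59.e h i j = Link157.sgE h i j := by
  unfold Kill59.e Link157.sgE IsEdge
  rcases lt_trichotomy i j with hl | hl | hl
  · have h1 := hl.not_gt
    by_cases h2 : (j : ℕ) + 1 ≤ h i <;> simp [hl, h1, h2]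
  · subst hl; simp
  · have h1 := hl.not_gt
    by_cases h2 : (i : ℕ) + 1 ≤ h j <;> simp [hl, h1, h2]

theorem ux_inj : Function.Injective (fun g : Fin n → ℕ => ∑ i, g i • ux i) := by
  intro g g' hg
  have h1 : uco (ex g) = uco (ex g') := congrArg uco hg
  rw [uco_ex, uco_ex] at h1
  funext i
  exact_mod_cast congrFun h1 i

theorem EE_eq (R : Type*) [CommRing R] [Algebra KK R] (h : Fin n → ℕ) (z : R) :
    EE R h z = Link157.Ez (tw R (form h)) (IsEdge h) ux (algebraMap KK R tau * z) := by
  classical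
  unfold EE Link157.Ez
  apply Finset.sum_congr
  · ext S
    simp only [indep, Finset.mem_filter, Finset.mem_powerset, Finset.subset_univ, true_and,
      Finset.mem_univ, Link157.Indep]
    constructor
    · intro hS a ha b hb hab
      rcases hab with hab | hab
      · exact hS a ha b hb hab.1 hab.2
      · exact hS b hb a ha hab.1 hab.2
    · intro hS a ha b hb hab hab'
      exact hS a ha b hb (Or.inl ⟨hab, hab'⟩)
  · intro S _
    rfl

theorem FF_eq (h : Fin n → ℕ) (N : ℕ) :
    FF h N = Link157.Fz (tw (MvPolynomial (Fin N) KK) (form h)) (IsEdge h) ux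
      (fun c => MvPolynomial.C (tau : KK) * MvPolynomial.X c) := by
  unfold FF Link157.Fz
  congr 2
  funext j
  rw [EE_eq]
  rfl

theorem form_ux (h : Fin n → ℕ) (i j : Fin n) :
    form h (ux i) (ux j) = 1 * Link157.sgE h i j := by
  rw [form_apply, uco_ux, uco_ux, Kill59.s_u_u, e_eq_sgE, one_mul]

theorem thin_eq_sum : (thin : Fin n →₀ ℕ) = ∑ i, ux i := by
  unfold thin ex
  simp

/-- the thin coefficient of `F`. -/
theorem FF_thin (h : Fin n → ℕ) (N : ℕ) :
    (FF h N).co thin =
      MvPolynomial.C ((tau : KK) ^ n * (((tau⁻¹) ^ (-(1 * Palin.ne h : ℤ)) : KKˣ) : KK)) *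
        MvPolynomial.map (Link157.phi tau⁻¹ 1) (chromaticQSym h N) := by
  rw [FF_eq, thin_eq_sum]
  exact Link157.thin_eq h (tw (MvPolynomial (Fin N) KK) (form h)) tau⁻¹ rfl 1 ux ux_inj
    (form_ux h) _

/-- the coefficient of a class with independent support. -/
theorem FF_ex (h : Fin n → ℕ) (N : ℕ) (g : Fin n → ℕ)
    (hg : ∀ a b, 0 < g a → 0 < g b → ¬ IsEdge h a b) :
    (FF h N).co (ex g) =
      MvPolynomial.C ((tau : KK) ^ (∑ i, g i)) * ∏ i, MvPolynomial.esymm (Fin N) KK (g i) := by
  rw [FF_eq]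
  exact Link157.good_eq h (tw (MvPolynomial (Fin N) KK) (form h)) 1 ux ux_inj
    (form_ux h) _ g hg

theorem FF_ex_mem (h : Fin n → ℕ) (N : ℕ) (g : Fin n → ℕ)
    (hg : ∀ a b, 0 < g a → 0 < g b → ¬ IsEdge h a b) : (FF h N).co (ex g) ∈ PE N := by
  rw [FF_ex h N g hg]
  apply (PE N).mul_mem
  · apply Subsemiring.subset_closure
    refine Or.inl ⟨_, ?_, rfl⟩
    have := tau_zpow_mem ((∑ i, g i : ℕ) : ℤ)
    rwa [zpow_natCast, Units.val_pow_eq_pow_val] at this
  · exact (PE N).prod_mem (fun i _ => Subsemiring.subset_closure (Or.inr ⟨_, rfl⟩))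

/-- **END** in the frozen language. -/
theorem EPos_of_thin {N : ℕ} (hN : n ≤ N) (h : Fin n → ℕ) (hh : IsHessenberg h)
    (hF : (FF h N).co thin ∈ PE N) : EPos h := by
  rw [FF_thin] at hF
  obtain ⟨c, hc⟩ : ∃ c : ℤ, ((tau : KK) ^ n * (((tau⁻¹) ^ (-(1 * Palin.ne h : ℤ)) : KKˣ) : KK)) =
      HahnSeries.single c (1 : ℚ) := by
    exact ⟨_, by rw [← Units.val_pow_eq_pow_val, ← Units.val_mul, ← zpow_natCast, inv_zpow',
      neg_neg, ← zpow_add, one_mul, tau_zpow]⟩
  obtain ⟨e, h2, he⟩ : ∃ e : ℤ, Link157.phi (tau⁻¹ : KKˣ) 1 Polynomial.X =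
      HahnSeries.single e (1 : ℚ) ∧ e ≠ 0 := by
    refine ⟨_, by rw [Link157.phi_X, inv_zpow', tau_zpow], by norm_num⟩
  rw [hc] at hF
  exact End157.EPos_of_LS hN h hh _ c e he h2 hF

/-- **S0081** from the thin coefficients of the connected graphs. -/
theorem main_of_thin
    (H : ∀ (n : ℕ) (h : Fin n → ℕ), IsHessenberg h →
      (∀ i : Fin n, (i : ℕ) + 1 < n → (i : ℕ) + 2 ≤ h i) → ∃ N, n ≤ N ∧ (FF h N).co thin ∈ PE N) :
    ∀ (n : ℕ) (h : Fin n → ℕ), IsHessenberg h →
      ∃ θ : {σ : Equiv.Perm (Fin n) // σ ∈ descentSet h} → Nat.Partition n,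
        ∀ N : ℕ, chromaticQSym h N =
          ∑ σ : {σ : Equiv.Perm (Fin n) // σ ∈ descentSet h},
            MvPolynomial.C (Polynomial.X ^ ginv h σ.1) *
              MvPolynomial.esymmPart (Fin N) (Polynomial ℤ) (θ σ) :=
  main_of_EPos (MutConn.EPos_of_conn (fun n h hh hc => by
    obtain ⟨N, hN, hG⟩ := H n h hh hc
    exact EPos_of_thin hN h hh hG))

end Crest.Agent.R059.Final157
end

-- ▼ part R059/GoodB_153
section

set_option autoImplicit false

/-!
Row 59 (S0081), helper153: leaf GOOD in the frozen language of `Grnd_883` / `Fac_150`.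

* dictionary `form h a (ux c) = phi h (uco a) c`, `form h a (b_{j+1}) = K h (uco a) j`;
* `supp_FF`: `FF h N` is supported on `ex m`, `m ∈ ℕ^n`;
* `good_T`: `T_g = [g] F` if `s(g, u_c) ≥ 0` for all `c`;
* `good_mem`: `T_g ∈ PE N` in that case.
-/

namespace Crest.Agent.R059.Good

open Finset Crest.Agent.R059 TPS Crest.CombinatoricsR.UnitInterval

variable {n : ℕ}

/-! ### dictionary -/

theorem sg_eq_e (h : Fin n → ℕ) (a b : Fin n) : Kill.sg h a b = Kill59.e h a b := rfl



theorem W_eq (j : ℕ) (hj : j + 1 < n) : Kill.W j hj = Kill59.W j hj := rfl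



/-- `s(a, b) = ∑_c s(a, u_c) b_c`. -/
theorem form_eq_sum (h : Fin n → ℕ) (a b : Fin n →₀ ℕ) :
    form h a b = ∑ c, Kill.phi h (uco a) c * uco b c := by
  rw [form_apply]
  unfold Kill59.s Kill.phi
  rw [Finset.sum_comm]
  refine Finset.sum_congr rfl fun c _ => ?_
  rw [Finset.sum_mul]
  refine Finset.sum_congr rfl fun d _ => ?_
  rw [sg_eq_e]; ring

theorem exists_ex_of_nonneg (g : Fin n →₀ ℕ) (hg : ∀ c, 0 ≤ uco g c) :
    ∃ m : Fin n → ℕ, g = ex m := by
  refine ⟨fun c => (uco g c).toNat, uco_injective ?_⟩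
  rw [uco_ex]
  funext c
  exact (Int.toNat_of_nonneg (hg c)).symm



theorem ex_ind (S : Finset (Fin n)) : ex (ind S) = ∑ i ∈ S, ux i := by
  unfold ex ind
  rw [← Finset.sum_filter_add_sum_filter_not Finset.univ (fun i => i ∈ S)]
  rw [Finset.sum_congr rfl (g := fun i => ux i) (fun i hi => by
      rw [if_pos (Finset.mem_filter.1 hi).2, one_smul]),
    Finset.sum_congr rfl (g := fun _ => (0 : Fin n →₀ ℕ))
      (s₁ := Finset.univ.filter (fun i => ¬ i ∈ S)) (fun i hi => by
      rw [if_neg (Finset.mem_filter.1 hi).2, zero_smul])]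
  simp

/-! ### support -/

/-- supported on the cone of the `u_i`. -/
def UCone (d : Fin n →₀ ℕ) : Prop := ∀ c, 0 ≤ uco d c

theorem uCone_iff (d : Fin n →₀ ℕ) : UCone d ↔ ∃ m : Fin n → ℕ, d = ex m := by
  constructor
  · exact exists_ex_of_nonneg d
  · rintro ⟨m, rfl⟩ c
    rw [uco_ex]; positivity

theorem UCone.add {a b : Fin n →₀ ℕ} (ha : UCone a) (hb : UCone b) : UCone (a + b) := by
  intro c
  rw [uco_add]; exact add_nonneg (ha c) (hb c)

theorem uCone_zero : UCone (0 : Fin n →₀ ℕ) := by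
  intro c
  rw [uco_zero]; exact le_rfl

theorem supp_EE (R : Type*) [CommRing R] [Algebra KK R] (h : Fin n → ℕ) (z : R)
    (d : Fin n →₀ ℕ) (hd : (EE R h z).co d ≠ 0) : UCone d := by
  classical
  unfold EE at hd
  rw [Link157.co_sum] at hd
  obtain ⟨S, _, hS⟩ := Finset.exists_ne_zero_of_sum_ne_zero hd
  rw [co_mono] at hS
  split_ifs at hS with h1
  · rw [uCone_iff]
    exact ⟨ind S, by rw [ex_ind]; exact h1⟩
  · exact absurd rfl hS

theorem supp_list_prod {R : Type*} [CommRing R] {T : Tw (Fin n →₀ ℕ) R} (L : List (TPS T))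
    (hL : ∀ f ∈ L, ∀ d, f.co d ≠ 0 → UCone d) (d : Fin n →₀ ℕ) (hd : L.prod.co d ≠ 0) :
    UCone d := by
  classical
  induction L generalizing d with
  | nil =>
    rw [List.prod_nil, co_one] at hd
    split_ifs at hd with h0
    · subst h0; exact uCone_zero
    · exact absurd rfl hd
  | cons f L ih =>
    rw [List.prod_cons, co_mul] at hd
    obtain ⟨⟨a, b⟩, hab, hne⟩ := Finset.exists_ne_zero_of_sum_ne_zero hd
    rw [HasAntidiagonal.mem_antidiagonal] at hab
    have h1 : f.co a ≠ 0 := fun h => hne (by simp [h])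
    have h2 : L.prod.co b ≠ 0 := fun h => hne (by simp [h])
    simp only at hab
    rw [← hab]
    exact UCone.add (hL f (List.mem_cons_self ..) a h1)
      (ih (fun f' hf' => hL f' (List.mem_cons_of_mem _ hf')) b h2)

/-- `F` is supported on `ℕ^n`. -/
theorem supp_FF (h : Fin n → ℕ) (N : ℕ) (d : Fin n →₀ ℕ) (hd : (FF h N).co d ≠ 0) : UCone d := by
  unfold FF at hd
  refine supp_list_prod _ ?_ d hd
  intro f hf
  obtain ⟨j, rfl⟩ := (List.mem_ofFn' _ f).1 hf
  exact supp_EE _ h _

theorem supp_FF' (h : Fin n → ℕ) (N : ℕ) (d : Fin n →₀ ℕ) (hd : (FF h N).co d ≠ 0) :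
    ∃ m : Fin n → ℕ, d = ex m := (uCone_iff d).1 (supp_FF h N d hd)


/-! ### the good classes -/

/-- **GOOD**, any ring and any `F` supported on `ℕ^n`. -/
theorem good_co {R : Type*} [CommRing R] {T : Tw (Fin n →₀ ℕ) R} (h : Fin n → ℕ)
    (A F : TPS T) (hF : ∀ d, F.co d ≠ 0 → UCone d) (g : Fin n →₀ ℕ)
    (hg : ∀ c, 0 ≤ Kill.phi h (uco g) c) : (conj (form h g) A F).co g = F.co g := by
  have h0 : form h g g = 0 := by
    have := form_skew h g g
    omega
  have hp := in1_pos (form h g) A
  have hi := hp.inv (closed_pos (form h g))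
  unfold conj cj
  refine co_conj (form h g) F _ _ (pos_co_zero _ _) (inv_zero _) (fun d hd hne => ?_)
    (fun d hd hne => ?_) (fun d hd => ?_) h0.le
  · by_contra hcon
    exact hne (hp.2 d hd hcon)
  · by_contra hcon
    exact hne (hi.2 d hd hcon)
  · rw [form_eq_sum]
    exact Finset.sum_nonneg fun c _ => mul_nonneg (hg c) (hF d hd c)

/-- **(G3)** `T_g = [g] F` for the good `g`. -/
theorem good_T (h : Fin n → ℕ) (N : ℕ)
    (A : TPS (tw (MvPolynomial (Fin N) KK) (form h))) (g : Fin n →₀ ℕ)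
    (hg : ∀ c, 0 ≤ Kill.phi h (uco g) c) :
    (conj (form h g) A (FF h N)).co g = (FF h N).co g :=
  good_co h A (FF h N) (supp_FF h N) g hg

/-- the support of a good class is independent. -/
theorem good_not_edge {h : Fin n → ℕ} {m : Fin n → ℕ}
    (hg : ∀ c, 0 ≤ Kill.phi h (uco (ex m)) c) (a b : Fin n) (ha : 0 < m a) (hb : 0 < m b) :
    ¬ IsEdge h a b := by
  have h0 : ∀ c, 0 ≤ uco (ex m) c := (uCone_iff _).2 ⟨m, rfl⟩
  have h1 : ∀ c, uco (ex m) c = (m c : ℤ) := fun c => by rw [uco_ex]
  rintro (⟨hab, he⟩ | ⟨hab, he⟩)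
  · rcases Kill.indep_of_good h0 hg a b hab he with h2 | h2 <;> rw [h1] at h2 <;> omega
  · rcases Kill.indep_of_good h0 hg b a hab he with h2 | h2 <;> rw [h1] at h2 <;> omega

/-- `[g] F ∈ PE N` for the good `g`. -/
theorem good_FF_mem (h : Fin n → ℕ) (N : ℕ) (g : Fin n →₀ ℕ)
    (hg : ∀ c, 0 ≤ Kill.phi h (uco g) c) : (FF h N).co g ∈ PE N := by
  by_cases hm : ∃ m : Fin n → ℕ, g = ex m
  · obtain ⟨m, rfl⟩ := hm
    exact Final157.FF_ex_mem h N m (fun a b ha hb => good_not_edge hg a b ha hb)
  · have : (FF h N).co g = 0 := by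
      by_contra hne
      exact hm (supp_FF' h N g hne)
    rw [this]
    exact (PE N).zero_mem

/-- **GOOD**: `T_g ∈ PE N` for the good `g`. -/
theorem good_mem (h : Fin n → ℕ) (N : ℕ)
    (A : TPS (tw (MvPolynomial (Fin N) KK) (form h))) (g : Fin n →₀ ℕ)
    (hg : ∀ c, 0 ≤ Kill.phi h (uco g) c) : (conj (form h g) A (FF h N)).co g ∈ PE N := by
  rw [good_T h N A g hg]
  exact good_FF_mem h N g hg

/-- all `T_g` are in `PE N` once the bad ones vanish. -/
theorem T_mem (h : Fin n → ℕ) (N : ℕ)
    (A : TPS (tw (MvPolynomial (Fin N) KK) (form h)))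
    (hbad : ∀ g : Fin n →₀ ℕ, (∃ c, Kill.phi h (uco g) c < 0) →
      (conj (form h g) A (FF h N)).co g = 0) (g : Fin n →₀ ℕ) :
    (conj (form h g) A (FF h N)).co g ∈ PE N := by
  by_cases hg : ∀ c, 0 ≤ Kill.phi h (uco g) c
  · exact good_mem h N A g hg
  · push Not at hg
    rw [hbad g hg]
    exact (PE N).zero_mem

/-! ### the increasing chamber -/

/-- in a chamber where `A` has no positive part nothing is conjugated. -/
theorem conj_of_nonpos {M : Type*} [AddCommMonoid M] [PartialOrder M]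
    [IsOrderedCancelAddMonoid M] [CanonicallyOrderedAdd M] [WellFoundedLT M] [HasAntidiagonal M]
    {R : Type*} [CommRing R] {T : Tw M R} {V : Type*} [AddCommGroup V] [LinearOrder V]
    [IsOrderedAddMonoid V] (x : M →+ V) {A : TPS T} (hA : In1 (fun d => x d ≤ 0) A) (F : TPS T) :
    conj x A F = F := by
  unfold conj
  rw [pos_of_nonpos x hA, cj_one]

end Crest.Agent.R059.Good
end

-- ▼ part R059/Cross_195
section

set_option autoImplicit false

/-!
Row 59 (S0081), leaf D4: crossing positivity for finite products of dilogarithm factors.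

`DilGen T E` = all dilogarithm factors `dil T e p a` of classes `e ∈ E` (`E` mutually commuting).
For `z ∈ Submonoid.closure (DilGen T E)`:
* `z * g * inv z` has coefficients in `S` if `g` has and `β m e - β e m = 2 K ≥ 0` (`e ∈ E`, `m` in
  the support of `g`),
* `inv z * g * z` has coefficients in `S` if `g` has and `β m e - β e m = - 2 K ≤ 0`.
-/

namespace Crest.Agent.R059

open Finset PowerSeries Dilog344 Trans569

namespace TPS

section basic

variable {M : Type*} [AddCommMonoid M] {R : Type*} [CommRing R] {T : Tw M R}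


variable (T) in
/-- exponents which have the same pairings with `E` as `m`. -/
def SameCom (E : Set M) (m d : M) : Prop :=
  ∀ e ∈ E, T.β d e - T.β e d = T.β m e - T.β e m

theorem SameCom.refl (E : Set M) (m : M) : SameCom T E m m := fun _ _ => rfl



variable [HasAntidiagonal M]



end basic

section fac

variable {M : Type*} [AddCommMonoid M] [PartialOrder M] [IsOrderedCancelAddMonoid M]
  [CanonicallyOrderedAdd M] [WellFoundedLT M] [HasAntidiagonal M]
variable {R : Type*} [CommRing R] {T : Tw M R}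






end fac

section ker

variable {ι : Type*} {V : Type} [AddCommGroup V] [LinearOrder V] [IsOrderedAddMonoid V]


variable {R : Type*} [CommRing R] {T : Tw (ι →₀ ℕ) R}



end ker

section ker2

variable {ι : Type*} [DecidableEq ι] {V : Type} [AddCommGroup V] [LinearOrder V]
  [IsOrderedAddMonoid V] {R : Type*} [CommRing R]
  {T : Tw (ι →₀ ℕ) R}



end ker2

end TPS

end Crest.Agent.R059
namespace Crest.Agent.R059.TPS.Supp
end Crest.Agent.R059.TPS.Supp
end

-- ▼ part R059/CrossT_195
section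

set_option autoImplicit false

/-!
Row 59 (S0081), leaf D4, second part: expansion of a conjugation into monomials, leading
coefficient and full bend of an odd dilogarithm factor.
-/

namespace Crest.Agent.R059

open Finset PowerSeries Dilog344

namespace TPS

section expand

variable {ι : Type*} [DecidableEq ι] {R : Type*} [CommRing R] {T : Tw (ι →₀ ℕ) R}





/-- **(K3)** full bend of an odd factor: coefficient of `Y_{m + K c}` in `E Y_m E⁻¹`,
`K = ` half of the pairing, is a power of `v`. -/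
theorem full_bend {c m : ι →₀ ℕ} (hc : Function.Injective (fun k : ℕ => k • c))
    (hq : QReg ((T.v : R) ^ 2)) (hcc : T.β c c = 0) (a : ℤ) {K : ℕ}
    (hm : T.β m c - T.β c m = 2 * K) :
    ∃ b : ℤ, (dil T c true a * Y T m * dili T c true a).co (m + K • c) =
      ((T.v ^ b : Rˣ) : R) := by
  rw [Y, dil_mul_mul_dili hc hq true a (K := K) (supp_mono_com hm)]
  obtain ⟨b, hb⟩ := coeff_XF_top (v := T.v) a K
  refine ⟨T.β m (K • c) + b, ?_⟩
  rw [co_mul, sum_eq_single (m, K • c)]
  · rw [co_mono_self, one_mul, co_ev_nsmul hc, pw_one_of c hcc, mul_one, hb, wt, zpow_add,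
      Units.val_mul]
  · rintro ⟨a', b'⟩ hp hne
    rw [HasAntidiagonal.mem_antidiagonal] at hp
    have ha : a' ≠ m := by
      rintro rfl
      apply hne
      have : b' = K • c := add_left_cancel hp
      rw [this]
    simp only
    rw [co_mono_ne ha]; ring
  · intro h; exact absurd (by simp [HasAntidiagonal.mem_antidiagonal]) h


end expand

end TPS

end Crest.Agent.R059
end

-- ▼ part R059/MainT2_227
section

/-!
Row 59 (S0081), helper227.  Assembly of (T2') and of the `e`-positivity for connected graphs: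
* `crossPos_face`, `plainWalls_face`: from `A' = Ψ A_W` to the face `A_W`;
* `thin_mem_PE`: `(FF h N).co thin ∈ PE N` from the crossing positivity and the plain walls of `A_W`
  and the monomial positivity of `F^x`.
-/

set_option autoImplicit false
set_option linter.unusedSectionVars false

open Crest.CombinatoricsR.UnitInterval Crest.Agent.R059.MutConn

namespace Crest.Agent.R059.MainT2

open Crest.Agent.R059 TPS Trans569 Path227 EPsi998 Dilog344

section maps

variable {M : Type*} [AddCommMonoid M] [PartialOrder M] [IsOrderedCancelAddMonoid M]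
  [CanonicallyOrderedAdd M] [WellFoundedLT M] [Finset.HasAntidiagonal M]
variable {R S : Type*} [CommRing R] [CommRing S] {T : Tw M R}
variable {V : Type*} [AddCommGroup V] [LinearOrder V] [IsOrderedAddMonoid V]

theorem in1_map {P : M → Prop} {a : TPS T} (φ : R →+* S) (h : In1 P a) :
    In1 P (TPS.map T φ a) :=
  ⟨by rw [co_map, h.one, map_one], fun d hd hP => by rw [co_map, h.supp d hd hP, map_zero]⟩

theorem lft_map (φ : R →+* S) (P : M → Prop) {a : TPS T} (ha : a.co 0 = 1) :
    lft P (TPS.map T φ a) = TPS.map T φ (lft P a) ∧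
      rgt P (TPS.map T φ a) = TPS.map T φ (rgt P a) := by
  have h1 := in1_map φ (in1_lft P a)
  have h2 := in1_map φ (in1_rgt P a)
  have h3 := fac_unique (P := P) (a := TPS.map T φ a) (f := TPS.map T φ (lft P a))
    (g := TPS.map T φ (rgt P a)) h1.one h2.one (fun e he hP => h1.supp e he hP)
    (fun e he hP => h2.supp e he (not_not.2 hP))
    (by rw [← map_mul, lft_mul_rgt P ha])
  exact ⟨h3.1.symm, h3.2.symm⟩


theorem zer_map (φ : R →+* S) (x : M →+ V) {a : TPS T} (ha : a.co 0 = 1) :
    zer x (TPS.map T φ a) = TPS.map T φ (zer x a) := by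
  unfold zer
  have h1 : npos x (TPS.map T φ a) = TPS.map T φ (npos x a) := (lft_map φ _ ha).2
  rw [h1]
  exact (lft_map φ _ (npos_co_zero x a)).1

theorem inv_map (φ : R →+* S) {a : TPS T} (ha : a.co 0 = 1) :
    inv (TPS.map T φ a) = TPS.map T φ (inv a) :=
  inv_eq_of_mul (by rw [co_map, ha, map_one]) (by rw [← map_mul, mul_inv ha, map_one])

end maps

section face

variable {ι : Type} [DecidableEq ι] {R : Type*} [CommRing R] {T : Tw (ι →₀ ℕ) R}
variable {s : (ι →₀ ℕ) →+ (ι →₀ ℕ) →+ ℤ} {P : Subsemiring R}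

/-- the degree with integer values. -/
noncomputable def degZ (deg : (ι →₀ ℕ) →+ ℕ) : (ι →₀ ℕ) →+ ℤ := (Nat.castAddMonoidHom ℤ).comp deg

theorem degZ_apply (deg : (ι →₀ ℕ) →+ ℕ) (d : ι →₀ ℕ) : degZ deg d = (deg d : ℤ) := rfl

/-- the face of `A' = Ψ A_W`. -/
theorem zer_deg {deg : (ι →₀ ℕ) →+ ℕ} {Ψ aW : TPS T} (hΨ : In1 (fun d => 0 < deg d) Ψ)
    (haW : In1 (fun d => deg d = 0) aW) : zer (degZ deg) (Ψ * aW) = aW := by
  have h1 : In1 (fun d => 0 < degZ deg d) Ψ := hΨ.mono (fun d _ hd => by
    rw [degZ_apply]; exact_mod_cast hd)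
  have h2 : In1 (fun d => degZ deg d = 0) aW := haW.mono (fun d _ hd => by
    rw [degZ_apply, hd]; rfl)
  have h3 := pzn_unique' (degZ deg) (a := Ψ * aW) h1 h2 (in1_one (fun d => degZ deg d < 0))
    (by rw [mul_one])
  exact h3.2.1

theorem zer_face {deg : (ι →₀ ℕ) →+ ℕ} {Ψ aW : TPS T} (hΨ : In1 (fun d => 0 < deg d) Ψ)
    (haW : In1 (fun d => deg d = 0) aW) {V : Type} [AddCommGroup V] [LinearOrder V]
    [IsOrderedAddMonoid V] (p : (ι →₀ ℕ) →+ V) :
    zer p aW = zer (lexHom (degZ deg) p) (Ψ * aW) := by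
  have h0 : (Ψ * aW).co 0 = 1 := by rw [co_mul_zero', hΨ.one, haW.one, one_mul]
  rw [(parts_lex (degZ deg) p h0).2.1, zer_deg hΨ haW]

theorem lexHom_eq {V : Type} [AddCommGroup V] [LinearOrder V] [IsOrderedAddMonoid V]
    {W : Type} [AddCommGroup W] [LinearOrder W] [IsOrderedAddMonoid W]
    (x : (ι →₀ ℕ) →+ V) (y : (ι →₀ ℕ) →+ W) (a b : ι →₀ ℕ) :
    lexHom x y a = lexHom x y b ↔ x a = x b ∧ y a = y b := by
  constructor
  · intro h
    have h1 : ofLex (lexHom x y a) = ofLex (lexHom x y b) := by rw [h]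
    exact Prod.ext_iff.1 h1
  · rintro ⟨h1, h2⟩
    exact congrArg toLex (Prod.ext h1 h2)

/-- refinement of a ray functional by the degree. -/
theorem kerRay_lex {deg : (ι →₀ ℕ) →+ ℕ} {V : Type} [AddCommGroup V] [LinearOrder V]
    [IsOrderedAddMonoid V] {p : (ι →₀ ℕ) →+ V} {c : ι →₀ ℕ} (hp : KerRay p c)
    (hc : deg c = 0) : KerRay (lexHom (degZ deg) p) c := by
  refine ⟨hp.1, ?_, ?_⟩
  · have := (lexHom_eq (degZ deg) p c 0).2 ⟨by rw [degZ_apply, hc, map_zero]; rfl,
      by rw [hp.2.1, map_zero]⟩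
    rw [this, map_zero]
  · intro a b hab
    exact hp.2.2 a b ((lexHom_eq (degZ deg) p a b).1 hab).2

theorem zer_face_one {deg : (ι →₀ ℕ) →+ ℕ} {aW : TPS T}
    (haW : In1 (fun d => deg d = 0) aW) {V : Type} [AddCommGroup V] [LinearOrder V]
    [IsOrderedAddMonoid V] {p : (ι →₀ ℕ) →+ V} {c : ι →₀ ℕ} (hp : KerRay p c)
    (hc : deg c ≠ 0) : zer p aW = 1 := by
  have hdeg : ∀ a b : ι →₀ ℕ, deg a = 0 → deg b = 0 → deg (a + b) = 0 := fun a b ha hb => by
    rw [map_add, ha, hb]
  have h1 : In1 (fun d => p d = 0 ∧ deg d = 0) (zer p aW) := haW.zer hdeg p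
  have h2 : ∀ d, d ≠ 0 → (zer p aW).co d = 0 := by
    intro d hd
    refine h1.supp d hd ?_
    rintro ⟨h3, h4⟩
    obtain ⟨k, j, hk, hj, hkj⟩ := hp.sgn h3 hd
    have := congrArg deg hkj
    rw [map_nsmul, map_nsmul, h4, smul_zero, smul_eq_mul] at this
    rcases mul_eq_zero.1 this.symm with h | h
    · omega
    · exact hc h
  classical
  ext d
  rw [co_one]
  split_ifs with h
  · rw [h, zer_co_zero]
  · exact h2 d h

theorem crossPos_face {deg : (ι →₀ ℕ) →+ ℕ} {Ψ aW : TPS T} (hΨ : In1 (fun d => 0 < deg d) Ψ)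
    (haW : In1 (fun d => deg d = 0) aW) (h : CrossPos s P (Ψ * aW)) : CrossPos s P aW := by
  classical
  intro V _ _ _ p c hp m
  by_cases hc : deg c = 0
  · rw [zer_face hΨ haW p]
    exact h (lexHom (degZ deg) p) c (kerRay_lex hp hc) m
  · rw [zer_face_one haW hp hc]
    have hY : NonnegOn P (Y T m) := by
      intro d
      rw [Y, co_mono]
      split_ifs
      · exact P.one_mem
      · exact P.zero_mem
    exact ⟨fun _ => ⟨Y T m, hY, by rw [one_mul, mul_one]⟩,
      fun _ => ⟨Y T m, hY, by rw [one_mul, mul_one]⟩⟩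

end face

section plain

variable {n : ℕ} {h : Fin n → ℕ}

/-- the walls `W_j` are plain: `zer p A = P(τ X_{W_j})`. -/
def PlainWalls {R : Type*} [CommRing R] {T : Tw (Fin n →₀ ℕ) R} (A : TPS T) : Prop :=
  ∀ {V : Type} [AddCommGroup V] [LinearOrder V] [IsOrderedAddMonoid V]
    (p : (Fin n →₀ ℕ) →+ V) (j : ℕ) (hj : j + 1 < n),
    KerRay p (Finsupp.single (⟨j + 1, hj⟩ : Fin n) 1) →
    zer p A = dil T (Finsupp.single (⟨j + 1, hj⟩ : Fin n) 1) true 1

theorem udeg_single (j : ℕ) (hj : j + 1 < n) :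
    udeg n (Finsupp.single (⟨j + 1, hj⟩ : Fin n) 1) = 0 := by
  have hn : 0 < n := by omega
  rw [udeg_apply hn, Finsupp.single_apply, if_neg]
  simp

theorem plainWalls_face {R : Type*} [CommRing R] {T : Tw (Fin n →₀ ℕ) R} {Ψ aW : TPS T}
    (hΨ : In1 (fun d => 0 < udeg n d) Ψ) (haW : In1 (fun d => udeg n d = 0) aW)
    (hp : PlainWalls (Ψ * aW)) : PlainWalls aW := by
  intro V _ _ _ p j hj hker
  rw [zer_face hΨ haW p]
  exact hp _ j hj (kerRay_lex hker (udeg_single j hj))

theorem single_inj (j : ℕ) (hj : j + 1 < n) :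
    Function.Injective (fun k : ℕ => k • (Finsupp.single (⟨j + 1, hj⟩ : Fin n) 1 : Fin n →₀ ℕ)) := by
  intro a b hab
  have := DFunLike.congr_fun hab ⟨j + 1, hj⟩
  simpa using this

/-- the coefficient of the full bend at `W_j` is invertible. -/
def BendUnit (h : Fin n → ℕ) {R : Type*} [CommRing R] {T : Tw (Fin n →₀ ℕ) R} (A : TPS T) : Prop :=
  ∀ {V : Type} [AddCommGroup V] [LinearOrder V] [IsOrderedAddMonoid V]
    (p : (Fin n →₀ ℕ) →+ V) (j : ℕ) (hj : j + 1 < n),
    KerRay p (Finsupp.single (⟨j + 1, hj⟩ : Fin n) 1) → ∀ (a : Fin n →₀ ℕ) (k : ℕ),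
    form h a (Finsupp.single (⟨j + 1, hj⟩ : Fin n) 1) = k →
    IsUnit ((zer p A * Y T a * TPS.inv (zer p A)).co
      (a + k • Finsupp.single (⟨j + 1, hj⟩ : Fin n) 1))

theorem bendUnit_of_plain {R : Type*} [CommRing R] {T : Tw (Fin n →₀ ℕ) R}
    (hT : T.β = form h) (hq : QReg ((T.v : R) ^ 2)) {A : TPS T} (hpl : PlainWalls A) :
    BendUnit h A := by
  intro V _ _ _ p j hj hker a k hak
  set g : Fin n →₀ ℕ := Finsupp.single (⟨j + 1, hj⟩ : Fin n) 1 with hg
  have hgg : form h g g = 0 := by have := form_skew h g g; omega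
  have hz : zer p A = dil T g true 1 := hpl p j hj hker
  have hinj := single_inj j hj
  have hinv : TPS.inv (zer p A) = dili T g true 1 := by
    rw [hz]
    exact inv_eq_of_mul (co_dil_zero hinj true 1) (dil_mul_dili hinj hq true 1)
  have hcc : T.β g g = 0 := by rw [hT]; exact hgg
  have hpair : T.β a g - T.β g a = 2 * (k : ℤ) := by
    rw [hT, hak, form_skew h g a, hak]; ring
  obtain ⟨c, hc⟩ := full_bend hinj hq hcc 1 hpair
  rw [hinv, hz, hc]
  exact Units.isUnit _

theorem map_Y {M : Type*} [AddCommMonoid M] [Finset.HasAntidiagonal M] {R S : Type*} [CommRing R]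
    [CommRing S] (T : Tw M R) (φ : R →+* S) (m : M) :
    Y (T.map φ) m = TPS.map T φ (Y T m) := by
  classical
  ext d
  rw [co_map, Y, Y, co_mono, co_mono]
  split_ifs <;> simp

theorem bendUnit_map {R S : Type*} [CommRing R] [CommRing S] {T : Tw (Fin n →₀ ℕ) R}
    (φ : R →+* S) {A : TPS T} (hA : A.co 0 = 1) (hb : BendUnit h A) :
    BendUnit h (TPS.map T φ A) := by
  intro V _ _ _ p j hj hker a k hak
  have h1 := (hb p j hj hker a k hak).map φ
  rw [zer_map φ p hA, inv_map φ (zer_co_zero p A), map_Y, ← map_mul, ← map_mul, co_map]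
  exact h1

/-- the full bend. -/
theorem fullBend {R : Type*} [CommRing R] {P : Subsemiring R} {T : Tw (Fin n →₀ ℕ) R}
    {A : TPS T} (hA : A.co 0 = 1) (hcr : CrossPos (form h) P A) (hbu : BendUnit h A)
    (F : TPS T) : FullBend (tdata (s := form h) (form_skew h) hA hcr F) := by
  classical
  intro V _ _ _ p j hj hker a k hk hak
  set g : Fin n →₀ ℕ := Finsupp.single (⟨j + 1, hj⟩ : Fin n) 1 with hg
  set b := a + k • g with hb
  have hgg : form h g g = 0 := by have := form_skew h g g; omega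
  have hbg : form h b g = k := by
    rw [hb, map_add, AddMonoidHom.add_apply, map_nsmul, AddMonoidHom.nsmul_apply, hgg, smul_zero,
      add_zero, hak]
  have hbg0 : 0 < form h b g := by rw [hbg]; exact_mod_cast hk
  have hz1 := in1_zer p A
  have hz2 : In1 (fun d => p d = 0) (TPS.inv (zer p A)) := hz1.inv (closed_zero p)
  refine ⟨fun e => (zer p A * Y T e * TPS.inv (zer p A)).co b, ?_, ?_, ?_⟩
  · intro e
    show (zer p A * Y T e * TPS.inv (zer p A)).co b ∈ P
    by_cases h0 : (zer p A * Y T e * TPS.inv (zer p A)).co b = 0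
    · rw [h0]; exact P.zero_mem
    · obtain ⟨r, hr, hmr⟩ := co_sandwich_zero hz1 hz2 h0
      have he : 0 < form h e g := by
        rw [hmr, map_add, AddMonoidHom.add_apply, hker.s_self (form_skew h) hr, add_zero] at hbg0
        exact hbg0
      obtain ⟨U, hU, hUe⟩ := (hcr p g hker e).1 he
      have : zer p A * Y T e * TPS.inv (zer p A) = U := by
        rw [hUe, mul_assoc, TPS.mul_inv (zer_co_zero p A), mul_one]
      rw [this]
      exact hU b
  · exact hbu p j hj hker a k hak
  · exact cross_explicit hA F hker hbg0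

end plain

section main

variable {n : ℕ} {h : Fin n → ℕ}

theorem degree_zero_nonpos (x : (Fin n →₀ ℕ) →+ ℝ)
    (hx : ∀ (j : ℕ) (hj : j + 1 < n), x (Finsupp.single (⟨j + 1, hj⟩ : Fin n) 1) < 0)
    (d : Fin n →₀ ℕ) (hd : udeg n d = 0) : x d ≤ 0 := by
  classical
  have h1 : d = ∑ i, d i • Finsupp.single i 1 := by
    ext k
    rw [Finsupp.finsetSum_apply]
    simp only [Finsupp.smul_apply, Finsupp.single_apply, smul_eq_mul, mul_ite, mul_one, mul_zero]
    rw [Finset.sum_ite_eq']
    simp
  rw [h1, map_sum]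
  refine Finset.sum_nonpos fun i _ => ?_
  rw [map_nsmul]
  by_cases hi : (i : ℕ) = 0
  · have hn : 0 < n := lt_of_le_of_lt (Nat.zero_le _) i.2
    rw [udeg_apply hn] at hd
    have : i = ⟨0, hn⟩ := Fin.ext hi
    rw [this, hd, zero_smul]
  · obtain ⟨j, hj⟩ : ∃ j, (i : ℕ) = j + 1 := ⟨(i : ℕ) - 1, by omega⟩
    have hj' : j + 1 < n := hj ▸ i.2
    have e : i = ⟨j + 1, hj'⟩ := Fin.ext hj
    rw [e]
    exact smul_nonpos_of_nonneg_of_nonpos (Nat.zero_le _) (hx j hj').le

theorem PM_sal (N : ℕ) (a : MvPolynomial (Fin N) KK) (h1 : a ∈ PM N) (h2 : -a ∈ PM N) : a = 0 := by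
  ext m k
  have h3 : ∀ k, 0 ≤ HahnSeries.coeff (a.coeff m) k := h1 m
  have h4 : ∀ k, 0 ≤ HahnSeries.coeff ((-a).coeff m) k := h2 m
  rw [MvPolynomial.coeff_zero]
  have h5 := h4 k
  rw [MvPolynomial.coeff_neg, HahnSeries.coeff_neg] at h5
  have h6 := h3 k
  rw [HahnSeries.coeff_zero]
  linarith

theorem C_mul_PM (N : ℕ) (p : MvPolynomial (Fin N) KK)
    (hp : p ∈ Kpos.map (algebraMap KK (MvPolynomial (Fin N) KK)))
    (a : MvPolynomial (Fin N) KK) (ha : a ∈ PM N) : p * a ∈ PM N := by
  obtain ⟨r, hr, rfl⟩ := hp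
  intro m
  rw [MvPolynomial.algebraMap_eq, MvPolynomial.coeff_C_mul]
  exact Kpos.mul_mem hr (ha m)

theorem C_mul_PE (N : ℕ) (p : MvPolynomial (Fin N) KK)
    (hp : p ∈ Kpos.map (algebraMap KK (MvPolynomial (Fin N) KK)))
    (a : MvPolynomial (Fin N) KK) (ha : a ∈ PE N) : p * a ∈ PE N := by
  obtain ⟨r, hr, rfl⟩ := hp
  exact (PE N).mul_mem (Subsemiring.subset_closure (Or.inl ⟨r, hr, rfl⟩)) ha

/-- crossing positivity after extension of the coefficients. -/
theorem crossPos_map (N : ℕ) {A : TPS (twK (form h))} (hA : A.co 0 = 1)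
    (hcr : CrossPos (form h) Kpos A) :
    CrossPos (form h) (Kpos.map (algebraMap KK (MvPolynomial (Fin N) KK)))
      (TPS.map (twK (form h)) (algebraMap KK (MvPolynomial (Fin N) KK)) A) := by
  intro V _ _ _ p c hp m
  set φ := algebraMap KK (MvPolynomial (Fin N) KK) with hφ
  have hY : Y ((twK (form h)).map φ) m = TPS.map (twK (form h)) φ (Y (twK (form h)) m) := by
    classical
    ext d
    rw [co_map, Y, Y, co_mono, co_mono]
    split_ifs <;> simp
  rw [zer_map φ p hA, hY]
  obtain ⟨h1, h2⟩ := hcr p c hp m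
  constructor
  · intro hm
    obtain ⟨U, hU, hUe⟩ := h1 hm
    exact ⟨TPS.map _ φ U, fun d => ⟨U.co d, hU d, rfl⟩, by rw [← map_mul, ← map_mul, hUe]⟩
  · intro hm
    obtain ⟨U, hU, hUe⟩ := h2 hm
    exact ⟨TPS.map _ φ U, fun d => ⟨U.co d, hU d, rfl⟩, by rw [← map_mul, ← map_mul, hUe]⟩

/-- **MAIN**: the thin coefficient lies in the `e`-cone. -/
theorem thin_mem_PE (hh : IsHessenberg h) (hc : Conn h) (N : ℕ)
    {AW : TPS (twK (form h))} (hAW : In1 (fun d => udeg n d = 0) AW)
    (hcr : CrossPos (form h) Kpos AW) (hbu : BendUnit h AW)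
    (hF : ∀ {V : Type} [AddCommGroup V] [LinearOrder V] [IsOrderedAddMonoid V]
      (x : (Fin n →₀ ℕ) →+ V) (m : Fin n →₀ ℕ),
      (conj x (TPS.map (twK (form h)) (algebraMap KK (MvPolynomial (Fin N) KK)) AW :
        TPS (tw (MvPolynomial (Fin N) KK) (form h))) (FF h N)).co m ∈ PM N) :
    (FF h N).co thin ∈ PE N := by
  classical
  set φ := algebraMap KK (MvPolynomial (Fin N) KK) with hφ
  set A : TPS (tw (MvPolynomial (Fin N) KK) (form h)) := TPS.map (twK (form h)) φ AW with hAdef
  have hA1 : In1 (fun d => udeg n d = 0) A := in1_map φ hAW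
  have hA : A.co 0 = 1 := hA1.one
  have hcrA : CrossPos (form h) (Kpos.map φ) A := crossPos_map N hAW.one hcr
  have hbuA : BendUnit h A := bendUnit_map φ hAW.one hbu
  have hβ : ∀ d e : Fin n →₀ ℕ, form h d e = 0 →
      (tw (MvPolynomial (Fin N) KK) (form h)).β d e =
        (tw (MvPolynomial (Fin N) KK) (form h)).β e d := by
    intro d e hde
    show form h d e = form h e d
    rw [form_skew h e d, hde, neg_zero]
  -- in the increasing chamber nothing is conjugated
  have hchamber : ∀ (x : (Fin n →₀ ℕ) →+ ℝ),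
      (∀ (j : ℕ) (hj : j + 1 < n), x (Finsupp.single (⟨j + 1, hj⟩ : Fin n) 1) < 0) →
      conj x A (FF h N) = FF h N := by
    intro x hx
    exact Good.conj_of_nonpos x (hA1.mono (fun d _ hd => degree_zero_nonpos x hx d hd)) _
  set T : (Fin n →₀ ℕ) → MvPolynomial (Fin N) KK := fun g => (conj (form h g) A (FF h N)).co g
    with hTdef
  have hTC : ∀ g, T g ∈ (PM N).toAddSubmonoid := fun g => hF (form h g) g
  have hT : ∀ g, ∀ {V : Type} [AddCommGroup V] [LinearOrder V] [IsOrderedAddMonoid V]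
      (x : (Fin n →₀ ℕ) →+ V), (conj (lexF (form h g) x) A (FF h N)).co g = T g := by
    intro g V _ _ _ x
    exact terminal_eq hA (FF h N) hβ x g
  have hbad : ∀ g : Fin n →₀ ℕ, (∃ c, Kill.phi h (uco g) c < 0) → T g = 0 := by
    rintro g ⟨c, hcneg⟩
    by_contra hne
    have h1 := path hh hc (tdata (s := form h) (form_skew h) hA hcrA (FF h N))
      (PM N).toAddSubmonoid (fun p hp a ha => C_mul_PM N p hp a ha)
      (fun a ha hna => PM_sal N a ha hna) (fullBend hA hcrA hbuA (FF h N)) T
      (fun g {V} _ _ _ x => hT g x) hTC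
      (fun x hx m hm => by
        rw [tdata_c, hchamber x hx] at hm
        exact Good.supp_FF h N m hm) g hne
    exact absurd hcneg (not_lt.2 (h1.2 c))
  have hPE : ∀ g, T g ∈ PE N := Good.T_mem h N A hbad
  -- a generic functional in the increasing chamber
  obtain ⟨x, hx, hxn, -⟩ := Step4.exists_gen (n := n) 1
  have hxneg : ∀ (j : ℕ) (hj : j + 1 < n),
      xM x (Finsupp.single (⟨j + 1, hj⟩ : Fin n) 1) < 0 := by
    intro j hj
    have := hxn j hj
    rw [Step4.wv_eq hj] at this
    rw [xM_apply, uco_single, Path227.W_eq]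
    exact this
  have h1 := (trans_pos (form_skew h) hβ hA hcrA (FF h N) (PE N).toAddSubmonoid
    (fun p hp a ha => C_mul_PE N p hp a ha) thin (fun g _ => hPE g) (xM x) (gen_inj hx)).1
  rw [hchamber _ hxneg] at h1
  exact h1

/-- what is needed for one connected graph. -/
structure Input (h : Fin n → ℕ) : Prop where
  ex : ∃ AW : TPS (twK (form h)), In1 (fun d => udeg n d = 0) AW ∧
    CrossPos (form h) Kpos AW ∧ BendUnit h AW ∧
    ∀ (N : ℕ) {V : Type} [AddCommGroup V] [LinearOrder V] [IsOrderedAddMonoid V]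
      (x : (Fin n →₀ ℕ) →+ V) (m : Fin n →₀ ℕ),
      (conj x (TPS.map (twK (form h)) (algebraMap KK (MvPolynomial (Fin N) KK)) AW :
        TPS (tw (MvPolynomial (Fin N) KK) (form h))) (FF h N)).co m ∈ PM N

/-- **S0081** from the inputs of all connected graphs. -/
theorem main_of_input (H : ∀ (n : ℕ) (h : Fin n → ℕ), IsHessenberg h → Conn h → Input h) :
    ∀ (n : ℕ) (h : Fin n → ℕ), IsHessenberg h →
      ∃ θ : {σ : Equiv.Perm (Fin n) // σ ∈ descentSet h} → Nat.Partition n,
        ∀ N : ℕ, chromaticQSym h N =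
          ∑ σ : {σ : Equiv.Perm (Fin n) // σ ∈ descentSet h},
            MvPolynomial.C (Polynomial.X ^ ginv h σ.1) *
              MvPolynomial.esymmPart (Fin N) (Polynomial ℤ) (θ σ) :=
  Final157.main_of_thin (fun n h hh hc => by
    obtain ⟨AW, h1, h2, h3, h4⟩ := (H n h hh hc).ex
    exact ⟨n, le_rfl, thin_mem_PE hh hc n h1 h2 h3 (fun {V} _ _ _ x m => h4 n x m)⟩)

end main

end Crest.Agent.R059.MainT2
end

-- ▼ part R059/Glue_227

/-!
Row 59 (S0081), helper227.  Final composition: from the output `ABOut` of Theorems A + B and the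
mutation lemma to the literal statement.
-/

set_option autoImplicit false
set_option linter.unusedSectionVars false

open Crest.CombinatoricsR.UnitInterval Crest.Agent.R059.MutConn

namespace Crest.Agent.R059.Glue227

open Crest.Agent.R059 TPS Trans569 EPsi998 Dilog344 Wall999 Frame436 MutIso CrossGlue998 Tr201

section exist

variable {ι : Type} [DecidableEq ι]

/-- the total degree with values in `KK`. -/
noncomputable def hdeg (ι : Type) : (ι →₀ ℕ) →+ KK :=
  (Nat.castAddMonoidHom KK).comp Finsupp.degree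

theorem hdeg_apply (d : ι →₀ ℕ) : hdeg ι d = ((Finsupp.degree d : ℕ) : KK) := rfl

theorem natCast_KK_ne (n : ℕ) (hn : n ≠ 0) : (n : KK) ≠ 0 := by
  intro h
  have h1 := congrArg (fun f : KK => HahnSeries.coeff f 0) h
  have h2 : (n : KK) = HahnSeries.C (n : ℚ) := by simp
  simp only [h2, HahnSeries.C_apply, HahnSeries.coeff_single_same, HahnSeries.coeff_zero] at h1
  exact hn (by exact_mod_cast h1)


theorem hdeg_ne (d : ι →₀ ℕ) (hd : d ≠ 0) : hdeg ι d ≠ 0 := by
  rw [hdeg_apply]
  exact natCast_KK_ne _ (fun h => hd ((Finsupp.degree_eq_zero_iff d).1 h))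

/-- **existence** of a plain element. -/
theorem exists_plain {β : (ι →₀ ℕ) →+ (ι →₀ ℕ) →+ ℤ} (hβ : ∀ a b, β a b = - β b a)
    (nd : ι → TPS (twK β)) : ∃ A : TPS (twK β), PlainData (hdeg ι) nd A := by
  classical
  let c : (ι →₀ ℕ) → KK := fun d =>
    if hd : ∃ i, d = Finsupp.single i (d i) then
      lam (hdeg ι) d (nd hd.choose) (TPS.inv (nd hd.choose)) else 0
  have hc1 : ∀ (i : ι) (k : ℕ), 0 < k → c (Finsupp.single i k) =
      lam (hdeg ι) (Finsupp.single i k) (nd i) (TPS.inv (nd i)) := by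
    intro i k hk
    have hd : ∃ j, (Finsupp.single i k : ι →₀ ℕ) =
        Finsupp.single j ((Finsupp.single i k : ι →₀ ℕ) j) := ⟨i, by simp⟩
    have he : hd.choose = i := by
      by_contra hne
      have h1 := hd.choose_spec
      rw [Finsupp.single_eq_of_ne hne, Finsupp.single_zero, Finsupp.single_eq_zero] at h1
      omega
    show (if hd : ∃ j, (Finsupp.single i k : ι →₀ ℕ) =
        Finsupp.single j ((Finsupp.single i k : ι →₀ ℕ) j) then
      lam (hdeg ι) _ (nd hd.choose) (TPS.inv (nd hd.choose)) else 0) = _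
    rw [dif_pos hd, he]
  have hc0 : ∀ d : ι →₀ ℕ, (∀ i k, d ≠ Finsupp.single i k) → c d = 0 := by
    intro d hd
    show (if hd : ∃ j, d = Finsupp.single j (d j) then
      lam (hdeg ι) _ (nd hd.choose) (TPS.inv (nd hd.choose)) else 0) = _
    rw [dif_neg]
    rintro ⟨j, hj⟩
    exact hd _ _ hj
  have hdat : ∀ d : ι →₀ ℕ, d ≠ 0 →
      lam (hdeg ι) d (zer ((twK β).β d) (Att201.attr (twK β) (hdeg ι) c))
        (TPS.inv (zer ((twK β).β d) (Att201.attr (twK β) (hdeg ι) c))) = c d := fun d hd =>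
    Att201.dat_attr (T := twK β) hβ (hdeg ι) c hd (isUnit_iff_ne_zero.2 (hdeg_ne d hd))
  refine ⟨Att201.attr (twK β) (hdeg ι) c, Att201.attr_zero _ _, ?_, ?_⟩
  · intro i k hk
    rw [hdat _ (by rw [Ne, Finsupp.single_eq_zero]; omega), hc1 i k hk]
  · intro d hd h
    rw [hdat d hd, hc0 d h]

end exist

section frame

variable {ι : Type} [DecidableEq ι] {R : Type*} [CommRing R]

theorem emb_der {T : Tw (ι →₀ ℕ) R} {δ : (ι →₀ ℕ) →+ ℕ} (h : (Option ι →₀ ℕ) →+ R) (a : TPS T) :
    der h ((embF T δ).hom a) = (embF T δ).hom (der (h.comp inc) a) := by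
  ext d
  by_cases hd : d ∈ Set.range (embF T δ).j
  · obtain ⟨m, rfl⟩ := hd
    rw [co_der, Sc998.Emb.co_hom_j, Sc998.Emb.co_hom_j, co_der]
    rfl
  · rw [co_der, Sc998.Emb.co_hom_off _ _ hd, Sc998.Emb.co_hom_off _ _ hd, mul_zero]

theorem emb_lam {T : Tw (ι →₀ ℕ) R} {δ : (ι →₀ ℕ) →+ ℕ} (h : (Option ι →₀ ℕ) →+ R)
    {a : TPS T} (ha : a.co 0 = 1) (m : ι →₀ ℕ) :
    lam h (inc m) ((embF T δ).hom a) (TPS.inv ((embF T δ).hom a)) =
      lam (h.comp inc) m a (TPS.inv a) := by
  rw [lam, emb_der, (grd_hom (embF T δ)).inv ha, ← map_mul]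
  exact Sc998.Emb.co_hom_j _ _ _

theorem emb_lam_off {T : Tw (ι →₀ ℕ) R} {δ : (ι →₀ ℕ) →+ ℕ} (h : (Option ι →₀ ℕ) →+ R)
    {a : TPS T} (ha : a.co 0 = 1) (d : Option ι →₀ ℕ) (hd : d none ≠ 0) :
    lam h d ((embF T δ).hom a) (TPS.inv ((embF T δ).hom a)) = 0 := by
  rw [lam, emb_der, (grd_hom (embF T δ)).inv ha, ← map_mul]
  refine Sc998.Emb.co_hom_off _ _ ?_
  rintro ⟨m, rfl⟩
  exact hd (inc_none m)

theorem emb_pw {T : Tw (ι →₀ ℕ) R} {δ : (ι →₀ ℕ) →+ ℕ} (c : ι →₀ ℕ) (k : ℕ) :
    pw T c k = pw (frame T δ) (inc c) k := by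
  induction k with
  | zero => rfl
  | succ k ih =>
    show pw T c k * wt T (k • c) c = pw (frame T δ) (inc c) k * wt (frame T δ) (k • inc c) (inc c)
    rw [ih, ← map_nsmul]
    congr 1
    exact ((embF T δ).wt_eq (k • c) c).symm

theorem emb_ev {T : Tw (ι →₀ ℕ) R} {δ : (ι →₀ ℕ) →+ ℕ} {c : ι →₀ ℕ} (hc : c ≠ 0)
    (p : PowerSeries R) : (embF T δ).hom (ev T c p) = ev (frame T δ) (inc c) p := by
  have hc1 := nsmul_inj hc
  have hc2 : Function.Injective (fun k : ℕ => k • (inc c : Option ι →₀ ℕ)) :=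
    nsmul_inj (fun h => hc (inc_eq_zero.1 h))
  ext d
  by_cases hd : d ∈ Set.range (embF T δ).j
  · obtain ⟨m, rfl⟩ := hd
    rw [Sc998.Emb.co_hom_j]
    by_cases hm : ∃ k : ℕ, m = k • c
    · obtain ⟨k, rfl⟩ := hm
      rw [co_ev_nsmul hc1]
      have : (embF T δ).j (k • c) = k • inc c := by
        rw [map_nsmul]; rfl
      rw [this, co_ev_nsmul hc2]
      congr 1
      exact emb_pw c k
    · push Not at hm
      rw [co_ev_of_not _ hm, co_ev_of_not]
      intro k hk
      apply hm k
      have : inc m = inc (k • c) := by rw [map_nsmul]; exact hk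
      exact inc_injective this
  · rw [Sc998.Emb.co_hom_off _ _ hd, co_ev_of_not]
    intro k hk
    apply hd
    refine ⟨k • c, ?_⟩
    rw [hk]
    show inc (k • c) = _
    rw [map_nsmul]

theorem inc_single' (i : ι) (k : ℕ) :
    (inc (Finsupp.single i k) : Option ι →₀ ℕ) = Finsupp.single (some i) k := by
  ext j
  cases j with
  | none => simp
  | some j =>
    rw [inc_some]
    by_cases h : i = j
    · subst h; simp
    · rw [Finsupp.single_eq_of_ne (Ne.symm h), Finsupp.single_eq_of_ne]
      intro h'; exact h (Option.some_injective _ h').symm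

/-- the nodes of the framed ring. -/
noncomputable def ndF {T : Tw (ι →₀ ℕ) R} (δ : (ι →₀ ℕ) →+ ℕ) (nd : ι → TPS T) :
    Option ι → TPS (frame T δ)
  | none => 1
  | some i => (embF T δ).hom (nd i)

/-- plain data in the framed ring. -/
theorem plain_frame {T : Tw (ι →₀ ℕ) R} {δ : (ι →₀ ℕ) →+ ℕ} {h : (ι →₀ ℕ) →+ R}
    (h' : (Option ι →₀ ℕ) →+ R) (hh : ∀ m, h' (inc m) = h m) {nd : ι → TPS T}
    (hnd : ∀ i, (nd i).co 0 = 1) {A : TPS T} (hA : PlainData h nd A) :
    PlainData h' (ndF δ nd) ((embF T δ).hom A) := by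
  have hcomp : h'.comp inc = h := DFunLike.ext _ _ hh
  have hz : ∀ d : Option ι →₀ ℕ, zer ((frame T δ).β d) ((embF T δ).hom A) =
      (embF T δ).hom (zer (((frame T δ).β d).comp inc) A) := fun d =>
    (grd_hom (embF T δ)).zer ((frame T δ).β d) hA.one
  have hinc : ∀ m : ι →₀ ℕ, ((frame T δ).β (inc m)).comp inc = T.β m := by
    intro m
    refine DFunLike.ext _ _ fun b => ?_
    show (frame T δ).β (inc m) (inc b) = _
    rw [frame_β_inc]
  have hon : ∀ m : ι →₀ ℕ, lam h' (inc m) (zer ((frame T δ).β (inc m)) ((embF T δ).hom A))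
      (TPS.inv (zer ((frame T δ).β (inc m)) ((embF T δ).hom A))) =
      lam h m (zer (T.β m) A) (TPS.inv (zer (T.β m) A)) := by
    intro m
    rw [hz, hinc, emb_lam h' (zer_co_zero _ _), hcomp]
  have hoff : ∀ d : Option ι →₀ ℕ, d none ≠ 0 →
      lam h' d (zer ((frame T δ).β d) ((embF T δ).hom A))
      (TPS.inv (zer ((frame T δ).β d) ((embF T δ).hom A))) = 0 := by
    intro d hd
    rw [hz, emb_lam_off h' (zer_co_zero _ _) d hd]
  refine ⟨?_, ?_, ?_⟩
  · exact (grd_hom (embF T δ)).one hA.one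
  · intro i k hk
    cases i with
    | none =>
      rw [hoff _ (by simp; omega)]
      show _ = lam h' _ (1 : TPS (frame T δ)) (TPS.inv 1)
      rw [TPS.inv_one, lam_one]
    | some i =>
      rw [← inc_single', hon, hA.node i k hk]
      show _ = lam h' _ ((embF T δ).hom (nd i)) (TPS.inv ((embF T δ).hom (nd i)))
      rw [emb_lam h' (hnd i), hcomp]
  · intro d hd hs
    by_cases h0 : d none = 0
    · rw [← inc_rs h0, hon]
      apply hA.zero
      · intro h1
        apply hd
        rw [← inc_rs h0, h1, map_zero]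
      · intro i k hik
        apply hs (some i) k
        rw [← inc_rs h0, hik, inc_single']
    · exact hoff d h0

end frame

section binding

variable {I : Type} [Fintype I] [DecidableEq I]

/-- existence, in the language of Wall4. -/
theorem exists_plainS {β : (I →₀ ℕ) →+ (I →₀ ℕ) →+ ℤ} (hβ : ∀ a b, β a b = - β b a)
    (S : Set I) : ∃ A : TPS (twK β), PlainS β S A :=
  exists_plain hβ (ndS β S)

theorem ndS_co_zero (β : (I →₀ ℕ) →+ (I →₀ ℕ) →+ ℤ) (S : Set I) (i : I) :
    (ndS β S i).co 0 = 1 := (in1_ndS β S i).one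

theorem ndF_eq (β : (I →₀ ℕ) →+ (I →₀ ℕ) →+ ℤ) (δ : (I →₀ ℕ) →+ ℕ) :
    ndF δ (ndS β Set.univ) =
      (ndS (frame (twK β) δ).β (Set.range some) : Option I → TPS (twK (frame (twK β) δ).β)) := by
  funext i
  cases i with
  | none =>
    unfold ndS
    rw [if_neg (by simp)]
    rfl
  | some i =>
    unfold ndS
    rw [if_pos ⟨i, rfl⟩]
    show (embF (twK β) δ).hom (ndS β Set.univ i) = _
    unfold ndS
    rw [if_pos (Set.mem_univ i), ← inc_single' i 1]
    exact emb_ev (single_ne i) _

theorem plainS_frame {β : (I →₀ ℕ) →+ (I →₀ ℕ) →+ ℤ} {A : TPS (twK β)}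
    (hA : PlainS β Set.univ A) (δ : (I →₀ ℕ) →+ ℕ) :
    PlainS (frame (twK β) δ).β (Set.range some) ((embF (twK β) δ).hom A) := by
  unfold PlainS
  rw [← ndF_eq]
  refine plain_frame _ (fun m => ?_) (ndS_co_zero β Set.univ) hA
  show ((Finsupp.degree (inc m) : ℕ) : KK) = ((Finsupp.degree m : ℕ) : KK)
  rw [degree_inc]

end binding

section mutation

open Mut456 Mu

variable {n : ℕ}

/-- the node series `P(τ X)`. -/
noncomputable def pE : PowerSeries KK := Dilog344.EE vv true 1

theorem constantCoeff_pE : PowerSeries.constantCoeff pE = 1 := constantCoeff_EE _ _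

theorem QD_pE : QD vv pE := by
  unfold QD pE
  rw [rescale_zpow_EE]
  have h := EE_shift (v := vv) qreg_vv true 1 1
  have e : (1 : ℤ) - 2 * ((1 : ℕ) : ℤ) = 1 + -2 := by norm_num
  rw [e] at h
  rw [h, mul_comm]
  congr 1
  unfold XF oddF
  simp only [cond_true, Finset.range_one, Finset.prod_singleton, pow_zero, one_mul]
  norm_num

theorem evk_eq_ev (T : Tw (Fin n →₀ ℕ) KK) (hs : ∀ a b, T.β a b = - T.β b a) (k : Fin n)
    (p : PowerSeries KK) : ev T (Finsupp.single k 1) p = evk T k p := by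
  have hcc : T.β (Finsupp.single k 1) (Finsupp.single k 1) = 0 := by
    have := hs (Finsupp.single k 1) (Finsupp.single k 1); omega
  have hc := nsmul_inj (single_ne k)
  ext d
  by_cases hd : d = Finsupp.single k (d k)
  · have h1 : d = d k • Finsupp.single k 1 := by
      conv_lhs => rw [hd]
      simp
    rw [hd, evk_single, ← hd]
    conv_lhs => rw [h1]
    rw [co_ev_nsmul hc, pw_one_of _ hcc, mul_one]
  · rw [evk_ne hd, co_ev_of_not]
    intro j hj
    apply hd
    rw [hj]
    simp

theorem plain_iff {T : Tw (Fin n →₀ ℕ) KK} (hs : ∀ a b, T.β a b = - T.β b a) {A : TPS T} :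
    PlainData hK (fun i => evk T i pE) A ↔ Plain T hK pE A := by
  constructor
  · intro h
    refine ⟨h.one, fun i j hj => ?_, fun d hd => ?_⟩
    · have := h.node i j hj
      rw [lam_evk hs hK i constantCoeff_pE] at this
      exact this
    · by_cases h0 : d = 0
      · rw [h0, lamz, lam, co_mul_zero', co_der_zero, zero_mul]
      · exact h.zero d h0 hd
  · intro h
    refine ⟨h.one, fun i j hj => ?_, fun d _ hd => h.zero d hd⟩
    rw [lam_evk hs hK i constantCoeff_pE]
    exact h.node i j hj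

/-- **CHAIN** with the mutation lemma of 456. -/
theorem chain_A (h : Fin n → ℕ) (hh : IsHessenberg h) (hc : Conn h) {A : TPS (twK (form h))}
    (hA : PlainS (form h) Set.univ A) :
    ∃ AW : TPS (twK (form h)), In1 (fun d => udeg n d = 0) AW ∧
      A = PsiT (twK (form h)) * AW := by
  have hs : ∀ a b, (twK (form h)).β a b = - (twK (form h)).β b a := form_skew h
  have hPl : Plain (twK (form h)) hK pE A := by
    rw [← plain_iff hs]
    have he : (fun i => evk (twK (form h)) i pE) = ndS (form h) Set.univ := by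
      funext i
      unfold ndS
      rw [if_pos (Set.mem_univ i), ← evk_eq_ev _ hs]
      rfl
    rw [he]
    exact hA
  rcases Nat.eq_zero_or_pos n with hn | hn
  · subst hn
    refine ⟨A, ⟨hA.one, fun d hd => absurd (Subsingleton.elim d 0) hd⟩, ?_⟩
    have : PsiT (twK (form h)) = 1 := by
      unfold PsiT Psi
      simp
    rw [this, one_mul]
  · obtain ⟨Z, h1, h2, h3⟩ := Seeds231.chain h hh hc vv pE constantCoeff_pE
      (fun T A => Plain T hK pE A) (fun T hv hs k A hA => by
        have hp : QD T.v pE := by rw [hv]; exact QD_pE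
        have hreg : ∀ d : Fin n →₀ ℕ, d ≠ 0 → IsLeftRegular (hK d : KK) := fun d hd =>
          (isUnit_iff_ne_zero.2 (hK_ne d hd)).isRegular.left
        have h0 := co_evk_zero (T := T) k constantCoeff_pE
        have e1 : evk T k pE * (TPS.inv (evk T k pE) * A) = A := by
          rw [← mul_assoc, TPS.mul_inv h0, one_mul]
        have e2 : (A * TPS.inv (evk T k pE)) * evk T k pE = A := by
          rw [mul_assoc, TPS.inv_mul h0, mul_one]
        have hB : (TPS.inv (evk T k pE) * A).co 0 = 1 := by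
          rw [co_mul_zero', TPS.inv_zero, hA.one, one_mul]
        have hB' : (A * TPS.inv (evk T k pE)).co 0 = 1 := by
          rw [co_mul_zero', TPS.inv_zero, hA.one, one_mul]
        have hb := hA.bound hs hreg hp constantCoeff_pE hB hB' e1 e2
        have hm := hA.mutate hs hreg k hp constantCoeff_pE hB hB' e1 e2
        refine ⟨TPS.inv (evk T k pE) * A, hb.1, ?_, ?_⟩
        · rw [evk_eq_ev T hs, e1]
        · rw [evk_eq_ev _ (mutTw_skew hs (capOf T.β k) k)]
          exact hm.1) hn (twK (form h)) rfl rfl A hPl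
    refine ⟨Z, ⟨?_, ?_⟩, ?_⟩
    · rw [h2 0 rfl, hA.one]
    · intro d _ hd
      by_contra hne
      apply hd
      rw [udeg_apply hn]
      exact h1 d hne
    · rw [PsiT_ofFn]
      exact h3

end mutation

section final

variable {n : ℕ}


/-- crossing positivity in the framed ring. -/
theorem crossPos_frame {I : Type} [Fintype I] [DecidableEq I] (hAB : ABOut)
    {β : (I →₀ ℕ) →+ (I →₀ ℕ) →+ ℤ} (hβ : ∀ a b, β a b = - β b a) {A : TPS (twK β)}
    (hA : PlainS β Set.univ A) (δ : (I →₀ ℕ) →+ ℕ) :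
    CrossPos (frame (twK β) δ).β Kpos ((embF (twK β) δ).hom A : TPS (frame (twK β) δ)) :=
  crossPos_plain hAB (frame (twK β) δ).β (frame_skew (T := twK β) hβ) (Set.range some) _
      (plainS_frame hA δ)

/-- everything for one connected graph, from the output of Theorems A + B. -/
theorem input_of_abOut (hAB : ABOut) (h : Fin n → ℕ) (hh : IsHessenberg h) (hc : Conn h) :
    MainT2.Input h := by
  obtain ⟨A, hA⟩ := exists_plainS (form_skew h) Set.univ
  obtain ⟨AW, hAW, hfac⟩ := chain_A h hh hc hA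
  have hcrA : CrossPos (form h) Kpos A := crossPos_plain hAB (form h) (form_skew h) Set.univ A hA
  have hcrF : CrossPos (frame (twK (form h)) (udeg n)).β Kpos
      ((embF (twK (form h)) (udeg n)).hom A : TPS (frame (twK (form h)) (udeg n))) :=
    crossPos_frame hAB (form_skew h) hA (udeg n)
  have hpw : MainT2.PlainWalls A := by
    intro V _ _ _ p j hj hker
    exact zer_plain (form h) (form_skew h) Set.univ A hA p ⟨j + 1, hj⟩ (Set.mem_univ _) hker
  rw [hfac] at hcrA hcrF hpw
  refine ⟨AW, hAW, ?_, ?_, ?_⟩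
  · exact MainT2.crossPos_face (deg := udeg n) (Ψ := PsiT (twK (form h))) (aW := AW)
      (in1_PsiT (twK (form h))) hAW hcrA
  · exact MainT2.bendUnit_of_plain rfl (qreg_twK h)
      (MainT2.plainWalls_face (in1_PsiT (twK (form h))) hAW hpw)
  · intro N V _ _ _ x m
    exact FF_pos h hh AW hAW hcrF x N m

/-- **S0081 from `ABOut`**. -/
theorem main (hAB : ABOut) :
    ∀ (n : ℕ) (h : Fin n → ℕ), IsHessenberg h →
      ∃ θ : {σ : Equiv.Perm (Fin n) // σ ∈ descentSet h} → Nat.Partition n,
        ∀ N : ℕ, chromaticQSym h N =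
          ∑ σ : {σ : Equiv.Perm (Fin n) // σ ∈ descentSet h},
            MvPolynomial.C (Polynomial.X ^ ginv h σ.1) *
              MvPolynomial.esymmPart (Fin N) (Polynomial ℤ) (θ σ) :=
  MainT2.main_of_input fun _ h hh hc => input_of_abOut hAB h hh hc

end final

end Crest.Agent.R059.Glue227
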