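import Mathlib

/-!
# Row 59, Theorem B, half 2 (helper547): coloured sets, block permutations, signs
-/

set_option autoImplicit false
set_option linter.unusedSectionVars false

namespace Crest.Agent.R059.PL547

open MvPolynomial Finset

/-! ### signs -/

section sign

/-- the sign as a rational number -/
def sg {P : Type*} [Fintype P] [DecidableEq P] (w : Equiv.Perm P) : ℚ :=
  ((Equiv.Perm.sign w : ℤ) : ℚ)

variable {P : Type*} [Fintype P] [DecidableEq P]

theorem sg_mul (a b : Equiv.Perm P) : sg (a * b) = sg a * sg b := by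
  simp [sg, Equiv.Perm.sign_mul]

theorem sg_one : sg (1 : Equiv.Perm P) = 1 := by simp [sg]

theorem sg_mul_self (a : Equiv.Perm P) : sg a * sg a = 1 := by
  rw [← sg_mul]
  simp only [sg, Equiv.Perm.sign_mul]
  rw [Int.units_mul_self]
  simp



theorem sg_trans_symm {Q : Type*} [Fintype Q] [DecidableEq Q] (e : P ≃ Q) (w : Equiv.Perm P) :
    sg ((e.symm.trans w).trans e) = sg w := by
  simp [sg]

/-- sign of a permutation of a sigma type acting in the fibres -/
theorem sign_sigmaCongrRight {J : Type*} [Fintype J] [DecidableEq J] {X : J → Type*}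
    [∀ j, Fintype (X j)] [∀ j, DecidableEq (X j)] (g : ∀ j, Equiv.Perm (X j)) :
    Equiv.Perm.sign (Equiv.sigmaCongrRight g : Equiv.Perm (Σ j, X j)) =
      ∏ j, Equiv.Perm.sign (g j) := by
  let φ : (∀ j, Equiv.Perm (X j)) →* ℤˣ :=
    Equiv.Perm.sign.comp (Equiv.Perm.sigmaCongrRightHom X)
  let ψ : (∀ j, Equiv.Perm (X j)) →* ℤˣ :=
    { toFun := fun g => ∏ j, Equiv.Perm.sign (g j)
      map_one' := by simp
      map_mul' := fun a b => by simp [Finset.prod_mul_distrib] }
  have h : φ = ψ := by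
    apply MonoidHom.pi_ext
    intro j σ
    have h1 : ψ (Pi.mulSingle j σ) = Equiv.Perm.sign σ := by
      change ∏ i, Equiv.Perm.sign ((Pi.mulSingle j σ : ∀ j, Equiv.Perm (X j)) i) = _
      rw [Finset.prod_eq_single j]
      · simp
      · intro i _ hi
        rw [Pi.mulSingle_eq_of_ne hi]
        simp
      · simp
    rw [h1]
    change Equiv.Perm.sign (Equiv.sigmaCongrRight (Pi.mulSingle j σ)) = _
    have h2 : (Equiv.sigmaCongrRight (Pi.mulSingle j σ) : Equiv.Perm (Σ j, X j)) =
        σ.extendDomain (p := fun x : Σ j, X j => x.1 = j)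
          { toFun := fun x => ⟨⟨j, x⟩, rfl⟩
            invFun := fun y => y.2 ▸ y.1.2
            left_inv := fun x => rfl
            right_inv := by rintro ⟨⟨i, x⟩, rfl⟩; rfl } := by
      ext1 ⟨i, x⟩
      by_cases hi : i = j
      · subst hi
        have e3 := Equiv.Perm.extendDomain_apply_image (p := fun y : Σ j, X j => y.1 = i) σ
          { toFun := fun x => ⟨⟨i, x⟩, rfl⟩
            invFun := fun y => y.2 ▸ y.1.2
            left_inv := fun x => rfl
            right_inv := by rintro ⟨⟨i, x⟩, rfl⟩; rfl } x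
        refine Eq.trans ?_ e3.symm
        simp [Equiv.sigmaCongrRight]
      · rw [Equiv.Perm.extendDomain_apply_not_subtype]
        · simp [Equiv.sigmaCongrRight, Pi.mulSingle_eq_of_ne hi]
        · exact hi
    rw [h2, Equiv.Perm.sign_extendDomain]
  exact DFunLike.congr_fun h g

end sign

/-! ### coloured sets -/

section coloured

variable {I : Type*} {P Q : Type*}

/-- two finite coloured sets with the same numbers of elements of every colour -/
theorem exists_colour_equiv [Fintype P] [Fintype Q] [DecidableEq I] (c : P → I) (c' : Q → I)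
    (h : ∀ i, (univ.filter fun a => c a = i).card = (univ.filter fun a => c' a = i).card) :
    ∃ e : P ≃ Q, ∀ a, c' (e a) = c a := by
  have h1 : ∀ i, Nonempty ({a // c a = i} ≃ {b // c' b = i}) := by
    intro i
    rw [← Fintype.card_eq, Fintype.card_subtype, Fintype.card_subtype]
    exact h i
  let E' : ∀ i, {a // c a = i} ≃ {b // c' b = i} := fun i => (h1 i).some
  exact ⟨Equiv.ofFiberEquiv E', fun a => Equiv.ofFiberEquiv_map E' a⟩

variable [Fintype P] [DecidableEq P]

/-- alternating polynomials for a colouring -/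
def Anti (c : P → I) : Submodule ℚ (MvPolynomial P ℚ) where
  carrier := {f | ∀ w : Equiv.Perm P, (∀ a, c (w a) = c a) → rename w f = sg w • f}
  add_mem' := by
    intro f g hf hg w hw
    rw [map_add, hf w hw, hg w hw, smul_add]
  zero_mem' := by
    intro w _
    simp
  smul_mem' := by
    intro r f hf w hw
    rw [map_smul, hf w hw, smul_comm]


open scoped Classical in
/-- the colour preserving permutations -/
noncomputable def GG (c : P → I) : Finset (Equiv.Perm P) :=
  univ.filter fun w => ∀ a, c (w a) = c a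

@[simp] theorem mem_GG {c : P → I} {w : Equiv.Perm P} : w ∈ GG c ↔ ∀ a, c (w a) = c a := by
  classical
  simp [GG]

theorem one_mem_GG (c : P → I) : (1 : Equiv.Perm P) ∈ GG c := by simp

theorem GG_card_ne_zero (c : P → I) : ((GG c).card : ℚ) ≠ 0 := by
  have : 0 < (GG c).card := Finset.card_pos.2 ⟨1, one_mem_GG c⟩
  exact_mod_cast this.ne'

/-- antisymmetriser -/
noncomputable def alt (c : P → I) (f : MvPolynomial P ℚ) : MvPolynomial P ℚ :=
  ∑ w ∈ GG c, sg w • rename w f

theorem rename_alt (c : P → I) (f : MvPolynomial P ℚ) {w : Equiv.Perm P} (hw : w ∈ GG c) :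
    rename w (alt c f) = sg w • alt c f := by
  rw [alt, map_sum, Finset.smul_sum]
  have hw' := mem_GG.1 hw
  refine Finset.sum_bij (fun v _ => w * v) ?_ ?_ ?_ ?_
  · intro v hv
    rw [mem_GG] at hv ⊢
    intro a
    rw [Equiv.Perm.mul_apply, hw', hv]
  · intro a _ b _ h
    exact mul_left_cancel h
  · intro v hv
    refine ⟨w⁻¹ * v, ?_, by simp⟩
    rw [mem_GG] at hv ⊢
    intro a
    rw [Equiv.Perm.mul_apply]
    have := hw' (w⁻¹ (v a))
    rw [← Equiv.Perm.mul_apply, mul_inv_cancel, Equiv.Perm.one_apply] at this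
    rw [← this, hv]
  · intro v hv
    rw [map_smul, rename_rename, smul_smul, sg_mul, ← mul_assoc, sg_mul_self, one_mul]
    rfl

theorem alt_mem (c : P → I) (f : MvPolynomial P ℚ) : alt c f ∈ Anti c :=
  fun _ hw => rename_alt c f (mem_GG.2 hw)


theorem isHomogeneous_alt {c : P → I} {f : MvPolynomial P ℚ} {n : ℕ} (hf : f.IsHomogeneous n) :
    (alt c f).IsHomogeneous n := by
  rw [alt]
  apply IsHomogeneous.sum
  intro w _
  rw [smul_eq_C_mul]
  have := (isHomogeneous_C P (sg w)).mul (hf.rename_isHomogeneous (f := w))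
  rwa [zero_add] at this

end coloured

/-! ### the model of a place -/

section model

variable {I : Type*} [Fintype I] [DecidableEq I] {T : Type*} [Fintype T] [DecidableEq T]

/-- standard coloured set of type `c` -/
abbrev Vt (c : I → ℕ) := Σ i : I, Fin (c i)

variable (cl : T → I → ℕ) (m : T → ℕ)

/-- the set of blocks -/
abbrev Jm := Σ t : T, Fin (m t)

/-- the model set: block `(t, r)` is a copy of `Vt (cl t)` -/
abbrev Sm := Σ j : Jm m, Vt (cl j.1)

/-- colour of an element of the model -/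
def colS (x : Sm cl m) : I := x.2.1

/-- block of an element of the model -/
def blk (x : Sm cl m) : Jm m := x.1

variable {cl m}

/-- permutation of the blocks -/
def pr (ρ : ∀ t, Equiv.Perm (Fin (m t))) : Equiv.Perm (Jm m) := Equiv.sigmaCongrRight ρ

@[simp] theorem pr_apply (ρ : ∀ t, Equiv.Perm (Fin (m t))) (j : Jm m) :
    pr ρ j = ⟨j.1, ρ j.1 j.2⟩ := rfl

/-- the block permutation of the model -/
def wr (ρ : ∀ t, Equiv.Perm (Fin (m t))) : Equiv.Perm (Sm cl m) where
  toFun x := ⟨⟨x.1.1, ρ x.1.1 x.1.2⟩, x.2⟩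
  invFun x := ⟨⟨x.1.1, (ρ x.1.1).symm x.1.2⟩, x.2⟩
  left_inv := by rintro ⟨⟨t, r⟩, x⟩; simp
  right_inv := by rintro ⟨⟨t, r⟩, x⟩; simp

@[simp] theorem wr_apply (ρ : ∀ t, Equiv.Perm (Fin (m t))) (x : Sm cl m) :
    wr (cl := cl) ρ x = ⟨⟨x.1.1, ρ x.1.1 x.1.2⟩, x.2⟩ := rfl

theorem colS_wr (ρ : ∀ t, Equiv.Perm (Fin (m t))) (x : Sm cl m) :
    colS cl m (wr ρ x) = colS cl m x := rfl

theorem blk_wr (ρ : ∀ t, Equiv.Perm (Fin (m t))) (x : Sm cl m) :
    blk cl m (wr ρ x) = pr ρ (blk cl m x) := rfl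

theorem sign_wr (ρ : ∀ t, Equiv.Perm (Fin (m t))) :
    Equiv.Perm.sign (wr (cl := cl) ρ) =
      ∏ t, Equiv.Perm.sign (ρ t) ^ (∑ i, cl t i) := by
  -- transport to `Σ t, Fin (m t) × Vt (cl t)`
  let e : Sm cl m ≃ Σ t, Fin (m t) × Vt (cl t) :=
    { toFun := fun x => ⟨x.1.1, (x.1.2, x.2)⟩
      invFun := fun y => ⟨⟨y.1, y.2.1⟩, y.2.2⟩
      left_inv := by rintro ⟨⟨t, r⟩, x⟩; rfl
      right_inv := by rintro ⟨t, ⟨r, x⟩⟩; rfl }
  let g : ∀ t, Equiv.Perm (Fin (m t) × Vt (cl t)) :=
    fun t => Equiv.prodCongrLeft (fun _ => ρ t)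
  have h1 : Equiv.Perm.sign (wr (cl := cl) ρ) =
      Equiv.Perm.sign (Equiv.sigmaCongrRight g : Equiv.Perm (Σ t, Fin (m t) × Vt (cl t))) := by
    apply Equiv.Perm.sign_eq_sign_of_equiv _ _ e
    rintro ⟨⟨t, r⟩, x⟩
    rfl
  rw [h1, sign_sigmaCongrRight]
  refine Finset.prod_congr rfl fun t _ => ?_
  change Equiv.Perm.sign (Equiv.prodCongrLeft (fun _ => ρ t)) = _
  rw [Equiv.Perm.sign_prodCongrLeft, Finset.prod_const]
  congr 1
  rw [Finset.card_univ, Fintype.card_sigma]
  simp

theorem card_Vt (c : I → ℕ) (i : I) : (univ.filter fun x : Vt c => x.1 = i).card = c i := by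
  rw [← Fintype.card_subtype]
  let e : {x : Vt c // x.1 = i} ≃ Fin (c i) :=
    { toFun := fun x => x.2 ▸ x.1.2
      invFun := fun y => ⟨⟨i, y⟩, rfl⟩
      left_inv := by rintro ⟨⟨j, x⟩, rfl⟩; rfl
      right_inv := fun y => rfl }
  rw [Fintype.card_congr e]
  simp

/-- number of elements of colour `i` in the model -/
theorem card_colS (i : I) :
    (univ.filter fun x : Sm cl m => colS cl m x = i).card = ∑ t, m t * cl t i := by
  have h1 : (univ.filter fun x : Sm cl m => colS cl m x = i).card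
      = ∑ j : Jm m, (univ.filter fun x : Vt (cl j.1) => x.1 = i).card := by
    rw [← Fintype.card_subtype]
    let e : {x : Sm cl m // colS cl m x = i} ≃ Σ j : Jm m, {x : Vt (cl j.1) // x.1 = i} :=
      { toFun := fun x => ⟨x.1.1, ⟨x.1.2, x.2⟩⟩
        invFun := fun y => ⟨⟨y.1, y.2.1⟩, y.2.2⟩
        left_inv := by rintro ⟨⟨j, x⟩, h⟩; rfl
        right_inv := by rintro ⟨j, ⟨x, h⟩⟩; rfl }
    rw [Fintype.card_congr e]
    rw [Fintype.card_sigma]
    refine Finset.sum_congr rfl fun j _ => ?_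
    rw [Fintype.card_subtype]
  rw [h1, Finset.sum_congr rfl (fun j _ => card_Vt (cl j.1) i), Fintype.sum_sigma]
  simp

/-- a coloured set of type `Σ m t • cl t` is colour-isomorphic to the model -/
theorem exists_placement {P : Type*} [Fintype P] (c : P → I)
    (h : ∀ i, (univ.filter fun a => c a = i).card = ∑ t, m t * cl t i) :
    ∃ E : Sm cl m ≃ P, ∀ x, c (E x) = colS cl m x := by
  apply exists_colour_equiv (colS cl m) c
  intro i
  rw [card_colS, h]

/-- a permutation that fixes all the blocks is a family of permutations -/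
theorem exists_fibrewise {J : Type*} {X : J → Type*} [∀ j, Finite (X j)]
    (g : Equiv.Perm (Σ j, X j)) (hg : ∀ x, (g x).1 = x.1) :
    ∃ h : ∀ j, Equiv.Perm (X j), g = Equiv.sigmaCongrRight h := by
  have h1 : ∀ j (x : X j), ∃ y : X j, g ⟨j, x⟩ = ⟨j, y⟩ := by
    intro j x
    have := hg ⟨j, x⟩
    rcases hgx : g ⟨j, x⟩ with ⟨i, y⟩
    rw [hgx] at this
    change i = j at this
    subst this
    exact ⟨y, rfl⟩
  choose φ hφ using h1
  have hinj : ∀ j, Function.Injective (φ j) := by
    intro j x y hxy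
    have : g ⟨j, x⟩ = g ⟨j, y⟩ := by rw [hφ, hφ, hxy]
    have := g.injective this
    simpa using this
  refine ⟨fun j => Equiv.ofBijective (φ j) (Finite.injective_iff_bijective.1 (hinj j)), ?_⟩
  ext1 ⟨j, x⟩
  rw [hφ]
  rfl

end model

end Crest.Agent.R059.PL547
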