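import Mathlib
import Crest.Agent.R059.Thin0_613
import Crest.Agent.R059.Deg_359

-- ▼ part R059/Thin4_613
section

set_option autoImplicit false
set_option linter.unusedSectionVars false

namespace Crest.Agent.R059.Thin613

open MvPolynomial Finset

variable {P : Type*} [Fintype P] [DecidableEq P]
variable {F : Type*} [CommRing F]
variable {V : Type*} [AddCommGroup V] [LinearOrder V] [IsOrderedAddMonoid V]
variable {L : Type*} {L' : Type*}

/-! ### products over relations -/

open scoped Classical in
/-- product of the factors over the pairs satisfying a relation -/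
noncomputable def KR (F : Type*) [CommRing F] (arr : P → P → ℕ) (R : P → P → Prop) :
    MvPolynomial P F :=
  ∏ x ∈ (univ : Finset (P × P)).filter (fun x => R x.1 x.2), (X x.2 - X x.1) ^ arr x.1 x.2

lemma KL_eq_KR [LinearOrder L'] (arr : P → P → ℕ) (f : P → L') :
    KL F arr f = KR F arr (fun a b => f a < f b) := by
  classical
  unfold KL KR
  rw [Finset.prod_filter, ← Finset.univ_product_univ, Finset.prod_product]
  refine Finset.prod_congr rfl fun a _ => Finset.prod_congr rfl fun b _ => ?_
  by_cases h : f a < f b <;> simp [h]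

lemma KK_eq_prod (arr : P → P → ℕ) (S T : Finset P) :
    KK F arr S T = ∏ x ∈ S ×ˢ T, (X x.2 - X x.1 : MvPolynomial P F) ^ arr x.1 x.2 := by
  unfold KK
  rw [Finset.prod_product]

lemma KK_dvd_KR (arr : P → P → ℕ) {S T : Finset P} {R : P → P → Prop}
    (h : ∀ a ∈ S, ∀ b ∈ T, R a b) : KK F arr S T ∣ KR F arr R := by
  classical
  rw [KK_eq_prod]
  unfold KR
  refine Finset.prod_dvd_prod_of_subset _ _ _ ?_
  rintro ⟨a, b⟩ hx
  rw [Finset.mem_product] at hx
  simp only [Finset.mem_filter, Finset.mem_univ, true_and]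
  exact h a hx.1 b hx.2

/-- a rectangle `T' × C` divides `(T × D) * R` if all pairs are in `T × D` or in `R`. -/
lemma KK_dvd_mul (arr : P → P → ℕ) {S T S' T' : Finset P} {R : P → P → Prop}
    (h : ∀ a ∈ S', ∀ b ∈ T', (a ∈ S ∧ b ∈ T) ∨ R a b) :
    KK F arr S' T' ∣ KK F arr S T * KR F arr R := by
  classical
  rw [KK_eq_prod, KK_eq_prod]
  have hsplit := Finset.prod_filter_mul_prod_filter_not (S' ×ˢ T')
    (fun x => x ∈ S ×ˢ T) (fun x => (X x.2 - X x.1 : MvPolynomial P F) ^ arr x.1 x.2)
  rw [← hsplit]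
  refine mul_dvd_mul ?_ ?_
  · refine Finset.prod_dvd_prod_of_subset _ _ _ ?_
    intro x hx
    exact (Finset.mem_filter.1 hx).2
  · unfold KR
    refine Finset.prod_dvd_prod_of_subset _ _ _ ?_
    rintro ⟨a, b⟩ hx
    rw [Finset.mem_filter, Finset.mem_product] at hx
    simp only [Finset.mem_filter, Finset.mem_univ, true_and]
    rcases h a hx.1.1 b hx.1.2 with h1 | h1
    · exact absurd (Finset.mem_product.2 h1) hx.2
    · exact h1

lemma KR_mul_KR (arr : P → P → ℕ) (R R₁ R₂ : P → P → Prop)
    (h : ∀ a b, R a b ↔ (R₁ a b ∨ R₂ a b)) (hd : ∀ a b, ¬ (R₁ a b ∧ R₂ a b)) :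
    KR F arr R = KR F arr R₁ * KR F arr R₂ := by
  classical
  unfold KR
  rw [← Finset.prod_union]
  · refine Finset.prod_congr ?_ fun _ _ => rfl
    ext ⟨a, b⟩
    simp [h a b]
  · rw [Finset.disjoint_left]
    rintro ⟨a, b⟩ h1 h2
    simp only [Finset.mem_filter, Finset.mem_univ, true_and] at h1 h2
    exact hd a b ⟨h1, h2⟩

/-! ### AB4-zero -/

section zero
variable [LinearOrder L']

/-- weight of `{f a = l, p (f' a)}` -/
lemma wt_filter_eq_zero {th : P → V} {f' : P → L'} (hf' : Good th f') (p : L' → Prop)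
    [DecidablePred p] : wt th (univ.filter fun a => p (f' a)) = 0 := by
  classical
  unfold wt
  rw [← Finset.sum_fiberwise_of_maps_to (s := univ.filter fun a => p (f' a))
    (t := univ.image f') (g := f')
    (fun a _ => Finset.mem_image_of_mem _ (Finset.mem_univ a)) th]
  refine Finset.sum_eq_zero fun m _ => ?_
  by_cases hp : p m
  · have := hf' m
    unfold wt at this
    rw [← this]
    refine Finset.sum_congr ?_ fun _ _ => rfl
    ext a
    simp only [Finset.mem_filter, Finset.mem_univ, true_and, mem_fib]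
    constructor
    · rintro ⟨_, h⟩; exact h
    · intro h; exact ⟨h ▸ hp, h⟩
  · rw [Finset.filter_eq_empty_iff.2]
    · simp
    · intro a ha h
      simp only [Finset.mem_filter, Finset.mem_univ, true_and] at ha
      exact hp (h ▸ ha)

lemma wt_eq_sum_image (th : P → V) (f : P → L) [DecidableEq L] (S : Finset P) :
    wt th S = ∑ l ∈ univ.image f, wt th (S.filter fun a => f a = l) := by
  classical
  unfold wt
  rw [← Finset.sum_fiberwise_of_maps_to (s := S) (t := univ.image f) (g := f)
    (fun a _ => Finset.mem_image_of_mem _ (Finset.mem_univ a)) th]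

/-- AB4-zero: if `f`, `f'` are good but `(f, f')` is not, then `K_{f'} ∈ JJ f`. -/
theorem KL_mem_JJ_of_not_good (arr : P → P → ℕ) {th : P → V} {f : P → L} {f' : P → L'}
    (hf : Good th f) (hf' : Good th f') (hρ : ¬ Good th (fun a => (f a, f' a))) :
    KL F arr f' ∈ JJ F arr th f := by
  classical
  -- it suffices to find `l` and a down-closed `p` with positive weight
  suffices h : ∃ (l : L) (p : L' → Prop), (∀ x y, x ≤ y → p y → p x) ∧
      0 < wt th (univ.filter fun a => f a = l ∧ p (f' a)) by
    obtain ⟨l, p, hp, hw⟩ := h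
    rw [KL_eq_KR]
    have hsub : (univ.filter fun a => f a = l ∧ p (f' a)) ⊆ fib f l := by
      intro a ha
      simp only [Finset.mem_filter, Finset.mem_univ, true_and] at ha
      simp [ha.1]
    refine Ideal.mem_of_dvd _ ?_ (KK_mem_JJ arr f l hsub hw)
    refine KK_dvd_KR arr ?_
    intro a ha b hb
    simp only [Finset.mem_filter, Finset.mem_univ, true_and, Finset.mem_sdiff, mem_fib,
      not_and] at ha hb
    by_contra hlt
    exact hb.2 hb.1 (hp _ _ (not_lt.1 hlt) ha.2)
  by_contra hcon
  push Not at hcon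
  -- all such weights vanish
  have hzero : ∀ (l : L) (p : L' → Prop), (∀ x y, x ≤ y → p y → p x) →
      wt th (univ.filter fun a => f a = l ∧ p (f' a)) = 0 := by
    intro l p hp
    have hle : ∀ l, wt th (univ.filter fun a => f a = l ∧ p (f' a)) ≤ 0 := fun l => hcon l p hp
    have hsum : ∑ l ∈ univ.image f, wt th (univ.filter fun a => f a = l ∧ p (f' a)) = 0 := by
      rw [← wt_filter_eq_zero hf' p, wt_eq_sum_image th f]
      refine Finset.sum_congr rfl fun l _ => ?_
      congr 1
      ext a
      simp [and_comm]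
    by_cases hl : l ∈ univ.image f
    · exact (Finset.sum_eq_zero_iff_of_nonpos fun l _ => hle l).1 hsum l hl
    · rw [Finset.filter_eq_empty_iff.2]
      · simp
      · rintro a _ ⟨h1, _⟩
        exact hl (h1 ▸ Finset.mem_image_of_mem _ (Finset.mem_univ a))
  apply hρ
  rintro ⟨l, l'⟩
  have h1 : wt th (univ.filter fun a => f a = l ∧ f' a ≤ l') = 0 := by
    convert hzero l (fun x => x ≤ l') (fun x y h1 h2 => h1.trans h2)
  have h2 : wt th (univ.filter fun a => f a = l ∧ f' a < l') = 0 := by
    convert hzero l (fun x => x < l') (fun x y h1 h2 => lt_of_le_of_lt h1 h2)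
  have h3 : (univ.filter fun a => f a = l ∧ f' a ≤ l') =
      (univ.filter fun a => f a = l ∧ f' a < l') ∪ fib (fun a => (f a, f' a)) (l, l') := by
    ext a
    simp only [Finset.mem_filter, Finset.mem_univ, true_and, Finset.mem_union, mem_fib,
      Prod.mk.injEq]
    rw [le_iff_lt_or_eq]
    tauto
  rw [h3, wt_union, h2, zero_add] at h1
  · exact h1
  · rw [Finset.disjoint_left]
    intro a ha hb
    simp only [Finset.mem_filter, Finset.mem_univ, true_and, mem_fib, Prod.mk.injEq] at ha hb
    exact absurd hb.2 ha.2.ne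

/-- the in-block part of `K_{f'}` maps `JJ (f, f')` into `JJ f`. -/
theorem KRin_mul_mem (arr : P → P → ℕ) {th : P → V} {f : P → L} {f' : P → L'}
    (hρ : Good th (fun a => (f a, f' a))) {y : MvPolynomial P F}
    (hy : y ∈ JJ F arr th (fun a => (f a, f' a))) :
    KR F arr (fun a b => f a = f b ∧ f' a < f' b) * y ∈ JJ F arr th f := by
  classical
  -- the set of such `y` is an ideal
  let I : Ideal (MvPolynomial P F) :=
    Submodule.comap (LinearMap.mulLeft (MvPolynomial P F)
      (KR F arr (fun a b => f a = f b ∧ f' a < f' b))) (JJ F arr th f)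
  have hI : ∀ z, z ∈ I ↔ KR F arr (fun a b => f a = f b ∧ f' a < f' b) * z ∈ JJ F arr th f :=
    fun z => Iff.rfl
  rw [← hI]
  revert hy
  apply SetLike.le_def.1
  rw [JJ_le_iff]
  rintro ⟨l, l'⟩ T hT hw
  rw [hI]
  -- the larger set `T'`
  set T₀ : Finset P := univ.filter (fun a => f a = l ∧ f' a < l') with hT₀
  have hwt₀ : wt th T₀ = 0 := by
    rw [wt_eq_sum_image th f']
    refine Finset.sum_eq_zero fun m _ => ?_
    by_cases hm : m < l'
    · rw [← hρ (l, m)]
      congr 1
      ext a
      simp only [hT₀, Finset.mem_filter, Finset.mem_univ, true_and, mem_fib, Prod.mk.injEq]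
      constructor
      · rintro ⟨⟨h1, _⟩, h3⟩; exact ⟨h1, h3⟩
      · rintro ⟨h1, h3⟩; exact ⟨⟨h1, h3 ▸ hm⟩, h3⟩
    · rw [Finset.filter_eq_empty_iff.2]
      · simp
      · intro a ha h
        simp only [hT₀, Finset.mem_filter, Finset.mem_univ, true_and] at ha
        exact hm (h ▸ ha.2)
  have hTl : ∀ a ∈ T, f a = l ∧ f' a = l' := by
    intro a ha
    have := hT ha
    simpa using this
  have hdisj : Disjoint T₀ T := by
    rw [Finset.disjoint_left]
    intro a ha hb
    simp only [hT₀, Finset.mem_filter, Finset.mem_univ, true_and] at ha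
    exact absurd (hTl a hb).2 ha.2.ne
  have hwT' : 0 < wt th (T₀ ∪ T) := by
    rw [wt_union hdisj, hwt₀, zero_add]; exact hw
  have hT'sub : T₀ ∪ T ⊆ fib f l := by
    intro a ha
    rw [Finset.mem_union] at ha
    rcases ha with ha | ha
    · simp only [hT₀, Finset.mem_filter, Finset.mem_univ, true_and] at ha
      simp [ha.1]
    · simp [(hTl a ha).1]
  rw [mul_comm]
  refine Ideal.mem_of_dvd _ ?_ (KK_mem_JJ arr f l hT'sub hwT')
  refine KK_dvd_mul arr ?_
  intro a ha b hb
  simp only [Finset.mem_sdiff, mem_fib, Finset.mem_union, not_or] at hb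
  rw [Finset.mem_union] at ha
  have hb1 : ¬ f' b < l' := by
    intro h
    exact hb.2.1 (by simp [hT₀, hb.1, h])
  rcases ha with ha | ha
  · right
    simp only [hT₀, Finset.mem_filter, Finset.mem_univ, true_and] at ha
    exact ⟨by rw [ha.1, hb.1], lt_of_lt_of_le ha.2 (not_lt.1 hb1)⟩
  · by_cases hbl : f' b = l'
    · left
      refine ⟨ha, ?_⟩
      simp only [Finset.mem_sdiff, mem_fib, Prod.mk.injEq]
      exact ⟨⟨hb.1, hbl⟩, hb.2.2⟩
    · right
      refine ⟨by rw [(hTl a ha).1, hb.1], ?_⟩
      rw [(hTl a ha).2]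
      exact lt_of_le_of_ne (not_lt.1 hb1) (Ne.symm hbl)

end zero

end Crest.Agent.R059.Thin613
end

-- ▼ part R059/Thin4b_613

set_option autoImplicit false
set_option linter.unusedSectionVars false

namespace Crest.Agent.R059.Thin613

open MvPolynomial Finset Deg359

variable {P : Type*} [Fintype P] [DecidableEq P]
variable {F : Type*} [CommRing F]
variable {V : Type*} [AddCommGroup V] [LinearOrder V] [IsOrderedAddMonoid V]
variable {L : Type*} {L' : Type*} {L'' : Type*}

/-! ### the unreduced shift -/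

/-- the unreduced block shift `X a ↦ C (X a) + X (f a)`. -/
noncomputable def tsh (F : Type*) [CommRing F] (f : P → L) :
    MvPolynomial P F →+* MvPolynomial L (MvPolynomial P F) :=
  MvPolynomial.eval₂Hom ((C : MvPolynomial P F →+* _).comp C) (fun a => C (X a) + X (f a))

@[simp] lemma tsh_C (f : P → L) (r : F) : tsh F f (C r) = C (C r) := by
  simp [tsh]

@[simp] lemma tsh_X (f : P → L) (a : P) : tsh F f (X a) = C (X a) + X (f a) := by
  simp [tsh]

@[simp] lemma sh_C (arr : P → P → ℕ) (th : P → V) (f : P → L) (r : F) :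
    sh F arr th f (C r) = C (Ideal.Quotient.mk _ (C r)) := by
  simp [sh]

@[simp] lemma sh_X (arr : P → P → ℕ) (th : P → V) (f : P → L) (a : P) :
    sh F arr th f (X a) = C (Ideal.Quotient.mk _ (X a)) + X (f a) := by
  simp [sh]

lemma sh_eq (arr : P → P → ℕ) (th : P → V) (f : P → L) (x : MvPolynomial P F) :
    sh F arr th f x = MvPolynomial.map (Ideal.Quotient.mk (JJ F arr th f)) (tsh F f x) := by
  have h : sh F arr th f =
      (MvPolynomial.map (Ideal.Quotient.mk (JJ F arr th f))).comp (tsh F f) := by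
    apply MvPolynomial.ringHom_ext
    · intro r; simp
    · intro a; simp
  rw [h]; rfl

lemma coeff_sh (arr : P → P → ℕ) (th : P → V) (f : P → L) (x : MvPolynomial P F)
    (α : L →₀ ℕ) :
    coeff α (sh F arr th f x) = Ideal.Quotient.mk (JJ F arr th f) (coeff α (tsh F f x)) := by
  rw [sh_eq, MvPolynomial.coeff_map]

/-- shifting with coarser labels = renaming the shift variables -/
lemma tsh_comp (f : P → L) (g : L → L') (x : MvPolynomial P F) :
    tsh F (g ∘ f) x = rename g (tsh F f x) := by
  have h : tsh F (g ∘ f) = ((rename g : MvPolynomial L (MvPolynomial P F) →ₐ[_] _) :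
      MvPolynomial L (MvPolynomial P F) →+* MvPolynomial L' (MvPolynomial P F)).comp
        (tsh F f) := by
    apply MvPolynomial.ringHom_ext
    · intro r
      rw [RingHom.comp_apply, tsh_C, tsh_C]
      change _ = rename g (C (C r))
      rw [rename_C]
    · intro a
      rw [RingHom.comp_apply, tsh_X, tsh_X]
      change _ = rename g (C (X a) + X (f a))
      rw [map_add, rename_C, rename_X]
      rfl
  rw [h]; rfl

/-- factors inside a block are not moved -/
lemma tsh_sub_of_eq (f : P → L) {a b : P} (h : f a = f b) :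
    tsh F f (X b - X a) = C (X b - X a) := by
  rw [map_sub, tsh_X, tsh_X, h, map_sub]; ring

lemma tsh_KR_of_eq (arr : P → P → ℕ) (f : P → L) {R : P → P → Prop}
    (h : ∀ a b, R a b → f a = f b) : tsh F f (KR F arr R) = C (KR F arr R) := by
  classical
  unfold KR
  rw [map_prod, map_prod]
  refine Finset.prod_congr rfl fun x hx => ?_
  rw [Finset.mem_filter] at hx
  rw [map_pow, tsh_sub_of_eq f (h _ _ hx.2), map_pow]

/-- number of arrows in a relation -/
noncomputable def NR (arr : P → P → ℕ) (R : P → P → Prop) : ℕ := by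
  classical exact ∑ x ∈ (univ : Finset (P × P)).filter (fun x => R x.1 x.2), arr x.1 x.2

lemma TD_sh_sub (arr : P → P → ℕ) (th : P → V) (f : P → L) (a b : P) :
    TD 1 (sh F arr th f (X b - X a)) := by
  rw [map_sub, sh_X, sh_X]
  exact (((TD_C _).mono (by norm_num)).add (TD_X _)).sub
    (((TD_C _).mono (by norm_num)).add (TD_X _))

lemma TD_sh_KR (arr : P → P → ℕ) (th : P → V) (f : P → L) (R : P → P → Prop) :
    TD (NR arr R) (sh F arr th f (KR F arr R)) := by
  classical
  unfold KR NR
  rw [map_prod]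
  push_cast
  refine TD.prod _ _ _ fun x _ => ?_
  rw [map_pow]
  have := (TD_sh_sub (F := F) arr th f x.1 x.2).pow (arr x.1 x.2)
  simpa using this

/-- comparison of `ud` along a kernel element `k` that maps `JJ ρ` into `JJ (g ∘ ρ)` and is not
moved by the coarse shift. -/
lemma ud_mul_of_fixed (arr : P → P → ℕ) (th : P → V) (ρ : P → L) (g : L → L')
    {k : MvPolynomial P F} (hk : tsh F (g ∘ ρ) k = C k)
    (hJ : ∀ y ∈ JJ F arr th ρ, k * y ∈ JJ F arr th (g ∘ ρ)) {m : ℤ} {y : MvPolynomial P F}
    (hy : ud F arr th ρ m y) : ud F arr th (g ∘ ρ) m (k * y) := by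
  classical
  intro α hα
  rw [coeff_sh, map_mul, hk, coeff_C_mul, tsh_comp] at hα
  by_contra hlt
  apply hα
  rw [Ideal.Quotient.eq_zero_iff_mem]
  apply hJ
  rw [← Ideal.Quotient.eq_zero_iff_mem, ← MvPolynomial.coeff_map, MvPolynomial.map_rename]
  have h1 : TD m (MvPolynomial.rename g (MvPolynomial.map (Ideal.Quotient.mk (JJ F arr th ρ))
      (tsh F ρ y))) := by
    rw [← sh_eq]
    exact TD.rename hy g
  exact h1.coeff_eq_zero (not_le.1 hlt)


section est
variable [LinearOrder L']

/-- cross part: pairs in different `f`-blocks, increasing for `f'`. -/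
def Cross (f : P → L) (f' : P → L') (a b : P) : Prop := f a ≠ f b ∧ f' a < f' b

/-- AB4: the key estimate. -/
theorem ud_KL_mul (arr : P → P → ℕ) {th : P → V} {f : P → L} {f' : P → L'}
    (hρ : Good th (fun a => (f a, f' a))) {m : ℤ} {w : MvPolynomial P F}
    (hw : ud F arr th (fun a => (f a, f' a)) m w) :
    ud F arr th f (NR arr (Cross f f') + m) (KL F arr f' * w) := by
  classical
  have hsplit : KL F arr f' = KR F arr (fun a b => f a = f b ∧ f' a < f' b) *
      KR F arr (Cross f f') := by
    rw [KL_eq_KR]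
    refine KR_mul_KR arr _ _ _ (fun a b => ?_) (fun a b => ?_)
    · unfold Cross; tauto
    · unfold Cross; tauto
  rw [hsplit, mul_assoc]
  have h1 : ud F arr th (fun a => (f a, f' a)) (NR arr (Cross f f') + m)
      (KR F arr (Cross f f') * w) := by
    unfold ud
    rw [map_mul]
    exact (TD_sh_KR arr th _ _).mul hw
  have hcomp : f = Prod.fst ∘ (fun a => (f a, f' a)) := rfl
  have := ud_mul_of_fixed (L := L × L') (L' := L) arr th (fun a => (f a, f' a)) Prod.fst
    (k := KR F arr (fun a b => f a = f b ∧ f' a < f' b))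
    (by
      rw [← hcomp]
      exact tsh_KR_of_eq arr f (fun a b h => h.1))
    (by
      intro y hy
      rw [← hcomp]
      exact KRin_mul_mem arr hρ hy) h1
  rw [← hcomp] at this
  exact this

end est

/-! ### counting -/

open scoped Classical in
lemma N2_eq (arr : P → P → ℕ) (f : P → L) : N2 arr f = NR arr (fun a b => f a ≠ f b) := by
  classical
  unfold N2 NR
  rw [Finset.sum_filter, ← Finset.univ_product_univ, Finset.sum_product]
  refine Finset.sum_congr rfl fun a _ => Finset.sum_congr rfl fun b _ => ?_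
  by_cases h : f a = f b <;> simp [h]

lemma NR_add (arr : P → P → ℕ) (R R₁ R₂ : P → P → Prop)
    (h : ∀ a b, R a b ↔ (R₁ a b ∨ R₂ a b)) (hd : ∀ a b, ¬ (R₁ a b ∧ R₂ a b)) :
    NR arr R = NR arr R₁ + NR arr R₂ := by
  classical
  unfold NR
  rw [← Finset.sum_union]
  · refine Finset.sum_congr ?_ fun _ _ => rfl
    ext ⟨a, b⟩
    simp [h a b]
  · rw [Finset.disjoint_left]
    rintro ⟨a, b⟩ h1 h2
    simp only [Finset.mem_filter, Finset.mem_univ, true_and] at h1 h2
    exact hd a b ⟨h1, h2⟩

lemma NR_swap (arr : P → P → ℕ) (R : P → P → Prop) :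
    NR arr (fun a b => R b a) = NR (fun a b => arr b a) R := by
  classical
  unfold NR
  refine Finset.sum_bij' (fun x _ => (x.2, x.1)) (fun x _ => (x.2, x.1)) ?_ ?_ ?_ ?_ ?_
  all_goals simp

/-- symmetry of the arrow count for a relation which depends only on the label of a good
labelling and is irreflexive on labels. -/
lemma NR_symm (arr : P → P → ℕ) {th : P → V} (hs : Sym arr th) {ρ : P → L''} (hρ : Good th ρ)
    (Q : L'' → L'' → Prop) (hQ : ∀ l, ¬ Q l l) :
    NR arr (fun a b => Q (ρ a) (ρ b)) = NR (fun a b => arr b a) (fun a b => Q (ρ a) (ρ b)) := by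
  classical
  have key : ∀ (c : P → P → ℕ), NR c (fun a b => Q (ρ a) (ρ b)) =
      ∑ p ∈ (univ.image ρ ×ˢ univ.image ρ).filter (fun p => Q p.1 p.2),
        ∑ a ∈ fib ρ p.1, ∑ b ∈ fib ρ p.2, c a b := by
    intro c
    unfold NR
    rw [← Finset.sum_fiberwise_of_maps_to
      (s := (univ : Finset (P × P)).filter (fun x => Q (ρ x.1) (ρ x.2)))
      (t := (univ.image ρ ×ˢ univ.image ρ).filter (fun p => Q p.1 p.2))
      (g := fun x => (ρ x.1, ρ x.2))]
    · refine Finset.sum_congr rfl fun p hp => ?_
      rw [← Finset.sum_product']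
      refine Finset.sum_congr ?_ fun _ _ => rfl
      ext ⟨a, b⟩
      rw [Finset.mem_filter] at hp
      simp only [Finset.mem_filter, Finset.mem_univ, true_and, Finset.mem_product, mem_fib,
        Prod.ext_iff]
      constructor
      · rintro ⟨_, h1, h2⟩; exact ⟨h1, h2⟩
      · rintro ⟨h1, h2⟩
        refine ⟨?_, h1, h2⟩
        rw [h1, h2]; exact hp.2
    · rintro ⟨a, b⟩ hx
      simp only [Finset.mem_filter, Finset.mem_univ, true_and] at hx
      simp only [Finset.mem_filter, Finset.mem_product]
      exact ⟨⟨Finset.mem_image_of_mem _ (Finset.mem_univ a),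
        Finset.mem_image_of_mem _ (Finset.mem_univ b)⟩, hx⟩
  rw [key arr, key (fun a b => arr b a)]
  refine Finset.sum_congr rfl fun p hp => ?_
  rw [Finset.mem_filter] at hp
  have hne : p.1 ≠ p.2 := by
    intro h
    exact hQ p.1 (by have := hp.2; rwa [← h] at this)
  refine hs _ _ ?_ (hρ p.1) (hρ p.2)
  rw [Finset.disjoint_left]
  intro a ha hb
  rw [mem_fib] at ha hb
  exact hne (ha ▸ hb)

section count
variable [LinearOrder L']

/-- the arithmetic of the key estimate -/
theorem N2_identity (arr : P → P → ℕ) {th : P → V} (hs : Sym arr th) {f : P → L} {f' : P → L'}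
    (hρ : Good th (fun a => (f a, f' a))) :
    N2 arr (fun a => (f a, f' a)) + 2 * NR arr (Cross f f') = N2 arr f + N2 arr f' := by
  classical
  have h0 : NR arr (Cross f f') = NR arr (fun a b => f a ≠ f b ∧ f' b < f' a) := by
    have h1 := NR_symm arr hs hρ (fun p q => p.1 ≠ q.1 ∧ p.2 < q.2) (fun l h => h.1 rfl)
    have h2 := NR_swap arr (fun a b => f a ≠ f b ∧ f' a < f' b)
    rw [show Cross f f' = fun a b => f a ≠ f b ∧ f' a < f' b from rfl]
    calc _ = NR (fun a b => arr b a) (fun a b => f a ≠ f b ∧ f' a < f' b) := h1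
      _ = NR arr (fun a b => f b ≠ f a ∧ f' b < f' a) := h2.symm
      _ = _ := by simp only [ne_comm]
  have h3 : NR arr (fun a b => f a ≠ f b ∧ f' a ≠ f' b) = 2 * NR arr (Cross f f') := by
    rw [two_mul]
    nth_rw 2 [h0]
    refine NR_add arr _ _ _ (fun a b => ?_) (fun a b => ?_)
    · unfold Cross
      have := @ne_iff_lt_or_gt _ _ (f' a) (f' b)
      tauto
    · unfold Cross
      rintro ⟨⟨_, h1⟩, _, h2⟩
      exact absurd h2 (not_lt.2 h1.le)
  have h4 : N2 arr f = NR arr (fun a b => f a ≠ f b ∧ f' a = f' b) +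
      NR arr (fun a b => f a ≠ f b ∧ f' a ≠ f' b) := by
    rw [N2_eq]
    exact NR_add arr _ _ _ (fun a b => by tauto) (fun a b => by tauto)
  have h5 : N2 arr (fun a => (f a, f' a)) = N2 arr f' +
      NR arr (fun a b => f a ≠ f b ∧ f' a = f' b) := by
    rw [N2_eq, N2_eq]
    refine NR_add arr _ _ _ (fun a b => ?_) (fun a b => ?_)
    · simp only [ne_eq, Prod.mk.injEq]; tauto
    · tauto
  omega

end count

end Crest.Agent.R059.Thin613
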