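import Crest.Agent.R059.Thin0_613
import Crest.Agent.R059.Deg_359

/-!
Row 59, TEAM THIN (helper494): transport, equivariance and grading of the thin definitions
`Thin0_613` (`JJ`, `sh`, `ud`, `KL`, `Good`).

`Mor` = morphism of labelled particle sets (injective on particles, compatible with arrows, weights
and labels, and *full*: the fibre of `f'` through `ι a` is the image of the fibre of `f` through `a`).
Special cases: colour preserving equivalences, relabellings, block inclusions.
-/

set_option autoImplicit false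
set_option linter.unusedSectionVars false
set_option linter.unusedVariables false

namespace Crest.Agent.R059.ThinEq494

open MvPolynomial Finset Crest.Agent.R059.Thin613
open Crest.Agent.R059.Deg359 (Hom TD)

variable {P P' P'' : Type*} [Fintype P] [DecidableEq P] [Fintype P'] [DecidableEq P']
  [Fintype P''] [DecidableEq P'']
variable {F : Type*} [CommRing F]
variable {V : Type*} [AddCommGroup V] [LinearOrder V] [IsOrderedAddMonoid V]
variable {L L' L'' : Type*}

/-- morphism of labelled particle sets -/
structure Mor (arr : P → P → ℕ) (th : P → V) (f : P → L) (arr' : P' → P' → ℕ) (th' : P' → V)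
    (f' : P' → L') (ι : P → P') (lam : L → L') : Prop where
  inj : Function.Injective ι
  arr_eq : ∀ a b, arr a b = arr' (ι a) (ι b)
  th_eq : ∀ a, th a = th' (ι a)
  lab : ∀ a, f' (ι a) = lam (f a)
  full : ∀ a b', f' b' = f' (ι a) → ∃ b, f b = f a ∧ ι b = b'

section mor

variable {arr : P → P → ℕ} {th : P → V} {f : P → L} {arr' : P' → P' → ℕ} {th' : P' → V}
  {f' : P' → L'} {ι : P → P'} {lam : L → L'}

theorem rename_KK (hinj : Function.Injective ι) (harr : ∀ a b, arr a b = arr' (ι a) (ι b))
    (S T : Finset P) :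
    rename ι (KK F arr S T) = KK F arr' (S.image ι) (T.image ι) := by
  unfold KK
  rw [map_prod, Finset.prod_image (fun a _ b _ h => hinj h)]
  refine Finset.prod_congr rfl fun a _ => ?_
  rw [map_prod, Finset.prod_image (fun a _ b _ h => hinj h)]
  refine Finset.prod_congr rfl fun b _ => ?_
  rw [map_pow, map_sub, rename_X, rename_X, harr]

theorem wt_image (hinj : Function.Injective ι) (hth : ∀ a, th a = th' (ι a)) (S : Finset P) :
    wt th' (S.image ι) = wt th S := by
  unfold wt
  rw [Finset.sum_image (fun a _ b _ h => hinj h)]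
  exact Finset.sum_congr rfl fun a _ => (hth a).symm

theorem Mor.image_fib (h : Mor arr th f arr' th' f' ι lam) (a : P) :
    (fib f (f a)).image ι = fib f' (f' (ι a)) := by
  ext b'
  simp only [mem_image, mem_fib]
  constructor
  · rintro ⟨b, hb, rfl⟩
    rw [h.lab, h.lab, hb]
  · intro hb
    exact h.full a b' hb

theorem Mor.JJ_le (h : Mor arr th f arr' th' f' ι lam) :
    JJ F arr th f ≤ (JJ F arr' th' f').comap
      ((rename ι : MvPolynomial P F →ₐ[F] MvPolynomial P' F) :
        MvPolynomial P F →+* MvPolynomial P' F) := by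
  rw [JJ_le_iff]
  intro l T hT hw
  rw [Ideal.mem_comap, RingHom.coe_coe, rename_KK h.inj h.arr_eq]
  have hne : T.Nonempty := by
    rw [Finset.nonempty_iff_ne_empty]
    rintro rfl
    simp at hw
  obtain ⟨a, ha⟩ := hne
  have hl : f a = l := by simpa using hT ha
  subst hl
  have e : (fib f (f a) \ T).image ι = fib f' (f' (ι a)) \ T.image ι := by
    rw [Finset.image_sdiff _ _ h.inj, h.image_fib]
  rw [e]
  refine KK_mem_JJ arr' f' _ ?_ ?_
  · rw [← h.image_fib]
    exact Finset.image_subset_image hT
  · rwa [wt_image h.inj h.th_eq]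

/-- the induced ring homomorphism of the quotients -/
noncomputable def Mor.quot (F : Type*) [CommRing F] (h : Mor arr th f arr' th' f' ι lam) :
    (MvPolynomial P F ⧸ JJ F arr th f) →+* (MvPolynomial P' F ⧸ JJ F arr' th' f') :=
  Ideal.quotientMap (JJ F arr' th' f')
    ((rename ι : MvPolynomial P F →ₐ[F] MvPolynomial P' F) : MvPolynomial P F →+* MvPolynomial P' F)
    h.JJ_le

@[simp] theorem Mor.quot_mk (h : Mor arr th f arr' th' f' ι lam) (x : MvPolynomial P F) :
    h.quot F (Ideal.Quotient.mk _ x) = Ideal.Quotient.mk _ (rename ι x) := by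
  unfold Mor.quot
  rw [Ideal.quotientMap_mk]
  rfl

theorem sh_C (f : P → L) (c : F) :
    sh F arr th f (C c) = C (Ideal.Quotient.mk _ (C c)) := by
  unfold sh
  rw [coe_eval₂Hom, eval₂_C]
  rfl

theorem sh_X (f : P → L) (a : P) :
    sh F arr th f (X a) = C (Ideal.Quotient.mk _ (X a)) + X (f a) := by
  unfold sh
  rw [coe_eval₂Hom, eval₂_X]

/-- naturality of the shift -/
theorem Mor.sh_rename (h : Mor arr th f arr' th' f' ι lam) (x : MvPolynomial P F) :
    sh F arr' th' f' (rename ι x) = rename lam (map (h.quot F) (sh F arr th f x)) := by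
  have key : (sh F arr' th' f').comp
      ((rename ι : MvPolynomial P F →ₐ[F] MvPolynomial P' F) : MvPolynomial P F →+* MvPolynomial P' F)
      = ((rename lam : MvPolynomial L (MvPolynomial P' F ⧸ JJ F arr' th' f') →ₐ[_] _) :
          MvPolynomial L (MvPolynomial P' F ⧸ JJ F arr' th' f') →+*
            MvPolynomial L' (MvPolynomial P' F ⧸ JJ F arr' th' f')).comp
        ((map (h.quot F)).comp (sh F arr th f)) := by
    apply MvPolynomial.ringHom_ext
    · intro c
      simp only [RingHom.comp_apply, RingHom.coe_coe, rename_C, sh_C, map_C, h.quot_mk]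
    · intro a
      simp only [RingHom.comp_apply, RingHom.coe_coe, rename_X, sh_X, map_add, map_C, map_X,
        rename_C, h.quot_mk, h.lab]
  exact DFunLike.congr_fun key x


theorem Mor.ud (h : Mor arr th f arr' th' f' ι lam) {m : ℤ} {x : MvPolynomial P F}
    (hx : Thin613.ud F arr th f m x) : Thin613.ud F arr' th' f' m (rename ι x) := by
  unfold Thin613.ud at hx ⊢
  rw [h.sh_rename]
  exact (Deg359.TD.map hx _).rename _

/-- composition -/
theorem Mor.comp {arr'' : P'' → P'' → ℕ} {th'' : P'' → V} {f'' : P'' → L''} {ι' : P' → P''}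
    {lam' : L' → L''} (h : Mor arr th f arr' th' f' ι lam)
    (h' : Mor arr' th' f' arr'' th'' f'' ι' lam') :
    Mor arr th f arr'' th'' f'' (ι' ∘ ι) (lam' ∘ lam) where
  inj := h'.inj.comp h.inj
  arr_eq a b := by rw [h.arr_eq, h'.arr_eq]; rfl
  th_eq a := by rw [h.th_eq, h'.th_eq]; rfl
  lab a := by simp only [Function.comp_apply, h'.lab, h.lab]
  full a b'' hb := by
    obtain ⟨b', hb', rfl⟩ := h'.full (ι a) b'' hb
    obtain ⟨b, hb1, rfl⟩ := h.full a b' hb'
    exact ⟨b, hb1, rfl⟩

end mor

/-! ### (E1) equivalences -/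

section equiv

variable {arr : P → P → ℕ} {th : P → V} {arr' : P' → P' → ℕ} {th' : P' → V}

/-- a colour preserving equivalence, the label set is fixed -/
theorem mor_equiv (e : P ≃ P') (harr : ∀ a b, arr a b = arr' (e a) (e b))
    (hth : ∀ a, th a = th' (e a)) (f : P → L) :
    Mor arr th f arr' th' (f ∘ e.symm) e id where
  inj := e.injective
  arr_eq := harr
  th_eq := hth
  lab a := by simp
  full a b' hb := by
    refine ⟨e.symm b', ?_, by simp⟩
    simpa using hb

/-- the same with a given labelling on the target -/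
theorem mor_equiv' (e : P ≃ P') (harr : ∀ a b, arr a b = arr' (e a) (e b))
    (hth : ∀ a, th a = th' (e a)) {f : P → L} {f' : P' → L} (hf : ∀ a, f' (e a) = f a) :
    Mor arr th f arr' th' f' e id where
  inj := e.injective
  arr_eq := harr
  th_eq := hth
  lab a := hf a
  full a b' hb := by
    refine ⟨e.symm b', ?_, by simp⟩
    rw [← hf, ← hf, ← hb]
    simp

theorem mor_symm {e : P ≃ P'} {f : P → L} {f' : P' → L}
    (h : Mor arr th f arr' th' f' e id) : Mor arr' th' f' arr th f e.symm id := by
  refine mor_equiv' e.symm (fun a b => ?_) (fun a => ?_) (fun a => ?_)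
  · rw [h.arr_eq]; simp
  · rw [h.th_eq]; simp
  · have := h.lab (e.symm a)
    simp only [Equiv.apply_symm_apply, id_eq] at this
    exact this.symm

theorem mem_JJ_equiv {e : P ≃ P'} {f : P → L} {f' : P' → L}
    (h : Mor arr th f arr' th' f' e id) (x : MvPolynomial P F) :
    rename e x ∈ JJ F arr' th' f' ↔ x ∈ JJ F arr th f := by
  constructor
  · intro hx
    have := (mor_symm h).JJ_le hx
    rw [Ideal.mem_comap, RingHom.coe_coe] at this
    have e2 : rename e.symm (rename e x) = x := by
      rw [rename_rename]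
      have : (⇑e.symm ∘ ⇑e) = id := by ext a; simp
      rw [this, rename_id_apply]
    rwa [e2] at this
  · intro hx
    exact h.JJ_le hx

theorem ud_equiv {e : P ≃ P'} {f : P → L} {f' : P' → L}
    (h : Mor arr th f arr' th' f' e id) (m : ℤ) (x : MvPolynomial P F) :
    ud F arr' th' f' m (rename e x) ↔ ud F arr th f m x := by
  constructor
  · intro hx
    have := (mor_symm h).ud hx
    have e2 : rename e.symm (rename e x) = x := by
      rw [rename_rename]
      have : (⇑e.symm ∘ ⇑e) = id := by ext a; simp
      rw [this, rename_id_apply]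
    rwa [e2] at this
  · exact h.ud

theorem wt_fib_equiv {e : P ≃ P'} {f : P → L} {f' : P' → L}
    (h : Mor arr th f arr' th' f' e id) (l : L) : wt th' (fib f' l) = wt th (fib f l) := by
  rw [← wt_image h.inj h.th_eq]
  congr 1
  ext b'
  simp only [mem_fib, mem_image]
  constructor
  · intro hb
    refine ⟨e.symm b', ?_, by simp⟩
    have := h.lab (e.symm b')
    simp only [Equiv.apply_symm_apply, id_eq] at this
    rw [← this, hb]
  · rintro ⟨b, hb, rfl⟩
    have := h.lab b
    simp only [id_eq] at this
    rw [this, hb]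

theorem Good_equiv {e : P ≃ P'} {f : P → L} {f' : P' → L}
    (h : Mor arr th f arr' th' f' e id) : Good th' f' ↔ Good th f := by
  unfold Good
  exact forall_congr' fun l => by rw [wt_fib_equiv h]


theorem N2_equiv {e : P ≃ P'} {f : P → L} {f' : P' → L}
    (h : Mor arr th f arr' th' f' e id) : N2 arr' f' = N2 arr f := by
  classical
  unfold N2
  rw [← Equiv.sum_comp e]
  refine Finset.sum_congr rfl fun a _ => ?_
  rw [← Equiv.sum_comp e]
  refine Finset.sum_congr rfl fun b _ => ?_
  have ha := h.lab a
  have hb := h.lab b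
  simp only [id_eq] at ha hb
  rw [ha, hb, ← h.arr_eq]

end equiv

/-! ### (E2) relabelling -/

section relabel

variable {arr : P → P → ℕ} {th : P → V}












end relabel

/-! ### (E3) block inclusions and products over blocks -/

section blocks




end blocks

/-! ### (E4) grading -/

section grading

variable {arr : P → P → ℕ} {th : P → V}

theorem KK_isHomogeneous (S T : Finset P) :
    (KK F arr S T).IsHomogeneous (∑ a ∈ S, ∑ b ∈ T, arr a b) := by
  unfold KK
  refine IsHomogeneous.prod _ _ _ fun a _ => IsHomogeneous.prod _ _ _ fun b _ => ?_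
  have h := ((isHomogeneous_X F b).sub (isHomogeneous_X F a)).pow (arr a b)
  simpa using h

attribute [local instance] MvPolynomial.gradedAlgebra

theorem J0_isHomogeneous (A : Finset P) :
    (J0 F arr th A).IsHomogeneous (homogeneousSubmodule P F) := by
  unfold J0
  apply Ideal.homogeneous_span
  rintro x ⟨T, _, _, rfl⟩
  exact ⟨_, (mem_homogeneousSubmodule _ _).2 (KK_isHomogeneous _ _)⟩

theorem JJ_isHomogeneous (f : P → L) :
    (JJ F arr th f).IsHomogeneous (homogeneousSubmodule P F) := by
  unfold JJ
  exact Ideal.IsHomogeneous.iSup fun l => J0_isHomogeneous _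

theorem homogeneousComponent_mem_JJ (f : P → L) {x : MvPolynomial P F}
    (hx : x ∈ JJ F arr th f) (n : ℕ) : homogeneousComponent n x ∈ JJ F arr th f :=
  homogeneousComponent_mem_of_mem (JJ_isHomogeneous f) hx n

/-- graded of total degree `n`: the coefficient at `α` is the class of a polynomial which is
homogeneous of degree `n - |α|`. -/
def HG {I : Ideal (MvPolynomial P F)} (n : ℤ) (q : MvPolynomial L (MvPolynomial P F ⧸ I)) : Prop :=
  ∀ α : L →₀ ℕ, ∃ y : MvPolynomial P F, Hom (n - ((α.degree : ℕ) : ℤ)) y ∧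
    Ideal.Quotient.mk I y = coeff α q

variable {I : Ideal (MvPolynomial P F)}

theorem HG.zero (n : ℤ) : HG n (0 : MvPolynomial L (MvPolynomial P F ⧸ I)) := fun α =>
  ⟨0, Deg359.Hom_zero _, by simp⟩

theorem HG.add {n : ℤ} {p q : MvPolynomial L (MvPolynomial P F ⧸ I)} (hp : HG n p) (hq : HG n q) :
    HG n (p + q) := fun α => by
  obtain ⟨y, hy, hy'⟩ := hp α
  obtain ⟨z, hz, hz'⟩ := hq α
  exact ⟨y + z, hy.add hz, by rw [map_add, hy', hz', coeff_add]⟩

theorem HG.sum {T : Type*} {n : ℤ} (s : Finset T) (p : T → MvPolynomial L (MvPolynomial P F ⧸ I))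
    (h : ∀ i ∈ s, HG n (p i)) : HG n (∑ i ∈ s, p i) := by
  classical
  induction s using Finset.induction_on with
  | empty => simpa using HG.zero n
  | insert a s ha ih =>
    rw [Finset.sum_insert ha]
    exact (h a (Finset.mem_insert_self a s)).add (ih fun i hi => h i (Finset.mem_insert_of_mem hi))

theorem HG.mul {m n : ℤ} {p q : MvPolynomial L (MvPolynomial P F ⧸ I)} (hp : HG m p)
    (hq : HG n q) : HG (m + n) (p * q) := by
  classical
  intro α
  choose y hy hy' using hp
  choose z hz hz' using hq
  refine ⟨∑ x ∈ Finset.HasAntidiagonal.antidiagonal α, y x.1 * z x.2, ?_, ?_⟩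
  · refine Deg359.Hom.sum _ _ fun x hx => ?_
    have h1 := (hy x.1).mul (hz x.2)
    have h2 : (m - ((x.1.degree : ℕ) : ℤ) + (n - ((x.2.degree : ℕ) : ℤ)))
        = m + n - ((α.degree : ℕ) : ℤ) := by
      have h3 := Finset.HasAntidiagonal.mem_antidiagonal.1 hx
      rw [← h3, map_add]
      push_cast
      ring
    rwa [h2] at h1
  · rw [coeff_mul, map_sum]
    refine Finset.sum_congr rfl fun x _ => ?_
    rw [map_mul, hy', hz']

theorem HG.one : HG 0 (1 : MvPolynomial L (MvPolynomial P F ⧸ I)) := by
  classical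
  intro α
  rw [coeff_one]
  by_cases h : 0 = α
  · subst h
    exact ⟨1, by simpa using Deg359.Hom_one, by simp⟩
  · rw [if_neg h]
    exact ⟨0, Deg359.Hom_zero _, by simp⟩

theorem HG.prod {T : Type*} (s : Finset T) (p : T → MvPolynomial L (MvPolynomial P F ⧸ I))
    (n : T → ℤ) (h : ∀ i ∈ s, HG (n i) (p i)) : HG (∑ i ∈ s, n i) (∏ i ∈ s, p i) := by
  classical
  induction s using Finset.induction_on with
  | empty => simpa using HG.one
  | insert a s ha ih =>
    rw [Finset.prod_insert ha, Finset.sum_insert ha]
    exact (h a (Finset.mem_insert_self a s)).mul (ih fun i hi => h i (Finset.mem_insert_of_mem hi))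

theorem HG.pow {n : ℤ} {p : MvPolynomial L (MvPolynomial P F ⧸ I)} (h : HG n p) (k : ℕ) :
    HG (k * n) (p ^ k) := by
  induction k with
  | zero => simpa using HG.one
  | succ k ih =>
    rw [pow_succ]
    have := ih.mul h
    have e : (k : ℤ) * n + n = ((k + 1 : ℕ) : ℤ) * n := by push_cast; ring
    rwa [e] at this

theorem HG.C_mk {n : ℤ} {y : MvPolynomial P F} (hy : Hom n y) :
    HG n (C (Ideal.Quotient.mk I y) : MvPolynomial L (MvPolynomial P F ⧸ I)) := by
  classical
  intro α
  rw [coeff_C]
  by_cases h : 0 = α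
  · subst h
    exact ⟨y, by simpa using hy, by simp⟩
  · rw [if_neg h]
    exact ⟨0, Deg359.Hom_zero _, by simp⟩

theorem HG.X (l : L) : HG 1 (X l : MvPolynomial L (MvPolynomial P F ⧸ I)) := by
  classical
  intro α
  rw [coeff_X]
  by_cases h : Finsupp.single l 1 = α
  · subst h
    exact ⟨1, by simpa using Deg359.Hom_one, by simp⟩
  · rw [if_neg h]
    exact ⟨0, Deg359.Hom_zero _, by simp⟩

/-- **(E4)** the shift of a homogeneous polynomial is graded -/
theorem HG_sh (f : P → L) {n : ℕ} {x : MvPolynomial P F} (hx : x.IsHomogeneous n) :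
    HG (n : ℤ) (sh F arr th f x) := by
  classical
  rw [x.as_sum, map_sum]
  refine HG.sum _ _ fun m hm => ?_
  have hdeg : ∑ a ∈ m.support, m a = n := by
    have := hx (mem_support_iff.1 hm)
    rw [← this, Finsupp.weight_apply]
    simp [Finsupp.sum]
  rw [monomial_eq, map_mul, sh_C, Finsupp.prod, map_prod]
  have h1 : HG (0 : ℤ) (C (Ideal.Quotient.mk (JJ F arr th f) (C (coeff m x))) :
      MvPolynomial L _) := HG.C_mk (Deg359.Hom_C _)
  have h2 : HG (∑ a ∈ m.support, ((m a : ℕ) : ℤ) * 1)
      (∏ a ∈ m.support, sh F arr th f (MvPolynomial.X a ^ m a)) := by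
    refine HG.prod _ _ _ fun a _ => ?_
    rw [map_pow, sh_X]
    exact ((HG.C_mk (Deg359.Hom_X a)).add (HG.X (f a))).pow _
  have h3 := h1.mul h2
  have e : (0 : ℤ) + ∑ a ∈ m.support, ((m a : ℕ) : ℤ) * 1 = (n : ℤ) := by
    rw [zero_add, ← hdeg]
    push_cast
    simp
  rwa [e] at h3

end grading

/-! ### (E5) symmetry under block preserving permutations -/

section symm

variable {arr : P → P → ℕ} {th : P → V}

/-- colour and block preserving permutation -/
theorem mor_perm (g : Equiv.Perm P) (harr : ∀ a b, arr a b = arr (g a) (g b))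
    (hth : ∀ a, th a = th (g a)) (f : P → L) (hf : ∀ a, f (g a) = f a) :
    Mor arr th f arr th f g id := mor_equiv' g harr hth hf

theorem map_quot_sh (g : Equiv.Perm P) {f : P → L} (h : Mor arr th f arr th f g id)
    (x : MvPolynomial P F) :
    map (h.quot F) (sh F arr th f x) = sh F arr th f (rename g x) := by
  rw [h.sh_rename, rename_id_apply]


/-- the same for the quotient by a polynomial `D` over the prime ring -/
theorem quot_coeff_div (g : Equiv.Perm P) {f : P → L} (h : Mor arr th f arr th f g id)
    {x : MvPolynomial P F} {c : F} (hx : rename g x = C c * x)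
    {D t : MvPolynomial L (MvPolynomial P F ⧸ JJ F arr th f)} {m : ℤ}
    (hD : map (h.quot F) D = D) (hreg : ∀ y, D * y = 0 → y = 0)
    (ht : Deg359.top m (sh F arr th f x) = D * t) (α : L →₀ ℕ) :
    h.quot F (coeff α t) = Ideal.Quotient.mk _ (C c) * coeff α t := by
  have h1 : D * map (h.quot F) t = D * (C (Ideal.Quotient.mk _ (C c)) * t) := by
    calc D * map (h.quot F) t = map (h.quot F) (D * t) := by rw [map_mul, hD]
      _ = map (h.quot F) (Deg359.top m (sh F arr th f x)) := by rw [ht]
      _ = Deg359.top m (map (h.quot F) (sh F arr th f x)) := (Deg359.top_map _ _ _).symm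
      _ = Deg359.top m (C (Ideal.Quotient.mk _ (C c)) * sh F arr th f x) := by
          rw [map_quot_sh, hx, map_mul, sh_C]
      _ = C (Ideal.Quotient.mk _ (C c)) * Deg359.top m (sh F arr th f x) := by
          ext β
          rw [Deg359.coeff_top, coeff_C_mul, coeff_C_mul, Deg359.coeff_top]
          split_ifs <;> simp
      _ = D * (C (Ideal.Quotient.mk _ (C c)) * t) := by rw [ht]; ring
  have h2 : map (h.quot F) t = C (Ideal.Quotient.mk _ (C c)) * t := by
    have h3 : D * (map (h.quot F) t - C (Ideal.Quotient.mk _ (C c)) * t) = 0 := by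
      linear_combination h1
    exact sub_eq_zero.1 (hreg _ h3)
  rw [← coeff_map, h2, coeff_C_mul]

end symm

end Crest.Agent.R059.ThinEq494
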