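import Mathlib
import Crest.Agent.R059.Deg_359
import Crest.Agent.R059.Thin0_613
import Crest.Agent.R059.Thin4b_613
import Crest.Agent.R059.Thin4c_613
import Crest.Agent.R059.ThinEq_494
import Crest.Agent.R059.PL1_547

-- ▼ part R059/Eng_830
section

/-!
# Row 59, Theorem B: the abstract filtration engine (helper830)

A family `e t` (`t : T`) with level `k t : ℕ` and place `p t : Q` (`Q` finite, `card : Q → ℕ`), and
for every place `σ` an increasing family of submodules `Gr σ g` (`g : ℤ`).
`e t ∈ Gr σ (k t)` for all `σ`, and `e t ∈ Gr σ (k t - 1)` if `card (p t) ≤ card σ`, `σ ≠ p t`.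
The family is independent modulo `I` / spans modulo `I` as soon as this holds locally at every
`(place, level)`.
-/

set_option autoImplicit false

namespace Crest.Agent.R059.Eng830

open Finset Submodule

variable {F M : Type*} [Field F] [AddCommGroup M] [Module F M]
variable {Q T : Type*} [Fintype Q]

/-- the growth data -/
structure Growth (F M Q : Type*) [Field F] [AddCommGroup M] [Module F M] where
  card : Q → ℕ
  Gr : Q → ℤ → Submodule F M
  mono : ∀ σ, Monotone (Gr σ)

/-- a family adapted to the growth data -/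
structure Fam (D : Growth F M Q) (T : Type*) where
  e : T → M
  k : T → ℕ
  p : T → Q
  mem : ∀ t σ, e t ∈ D.Gr σ (k t)
  memlt : ∀ t σ, σ ≠ p t → D.card (p t) ≤ D.card σ → e t ∈ D.Gr σ ((k t : ℤ) - 1)

variable {D : Growth F M Q} (E : Fam D T)

omit [Fintype Q] in
/-- **independence**: local independence at every (place, level) implies independence modulo `I`. -/
theorem ind (I : Submodule F M) (hI : ∀ σ g, I ≤ D.Gr σ g)
    (loc : ∀ (q : Q) (g : ℕ) (c : T →₀ F), (∀ t ∈ c.support, E.p t = q ∧ E.k t = g) →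
      (c.sum fun t a => a • E.e t) ∈ D.Gr q ((g : ℤ) - 1) → c = 0) :
    ∀ c : T →₀ F, (c.sum fun t a => a • E.e t) ∈ I → c = 0 := by
  classical
  intro c hc
  by_contra hne
  have hS : c.support.Nonempty := Finsupp.support_nonempty_iff.2 hne
  obtain ⟨t1, ht1, hmax1⟩ := c.support.exists_max_image E.k hS
  set S2 := c.support.filter (fun t => E.k t = E.k t1) with hS2
  have hS2n : S2.Nonempty := ⟨t1, by simp [hS2, Finsupp.mem_support_iff.1 ht1]⟩
  obtain ⟨t0, ht0, hmax0⟩ := S2.exists_max_image (fun t => D.card (E.p t)) hS2n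
  have ht0' : t0 ∈ c.support ∧ E.k t0 = E.k t1 := by simpa [hS2] using ht0
  set q := E.p t0 with hq
  set g := E.k t1 with hg
  set P : T → Prop := fun t => E.p t = q ∧ E.k t = g with hP
  have hsplit : (c.filter P) + (c.filter (fun t => ¬ P t)) = c := Finsupp.filter_pos_add_filter_neg c P
  have hsum : (c.sum fun t a => a • E.e t) =
      ((c.filter P).sum fun t a => a • E.e t) +
      ((c.filter (fun t => ¬ P t)).sum fun t a => a • E.e t) := by
    conv_lhs => rw [← hsplit]
    rw [Finsupp.sum_add_index']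
    · intro t; simp
    · intro t a b; rw [add_smul]
  have h2 : ((c.filter (fun t => ¬ P t)).sum fun t a => a • E.e t) ∈ D.Gr q ((g : ℤ) - 1) := by
    rw [Finsupp.sum]
    apply Submodule.sum_mem
    intro t ht
    apply Submodule.smul_mem
    have ht' : t ∈ c.support ∧ ¬ P t := by
      rw [Finsupp.support_filter, Finset.mem_filter] at ht
      exact ht
    have hkt : E.k t ≤ g := hmax1 t ht'.1
    rcases Nat.lt_or_eq_of_le hkt with hlt | heq
    · exact D.mono q (by omega) (E.mem t q)
    · have hpne : q ≠ E.p t := by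
        intro h
        exact ht'.2 ⟨h.symm, heq⟩
      have hcard : D.card (E.p t) ≤ D.card q := by
        apply hmax0 t
        simp only [hS2, Finset.mem_filter]
        exact ⟨ht'.1, heq⟩
      have := E.memlt t q hpne hcard
      rwa [heq] at this
  have h1 : ((c.filter P).sum fun t a => a • E.e t) ∈ D.Gr q ((g : ℤ) - 1) := by
    have h3 := hI q ((g : ℤ) - 1) hc
    rw [hsum] at h3
    have := Submodule.sub_mem _ h3 h2
    simpa using this
  have h0 := loc q g (c.filter P) (by
    intro t ht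
    rw [Finsupp.support_filter, Finset.mem_filter] at ht
    exact ht.2) h1
  have : (c.filter P) t0 = 0 := by rw [h0]; rfl
  rw [Finsupp.filter_apply_pos P c ⟨rfl, ht0'.2⟩] at this
  exact (Finsupp.mem_support_iff.1 ht0'.1) this

omit [Fintype Q] in
/-- the same as linear independence in the quotient -/
theorem ind_quot (I : Submodule F M) (hI : ∀ σ g, I ≤ D.Gr σ g)
    (loc : ∀ (q : Q) (g : ℕ) (c : T →₀ F), (∀ t ∈ c.support, E.p t = q ∧ E.k t = g) →
      (c.sum fun t a => a • E.e t) ∈ D.Gr q ((g : ℤ) - 1) → c = 0) :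
    LinearIndependent F (fun t => I.mkQ (E.e t)) := by
  rw [linearIndependent_iff]
  intro c hc
  apply ind E I hI loc c
  rw [Finsupp.linearCombination_apply] at hc
  have : I.mkQ (c.sum fun t a => a • E.e t) = 0 := by
    rw [← hc, Finsupp.sum, Finsupp.sum, map_sum]
    simp
  rwa [Submodule.mkQ_apply, Submodule.Quotient.mk_eq_zero] at this

/-- the span of the members of level `< (g, s)` -/
def lev (g s : ℕ) : Submodule F M :=
  span F (E.e '' {t | E.k t < g ∨ (E.k t = g ∧ D.card (E.p t) < s)})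

omit [Fintype Q] in
theorem lev_mono {g s g' s' : ℕ} (h : g < g' ∨ (g = g' ∧ s ≤ s')) : lev E g s ≤ lev E g' s' := by
  apply span_mono
  apply Set.image_mono
  intro t ht
  simp only [Set.mem_setOf_eq] at ht ⊢
  omega

/-- **spanning**, filtered form. -/
theorem span_lev (RX I : Submodule F M) (he : ∀ t, E.e t ∈ RX)
    (zero : ∀ f ∈ RX, (∀ σ, f ∈ D.Gr σ (-1)) → f ∈ I)
    (loc : ∀ (q : Q) (g : ℕ), ∀ f ∈ RX, (∀ σ, f ∈ D.Gr σ g) →
      (∀ σ, D.card q < D.card σ → f ∈ D.Gr σ ((g : ℤ) - 1)) →
      ∃ h ∈ span F (E.e '' {t | E.p t = q ∧ E.k t = g}), f - h ∈ D.Gr q ((g : ℤ) - 1)) :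
    ∀ (g s : ℕ), ∀ f ∈ RX, (∀ σ, f ∈ D.Gr σ g) →
      (∀ σ, s ≤ D.card σ → f ∈ D.Gr σ ((g : ℤ) - 1)) → f ∈ I ⊔ lev E g s := by
  classical
  -- the subtraction step
  have step : ∀ g s : ℕ, (∀ f ∈ RX, (∀ σ, f ∈ D.Gr σ g) →
      (∀ σ, s ≤ D.card σ → f ∈ D.Gr σ ((g : ℤ) - 1)) → f ∈ I ⊔ lev E g s) →
      (∀ f ∈ RX, (∀ σ, f ∈ D.Gr σ g) →
      (∀ σ, s + 1 ≤ D.card σ → f ∈ D.Gr σ ((g : ℤ) - 1)) → f ∈ I ⊔ lev E g (s + 1)) := by
    intro g s ih f hf hg hs
    set A := (univ : Finset Q).filter (fun σ => D.card σ = s) with hA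
    have hex : ∀ σ : Q, ∃ h ∈ span F (E.e '' {t | E.p t = σ ∧ E.k t = g}),
        D.card σ = s → f - h ∈ D.Gr σ ((g : ℤ) - 1) := by
      intro σ
      by_cases hσ : D.card σ = s
      · obtain ⟨h, h1, h2⟩ := loc σ g f hf hg (by
          intro τ hτ
          apply hs τ
          omega)
        exact ⟨h, h1, fun _ => h2⟩
      · exact ⟨0, zero_mem _, fun h => absurd h hσ⟩
    choose h hspan hsub using hex
    -- membership of the elements of the local span
    have hh1 : ∀ σ τ, h σ ∈ D.Gr τ g := by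
      intro σ τ
      refine (span_le.2 ?_) (hspan σ)
      rintro _ ⟨t, ht, rfl⟩
      have := E.mem t τ
      rw [ht.2] at this
      exact this
    have hh2 : ∀ σ τ, τ ≠ σ → D.card σ ≤ D.card τ → h σ ∈ D.Gr τ ((g : ℤ) - 1) := by
      intro σ τ hne hc
      refine (span_le.2 ?_) (hspan σ)
      rintro _ ⟨t, ht, rfl⟩
      have := E.memlt t τ (by rw [ht.1]; exact hne) (by rw [ht.1]; exact hc)
      rw [ht.2] at this
      exact this
    have hh3 : ∀ σ, h σ ∈ RX := by
      intro σ
      refine (span_le.2 ?_) (hspan σ)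
      rintro _ ⟨t, _, rfl⟩
      exact he t
    have hh4 : ∀ σ ∈ A, h σ ∈ lev E g (s + 1) := by
      intro σ hσ
      have hσ' : D.card σ = s := by simpa [hA] using hσ
      refine (span_mono ?_) (hspan σ)
      apply Set.image_mono
      intro t ht
      right
      refine ⟨ht.2, ?_⟩
      rw [ht.1]
      omega
    have key : f - ∑ σ ∈ A, h σ ∈ I ⊔ lev E g s := by
      apply ih
      · exact sub_mem hf (Submodule.sum_mem _ fun σ _ => hh3 σ)
      · intro τ
        exact sub_mem (hg τ) (Submodule.sum_mem _ fun σ _ => hh1 σ τ)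
      · intro τ hτ
        by_cases hτs : D.card τ = s
        · have hτA : τ ∈ A := by simp [hA, hτs]
          rw [← Finset.add_sum_erase A h hτA, ← sub_sub]
          apply sub_mem (hsub τ hτs)
          apply Submodule.sum_mem
          intro σ hσ
          have hσ1 := Finset.ne_of_mem_erase hσ
          have hσ2 : D.card σ = s := by simpa [hA] using Finset.mem_of_mem_erase hσ
          exact hh2 σ τ hσ1.symm (by omega)
        · apply sub_mem (hs τ (by omega))
          apply Submodule.sum_mem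
          intro σ hσ
          have hσ2 : D.card σ = s := by simpa [hA] using hσ
          exact hh2 σ τ (by rintro rfl; exact hτs hσ2) (by omega)
    have h5 : f = (f - ∑ σ ∈ A, h σ) + ∑ σ ∈ A, h σ := by abel
    rw [h5]
    apply add_mem
    · refine (sup_le_sup_left (lev_mono E (Or.inr ⟨rfl, ?_⟩)) I) key
      omega
    · exact (le_sup_right : lev E g (s + 1) ≤ I ⊔ lev E g (s + 1))
        (Submodule.sum_mem _ fun σ hσ => hh4 σ hσ)
  intro g
  induction g with
  | zero =>
    intro s
    induction s with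
    | zero =>
      intro f hf _ hs
      refine (le_sup_left : I ≤ _) (zero f hf fun σ => ?_)
      have := hs σ (Nat.zero_le _)
      simpa using this
    | succ s ih => exact step 0 s ih
  | succ g ihg =>
    intro s
    induction s with
    | zero =>
      intro f hf _ hs
      have h1 := ihg ((univ.sup D.card) + 1) f hf (by
        intro σ
        have := hs σ (Nat.zero_le _)
        have e1 : (((g + 1 : ℕ) : ℤ) - 1) = (g : ℤ) := by push_cast; ring
        rwa [e1] at this) (by
        intro σ hσ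
        have : D.card σ ≤ univ.sup D.card := Finset.le_sup (Finset.mem_univ σ)
        omega)
      exact (sup_le_sup_left (lev_mono E (Or.inl (Nat.lt_succ_self g))) I) h1
    | succ s ih => exact step (g + 1) s ih

/-- **spanning**. -/
theorem span_all (RX I : Submodule F M) (he : ∀ t, E.e t ∈ RX)
    (exh : ∀ f ∈ RX, ∃ g : ℕ, ∀ σ, f ∈ D.Gr σ g)
    (zero : ∀ f ∈ RX, (∀ σ, f ∈ D.Gr σ (-1)) → f ∈ I)
    (loc : ∀ (q : Q) (g : ℕ), ∀ f ∈ RX, (∀ σ, f ∈ D.Gr σ g) →
      (∀ σ, D.card q < D.card σ → f ∈ D.Gr σ ((g : ℤ) - 1)) →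
      ∃ h ∈ span F (E.e '' {t | E.p t = q ∧ E.k t = g}), f - h ∈ D.Gr q ((g : ℤ) - 1)) :
    RX ≤ I ⊔ span F (Set.range E.e) := by
  intro f hf
  obtain ⟨g, hg⟩ := exh f hf
  have h1 := span_lev E RX I he zero loc g ((univ.sup D.card) + 1) f hf hg (by
    intro σ hσ
    have : D.card σ ≤ univ.sup D.card := Finset.le_sup (Finset.mem_univ σ)
    omega)
  refine (sup_le_sup_left ?_ I) h1
  apply span_mono
  rintro _ ⟨t, _, rfl⟩
  exact ⟨t, rfl⟩

end Crest.Agent.R059.Eng830
end

-- ▼ part R059/PL2_547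

/-!
# Row 59, Theorem B, half 2 (helper547): definitions

places, words, the family `e_φ`, the growth data on `MvPolynomial (Vt d) ℚ`.
-/

set_option autoImplicit false
set_option linter.unusedSectionVars false

namespace Crest.Agent.R059.PL547

open MvPolynomial Finset Thin613 Deg359

section defs

variable {I : Type} [Fintype I] [DecidableEq I] (k : I → I → ℕ) (θ : I → ℤ)

/-- arrows of a coloured set -/
def ar {P : Type*} (c : P → I) : P → P → ℕ := fun a b => k (c a) (c b)

/-- weights of a coloured set -/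
def tw {P : Type*} (c : P → I) : P → ℤ := fun a => θ (c a)

/-- colour of the standard coloured set -/
def colV (c : I → ℕ) : Vt c → I := Sigma.fst

/-- bilinear extension of `k` -/
def kk (c e : I → ℕ) : ℕ := ∑ i, ∑ j, k i j * c i * e j

/-- linear extension of `θ` -/
def thc (c : I → ℕ) : ℤ := ∑ i, θ i * c i

/-- the letters space of type `c`: alternating, growth `≤ 0` and `≤ -1` at all proper splits -/
def Wt (c : I → ℕ) : Submodule ℚ (MvPolynomial (Vt c) ℚ) where
  carrier := {w | w ∈ Anti (colV c) ∧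
    InV ℚ (ar k (colV c)) (tw θ (colV c)) (fun _ => ()) w}
  add_mem' := by
    rintro a b ⟨ha, ha'⟩ ⟨hb, hb'⟩
    refine ⟨add_mem ha hb, fun g hg hf => ⟨?_, fun hc => ?_⟩⟩
    · exact ud_add _ _ _ (ha' g hg hf).1 (hb' g hg hf).1
    · exact ud_add _ _ _ ((ha' g hg hf).2 hc) ((hb' g hg hf).2 hc)
  zero_mem' := ⟨zero_mem _, fun g _ _ => ⟨ud_zero _ _ _ _, fun _ => ud_zero _ _ _ _⟩⟩
  smul_mem' := by
    rintro r a ⟨ha, ha'⟩
    refine ⟨Submodule.smul_mem _ _ ha, fun g hg hf => ⟨?_, fun hc => ?_⟩⟩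
    · have := ud_mul _ _ _ (ud_C (F := ℚ) (ar k (colV c)) (tw θ (colV c)) g r) (ha' g hg hf).1
      rwa [zero_add, ← smul_eq_C_mul] at this
    · have := ud_mul _ _ _ (ud_C (F := ℚ) (ar k (colV c)) (tw θ (colV c)) g r)
        ((ha' g hg hf).2 hc)
      rwa [zero_add, ← smul_eq_C_mul] at this

/-- the ideal `J0 univ` of a coloured set as a rational subspace -/
noncomputable def J0s {P : Type*} [Fintype P] [DecidableEq P] (c : P → I) : Submodule ℚ (MvPolynomial P ℚ) :=
  (J0 ℚ (ar k c) (tw θ c) univ).restrictScalars ℚ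


/-- a choice of homogeneous letters for the types `cl t`, `t : T` -/
structure Letters {T : Type} (cl : T → I → ℕ) where
  L : T → Type
  lo : ∀ t, LinearOrder (L t)
  pol : ∀ t, L t → MvPolynomial (Vt (cl t)) ℚ
  deg : ∀ t, L t → ℕ
  hom : ∀ t l, (pol t l).IsHomogeneous (deg t l)
  mem : ∀ t l, pol t l ∈ Wt k θ (cl t)
  indep : ∀ t (x : L t →₀ ℚ), (x.sum fun l a => a • pol t l) ∈ J0s k θ (colV (cl t)) → x = 0
  span : ∀ t, Wt k θ (cl t) ≤ J0s k θ (colV (cl t)) ⊔ Submodule.span ℚ (Set.range (pol t))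
  fin : ∀ t n, {l | deg t l = n}.Finite

end defs

/-- a letter with an exponent -/
structure Al (L : Type) where
  l : L
  a : ℕ

theorem Al.ext' {L : Type} {x y : Al L} (h : x.l = y.l) (h' : x.a = y.a) : x = y := by
  cases x; cases y; simp_all

/-- lexicographic order on letters with exponents -/
noncomputable instance {L : Type} [LinearOrder L] : LinearOrder (Al L) :=
  LinearOrder.lift' (fun x => toLex (x.l, x.a)) (by
    intro x y h
    have := toLex.injective h
    exact Al.ext' (congrArg Prod.fst this) (congrArg Prod.snd this))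

section place

variable {I : Type} [Fintype I] [DecidableEq I] {T : Type} [Fintype T] [LinearOrder T]
  (cl : T → I → ℕ) (d : I → ℕ)

/-- linear order of the blocks: type first -/
noncomputable instance ordJ (m : T → ℕ) : LinearOrder (Jm m) :=
  LinearOrder.lift' (fun j : Jm m => (toLex j : Σₗ t, Fin (m t))) toLex.injective

/-- places: multiplicity functions of total type `d` -/
def Pl := {m : T → ℕ // ∀ i, ∑ t, m t * cl t i = d i}

/-- number of blocks of a place -/
def Pl.card {cl : T → I → ℕ} {d : I → ℕ} (m : Pl cl d) : ℕ := ∑ t, m.1 t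

theorem exists_Em (m : Pl cl d) :
    ∃ E : Sm cl m.1 ≃ Vt d, ∀ x, colV d (E x) = colS cl m.1 x := by
  apply exists_placement (colV d)
  intro i
  rw [m.2 i]
  exact card_Vt d i

/-- the standard placement of a place -/
noncomputable def Em (m : Pl cl d) : Sm cl m.1 ≃ Vt d := (exists_Em cl d m).choose

theorem Em_col (m : Pl cl d) (x : Sm cl m.1) : colV d (Em cl d m x) = colS cl m.1 x :=
  (exists_Em cl d m).choose_spec x

/-- the standard labelling of a place -/
noncomputable def lab (m : Pl cl d) : Vt d → Jm m.1 := fun a => blk cl m.1 ((Em cl d m).symm a)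

end place

section words

variable {I : Type} [Fintype I] [DecidableEq I] {k : I → I → ℕ} {θ : I → ℤ}
  {T : Type} [Fintype T] [LinearOrder T] {cl : T → I → ℕ} (𝓛 : Letters k θ cl)

/-- words of a place -/
def Wd (m : T → ℕ) := ∀ t, Fin (m t) → Al (𝓛.L t)

variable {𝓛}

/-- letter of a block -/
def Wd.at {m : T → ℕ} (φ : Wd 𝓛 m) (j : Jm m) : Al (𝓛.L j.1) := φ j.1 j.2

/-- total exponent -/
def Wd.tot {m : T → ℕ} (φ : Wd 𝓛 m) : ℕ := ∑ j : Jm m, (φ.at j).a


/-- product of the placed letters of a word, in the model -/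
noncomputable def Wd.lp {m : T → ℕ} (φ : Wd 𝓛 m) : MvPolynomial (Sm cl m) ℚ :=
  ∏ j : Jm m, rename (Sigma.mk j) (𝓛.pol j.1 (φ.at j).l)

variable (pt : ∀ t, Vt (cl t))

/-- the model polynomial of a word: `KL * (∏ letters * ∏ X^a)` -/
noncomputable def Wd.Kh {m : T → ℕ} (φ : Wd 𝓛 m) : MvPolynomial (Sm cl m) ℚ :=
  KL ℚ (ar k (colS cl m)) (blk cl m) *
    (φ.lp * ∏ j : Jm m, X (⟨j, pt j.1⟩ : Sm cl m) ^ (φ.at j).a)

variable {d : I → ℕ}

/-- the family element of a word -/
noncomputable def Wd.el {m : Pl cl d} (φ : Wd 𝓛 m.1) : MvPolynomial (Vt d) ℚ :=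
  alt (colV d) (rename (Em cl d m) (φ.Kh pt))

/-- parity of a type -/
def par (k : I → I → ℕ) (c : I → ℕ) : ℕ := (∑ i, c i) + kk k c c

open scoped Classical in
/-- admissible words: sorted, odd letters not repeated -/
def Wd.Adm {m : T → ℕ} (φ : Wd 𝓛 m) : Prop :=
  ∀ t, @Monotone _ _ _ (@instLinearOrderAl _ (𝓛.lo t)).toPartialOrder.toPreorder (φ t) ∧
    (Odd (par k (cl t)) → Function.Injective (φ t))

end words

end Crest.Agent.R059.PL547
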