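import Mathlib
import Crest.Agent.R059.Deg_359
import Crest.Agent.R059.Thin0_613
import Crest.Agent.R059.Thin4b_613
import Crest.Agent.R059.Thin4c_613

-- ▼ part R059/Tens_559
section

set_option autoImplicit false

namespace Crest.Agent.R059.Tens559

open MvPolynomial Finset

variable {P L F : Type*} [Field F]

/-- restriction of an exponent to the block `l` -/
noncomputable def res (f : P → L) (l : L) (m : P →₀ ℕ) : P →₀ ℕ := by
  classical exact m.filter (fun a => f a = l)

lemma res_apply_pos {f : P → L} {l : L} (m : P →₀ ℕ) {a : P} (h : f a = l) :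
    res f l m a = m a := by
  classical
  unfold res
  exact Finsupp.filter_apply_pos (fun a => f a = l) _ h

lemma res_apply_neg {f : P → L} {l : L} (m : P →₀ ℕ) {a : P} (h : f a ≠ l) :
    res f l m a = 0 := by
  classical
  unfold res
  exact Finsupp.filter_apply_neg (fun a => f a = l) _ h

@[simp] lemma res_zero (f : P → L) (l : L) : res f l (0 : P →₀ ℕ) = 0 := by
  ext a
  by_cases h : f a = l
  · rw [res_apply_pos _ h]
  · rw [res_apply_neg _ h]; rfl

lemma res_add (f : P → L) (l : L) (m m' : P →₀ ℕ) :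
    res f l (m + m') = res f l m + res f l m' := by
  ext a
  by_cases h : f a = l
  · rw [Finsupp.add_apply, res_apply_pos _ h, res_apply_pos _ h, res_apply_pos _ h,
      Finsupp.add_apply]
  · rw [Finsupp.add_apply, res_apply_neg _ h, res_apply_neg _ h, res_apply_neg _ h]

lemma res_sum {ι : Type*} (f : P → L) (l : L) (s : Finset ι) (m : ι → P →₀ ℕ) :
    res f l (∑ i ∈ s, m i) = ∑ i ∈ s, res f l (m i) := by
  classical
  induction s using Finset.induction_on with
  | empty => simp
  | insert i s hi ih => rw [Finset.sum_insert hi, Finset.sum_insert hi, res_add, ih]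

@[simp] lemma res_res (f : P → L) (l : L) (m : P →₀ ℕ) : res f l (res f l m) = res f l m := by
  ext a
  by_cases h : f a = l
  · rw [res_apply_pos _ h]
  · rw [res_apply_neg _ h, res_apply_neg _ h]

lemma res_res_ne (f : P → L) {l l' : L} (hl : l ≠ l') (m : P →₀ ℕ) :
    res f l (res f l' m) = 0 := by
  ext a
  by_cases h : f a = l
  · rw [res_apply_pos _ h, res_apply_neg]
    · rfl
    · rw [h]; exact hl
  · rw [res_apply_neg _ h]; rfl

lemma sum_res [Fintype L] (f : P → L) (m : P →₀ ℕ) : ∑ l, res f l m = m := by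
  classical
  ext a
  rw [Finsupp.finsetSum_apply, Finset.sum_eq_single (f a)]
  · rw [res_apply_pos _ rfl]
  · intro l _ hl
    rw [res_apply_neg _ (fun h => hl h.symm)]
  · intro h; exact absurd (Finset.mem_univ _) h

/-- polynomials in the variables of the block `l` -/
noncomputable def RL (F : Type*) [Field F] (f : P → L) (l : L) : Submodule F (MvPolynomial P F) :=
  Subalgebra.toSubmodule (supported F {a | f a = l})

lemma mem_RL_iff {f : P → L} {l : L} {g : MvPolynomial P F} :
    g ∈ RL F f l ↔ ∀ m ∈ g.support, res f l m = m := by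
  classical
  unfold RL
  rw [Subalgebra.mem_toSubmodule, mem_supported]
  constructor
  · intro h m hm
    ext a
    by_cases ha : f a = l
    · rw [res_apply_pos _ ha]
    · rw [res_apply_neg _ ha]
      by_contra hne
      have h1 : a ∈ g.vars := (mem_vars_iff_mem_support a).2 ⟨m, hm, Finsupp.mem_support_iff.2 (Ne.symm hne)⟩
      exact ha (h (Finset.mem_coe.2 h1))
  · intro h a ha
    obtain ⟨m, hm, ham⟩ := (mem_vars_iff_mem_support a).1 (Finset.mem_coe.1 ha)
    by_contra hne
    have h1 := h m hm
    rw [← h1, Finsupp.mem_support_iff, res_apply_neg _ hne] at ham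
    exact ham rfl

lemma monomial_mem_RL {f : P → L} {l : L} {m : P →₀ ℕ} (h : res f l m = m) (c : F) :
    monomial m c ∈ RL F f l := by
  classical
  rw [mem_RL_iff]
  intro m' hm'
  have := support_monomial_subset hm'
  rw [Finset.mem_singleton] at this
  rw [this, h]

lemma monomial_res_mem (f : P → L) (l : L) (m : P →₀ ℕ) (c : F) :
    monomial (res f l m) c ∈ RL F f l := monomial_mem_RL (res_res f l m) c



lemma mul_mem_RL {f : P → L} {l : L} {g h : MvPolynomial P F} (hg : g ∈ RL F f l)
    (hh : h ∈ RL F f l) : g * h ∈ RL F f l :=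
  (supported F {a | f a = l}).mul_mem hg hh

/-- product of monomials over the labels -/
lemma prod_monomial {ι : Type*} (s : Finset ι) (m : ι → P →₀ ℕ) (c : ι → F) :
    ∏ i ∈ s, monomial (m i) (c i) = monomial (∑ i ∈ s, m i) (∏ i ∈ s, c i) := by
  classical
  induction s using Finset.induction_on with
  | empty => simp
  | insert i s hi ih =>
    rw [Finset.prod_insert hi, Finset.sum_insert hi, Finset.prod_insert hi, ih, monomial_mul]

section multi

variable [Fintype L]

/-- `x^m ↦ ∏ l, p l (x^{m restricted to the block l})`, extended linearly. -/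
noncomputable def Ext (f : P → L) (p : L → (MvPolynomial P F →ₗ[F] MvPolynomial P F)) :
    MvPolynomial P F →ₗ[F] MvPolynomial P F :=
  (basisMonomials P F).constr F (fun m => ∏ l, p l (monomial (res f l m) 1))

lemma Ext_monomial_one (f : P → L) (p : L → (MvPolynomial P F →ₗ[F] MvPolynomial P F))
    (m : P →₀ ℕ) : Ext f p (monomial m 1) = ∏ l, p l (monomial (res f l m) 1) := by
  have h := (basisMonomials P F).constr_basis F
    (fun m => ∏ l, p l (monomial (res f l m) (1 : F))) m
  rw [coe_basisMonomials] at h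
  exact h

lemma Ext_monomial (f : P → L) (p : L → (MvPolynomial P F →ₗ[F] MvPolynomial P F))
    (m : P →₀ ℕ) (c : F) :
    Ext f p (monomial m c) = c • ∏ l, p l (monomial (res f l m) 1) := by
  rw [← Ext_monomial_one, ← map_smul, smul_monomial, smul_eq_mul, mul_one]

/-- (E1) `Ext` on a product of block polynomials. -/
theorem Ext_prod (f : P → L) (p : L → (MvPolynomial P F →ₗ[F] MvPolynomial P F))
    (g : L → MvPolynomial P F) (hg : ∀ l, g l ∈ RL F f l) :
    Ext f p (∏ l, g l) = ∏ l, p l (g l) := by
  classical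
  have h1 : ∀ l, g l = ∑ m ∈ (g l).support, monomial m (coeff m (g l)) := fun l =>
    (g l).as_sum
  have h2 : ∏ l, g l = ∏ l, ∑ m ∈ (g l).support, monomial m (coeff m (g l)) :=
    Finset.prod_congr rfl fun l _ => h1 l
  have h3 : ∏ l, p l (g l) = ∏ l, ∑ m ∈ (g l).support, p l (monomial m (coeff m (g l))) := by
    refine Finset.prod_congr rfl fun l _ => ?_
    conv_lhs => rw [h1 l]
    rw [map_sum]
  rw [h2, h3, Finset.prod_univ_sum, Finset.prod_univ_sum, map_sum]
  refine Finset.sum_congr rfl fun φ hφ => ?_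
  rw [Fintype.mem_piFinset] at hφ
  rw [prod_monomial, Ext_monomial]
  have h4 : ∀ l, res f l (∑ i, φ i) = φ l := by
    intro l
    rw [res_sum, Finset.sum_eq_single l]
    · exact mem_RL_iff.1 (hg l) _ (hφ l)
    · intro l' _ hl'
      rw [← mem_RL_iff.1 (hg l') _ (hφ l'), res_res_ne f (Ne.symm hl')]
    · intro h; exact absurd (Finset.mem_univ _) h
  have h5 : ∀ l, p l (monomial (φ l) (coeff (φ l) (g l)))
      = coeff (φ l) (g l) • p l (monomial (φ l) 1) := by
    intro l
    rw [← map_smul, smul_monomial, smul_eq_mul, mul_one]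
  simp_rw [h4, h5]
  rw [Finset.prod_smul]

/-- a monomial is the product of its block restrictions -/
lemma monomial_eq_prod (f : P → L) (m : P →₀ ℕ) :
    (monomial m 1 : MvPolynomial P F) = ∏ l, monomial (res f l m) 1 := by
  rw [prod_monomial, sum_res]
  simp

/-- (E1') monomial times one block polynomial -/
lemma Ext_monomial_mul [DecidableEq L] (f : P → L)
    (p : L → (MvPolynomial P F →ₗ[F] MvPolynomial P F))
    (m : P →₀ ℕ) (l₀ : L) {g : MvPolynomial P F} (hg : g ∈ RL F f l₀) :
    Ext f p (monomial m 1 * g)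
      = p l₀ (monomial (res f l₀ m) 1 * g)
        * ∏ l ∈ univ.erase l₀, p l (monomial (res f l m) 1) := by
  have h1 : monomial m 1 * g
      = ∏ l, (monomial (res f l m) (1 : F) * if l = l₀ then g else 1) := by
    rw [Finset.prod_mul_distrib, ← monomial_eq_prod, Finset.prod_ite_eq' univ l₀ (fun _ => g)]
    simp
  rw [h1, Ext_prod]
  · rw [← Finset.mul_prod_erase univ _ (Finset.mem_univ l₀), if_pos rfl]
    congr 1
    refine Finset.prod_congr rfl fun l hl => ?_
    rw [if_neg (Finset.ne_of_mem_erase hl), mul_one]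
  · intro l
    by_cases h : l = l₀
    · subst h
      rw [if_pos rfl]
      exact mul_mem_RL (monomial_res_mem f l m 1) hg
    · rw [if_neg h, mul_one]
      exact monomial_res_mem f l m 1

/-- induction over an ideal as a vector space: monomials times generators. -/
lemma span_induct {G : Set (MvPolynomial P F)} {U : Submodule F (MvPolynomial P F)}
    (h : ∀ (m : P →₀ ℕ), ∀ g ∈ G, monomial m 1 * g ∈ U) {x : MvPolynomial P F}
    (hx : x ∈ Ideal.span G) : x ∈ U := by
  classical
  have h1 : ∀ (y : MvPolynomial P F), ∀ g ∈ G, y * g ∈ U := by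
    intro y g hg
    rw [y.as_sum, Finset.sum_mul]
    refine Submodule.sum_mem _ fun m _ => ?_
    have h2 : monomial m (coeff m y) * g = coeff m y • (monomial m 1 * g) := by
      rw [← smul_mul_assoc, smul_monomial, smul_eq_mul, mul_one]
    rw [h2]
    exact U.smul_mem _ (h m g hg)
  induction hx using Submodule.span_induction with
  | mem x hx => simpa using h1 1 x hx
  | zero => exact U.zero_mem
  | add x y _ _ hx hy => exact U.add_mem hx hy
  | smul a x hx ih =>
    -- need closure under multiplication: strengthen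
    have h3 : ∀ z ∈ Ideal.span G, ∀ y : MvPolynomial P F, y * z ∈ U := by
      intro z hz
      induction hz using Submodule.span_induction with
      | mem x hx => exact fun y => h1 y x hx
      | zero => intro y; rw [mul_zero]; exact U.zero_mem
      | add x y _ _ hx hy => intro w; rw [mul_add]; exact U.add_mem (hx w) (hy w)
      | smul a x _ ih => intro w; rw [smul_eq_mul, ← mul_assoc]; exact ih _
    exact h3 x hx a

/-- (E2) image of an ideal generated in the block `l₀` -/
theorem Ext_mem_ideal (f : P → L) (p : L → (MvPolynomial P F →ₗ[F] MvPolynomial P F))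
    (l₀ : L) {G : Set (MvPolynomial P F)} (hG : ∀ g ∈ G, g ∈ RL F f l₀)
    (K : Ideal (MvPolynomial P F))
    (h : ∀ (m : P →₀ ℕ), ∀ g ∈ G, p l₀ (monomial (res f l₀ m) 1 * g) ∈ K)
    {x : MvPolynomial P F} (hx : x ∈ Ideal.span G) : Ext f p x ∈ K := by
  classical
  refine span_induct (U := (K.restrictScalars F).comap (Ext f p)) ?_ hx
  intro m g hg
  rw [Submodule.mem_comap, Submodule.restrictScalars_mem, Ext_monomial_mul f p m l₀ (hG g hg)]
  exact K.mul_mem_right _ (h m g hg)

/-- the same for the sum of the ideals of all blocks -/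
theorem Ext_mem_iSup (f : P → L) (p : L → (MvPolynomial P F →ₗ[F] MvPolynomial P F))
    {G : L → Set (MvPolynomial P F)} (hG : ∀ l, ∀ g ∈ G l, g ∈ RL F f l)
    (K : Ideal (MvPolynomial P F))
    (h : ∀ l (m : P →₀ ℕ), ∀ g ∈ G l, p l (monomial (res f l m) 1 * g) ∈ K)
    {x : MvPolynomial P F} (hx : x ∈ ⨆ l, Ideal.span (G l)) : Ext f p x ∈ K := by
  classical
  refine Submodule.iSup_induction (fun l => Ideal.span (G l))
    (motive := fun x => Ext f p x ∈ K) hx ?_ ?_ ?_
  · intro l x hx
    exact Ext_mem_ideal f p l (hG l) K (h l) hx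
  · rw [map_zero]; exact K.zero_mem
  · intro x y hx hy
    rw [map_add]; exact K.add_mem hx hy

/-- dual functional of a linearly independent family, on the whole space -/
lemma exists_dual {V ι : Type*} [AddCommGroup V] [Module F V] {v : ι → V}
    (hv : LinearIndependent F v) (i₀ : ι) :
    ∃ lam : V →ₗ[F] F, lam (v i₀) = 1 ∧ ∀ i, i ≠ i₀ → lam (v i) = 0 := by
  classical
  obtain ⟨g, hg⟩ := ((Finsupp.lapply i₀ : (ι →₀ F) →ₗ[F] F).comp
    (hv.repr : Submodule.span F (Set.range v) →ₗ[F] (ι →₀ F))).exists_extend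
  have h : ∀ i, g (v i) = (Finsupp.single i (1 : F)) i₀ := by
    intro i
    have h1 := LinearMap.congr_fun hg ⟨v i, Submodule.subset_span (Set.mem_range_self i)⟩
    rw [LinearMap.comp_apply, Submodule.subtype_apply] at h1
    rw [h1]
    have h2 : hv.repr ⟨v i, Submodule.subset_span (Set.mem_range_self i)⟩
        = Finsupp.single i (1 : F) := hv.repr_eq_single i _ rfl
    change (hv.repr ⟨v i, _⟩) i₀ = _
    rw [h2]
  refine ⟨g, ?_, fun i hi => ?_⟩
  · rw [h]; simp
  · rw [h]; simp [hi]

/-- (a) INDEPENDENCE: products of families independent modulo the block ideals are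
independent modulo the sum of the ideals. -/
theorem indep {ι : L → Type*} (f : P → L) {G : L → Set (MvPolynomial P F)}
    (hG : ∀ l, ∀ g ∈ G l, g ∈ RL F f l) (b : ∀ l, ι l → MvPolynomial P F)
    (hb : ∀ l i, b l i ∈ RL F f l)
    (hind : ∀ l, LinearIndependent F fun i => Ideal.Quotient.mk (Ideal.span (G l)) (b l i)) :
    LinearIndependent F fun φ : (∀ l, ι l) =>
      Ideal.Quotient.mk (⨆ l, Ideal.span (G l)) (∏ l, b l (φ l)) := by
  classical
  rw [linearIndependent_iff']
  intro s c hc φ₀ hφ₀
  choose lam h1 h0 using fun l => exists_dual (hind l) (φ₀ l)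
  set lam' : L → (MvPolynomial P F →ₗ[F] MvPolynomial P F) := fun l =>
    (Algebra.linearMap F (MvPolynomial P F)).comp
      ((lam l).comp (Ideal.Quotient.mkₐ F (Ideal.span (G l))).toLinearMap) with hlam'
  have hlam : ∀ l x, lam' l x = C (lam l (Ideal.Quotient.mk (Ideal.span (G l)) x)) := by
    intro l x
    simp only [hlam', LinearMap.comp_apply]
    rfl
  have hmem : ∑ φ ∈ s, c φ • (∏ l, b l (φ l)) ∈ ⨆ l, Ideal.span (G l) := by
    rw [← Ideal.Quotient.eq_zero_iff_mem]
    have h2 : Ideal.Quotient.mk (⨆ l, Ideal.span (G l)) (∑ φ ∈ s, c φ • (∏ l, b l (φ l)))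
        = ∑ φ ∈ s, c φ • Ideal.Quotient.mk (⨆ l, Ideal.span (G l)) (∏ l, b l (φ l)) := by
      rw [← Ideal.Quotient.mkₐ_eq_mk F, map_sum]
      exact Finset.sum_congr rfl fun φ _ => by rw [map_smul]
    rw [h2]; exact hc
  have hker := Ext_mem_iSup f lam' hG ⊥ (fun l m g hg => by
    rw [hlam]
    have h3 : Ideal.Quotient.mk (Ideal.span (G l)) (monomial (res f l m) 1 * g) = 0 := by
      rw [Ideal.Quotient.eq_zero_iff_mem]
      exact Ideal.mul_mem_left _ _ (Ideal.subset_span hg)
    rw [h3, map_zero, C_0]
    exact Ideal.zero_mem _) hmem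
  rw [Ideal.mem_bot, map_sum] at hker
  have h4 : ∀ φ : (∀ l, ι l), Ext f lam' (c φ • ∏ l, b l (φ l))
      = if φ = φ₀ then C (c φ) else 0 := by
    intro φ
    rw [map_smul, Ext_prod f lam' _ (fun l => hb l (φ l))]
    simp_rw [hlam]
    by_cases h : φ = φ₀
    · subst h
      rw [if_pos rfl]
      simp_rw [h1]
      rw [smul_eq_C_mul]
      simp
    · rw [if_neg h]
      obtain ⟨l, hl⟩ : ∃ l, φ l ≠ φ₀ l := by
        by_contra hcon
        push Not at hcon
        exact h (funext hcon)
      rw [Finset.prod_eq_zero (Finset.mem_univ l), smul_zero]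
      rw [h0 l (φ l) hl, C_0]
  rw [Finset.sum_congr rfl fun φ _ => h4 φ, Finset.sum_ite_eq' s φ₀, if_pos hφ₀] at hker
  exact C_injective P F (by rw [hker, C_0])

/-- polynomials `w * x^m`, `w ∈ W`, `m` supported off the block `l` -/
noncomputable def Off (f : P → L) (l : L) (W : Submodule F (MvPolynomial P F)) :
    Submodule F (MvPolynomial P F) :=
  Submodule.span F {x | ∃ w ∈ W, ∃ m : P →₀ ℕ, res f l m = 0 ∧ x = w * monomial m 1}

/-- the span of the products of elements of the `W l` -/
noncomputable def PW (W : L → Submodule F (MvPolynomial P F)) : Submodule F (MvPolynomial P F) :=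
  Submodule.span F {x | ∃ w : L → MvPolynomial P F, (∀ l, w l ∈ W l) ∧ x = ∏ l, w l}

/-- a linear projector of the polynomial ring onto a subspace -/
lemma exists_proj (W : Submodule F (MvPolynomial P F)) :
    ∃ p : MvPolynomial P F →ₗ[F] MvPolynomial P F, (∀ x, p x ∈ W) ∧ ∀ w ∈ W, p w = w := by
  obtain ⟨q, hq⟩ := (LinearMap.id : W →ₗ[F] W).exists_extend
  refine ⟨W.subtype.comp q, fun x => (q x).2, fun w hw => ?_⟩
  have h := LinearMap.congr_fun hq ⟨w, hw⟩
  simp only [LinearMap.comp_apply, Submodule.subtype_apply, LinearMap.id_apply] at h ⊢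
  rw [h]

/-- (b) SLOTWISE MEMBERSHIP. -/
theorem slot (f : P → L) {G : L → Set (MvPolynomial P F)}
    (hG : ∀ l, ∀ g ∈ G l, g ∈ RL F f l) (W : L → Submodule F (MvPolynomial P F))
    (hW : ∀ l, W l ≤ RL F f l)
    (hGW : ∀ l (m : P →₀ ℕ), ∀ g ∈ G l, monomial (res f l m) 1 * g ∈ W l)
    {x : MvPolynomial P F}
    (hx : ∀ l, x ∈ Off f l (W l) ⊔ (⨆ l, Ideal.span (G l)).restrictScalars F) :
    x ∈ PW W ⊔ (⨆ l, Ideal.span (G l)).restrictScalars F := by
  classical
  set J := ⨆ l, Ideal.span (G l) with hJ
  have hGJ : ∀ l, ∀ g ∈ G l, g ∈ J := fun l g hg =>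
    (le_iSup (fun l => Ideal.span (G l)) l) (Ideal.subset_span hg)
  choose p hpW hpid using fun l => exists_proj (W l)
  -- the partial operators
  let q : Finset L → L → (MvPolynomial P F →ₗ[F] MvPolynomial P F) :=
    fun S l => if l ∈ S then p l else LinearMap.id
  have hqRL : ∀ S l (g : MvPolynomial P F), g ∈ RL F f l → q S l g ∈ RL F f l := by
    intro S l g hg
    by_cases h : l ∈ S
    · simp only [q, if_pos h]; exact hW l (hpW l g)
    · simp only [q, if_neg h]; exact hg
  have hqJ : ∀ S, ∀ y ∈ J, Ext f (q S) y ∈ J := by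
    intro S y hy
    refine Ext_mem_iSup f (q S) hG J (fun l m g hg => ?_) hy
    by_cases h : l ∈ S
    · simp only [q, if_pos h]
      rw [hpid l _ (hGW l m g hg)]
      exact J.mul_mem_left _ (hGJ l g hg)
    · simp only [q, if_neg h, LinearMap.id_apply]
      exact J.mul_mem_left _ (hGJ l g hg)
  -- one block
  have hone : ∀ l, x - Ext f (q {l}) x ∈ J := by
    intro l
    obtain ⟨y, hy, z, hz, rfl⟩ := Submodule.mem_sup.1 (hx l)
    rw [Submodule.restrictScalars_mem] at hz
    have hy' : Ext f (q {l}) y = y := by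
      refine Submodule.span_induction (p := fun y _ => Ext f (q {l}) y = y) ?_ ?_ ?_ ?_ hy
      · rintro _ ⟨w, hw, m, hm, rfl⟩
        rw [mul_comm, Ext_monomial_mul f _ m l (hW l hw), hm]
        have h1 : q {l} l (monomial 0 1 * w) = w := by
          simp only [q, Finset.mem_singleton, if_pos]
          rw [show (monomial (0 : P →₀ ℕ) (1 : F)) = 1 from rfl, one_mul, hpid l w hw]
        rw [h1]
        have h2 : ∏ l' ∈ univ.erase l, q {l} l' (monomial (res f l' m) 1)
            = (monomial m 1 : MvPolynomial P F) := by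
          rw [monomial_eq_prod f m, ← Finset.mul_prod_erase univ _ (Finset.mem_univ l), hm]
          rw [show (monomial (0 : P →₀ ℕ) (1 : F)) = 1 from rfl, one_mul]
          refine Finset.prod_congr rfl fun l' hl' => ?_
          simp only [q, Finset.mem_singleton]
          rw [if_neg (Finset.ne_of_mem_erase hl'), LinearMap.id_apply]
        rw [h2, mul_comm]
      · exact map_zero _
      · intro a b _ _ ha hb; rw [map_add, ha, hb]
      · intro c a _ ha; rw [map_smul, ha]
    rw [map_add, hy']
    have h3 : y + z - (y + Ext f (q {l}) z) = z - Ext f (q {l}) z := by ring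
    rw [h3]
    exact J.sub_mem hz (hqJ _ z hz)
  -- composition
  have hcomp : ∀ (S : Finset L) (l : L), l ∉ S → ∀ y,
      Ext f (q (insert l S)) y = Ext f (q {l}) (Ext f (q S) y) := by
    intro S l hl y
    have : Ext f (q (insert l S)) = (Ext f (q {l})).comp (Ext f (q S)) := by
      refine (basisMonomials P F).ext fun m => ?_
      rw [coe_basisMonomials, LinearMap.comp_apply]
      simp only [Ext_monomial_one]
      rw [Ext_prod f (q {l}) _ (fun l' => hqRL S l' _ (monomial_res_mem f l' m 1))]
      refine Finset.prod_congr rfl fun l' _ => ?_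
      by_cases h : l' = l
      · subst h
        simp [q, hl]
      · simp [q, h]
    rw [this]; rfl
  have hall : ∀ S : Finset L, x - Ext f (q S) x ∈ J := by
    intro S
    induction S using Finset.induction_on with
    | empty =>
      have h0 : Ext f (q ∅) = LinearMap.id := by
        refine (basisMonomials P F).ext fun m => ?_
        rw [coe_basisMonomials]
        simp only [Ext_monomial_one, q]
        simp only [Finset.notMem_empty, if_false, LinearMap.id_apply]
        rw [← monomial_eq_prod]
      rw [h0, LinearMap.id_apply, sub_self]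
      exact J.zero_mem
    | insert l S hl ih =>
      rw [hcomp S l hl]
      have h3 : x - Ext f (q {l}) (Ext f (q S) x)
          = (x - Ext f (q {l}) x) + Ext f (q {l}) (x - Ext f (q S) x) := by
        rw [map_sub]; ring
      rw [h3]
      exact J.add_mem (hone l) (hqJ _ _ ih)
  have hfin : Ext f (q univ) x ∈ PW W := by
    have : ∀ y, Ext f (q univ) y ∈ PW W := by
      intro y
      rw [y.as_sum, map_sum]
      refine Submodule.sum_mem _ fun m _ => ?_
      rw [Ext_monomial]
      refine Submodule.smul_mem _ _ (Submodule.subset_span ⟨_, fun l => ?_, rfl⟩)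
      simp only [q, Finset.mem_univ, if_true]
      exact hpW l _
    exact this x
  refine Submodule.mem_sup.2 ⟨_, hfin, x - Ext f (q univ) x, ?_, by ring⟩
  rw [Submodule.restrictScalars_mem]
  exact hall univ

end multi

end Crest.Agent.R059.Tens559
end

-- ▼ part R059/Tens2_559
section

set_option autoImplicit false

namespace Crest.Agent.R059.Tens559

open MvPolynomial Finset

variable {P L F : Type*} [Field F]

/-! ### two blocks -/

section two

/-- contraction with a functional on the block `false` -/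
noncomputable def con (g : P → Bool) (lam : MvPolynomial P F →ₗ[F] F) :
    MvPolynomial P F →ₗ[F] MvPolynomial P F :=
  Ext g (fun b => if b then LinearMap.id else (Algebra.linearMap F (MvPolynomial P F)).comp lam)

lemma con_monomial (g : P → Bool) (lam : MvPolynomial P F →ₗ[F] F) (m : P →₀ ℕ) (c : F) :
    con g lam (monomial m c)
      = (c * lam (monomial (res g false m) 1)) • monomial (res g true m) (1 : F) := by
  unfold con
  rw [Ext_monomial, Fintype.prod_bool]
  simp only [if_true, LinearMap.id_apply, Bool.false_eq_true, if_false, LinearMap.comp_apply,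
    Algebra.linearMap_apply, algebraMap_eq]
  rw [mul_smul, smul_eq_C_mul (monomial (res g true m) (1 : F)) (lam _),
    mul_comm (C _)]

lemma con_mem_true (g : P → Bool) (lam : MvPolynomial P F →ₗ[F] F) (x : MvPolynomial P F) :
    con g lam x ∈ RL F g true := by
  rw [x.as_sum, map_sum]
  refine Submodule.sum_mem _ fun m _ => ?_
  rw [con_monomial]
  exact Submodule.smul_mem _ _ (monomial_res_mem g true m 1)

lemma con_mul (g : P → Bool) (lam : MvPolynomial P F →ₗ[F] F) {r : MvPolynomial P F}
    (hr : r ∈ RL F g true) {s : MvPolynomial P F} (hs : s ∈ RL F g false) :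
    con g lam (r * s) = lam s • r := by
  have h : r * s = ∏ b : Bool, (if b then r else s) := by
    rw [Fintype.prod_bool]; simp
  unfold con
  rw [h, Ext_prod]
  · rw [Fintype.prod_bool]
    simp only [if_true, LinearMap.id_apply, Bool.false_eq_true, if_false, LinearMap.comp_apply,
      Algebra.linearMap_apply, algebraMap_eq]
    rw [smul_eq_C_mul, mul_comm]
  · intro b
    cases b
    · simpa using hs
    · simpa using hr

/-- a contraction with a functional killing `J'` kills the ideal generated in the block `false`. -/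
lemma con_kill (g : P → Bool) (lam : MvPolynomial P F →ₗ[F] F) {G' : Set (MvPolynomial P F)}
    (hG' : ∀ y ∈ G', y ∈ RL F g false) (hlam : ∀ y ∈ Ideal.span G', lam y = 0)
    {x : MvPolynomial P F} (hx : x ∈ Ideal.span G') : con g lam x = 0 := by
  have h := Ext_mem_ideal g
    (fun b => if b then LinearMap.id else (Algebra.linearMap F (MvPolynomial P F)).comp lam)
    false hG' ⊥ (fun m y hy => ?_) hx
  · exact (Ideal.mem_bot).1 h
  · simp only [Bool.false_eq_true, if_false, LinearMap.comp_apply]
    rw [hlam _ (Ideal.mul_mem_left _ _ (Ideal.subset_span hy)), map_zero]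
    exact Ideal.zero_mem _

lemma con_mem_ideal (g : P → Bool) (lam : MvPolynomial P F →ₗ[F] F) {H : Set (MvPolynomial P F)}
    (hH : ∀ y ∈ H, y ∈ RL F g true) {x : MvPolynomial P F} (hx : x ∈ Ideal.span H) :
    con g lam x ∈ Ideal.span H := by
  refine Ext_mem_ideal g
    (fun b => if b then LinearMap.id else (Algebra.linearMap F (MvPolynomial P F)).comp lam)
    true hH (Ideal.span H) (fun m y hy => ?_) hx
  simp only [if_true, LinearMap.id_apply]
  exact Ideal.mul_mem_left _ _ (Ideal.subset_span hy)

/-- Expansion lemma: if all contractions with functionals killing `J' = span G'` lie in `W`,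
then `x ∈ W · R_false + J'`. -/
theorem expand (g : P → Bool) {G' : Set (MvPolynomial P F)}
    (W : Submodule F (MvPolynomial P F)) (x : MvPolynomial P F)
    (h : ∀ lam : MvPolynomial P F →ₗ[F] F, (∀ y ∈ Ideal.span G', lam y = 0) → con g lam x ∈ W) :
    x ∈ Off g true W ⊔ (Ideal.span G').restrictScalars F := by
  classical
  set J' := Ideal.span G' with hJ'
  let mk : MvPolynomial P F →ₗ[F] (MvPolynomial P F ⧸ J') := (Ideal.Quotient.mkₐ F J').toLinearMap
  have hmk : ∀ y, mk y = 0 ↔ y ∈ J' := fun y => by
    change Ideal.Quotient.mk J' y = 0 ↔ _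
    exact Ideal.Quotient.eq_zero_iff_mem
  let N : Submodule F (MvPolynomial P F ⧸ J') := (RL F g false).map mk
  let b := Module.Basis.ofVectorSpace F N
  have hlift : ∀ μ, ∃ e ∈ RL F g false, mk e = (b μ : MvPolynomial P F ⧸ J') := fun μ =>
    (Submodule.mem_map.1 (b μ).2)
  choose e heN heb using hlift
  have hdual : ∀ μ, ∃ lam : MvPolynomial P F →ₗ[F] F, (∀ y ∈ J', lam y = 0) ∧
      ∀ (y : N) (z : MvPolynomial P F), mk z = y → lam z = b.repr y μ := by
    intro μ
    obtain ⟨c, hc⟩ := (b.coord μ).exists_extend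
    refine ⟨c.comp mk, fun y hy => ?_, fun y z hz => ?_⟩
    · rw [LinearMap.comp_apply, (hmk y).2 hy, map_zero]
    · rw [LinearMap.comp_apply, hz]
      have := LinearMap.congr_fun hc y
      simpa using this
  choose lam hlamJ hlam using hdual
  -- the class of a monomial of the block `false`
  let nn : (P →₀ ℕ) → N := fun m =>
    ⟨mk (monomial (res g false m) 1), Submodule.mem_map_of_mem (monomial_res_mem g false m 1)⟩
  have hnn : ∀ (m : P →₀ ℕ) (S : Finset _), (b.repr (nn m)).support ⊆ S →
      monomial (res g false m) 1 - ∑ μ ∈ S, lam μ (monomial (res g false m) 1) • e μ ∈ J' := by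
    intro m S hS
    rw [← hmk, map_sub, map_sum]
    have h1 : ∀ μ, mk (lam μ (monomial (res g false m) 1) • e μ)
        = (b.repr (nn m) μ) • (b μ : MvPolynomial P F ⧸ J') := by
      intro μ
      rw [map_smul, heb, hlam μ (nn m) _ rfl]
    simp_rw [h1]
    have h2 : ((nn m : N) : MvPolynomial P F ⧸ J')
        = ∑ μ ∈ S, (b.repr (nn m) μ) • (b μ : MvPolynomial P F ⧸ J') := by
      conv_lhs => rw [← b.linearCombination_repr (nn m), Finsupp.linearCombination_apply,
        Finsupp.sum]
      rw [Submodule.coe_sum]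
      simp_rw [Submodule.coe_smul]
      refine Finset.sum_subset hS fun μ _ hμ => ?_
      rw [Finsupp.notMem_support_iff.1 hμ, zero_smul]
    rw [← h2, sub_self]
  let S : Finset _ := x.support.biUnion fun m => (b.repr (nn m)).support
  have hcon : ∀ μ, con g (lam μ) x
      = ∑ m ∈ x.support, (coeff m x * lam μ (monomial (res g false m) 1)) •
          monomial (res g true m) (1 : F) := by
    intro μ
    conv_lhs => rw [x.as_sum, map_sum]
    exact Finset.sum_congr rfl fun m _ => con_monomial g (lam μ) m _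
  have hmain : x - ∑ μ ∈ S, con g (lam μ) x * e μ ∈ J' := by
    have h1 : ∑ μ ∈ S, con g (lam μ) x * e μ = ∑ m ∈ x.support, coeff m x •
        (monomial (res g true m) (1 : F) *
          ∑ μ ∈ S, lam μ (monomial (res g false m) 1) • e μ) := by
      simp_rw [hcon, Finset.sum_mul, Finset.mul_sum, Finset.smul_sum]
      rw [Finset.sum_comm]
      refine Finset.sum_congr rfl fun m _ => Finset.sum_congr rfl fun μ _ => ?_
      rw [mul_smul, smul_mul_assoc, smul_mul_assoc, mul_smul_comm]
    have h2 : x = ∑ m ∈ x.support, coeff m x •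
        (monomial (res g true m) (1 : F) * monomial (res g false m) 1) := by
      conv_lhs => rw [x.as_sum]
      refine Finset.sum_congr rfl fun m _ => ?_
      rw [monomial_mul, mul_one]
      have h3 : res g true m + res g false m = m := by
        have := sum_res g m
        rwa [Fintype.sum_bool] at this
      rw [h3, smul_monomial, smul_eq_mul, mul_one]
    rw [h1]
    nth_rewrite 1 [h2]
    rw [← Finset.sum_sub_distrib]
    refine Ideal.sum_mem _ fun m hm => ?_
    rw [← smul_sub, ← mul_sub]
    have h4 : monomial (res g true m) (1 : F) * (monomial (res g false m) 1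
        - ∑ μ ∈ S, lam μ (monomial (res g false m) 1) • e μ) ∈ J' :=
      J'.mul_mem_left _ (hnn m S (Finset.subset_biUnion_of_mem
        (fun m => (b.repr (nn m)).support) hm))
    rw [smul_eq_C_mul]
    exact J'.mul_mem_left _ h4
  refine Submodule.mem_sup.2 ⟨∑ μ ∈ S, con g (lam μ) x * e μ, ?_,
    x - ∑ μ ∈ S, con g (lam μ) x * e μ, hmain, by ring⟩
  refine Submodule.sum_mem _ fun μ _ => ?_
  have hw := h (lam μ) (hlamJ μ)
  rw [(e μ).as_sum, Finset.mul_sum]
  refine Submodule.sum_mem _ fun m hm => ?_
  have h5 : con g (lam μ) x * monomial m (coeff m (e μ))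
      = coeff m (e μ) • (con g (lam μ) x * monomial m 1) := by
    rw [← mul_smul_comm, smul_monomial, smul_eq_mul, mul_one]
  rw [h5]
  refine Submodule.smul_mem _ _ (Submodule.subset_span ⟨_, hw, m, ?_, rfl⟩)
  rw [← mem_RL_iff.1 (heN μ) m hm]
  exact res_res_ne g (by decide) m

/-- (c) TRANSFER of conditions, two blocks.  `W = {w ∈ R_true | ∀ κ, Ψ κ w ∈ span (H κ)}`. -/
theorem transfer_bool {κ : Type*} (g : P → Bool)
    (Ψ : κ → (MvPolynomial P F →ₗ[F] MvPolynomial P F))
    (hΨ : ∀ k, ∀ r ∈ RL F g true, ∀ s ∈ RL F g false, Ψ k (r * s) = Ψ k r * s)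
    (hΨR : ∀ k, ∀ r ∈ RL F g true, Ψ k r ∈ RL F g true)
    (H : κ → Set (MvPolynomial P F)) (hH : ∀ k, ∀ y ∈ H k, y ∈ RL F g true)
    (G' : Set (MvPolynomial P F)) (hG' : ∀ y ∈ G', y ∈ RL F g false)
    (W : Submodule F (MvPolynomial P F))
    (hW : ∀ w ∈ RL F g true, (∀ k, Ψ k w ∈ Ideal.span (H k)) → w ∈ W)
    {x : MvPolynomial P F} (hx : ∀ k, Ψ k x ∈ Ideal.span (H k) ⊔ Ideal.span G') :
    x ∈ Off g true W ⊔ (Ideal.span G').restrictScalars F := by
  classical
  refine expand g W x fun lam hlam => hW _ (con_mem_true g lam x) fun k => ?_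
  have hcomm : ∀ y, Ψ k (con g lam y) = con g lam (Ψ k y) := by
    intro y
    rw [y.as_sum]
    simp only [map_sum]
    refine Finset.sum_congr rfl fun m _ => ?_
    have hm : (monomial m (coeff m y) : MvPolynomial P F)
        = coeff m y • (monomial (res g true m) 1 * monomial (res g false m) 1) := by
      rw [monomial_mul, mul_one, smul_monomial, smul_eq_mul, mul_one]
      have := sum_res g m
      rw [Fintype.sum_bool] at this
      rw [this]
    rw [hm, map_smul, map_smul, map_smul, map_smul,
      con_mul g lam (monomial_res_mem g true m 1) (monomial_res_mem g false m 1),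
      hΨ k _ (monomial_res_mem g true m 1) _ (monomial_res_mem g false m 1),
      con_mul g lam (hΨR k _ (monomial_res_mem g true m 1)) (monomial_res_mem g false m 1),
      map_smul]
  rw [hcomm]
  obtain ⟨y, hy, z, hz, hyz⟩ := Submodule.mem_sup.1 (hx k)
  rw [← hyz, map_add, con_kill g lam hG' hlam hz, add_zero]
  exact con_mem_ideal g lam (hH k) hy

end two

/-! ### one block against the rest, for a general labelling -/

/-- the two-block labelling `block l` / `rest`. -/
noncomputable def two (f : P → L) (l : L) : P → Bool := by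
  classical exact fun a => decide (f a = l)

lemma res_two_true (f : P → L) (l : L) (m : P →₀ ℕ) : res (two f l) true m = res f l m := by
  classical
  ext a
  by_cases h : f a = l
  · rw [res_apply_pos m h, res_apply_pos]
    simp [two, h]
  · rw [res_apply_neg m h, res_apply_neg]
    simp [two, h]

lemma RL_two_true (f : P → L) (l : L) : RL F (two f l) true = RL F f l := by
  ext g
  rw [mem_RL_iff, mem_RL_iff]
  simp_rw [res_two_true]

/-- polynomials not involving the block `l` -/
noncomputable def RO (F : Type*) [Field F] (f : P → L) (l : L) : Submodule F (MvPolynomial P F) :=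
  Subalgebra.toSubmodule (supported F {a | f a ≠ l})

lemma RL_two_false (f : P → L) (l : L) : RL F (two f l) false = RO F f l := by
  classical
  unfold RL RO
  congr 3
  ext a
  simp [two]

lemma RL_le_RO {f : P → L} {l l' : L} (h : l' ≠ l) : RL F f l' ≤ RO F f l := by
  intro x hx
  unfold RL at hx
  unfold RO
  rw [Subalgebra.mem_toSubmodule] at hx ⊢
  refine supported_mono ?_ hx
  intro a ha
  simp only [Set.mem_setOf_eq] at ha ⊢
  rw [ha]; exact h

lemma Off_two (f : P → L) (l : L) (W : Submodule F (MvPolynomial P F)) :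
    Off (two f l) true W = Off f l W := by
  unfold Off
  simp_rw [res_two_true]

/-- (c) TRANSFER of conditions for the block `l` of a labelling. -/
theorem transfer {κ : Type*} (f : P → L) (l : L)
    (Ψ : κ → (MvPolynomial P F →ₗ[F] MvPolynomial P F))
    (hΨ : ∀ k, ∀ r ∈ RL F f l, ∀ s ∈ RO F f l, Ψ k (r * s) = Ψ k r * s)
    (hΨR : ∀ k, ∀ r ∈ RL F f l, Ψ k r ∈ RL F f l)
    (H : κ → Set (MvPolynomial P F)) (hH : ∀ k, ∀ y ∈ H k, y ∈ RL F f l)
    (G' : Set (MvPolynomial P F)) (hG' : ∀ y ∈ G', y ∈ RO F f l)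
    (W : Submodule F (MvPolynomial P F))
    (hW : ∀ w ∈ RL F f l, (∀ k, Ψ k w ∈ Ideal.span (H k)) → w ∈ W)
    {x : MvPolynomial P F} (hx : ∀ k, Ψ k x ∈ Ideal.span (H k) ⊔ Ideal.span G') :
    x ∈ Off f l W ⊔ (Ideal.span G').restrictScalars F := by
  rw [← Off_two]
  refine transfer_bool (two f l) Ψ ?_ ?_ H ?_ G' ?_ W ?_ hx
  · rw [RL_two_true, RL_two_false]; exact hΨ
  · rw [RL_two_true]; exact hΨR
  · rw [RL_two_true]; exact hH
  · rw [RL_two_false]; exact hG'
  · rw [RL_two_true]; exact hW

/-! ### graded versions -/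

/-- a subspace stable under homogeneous components -/
def Gr (W : Submodule F (MvPolynomial P F)) : Prop :=
  ∀ w ∈ W, ∀ n, homogeneousComponent n w ∈ W






end Crest.Agent.R059.Tens559
end

-- ▼ part R059/ThinTens_559

set_option autoImplicit false
set_option linter.unusedSectionVars false

namespace Crest.Agent.R059.ThinTens559

open MvPolynomial Finset
open Crest.Agent.R059.Thin613 Crest.Agent.R059.Deg359 Crest.Agent.R059.Tens559

variable {P : Type*} [Fintype P] [DecidableEq P]
variable {V : Type*} [AddCommGroup V] [LinearOrder V] [IsOrderedAddMonoid V]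
variable {L' : Type*} {L'' : Type*}

/-! ### one embedded block -/

section one

variable {F : Type*} [CommRing F]
variable {Q : Type*} [Fintype Q] [DecidableEq Q] (e : Q ↪ P)

/-- arrows of the block -/
def arrB (arr : P → P → ℕ) (e : Q ↪ P) : Q → Q → ℕ := fun q q' => arr (e q) (e q')

/-- weights of the block -/
def thB (th : P → V) (e : Q ↪ P) : Q → V := fun q => th (e q)

lemma wt_map (th : P → V) (S : Finset Q) : wt th (S.map e) = wt (thB th e) S := by
  unfold wt thB
  rw [Finset.sum_map]

lemma rename_KK (arr : P → P → ℕ) (S T : Finset Q) :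
    rename e (KK F (arrB arr e) S T) = KK F arr (S.map e) (T.map e) := by
  unfold KK arrB
  rw [map_prod, Finset.prod_map]
  refine Finset.prod_congr rfl fun a _ => ?_
  rw [map_prod, Finset.prod_map]
  refine Finset.prod_congr rfl fun b _ => ?_
  rw [map_pow, map_sub, rename_X, rename_X]

/-- the range of `e` is a union of fibres of `g` -/
def Sat (g : P → L') (e : Q ↪ P) : Prop := ∀ a q, g a = g (e q) → a ∈ Set.range e

lemma map_fib {g : P → L'} {e : Q ↪ P} (hg : Sat g e) (m : L')
    (hne : (fib (g ∘ e) m).Nonempty) : (fib (g ∘ e) m).map e = fib g m := by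
  obtain ⟨q₀, hq₀⟩ := hne
  rw [mem_fib] at hq₀
  ext a
  rw [Finset.mem_map, mem_fib]
  constructor
  · rintro ⟨q, hq, rfl⟩
    rw [mem_fib] at hq
    exact hq
  · intro ha
    obtain ⟨q, rfl⟩ := hg a q₀ (by rw [ha, ← hq₀]; rfl)
    exact ⟨q, by rw [mem_fib]; exact ha, rfl⟩

lemma good_comp {th : P → V} {g : P → L'} {e : Q ↪ P} (hg : Sat g e) (hgood : Good th g) :
    Good (thB th e) (g ∘ e) := by
  intro m
  by_cases hne : (fib (g ∘ e) m).Nonempty
  · rw [← wt_map, map_fib hg m hne]; exact hgood m
  · rw [Finset.not_nonempty_iff_eq_empty] at hne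
    rw [hne, wt_empty]

lemma JJ_rename (arr : P → P → ℕ) (th : P → V) {g : P → L'} {e : Q ↪ P} (hg : Sat g e)
    {x : MvPolynomial Q F} (hx : x ∈ JJ F (arrB arr e) (thB th e) (g ∘ e)) :
    rename e x ∈ JJ F arr th g := by
  classical
  suffices h : JJ F (arrB arr e) (thB th e) (g ∘ e) ≤
      Ideal.comap (rename e : MvPolynomial Q F →ₐ[F] MvPolynomial P F) (JJ F arr th g) by
    exact h hx
  rw [JJ_le_iff]
  intro l T hT hw
  rw [Ideal.mem_comap, rename_KK]
  have hne : T.Nonempty := by
    rw [Finset.nonempty_iff_ne_empty]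
    intro h0; rw [h0] at hw; simp at hw
  have hfib := map_fib hg l (hne.mono hT)
  have h1 : (fib (g ∘ e) l \ T).map e = fib g l \ T.map e := by
    rw [← hfib, Finset.map_sdiff]
  rw [h1]
  refine KK_mem_JJ arr g l ?_ (by rw [wt_map]; exact hw)
  rw [← hfib]
  exact Finset.map_subset_map.2 hT

lemma tsh_rename (g : P → L') (x : MvPolynomial Q F) :
    tsh F g (rename e x) = MvPolynomial.map (rename e : MvPolynomial Q F →ₐ[F] MvPolynomial P F)
      (tsh F (g ∘ e) x) := by
  have h : (tsh F g).comp (rename e : MvPolynomial Q F →ₐ[F] MvPolynomial P F).toRingHom =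
      (MvPolynomial.map ((rename e : MvPolynomial Q F →ₐ[F] MvPolynomial P F) :
        MvPolynomial Q F →+* MvPolynomial P F)).comp (tsh F (g ∘ e)) := by
    apply MvPolynomial.ringHom_ext
    · intro r
      simp
    · intro q
      simp
  exact congrArg (fun φ : MvPolynomial Q F →+* _ => φ x) h

lemma coeff_tsh_rename (g : P → L') (x : MvPolynomial Q F) (α : L' →₀ ℕ) :
    coeff α (tsh F g (rename e x)) = rename e (coeff α (tsh F (g ∘ e) x)) := by
  rw [tsh_rename, coeff_map]
  rfl

lemma ud_rename (arr : P → P → ℕ) (th : P → V) {g : P → L'} {e : Q ↪ P} (hg : Sat g e)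
    {m : ℤ} {x : MvPolynomial Q F} (hx : ud F (arrB arr e) (thB th e) (g ∘ e) m x) :
    ud F arr th g m (rename e x) := by
  rw [ud_iff] at hx ⊢
  intro α hα
  rw [coeff_tsh_rename]
  exact JJ_rename arr th hg (hx α hα)

end one

lemma ud_smul {F : Type*} [CommRing F] (arr : P → P → ℕ) (th : P → V) (f : P → L') {m : ℤ}
    (c : F) {x : MvPolynomial P F} (h : ud F arr th f m x) : ud F arr th f m (c • x) := by
  rw [smul_eq_C_mul]
  have := ud_mul arr th f (ud_C arr th f c) h
  rwa [zero_add] at this

lemma ud_prod {F : Type*} [CommRing F] (arr : P → P → ℕ) (th : P → V) (f : P → L')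
    {ι : Type*} (s : Finset ι) (x : ι → MvPolynomial P F) (m : ι → ℤ)
    (h : ∀ i ∈ s, ud F arr th f (m i) (x i)) : ud F arr th f (∑ i ∈ s, m i) (∏ i ∈ s, x i) := by
  unfold ud
  rw [map_prod]
  exact TD.prod s _ m h

/-- `V_f` as a subspace -/
noncomputable def VV (F : Type*) [Field F] (arr : P → P → ℕ) (th : P → V) (f : P → L') :
    Submodule F (MvPolynomial P F) where
  carrier := {w | InV F arr th f w}
  add_mem' := fun {_ _} ha hb g hg hgf =>
    ⟨ud_add arr th g (ha g hg hgf).1 (hb g hg hgf).1,
      fun h => ud_add arr th g ((ha g hg hgf).2 h) ((hb g hg hgf).2 h)⟩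
  zero_mem' := fun g _ _ => ⟨ud_zero arr th g _, fun _ => ud_zero arr th g _⟩
  smul_mem' := fun c _ hx g hg hgf =>
    ⟨ud_smul arr th g c (hx g hg hgf).1, fun h => ud_smul arr th g c ((hx g hg hgf).2 h)⟩

lemma mem_VV {F : Type*} [Field F] {arr : P → P → ℕ} {th : P → V} {f : P → L'}
    {w : MvPolynomial P F} : w ∈ VV F arr th f ↔ InV F arr th f w := Iff.rfl

/-- elements of the ideal lie in `V_f` -/
lemma mem_VV_of_mem {F : Type*} [Field F] {arr : P → P → ℕ} {th : P → V} {f : P → L'}
    {w : MvPolynomial P F} (hw : w ∈ JJ F arr th f) : w ∈ VV F arr th f := fun g hg hgf =>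
  ⟨ud_of_mem arr th g _ (JJ_le_of_fine arr hgf hg hw),
    fun _ => ud_of_mem arr th g _ (JJ_le_of_fine arr hgf hg hw)⟩

/-! ### all blocks -/

section blocks

variable {F : Type*} [Field F]
variable {L : Type*} [Fintype L] {Q : L → Type*} [∀ l, Fintype (Q l)] [∀ l, DecidableEq (Q l)]

/-- the embeddings `e l` parametrise the blocks of `f` -/
def Par (f : P → L) (e : ∀ l, Q l ↪ P) : Prop := ∀ l a, f a = l ↔ a ∈ Set.range (e l)

variable {f : P → L} {e : ∀ l, Q l ↪ P}

lemma Par.apply (h : Par f e) (l : L) (q : Q l) : f (e l q) = l := (h l _).2 ⟨q, rfl⟩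

lemma Par.sat (h : Par f e) {g : P → L'} (hgf : Fine g f) (l : L) : Sat g (e l) := by
  intro a q haq
  rw [← h l a, hgf _ _ haq, h.apply l q]

/-- the parametrisation as a bijection -/
lemma Par.bijective (h : Par f e) :
    Function.Bijective (fun x : Σ l, Q l => e x.1 x.2) := by
  constructor
  · rintro ⟨l, q⟩ ⟨l', q'⟩ hqq
    simp only at hqq
    have h1 : l = l' := by rw [← h.apply l q, hqq, h.apply l' q']
    subst h1
    rw [(e l).injective hqq]
  · intro a
    obtain ⟨q, hq⟩ := (h (f a) a).1 rfl
    exact ⟨⟨f a, q⟩, hq⟩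

lemma Par.sum (h : Par f e) {M : Type*} [AddCommMonoid M] (t : P → M) :
    ∑ a, t a = ∑ l, ∑ q, t (e l q) := by
  rw [← Fintype.sum_sigma']
  exact (Function.Bijective.sum_comp h.bijective t).symm

lemma Par.N2_sum (h : Par f e) (arr : P → P → ℕ) {g : P → L'} (hgf : Fine g f) :
    N2 arr g = N2 arr f + ∑ l, N2 (arrB arr (e l)) (g ∘ e l) := by
  classical
  have h1 : N2 arr g = N2 arr f + ∑ a, ∑ b, if f a = f b ∧ g a ≠ g b then arr a b else 0 := by
    unfold Thin613.N2
    rw [← Finset.sum_add_distrib]
    refine Finset.sum_congr rfl fun a _ => ?_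
    rw [← Finset.sum_add_distrib]
    refine Finset.sum_congr rfl fun b _ => ?_
    by_cases hf : f a = f b
    · by_cases hg : g a = g b <;> simp [hf, hg]
    · have hg : g a ≠ g b := fun hg => hf (hgf _ _ hg)
      simp [hf, hg]
  rw [h1]
  congr 1
  rw [h.sum]
  refine Finset.sum_congr rfl fun l _ => ?_
  unfold Thin613.N2
  refine Finset.sum_congr rfl fun q _ => ?_
  rw [h.sum, Finset.sum_eq_single l]
  · refine Finset.sum_congr rfl fun q' _ => ?_
    rw [h.apply l q, h.apply l q']
    simp [arrB]
  · intro l' _ hl'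
    refine Finset.sum_eq_zero fun q' _ => ?_
    rw [h.apply l q, h.apply l' q', if_neg]
    rintro ⟨h2, _⟩
    exact hl' h2.symm
  · intro h2; exact absurd (Finset.mem_univ _) h2

lemma sym_block {arr : P → P → ℕ} {th : P → V} (hs : Sym arr th) {Q₀ : Type*} [Fintype Q₀]
    [DecidableEq Q₀] (e₀ : Q₀ ↪ P) : Sym (arrB arr e₀) (thB th e₀) := by
  intro S T hST hS hT
  have h1 := hs (S.map e₀) (T.map e₀) ((Finset.disjoint_map e₀).2 hST)
    (by rw [wt_map]; exact hS) (by rw [wt_map]; exact hT)
  simpa [Finset.sum_map, arrB] using h1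

lemma Par.NF_sum (h : Par f e) {arr : P → P → ℕ} {th : P → V} (hs : Sym arr th)
    (hf : Good th f) {g : P → L'} (hg : Good th g) (hgf : Fine g f) :
    Thin613.NF arr g = Thin613.NF arr f + ∑ l, Thin613.NF (arrB arr (e l)) (g ∘ e l) := by
  have h1 := h.N2_sum arr hgf
  have h2 := two_mul_NF arr hs hf
  have h3 := two_mul_NF arr hs hg
  have h4 : ∀ l, 2 * Thin613.NF (arrB arr (e l)) (g ∘ e l) = Thin613.N2 (arrB arr (e l)) (g ∘ e l) :=
    fun l => two_mul_NF _ (sym_block hs (e l)) (good_comp (h.sat hgf l) hg)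
  have h5 : ∑ l, Thin613.N2 (arrB arr (e l)) (g ∘ e l)
      = 2 * ∑ l, Thin613.NF (arrB arr (e l)) (g ∘ e l) := by
    rw [Finset.mul_sum]
    exact Finset.sum_congr rfl fun l _ => (h4 l).symm
  omega

lemma NF_unit {Q₀ : Type*} [Fintype Q₀] [DecidableEq Q₀] (arr : Q₀ → Q₀ → ℕ) :
    Thin613.NF arr (fun _ : Q₀ => ()) = 0 := NF_const arr _

/-- the space of the block `l` (its elements are polynomials in the variables `Q l`) -/
noncomputable def VB (F : Type*) [Field F] (arr : P → P → ℕ) (th : P → V) (e : ∀ l, Q l ↪ P)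
    (l : L) : Submodule F (MvPolynomial (Q l) F) :=
  VV F (arrB arr (e l)) (thB th (e l)) (fun _ : Q l => ())

/-- **(V1)** products of elements of the block spaces lie in `V_f`. -/
theorem prod_mem_VV (h : Par f e) {arr : P → P → ℕ} {th : P → V} (hs : Sym arr th)
    (hf : Good th f) (w : ∀ l, MvPolynomial (Q l) F) (hw : ∀ l, w l ∈ VB F arr th e l) :
    InV F arr th f (∏ l, rename (e l) (w l)) := by
  classical
  intro g hg hgf
  have hNF := h.NF_sum hs hf hg hgf
  have hb : ∀ l, ud F arr th g (Thin613.NF (arrB arr (e l)) (g ∘ e l)) (rename (e l) (w l)) := by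
    intro l
    have h1 := (hw l).ud_le (good_comp (h.sat hgf l) hg) (g := g ∘ e l) (fun _ _ _ => rfl)
    rw [NF_unit, Nat.cast_zero, sub_zero] at h1
    exact ud_rename arr th (h.sat hgf l) h1
  refine ⟨?_, fun hne => ?_⟩
  · have := ud_prod arr th g univ _ _ fun l _ => hb l
    refine ud_mono arr th g ?_ this
    rw [hNF]; push_cast; omega
  · -- a block which is cut
    obtain ⟨a, b, hab, hgab⟩ : ∃ a b, f a = f b ∧ g a ≠ g b := by
      by_contra hcon
      push Not at hcon
      exact hne hcon
    obtain ⟨qa, hqa⟩ := (h (f a) a).1 rfl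
    obtain ⟨qb, hqb⟩ := (h (f a) b).1 hab.symm
    have hcut : ud F arr th g ((Thin613.NF (arrB arr (e (f a))) (g ∘ e (f a)) : ℤ) - 1)
        (rename (e (f a)) (w (f a))) := by
      have h1 := (hw (f a)).ud_lt (good_comp (h.sat hgf (f a)) hg) (g := g ∘ e (f a))
        (fun _ _ _ => rfl) (fun hfine => hgab (by
          have := hfine qa qb rfl
          simp only [Function.comp_apply, hqa, hqb] at this
          exact this))
      rw [NF_unit, Nat.cast_zero, sub_zero] at h1
      exact ud_rename arr th (h.sat hgf (f a)) h1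
    have := ud_prod arr th g univ (fun l => rename (e l) (w l))
      (fun l => (Thin613.NF (arrB arr (e l)) (g ∘ e l) : ℤ) - if l = f a then 1 else 0)
      (fun l _ => by
        by_cases hl : l = f a
        · subst hl
          rw [if_pos rfl]; exact hcut
        · rw [if_neg hl, sub_zero]; exact hb l)
    refine ud_mono arr th g ?_ this
    rw [Finset.sum_sub_distrib, Finset.sum_ite_eq' univ (f a), if_pos (Finset.mem_univ _), hNF]
    push_cast; omega

end blocks

end Crest.Agent.R059.ThinTens559
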