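import Crest.Agent.R059.ThinTens2_559
import Crest.Agent.R059.Shift_359
import Mathlib
import Crest.Agent.R059.Thin0_613
import Crest.Agent.R059.Deg_359
import Crest.Agent.R059.Thin4c_613
import Crest.Agent.R059.Thin4b_613
import Crest.Agent.R059.PL1_547
import Crest.Agent.R059.ThinEq_494
import Crest.Agent.R059.ThinTens_559
import Crest.Agent.R059.DimCount_830
import Crest.Agent.R059.PL2_547

-- ▼ part R059/ThinTens3_559
section

set_option autoImplicit false
set_option linter.unusedSectionVars false

namespace Crest.Agent.R059.ThinTens559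

open MvPolynomial Finset
open Crest.Agent.R059.Thin613 Crest.Agent.R059.Deg359 Crest.Agent.R059.Tens559

variable {P : Type*} [Fintype P] [DecidableEq P]
variable {V : Type*} [AddCommGroup V] [LinearOrder V] [IsOrderedAddMonoid V]
variable {L' : Type*} {L'' : Type*}
variable {F : Type*} [Field F]

section indep

variable {L : Type*} [Fintype L] {Q : L → Type*} [∀ l, Fintype (Q l)] [∀ l, DecidableEq (Q l)]
variable {f : P → L} {e : ∀ l, Q l ↪ P}

/-- the retraction `killCompl` maps the ideal of the block into `J0 univ` of the block -/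
lemma gens_le_comap (h : Par f e) (arr : P → P → ℕ) (th : P → V) (l : L) :
    Ideal.span (gens F arr th f l) ≤
      Ideal.comap (killCompl (e l).injective : MvPolynomial P F →ₐ[F] MvPolynomial (Q l) F)
        (J0 F (arrB arr (e l)) (thB th (e l)) univ) := by
  classical
  rw [Ideal.span_le]
  rintro q ⟨T, hT, hw, rfl⟩
  have hfib : fib f l = (univ : Finset (Q l)).map (e l) := by
    ext a
    rw [mem_fib, h l a]
    simp
  rw [hfib] at hT ⊢
  obtain ⟨T', _, rfl⟩ := Finset.subset_map_iff.1 hT
  rw [SetLike.mem_coe, Ideal.mem_comap, ← Finset.map_sdiff, ← rename_KK, killCompl_rename_app]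
  exact KK_mem_J0 _ (Finset.subset_univ _) (by rw [← wt_map]; exact hw)

/-- `rename (e l)` maps `J0 univ` of the block into `JJ f`. -/
lemma rename_mem_JJ (h : Par f e) (arr : P → P → ℕ) (th : P → V) (l : L)
    {x : MvPolynomial (Q l) F} (hx : x ∈ J0 F (arrB arr (e l)) (thB th (e l)) univ) :
    rename (e l) x ∈ JJ F arr th f := by
  classical
  refine JJ_rename arr th (h.sat (fun _ _ hab => hab) l) ?_
  have hsame : Same (fun _ : Q l => ()) (f ∘ e l) := fun a b => by
    simp [h.apply l a, h.apply l b]
  rw [← JJ_congr _ _ hsame, JJ_const]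
  exact hx

/-- **(V0)** products of families independent modulo the block ideals are independent
modulo `JJ f`. -/
theorem indep_JJ (h : Par f e) (arr : P → P → ℕ) (th : P → V) {ι : L → Type*}
    (w : ∀ l, ι l → MvPolynomial (Q l) F)
    (hind : ∀ l, LinearIndependent F fun i =>
      Ideal.Quotient.mk (J0 F (arrB arr (e l)) (thB th (e l)) univ) (w l i)) :
    LinearIndependent F fun φ : (∀ l, ι l) =>
      Ideal.Quotient.mk (JJ F arr th f) (∏ l, rename (e l) (w l (φ l))) := by
  classical
  refine Tens559.indep f (G := gens F arr th f) (gens_mem_RL arr th f)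
    (fun l i => rename (e l) (w l i)) (fun l i => rename_mem_RL (h l) _) fun l => ?_
  refine LinearIndependent.of_comp
    (Ideal.quotientMapₐ (J0 F (arrB arr (e l)) (thB th (e l)) univ)
      (killCompl (e l).injective : MvPolynomial P F →ₐ[F] MvPolynomial (Q l) F)
      (gens_le_comap h arr th l)).toLinearMap ?_
  have h1 : (⇑(Ideal.quotientMapₐ (J0 F (arrB arr (e l)) (thB th (e l)) univ)
      (killCompl (e l).injective : MvPolynomial P F →ₐ[F] MvPolynomial (Q l) F)
      (gens_le_comap h arr th l)).toLinearMap ∘ fun i =>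
        Ideal.Quotient.mk (Ideal.span (gens F arr th f l)) (rename (e l) (w l i)))
      = fun i => Ideal.Quotient.mk (J0 F (arrB arr (e l)) (thB th (e l)) univ) (w l i) := by
    funext i
    have h2 : (Ideal.quotientMapₐ (J0 F (arrB arr (e l)) (thB th (e l)) univ)
        (killCompl (e l).injective : MvPolynomial P F →ₐ[F] MvPolynomial (Q l) F)
        (gens_le_comap h arr th l)) (Ideal.Quotient.mk (Ideal.span (gens F arr th f l))
          (rename (e l) (w l i))) =
        Ideal.Quotient.mk (J0 F (arrB arr (e l)) (thB th (e l)) univ)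
          (killCompl (e l).injective (rename (e l) (w l i))) :=
      Ideal.quotient_map_mkₐ (J0 F (arrB arr (e l)) (thB th (e l)) univ)
        (killCompl (e l).injective : MvPolynomial P F →ₐ[F] MvPolynomial (Q l) F)
        (gens_le_comap h arr th l)
    rw [killCompl_rename_app] at h2
    exact h2
  rw [h1]
  exact hind l

end indep

/-! ### graded versions -/






section main

variable {L : Type*} [Fintype L] {Q : L → Type*} [∀ l, Fintype (Q l)] [∀ l, DecidableEq (Q l)]
variable {f : P → L} {e : ∀ l, Q l ↪ P}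




end main

end Crest.Agent.R059.ThinTens559
end

-- ▼ part R059/DivT_547
section

/-!
# Divisibility by products of differences of variables over an arbitrary commutative ring
(row 59, generic part of the symbol calculus of Theorem B)
-/

set_option autoImplicit false
set_option linter.unusedSectionVars false

namespace Crest.Agent.R059.DivT547

open MvPolynomial

variable {σ A : Type*} [DecidableEq σ] [CommRing A]

theorem X_mul_cancel {j : σ} {S : MvPolynomial σ A} (h : X j * S = 0) : S = 0 := by
  ext m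
  have h1 := congrArg (coeff (Finsupp.single j 1 + m)) h
  rwa [coeff_X_mul, coeff_zero] at h1

/-- `X j - X i` is a non-zero-divisor -/
theorem sub_mul_cancel {i j : σ} (hij : i ≠ j) {S : MvPolynomial σ A}
    (h : (X j - X i) * S = 0) : S = 0 := by
  let e : MvPolynomial σ A →ₐ[A] MvPolynomial σ A :=
    aeval (fun m => if m = j then X j + X i else X m)
  let f : MvPolynomial σ A →ₐ[A] MvPolynomial σ A :=
    aeval (fun m => if m = j then X j - X i else X m)
  have hfe : ∀ p, f (e p) = p := by
    intro p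
    have : f.comp e = AlgHom.id A _ := by
      apply MvPolynomial.algHom_ext
      intro m
      by_cases hm : m = j
      · subst hm
        simp [e, f, hij]
      · simp [e, f, hm]
    exact DFunLike.congr_fun this p
  have h1 : X j * e S = 0 := by
    have := congrArg e h
    rw [map_mul, map_sub, map_zero] at this
    simpa [e, hij] using this
  have h2 := X_mul_cancel h1
  rw [← hfe S, h2, map_zero]

theorem sub_mul_inj {i j : σ} (hij : i ≠ j) {S S' : MvPolynomial σ A}
    (h : (X j - X i) * S = (X j - X i) * S') : S = S' := by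
  have : (X j - X i) * (S - S') = 0 := by rw [mul_sub, h, sub_self]
  exact sub_eq_zero.1 (sub_mul_cancel hij this)

theorem sub_pow_mul_inj {i j : σ} (hij : i ≠ j) (p : ℕ) {S S' : MvPolynomial σ A}
    (h : (X j - X i) ^ p * S = (X j - X i) ^ p * S') : S = S' := by
  induction p with
  | zero => simpa using h
  | succ p ih =>
    apply ih
    apply sub_mul_inj hij
    rw [← mul_assoc, ← mul_assoc, ← pow_succ', h]

/-- substitution `X l ↦ X k` -/
noncomputable def sb (k l : σ) : MvPolynomial σ A →ₐ[A] MvPolynomial σ A :=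
  aeval (fun m => if m = l then X k else X m)

theorem sb_X (k l m : σ) : sb k l (X m : MvPolynomial σ A) = X (if m = l then k else m) := by
  rw [sb, aeval_X]
  split_ifs <;> rfl

theorem dvd_sub_sb (k l : σ) (p : MvPolynomial σ A) : (X l - X k) ∣ p - sb k l p := by
  induction p using MvPolynomial.induction_on with
  | C a =>
    have : sb k l (C a) = (C a : MvPolynomial σ A) := by
      rw [sb, aeval_C]; rfl
    rw [this, sub_self]; exact dvd_zero _
  | add p q hp hq =>
    rw [map_add, add_sub_add_comm]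
    exact dvd_add hp hq
  | mul_X p m hp =>
    rw [map_mul, sb_X]
    have h1 : (X l - X k : MvPolynomial σ A) ∣ X m - X (if m = l then k else m) := by
      split_ifs with h
      · rw [h]
      · rw [sub_self]; exact dvd_zero _
    have : p * X m - sb k l p * X (if m = l then k else m)
        = (p - sb k l p) * X m + sb k l p * (X m - X (if m = l then k else m)) := by ring
    rw [this]
    exact dvd_add (Dvd.dvd.mul_right hp _) (Dvd.dvd.mul_left h1 _)

theorem dvd_iff_sb {k l : σ} (p : MvPolynomial σ A) :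
    (X l - X k) ∣ p ↔ sb k l p = 0 := by
  constructor
  · rintro ⟨q, rfl⟩
    rw [map_mul, map_sub, sb_X, sb_X, if_pos rfl]
    split_ifs <;> simp
  · intro h
    have := dvd_sub_sb k l p
    rwa [h, sub_zero] at this

theorem dvd_of_dvd_mul₁ {i j k l : σ} (hij : i ≠ j) (hne : s(i, j) ≠ s(k, l))
    {S : MvPolynomial σ A} (h : (X l - X k) ∣ (X j - X i) * S) : (X l - X k) ∣ S := by
  rw [dvd_iff_sb] at h ⊢
  rw [map_mul, map_sub, sb_X, sb_X] at h
  apply sub_mul_cancel _ h
  intro h1
  apply hne
  rw [Sym2.eq_iff]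
  by_cases hi : i = l
  · by_cases hj : j = l
    · exact absurd (hi.trans hj.symm) hij
    · rw [if_pos hi, if_neg hj] at h1
      exact Or.inr ⟨hi, h1.symm⟩
  · by_cases hj : j = l
    · rw [if_neg hi, if_pos hj] at h1
      exact Or.inl ⟨h1, hj⟩
    · rw [if_neg hi, if_neg hj] at h1
      exact absurd h1 hij

theorem pow_dvd_of_pow_dvd_mul₁ {i j k l : σ} (hij : i ≠ j) (hkl : k ≠ l)
    (hne : s(i, j) ≠ s(k, l)) (q : ℕ) {S : MvPolynomial σ A}
    (h : (X l - X k) ^ q ∣ (X j - X i) * S) : (X l - X k) ^ q ∣ S := by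
  induction q generalizing S with
  | zero => simp
  | succ q ih =>
    have h1 : (X l - X k) ∣ (X j - X i) * S :=
      (Dvd.intro_left ((X l - X k) ^ q) (pow_succ _ _).symm).trans h
    obtain ⟨S', rfl⟩ := dvd_of_dvd_mul₁ hij hne h1
    obtain ⟨U, hU⟩ := h
    have h2 : (X l - X k) * ((X j - X i) * S') = (X l - X k) * ((X l - X k) ^ q * U) := by
      rw [← mul_assoc (X l - X k) ((X l - X k) ^ q), ← pow_succ', ← hU]; ring
    have h3 := sub_mul_inj hkl h2
    rw [pow_succ']
    exact mul_dvd_mul_left _ (ih ⟨U, h3⟩)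

theorem pow_dvd_of_pow_dvd_mul {i j k l : σ} (hij : i ≠ j) (hkl : k ≠ l)
    (hne : s(i, j) ≠ s(k, l)) (p q : ℕ) {S : MvPolynomial σ A}
    (h : (X l - X k) ^ q ∣ (X j - X i) ^ p * S) : (X l - X k) ^ q ∣ S := by
  induction p with
  | zero => simpa using h
  | succ p ih =>
    apply ih
    apply pow_dvd_of_pow_dvd_mul₁ hij hkl hne
    rwa [← mul_assoc, ← pow_succ']

/-- product of powers of differences over a finset of pairs -/
noncomputable def dprod (A : Type*) [CommRing A] (P : Finset (σ × σ)) (p : σ × σ → ℕ) :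
    MvPolynomial σ A :=
  ∏ e ∈ P, (X e.2 - X e.1) ^ p e

theorem dprod_dvd (P : Finset (σ × σ)) (p : σ × σ → ℕ) (h1 : ∀ e ∈ P, e.1 ≠ e.2)
    (h2 : ∀ e ∈ P, ∀ e' ∈ P, s(e.1, e.2) = s(e'.1, e'.2) → e = e')
    {T : MvPolynomial σ A} (hT : ∀ e ∈ P, (X e.2 - X e.1) ^ p e ∣ T) :
    dprod A P p ∣ T := by
  induction P using Finset.induction_on with
  | empty => simp [dprod]
  | insert a P ha ih =>
    have h3 : dprod A P p ∣ T := ih (fun e he => h1 e (Finset.mem_insert_of_mem he))
      (fun e he e' he' => h2 e (Finset.mem_insert_of_mem he) e' (Finset.mem_insert_of_mem he'))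
      (fun e he => hT e (Finset.mem_insert_of_mem he))
    obtain ⟨S, rfl⟩ := h3
    have ha1 := h1 a (Finset.mem_insert_self _ _)
    have h4 : ∀ Q ⊆ P, ∀ S' : MvPolynomial σ A,
        (X a.2 - X a.1) ^ p a ∣ dprod A Q p * S' → (X a.2 - X a.1) ^ p a ∣ S' := by
      intro Q
      induction Q using Finset.induction_on with
      | empty => intro _ S' h; simpa [dprod] using h
      | insert b Q hb ihQ =>
        intro hQ S' h
        have hbP : b ∈ P := hQ (Finset.mem_insert_self _ _)
        apply ihQ (fun x hx => hQ (Finset.mem_insert_of_mem hx))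
        rw [dprod, Finset.prod_insert hb, mul_assoc] at h
        refine pow_dvd_of_pow_dvd_mul (h1 b (Finset.mem_insert_of_mem hbP)) ha1 ?_ _ _ h
        intro h5
        have := h2 b (Finset.mem_insert_of_mem hbP) a (Finset.mem_insert_self _ _) h5
        exact ha (this ▸ hbP)
    have h5 := h4 P (le_refl _) S (hT a (Finset.mem_insert_self _ _))
    rw [dprod, Finset.prod_insert ha, mul_comm ((X a.2 - X a.1) ^ p a)]
    exact mul_dvd_mul_left _ h5

theorem dprod_mul_inj (P : Finset (σ × σ)) (p : σ × σ → ℕ) (h1 : ∀ e ∈ P, e.1 ≠ e.2)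
    {S S' : MvPolynomial σ A} (h : dprod A P p * S = dprod A P p * S') : S = S' := by
  induction P using Finset.induction_on generalizing S S' with
  | empty => simpa [dprod] using h
  | insert a P ha ih =>
    rw [dprod, Finset.prod_insert ha, mul_assoc, mul_assoc] at h
    exact ih (fun e he => h1 e (Finset.mem_insert_of_mem he))
      (sub_pow_mul_inj (h1 a (Finset.mem_insert_self _ _)) _ h)

theorem dprod_mul_eq_zero (P : Finset (σ × σ)) (p : σ × σ → ℕ) (h1 : ∀ e ∈ P, e.1 ≠ e.2)
    {S : MvPolynomial σ A} (h : dprod A P p * S = 0) : S = 0 :=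
  dprod_mul_inj P p h1 (by rw [h, mul_zero])

theorem dprod_isHomogeneous (P : Finset (σ × σ)) (p : σ × σ → ℕ) :
    (dprod A P p).IsHomogeneous (∑ e ∈ P, p e) := by
  apply IsHomogeneous.prod
  intro e _
  have := ((isHomogeneous_X A e.2).sub (isHomogeneous_X A e.1)).pow (p e)
  simpa using this

/-! ### merging two variables -/

/-- `X j ↦ X i + v`, the other variables are kept -/
noncomputable def psi (i j : σ) : MvPolynomial σ A →ₐ[A] Polynomial (MvPolynomial σ A) :=
  aeval (fun m => if m = j then Polynomial.C (X i) + Polynomial.X else Polynomial.C (X m))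

theorem eval_psi (i j : σ) (T : MvPolynomial σ A) :
    Polynomial.eval (X j - X i) (psi i j T) = T := by
  have : ((Polynomial.evalRingHom (X j - X i)).comp (psi i j).toRingHom :
      MvPolynomial σ A →+* MvPolynomial σ A) = RingHom.id _ := by
    apply MvPolynomial.ringHom_ext
    · intro a
      simp [psi]
    · intro m
      by_cases hm : m = j
      · subst hm; simp [psi]
      · simp [psi, hm]
  exact DFunLike.congr_fun this T

theorem pow_dvd_of_coeff_psi {i j : σ} {T : MvPolynomial σ A} {p : ℕ}
    (h : ∀ r < p, (psi i j T).coeff r = 0) : (X j - X i) ^ p ∣ T := by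
  have h1 : Polynomial.X ^ p ∣ psi i j T := Polynomial.X_pow_dvd_iff.2 h
  obtain ⟨q, hq⟩ := h1
  refine ⟨Polynomial.eval (X j - X i) q, ?_⟩
  have := congrArg (Polynomial.eval (X j - X i)) hq
  rw [eval_psi] at this
  rw [this]
  simp

/-- bihomogeneity: every monomial `v^r t^γ` has `r + |γ| = n` -/
def BiHom (n : ℕ) (q : Polynomial (MvPolynomial σ A)) : Prop :=
  ∀ r γ, coeff γ (q.coeff r) ≠ 0 → γ.degree + r = n

theorem BiHom.mul {n m : ℕ} {q q' : Polynomial (MvPolynomial σ A)} (h : BiHom n q)
    (h' : BiHom m q') : BiHom (n + m) (q * q') := by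
  intro r γ hne
  rw [Polynomial.coeff_mul, coeff_sum] at hne
  obtain ⟨x, hx, hx'⟩ := Finset.exists_ne_zero_of_sum_ne_zero hne
  rw [coeff_mul] at hx'
  obtain ⟨y, hy, hy'⟩ := Finset.exists_ne_zero_of_sum_ne_zero hx'
  have h1 := h x.1 y.1 (left_ne_zero_of_mul hy')
  have h2 := h' x.2 y.2 (right_ne_zero_of_mul hy')
  have hx2 := Finset.HasAntidiagonal.mem_antidiagonal.1 hx
  have hy2 := Finset.HasAntidiagonal.mem_antidiagonal.1 hy
  rw [← hy2, map_add, ← h1, ← h2, ← hx2]
  ring

theorem BiHom.add {n : ℕ} {q q' : Polynomial (MvPolynomial σ A)} (h : BiHom n q)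
    (h' : BiHom n q') : BiHom n (q + q') := by
  intro r γ hne
  rw [Polynomial.coeff_add, coeff_add] at hne
  by_cases h1 : coeff γ (q.coeff r) = 0
  · rw [h1, zero_add] at hne
    exact h' r γ hne
  · exact h r γ h1

theorem BiHom.zero (n : ℕ) : BiHom n (0 : Polynomial (MvPolynomial σ A)) := by
  intro r γ hne; simp at hne

theorem BiHom.C_of {n : ℕ} {p : MvPolynomial σ A} (h : p.IsHomogeneous n) :
    BiHom n (Polynomial.C p) := by
  intro r γ hne
  rw [Polynomial.coeff_C] at hne
  split_ifs at hne with h1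
  · rw [h1, add_zero]
    by_contra h2
    exact hne (h.coeff_eq_zero h2)
  · simp at hne

theorem BiHom.X : BiHom 1 (Polynomial.X : Polynomial (MvPolynomial σ A)) := by
  intro r γ hne
  rw [Polynomial.coeff_X] at hne
  split_ifs at hne with h1
  · have : γ = 0 := by
      by_contra h2
      rw [coeff_one, if_neg (Ne.symm h2)] at hne
      exact hne rfl
    rw [this, ← h1]; simp
  · simp at hne

theorem BiHom.pow {n : ℕ} {q : Polynomial (MvPolynomial σ A)} (h : BiHom n q) (k : ℕ) :
    BiHom (k * n) (q ^ k) := by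
  induction k with
  | zero =>
    rw [zero_mul, pow_zero]
    exact BiHom.C_of (isHomogeneous_one σ A)
  | succ k ih =>
    rw [pow_succ, add_mul, one_mul]
    exact ih.mul h

theorem BiHom.prod {ι : Type*} (s : Finset ι) {n : ι → ℕ}
    {q : ι → Polynomial (MvPolynomial σ A)} (h : ∀ i ∈ s, BiHom (n i) (q i)) :
    BiHom (∑ i ∈ s, n i) (∏ i ∈ s, q i) := by
  classical
  induction s using Finset.induction_on with
  | empty =>
    rw [Finset.sum_empty, Finset.prod_empty]
    exact BiHom.C_of (isHomogeneous_one σ A)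
  | insert a s ha ih =>
    rw [Finset.sum_insert ha, Finset.prod_insert ha]
    exact (h a (Finset.mem_insert_self _ _)).mul
      (ih fun i hi => h i (Finset.mem_insert_of_mem hi))

theorem psi_X_biHom (i j m : σ) : BiHom 1 (psi i j (X m : MvPolynomial σ A)) := by
  rw [psi, aeval_X]
  split_ifs
  · exact (BiHom.C_of (isHomogeneous_X A i)).add BiHom.X
  · exact BiHom.C_of (isHomogeneous_X A m)

theorem psi_monomial_biHom (i j : σ) (m : σ →₀ ℕ) (a : A) :
    BiHom m.degree (psi i j (monomial m a)) := by
  rw [monomial_eq, map_mul, Finsupp.prod, map_prod]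
  have h1 : BiHom 0 (psi i j (C a : MvPolynomial σ A)) := by
    have : psi i j (C a : MvPolynomial σ A) = Polynomial.C (C a) := by
      rw [psi, aeval_C]; rfl
    rw [this]
    exact BiHom.C_of (isHomogeneous_C σ a)
  have h2 : BiHom (∑ k ∈ m.support, m k) (∏ k ∈ m.support, psi i j ((X k : MvPolynomial σ A) ^ m k)) := by
    apply BiHom.prod
    intro k _
    rw [map_pow]
    have := (psi_X_biHom (A := A) i j k).pow (m k)
    simpa using this
  have := h1.mul h2
  rwa [zero_add] at this

theorem psi_biHom {i j : σ} {n : ℕ} {T : MvPolynomial σ A} (hT : T.IsHomogeneous n) :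
    BiHom n (psi i j T) := by
  rw [T.as_sum, map_sum]
  have : ∀ s ⊆ T.support, BiHom n (∑ x ∈ s, psi i j ((monomial x) (coeff x T))) := by
    intro s
    induction s using Finset.induction_on with
    | empty => intro _; rw [Finset.sum_empty]; exact BiHom.zero n
    | insert a s ha ih =>
      intro hs
      rw [Finset.sum_insert ha]
      refine BiHom.add ?_ (ih fun x hx => hs (Finset.mem_insert_of_mem hx))
      have h1 := hs (Finset.mem_insert_self _ _)
      rw [mem_support_iff] at h1
      have h2 : a.degree = n := by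
        by_contra h2
        exact h1 (hT.coeff_eq_zero h2)
      have h3 := psi_monomial_biHom i j a (coeff a T)
      rwa [h2] at h3
  exact this _ (le_refl _)



/-! ### homogeneous quotients -/

attribute [local instance] MvPolynomial.gradedAlgebra

theorem homogeneousComponent_mul_of_left {P S : MvPolynomial σ A} {p m : ℕ}
    (hP : P.IsHomogeneous p) :
    homogeneousComponent (p + m) (P * S) = P * homogeneousComponent m S := by
  have h := DirectSum.coe_decompose_mul_add_of_left_mem (homogeneousSubmodule σ A)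
    (i := p) (j := m) (a := P) (b := S) ((mem_homogeneousSubmodule p P).2 hP)
  have e1 : ∀ (φ : MvPolynomial σ A) (i : ℕ),
      (DirectSum.decompose (homogeneousSubmodule σ A) φ i : MvPolynomial σ A)
        = homogeneousComponent i φ := fun φ i => decomposition.decompose'_apply φ i
  rwa [e1, e1] at h

theorem homogeneousComponent_mul_of_left_lt {P S : MvPolynomial σ A} {p m : ℕ}
    (hP : P.IsHomogeneous p) (hm : m < p) :
    homogeneousComponent m (P * S) = 0 := by
  have h := DirectSum.coe_decompose_mul_of_left_mem_of_not_le (homogeneousSubmodule σ A)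
    (i := p) (n := m) (a := P) (b := S) ((mem_homogeneousSubmodule p P).2 hP) (by omega)
  have e1 : ∀ (φ : MvPolynomial σ A) (i : ℕ),
      (DirectSum.decompose (homogeneousSubmodule σ A) φ i : MvPolynomial σ A)
        = homogeneousComponent i φ := fun φ i => decomposition.decompose'_apply φ i
  rwa [e1] at h

/-- a homogeneous multiple of a homogeneous polynomial has a homogeneous cofactor -/
theorem exists_homogeneous_quotient {P T : MvPolynomial σ A} {p m : ℕ}
    (hP : P.IsHomogeneous p) (hT : T.IsHomogeneous (p + m)) (h : P ∣ T) :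
    ∃ S : MvPolynomial σ A, S.IsHomogeneous m ∧ T = P * S := by
  obtain ⟨S, rfl⟩ := h
  refine ⟨homogeneousComponent m S, homogeneousComponent_isHomogeneous _ _, ?_⟩
  rw [← homogeneousComponent_mul_of_left hP]
  have := homogeneousComponent_of_mem (m := p + m) ((mem_homogeneousSubmodule _ _).2 hT)
  rw [if_pos rfl] at this
  exact this.symm

theorem eq_zero_of_dvd_of_lt {P T : MvPolynomial σ A} {p m : ℕ}
    (hP : P.IsHomogeneous p) (hT : T.IsHomogeneous m) (hm : m < p) (h : P ∣ T) : T = 0 := by
  obtain ⟨S, rfl⟩ := h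
  have h1 := homogeneousComponent_mul_of_left_lt (S := S) hP hm
  have := homogeneousComponent_of_mem (m := m) ((mem_homogeneousSubmodule _ _).2 hT)
  rw [if_pos rfl] at this
  rw [← this, h1]

end Crest.Agent.R059.DivT547
end

-- ▼ part R059/ThinRef_971
section

set_option autoImplicit false
set_option linter.unusedSectionVars false

namespace Crest.Agent.R059.ThinRef971

open MvPolynomial Finset Crest.Agent.R059.Thin613 Crest.Agent.R059.Deg359

variable {P : Type*} [Fintype P] [DecidableEq P]
variable {F : Type*} [CommRing F]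
variable {V : Type*} [AddCommGroup V] [LinearOrder V] [IsOrderedAddMonoid V]
variable {L : Type*} {L' : Type*}

/-! ### the shift homomorphism -/

section Shift

variable (arr : P → P → ℕ) (th : P → V)

@[simp] lemma sh_X (f : P → L) (a : P) :
    sh F arr th f (X a) = C (Ideal.Quotient.mk (JJ F arr th f) (X a)) + X (f a) := by
  simp [sh]

@[simp] lemma sh_C (f : P → L) (c : F) :
    sh F arr th f (C c) = C (Ideal.Quotient.mk (JJ F arr th f) (C c)) := by
  simp [sh]

lemma sh_sub (f : P → L) (a b : P) :
    sh F arr th f (X b - X a) = C (Ideal.Quotient.mk (JJ F arr th f) (X b - X a))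
      + (X (f b) - X (f a)) := by
  simp only [map_sub, sh_X]
  ring

/-- inside one block the kernel is not moved -/
lemma sh_KK_fib (f : P → L) {l : L} {S T : Finset P} (hS : S ⊆ fib f l) (hT : T ⊆ fib f l) :
    sh F arr th f (KK F arr S T) = C (Ideal.Quotient.mk (JJ F arr th f) (KK F arr S T)) := by
  unfold KK
  simp only [map_prod, map_pow]
  refine Finset.prod_congr rfl fun a ha => Finset.prod_congr rfl fun b hb => ?_
  have h1 : f a = l := by simpa using hS ha
  have h2 : f b = l := by simpa using hT hb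
  rw [sh_sub, h1, h2, sub_self, add_zero]

/-- `sh f` kills `JJ f` -/
lemma JJ_le_ker (f : P → L) : JJ F arr th f ≤ RingHom.ker (sh F arr th f) := by
  rw [JJ_le_iff]
  intro l T hT hw
  rw [RingHom.mem_ker, sh_KK_fib arr th f hT Finset.sdiff_subset,
    Ideal.Quotient.eq_zero_iff_mem.2 (KK_mem_JJ arr f l hT hw), map_zero]


lemma JJ_comp_le_ker (f : P → L') (g : L' → L) (hf : Good th f) :
    JJ F arr th (g ∘ f) ≤ RingHom.ker (sh F arr th f) :=
  (JJ_le_of_refine arr f g hf).trans (JJ_le_ker arr th f)

end Shift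

/-! ### the double shift -/

section Double

variable (arr : P → P → ℕ) (th : P → V)

/-- the factorisation of `sh f` through `R / JJ (g ∘ f)` -/
noncomputable def shL (f : P → L') (g : L' → L) (hf : Good th f) :
    (MvPolynomial P F ⧸ JJ F arr th (g ∘ f)) →+*
      MvPolynomial L' (MvPolynomial P F ⧸ JJ F arr th f) :=
  Ideal.Quotient.lift (JJ F arr th (g ∘ f)) (sh F arr th f)
    (fun _ hx => (RingHom.mem_ker).1 (JJ_comp_le_ker arr th f g hf hx))

@[simp] lemma shL_mk (f : P → L') (g : L' → L) (hf : Good th f) (x : MvPolynomial P F) :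
    shL arr th f g hf (Ideal.Quotient.mk _ x) = sh F arr th f x := by
  simp [shL]

/-- the substitution `X l ↦ C (X l) + X (g l)`: the second shift by the coarse labels -/
noncomputable def dbl (A : Type*) [CommRing A] (g : L' → L) :
    MvPolynomial L' A →+* MvPolynomial L (MvPolynomial L' A) :=
  MvPolynomial.eval₂Hom ((C : MvPolynomial L' A →+* _).comp C) (fun l => C (X l) + X (g l))

@[simp] lemma dbl_X (A : Type*) [CommRing A] (g : L' → L) (l : L') :
    dbl A g (X l) = C (X l) + X (g l) := by simp [dbl]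

@[simp] lemma dbl_C (A : Type*) [CommRing A] (g : L' → L) (c : A) :
    dbl A g (C c) = C (C c) := by simp [dbl]

/-- **compatibility of the shifts**: coefficientwise `sh f` of `sh (g ∘ f) x` is `sh f x`
with `ζ_l + η_{g l}` put for `ζ_l`. -/
theorem dbl_sh (f : P → L') (g : L' → L) (hf : Good th f) (x : MvPolynomial P F) :
    MvPolynomial.map (shL arr th f g hf) (sh F arr th (g ∘ f) x)
      = dbl _ g (sh F arr th f x) := by
  have : (MvPolynomial.map (shL arr th f g hf)).comp (sh F arr th (g ∘ f))
      = (dbl _ g).comp (sh F arr th f) := by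
    refine MvPolynomial.ringHom_ext (fun c => ?_) (fun a => ?_)
    · simp
    · simp [add_assoc]
  exact congrArg (fun φ : MvPolynomial P F →+* _ => φ x) this

/-- all monomials `η^α ζ^β` have `|α| + |β| ≤ m`. -/
def TD2 {A : Type*} [CommRing A] (m : ℤ) (p : MvPolynomial L (MvPolynomial L' A)) : Prop :=
  ∀ (α : L →₀ ℕ) (β : L' →₀ ℕ), coeff β (coeff α p) ≠ 0 →
    ((α.degree : ℕ) : ℤ) + ((β.degree : ℕ) : ℤ) ≤ m

section TD2

variable {A : Type*} [CommRing A] {m n : ℤ} {p q : MvPolynomial L (MvPolynomial L' A)}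

lemma TD2.mono (h : TD2 m p) (hmn : m ≤ n) : TD2 n p := fun α β hc => (h α β hc).trans hmn

lemma TD2.zero : TD2 m (0 : MvPolynomial L (MvPolynomial L' A)) := by
  intro α β hc; simp at hc

lemma TD2.add (hp : TD2 m p) (hq : TD2 m q) : TD2 m (p + q) := by
  intro α β hc
  by_contra hcon
  apply hc
  have h1 : coeff β (coeff α p) = 0 := by by_contra h; exact hcon (hp α β h)
  have h2 : coeff β (coeff α q) = 0 := by by_contra h; exact hcon (hq α β h)
  simp [h1, h2]

lemma TD2.sum {ι : Type*} (s : Finset ι) (t : ι → MvPolynomial L (MvPolynomial L' A))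
    (h : ∀ i ∈ s, TD2 m (t i)) : TD2 m (∑ i ∈ s, t i) := by
  classical
  induction s using Finset.induction_on with
  | empty => simpa using TD2.zero
  | insert a s ha ih =>
    rw [Finset.sum_insert ha]
    exact (h a (Finset.mem_insert_self _ _)).add
      (ih fun i hi => h i (Finset.mem_insert_of_mem hi))

lemma TD2.mul (hp : TD2 m p) (hq : TD2 n q) : TD2 (m + n) (p * q) := by
  classical
  intro α β hc
  rw [coeff_mul, coeff_sum] at hc
  obtain ⟨⟨a1, a2⟩, ha, hne⟩ := Finset.exists_ne_zero_of_sum_ne_zero hc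
  rw [coeff_mul] at hne
  obtain ⟨⟨b1, b2⟩, hb, hne'⟩ := Finset.exists_ne_zero_of_sum_ne_zero hne
  simp only [HasAntidiagonal.mem_antidiagonal] at ha hb hne'
  have h1 := hp a1 b1 (fun h => hne' (by rw [h, zero_mul]))
  have h2 := hq a2 b2 (fun h => hne' (by rw [h, mul_zero]))
  rw [← ha, ← hb]
  simp only [map_add]
  push_cast
  linarith

lemma TD2.C_C (c : A) : TD2 0 (C (C c) : MvPolynomial L (MvPolynomial L' A)) := by
  classical
  intro α β hc
  rw [coeff_C] at hc
  split_ifs at hc with h
  · rw [coeff_C] at hc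
    split_ifs at hc with h'
    · subst h; subst h'; simp
    · exact absurd rfl hc
  · simp at hc

lemma TD2.C_X (l : L') : TD2 1 (C (X l) : MvPolynomial L (MvPolynomial L' A)) := by
  classical
  intro α β hc
  rw [coeff_C] at hc
  split_ifs at hc with h
  · rw [coeff_X] at hc
    split_ifs at hc with h'
    · subst h; subst h'; simp
    · exact absurd rfl hc
  · simp at hc

lemma TD2.Xo (l : L) : TD2 1 (X l : MvPolynomial L (MvPolynomial L' A)) := by
  classical
  intro α β hc
  rw [coeff_X] at hc
  split_ifs at hc with h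
  · have : (1 : MvPolynomial L' A) = C 1 := by simp
    rw [this, coeff_C] at hc
    split_ifs at hc with h'
    · subst h; subst h'; simp
    · exact absurd rfl hc
  · simp at hc

lemma TD2.one : TD2 0 (1 : MvPolynomial L (MvPolynomial L' A)) := by
  have := TD2.C_C (L := L) (L' := L') (A := A) 1
  simpa using this

lemma TD2.pow (hp : TD2 m p) (k : ℕ) : TD2 (k * m) (p ^ k) := by
  induction k with
  | zero => simpa using TD2.one
  | succ k ih =>
    rw [pow_succ]
    refine (ih.mul hp).mono (le_of_eq ?_)
    push_cast; ring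

lemma TD2.prod {ι : Type*} (s : Finset ι) (t : ι → MvPolynomial L (MvPolynomial L' A))
    (d : ι → ℤ) (h : ∀ i ∈ s, TD2 (d i) (t i)) : TD2 (∑ i ∈ s, d i) (∏ i ∈ s, t i) := by
  classical
  induction s using Finset.induction_on with
  | empty => simpa using TD2.one
  | insert a s ha ih =>
    rw [Finset.sum_insert ha, Finset.prod_insert ha]
    exact (h a (Finset.mem_insert_self _ _)).mul
      (ih fun i hi => h i (Finset.mem_insert_of_mem hi))

lemma TD2.dbl_monomial (g : L' → L) (β : L' →₀ ℕ) (c : A) :
    TD2 (((β.degree : ℕ) : ℤ)) (dbl A g (monomial β c)) := by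
  rw [monomial_eq, map_mul, dbl_C]
  have h1 : TD2 (L := L) ((β.degree : ℕ) : ℤ)
      (dbl A g (β.prod fun n e => X n ^ e)) := by
    rw [Finsupp.prod, map_prod]
    have := TD2.prod (L := L) (L' := L') (A := A) β.support
      (fun n => dbl A g (X n ^ β n)) (fun n => ((β n : ℕ) : ℤ)) (by
        intro n _
        rw [map_pow, dbl_X]
        have := ((TD2.C_X (L := L) (A := A) n).add (TD2.Xo (L' := L') (A := A) (g n))).pow (β n)
        simpa using this)
    refine this.mono (le_of_eq ?_)
    rw [Finsupp.degree_apply]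
    push_cast
    rfl
  have := (TD2.C_C (L := L) (L' := L') c).mul h1
  simpa using this

/-- the double substitution does not raise the total degree -/
lemma TD_dbl (g : L' → L) {y : MvPolynomial L' A} (hy : TD m y) :
    TD2 m (ThinRef971.dbl A g y) := by
  classical
  rw [y.as_sum, map_sum]
  refine TD2.sum _ _ fun β hβ => ?_
  exact (TD2.dbl_monomial g β _).mono (hy β (by simpa [mem_support_iff] using hβ))

end TD2

/-- **REFINE.** If the growth of `x` at the fine labelling `f` is at most `m`, then any coefficient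
`w` of `η^α` in the shift of `x` at the coarse labelling `g ∘ f` has growth at most
`m - |α|` at `f`. -/
theorem refine_coeff (f : P → L') (g : L' → L) (hf : Good th f) {m : ℤ}
    {x w : MvPolynomial P F} (hx : ud F arr th f m x) {α : L →₀ ℕ}
    (hw : Ideal.Quotient.mk (JJ F arr th (g ∘ f)) w = coeff α (sh F arr th (g ∘ f) x)) :
    ud F arr th f (m - ((α.degree : ℕ) : ℤ)) w := by
  intro β hβ
  have h2 := TD_dbl g hx α β
  rw [← dbl_sh arr th f g hf, coeff_map, ← hw, shL_mk] at h2
  have := h2 hβ
  linarith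



end Double

end Crest.Agent.R059.ThinRef971
end

-- ▼ part R059/ThinDiv_971
section

set_option autoImplicit false
set_option linter.unusedSectionVars false

namespace Crest.Agent.R059.ThinDiv971

open MvPolynomial Finset Crest.Agent.R059.Thin613 Crest.Agent.R059.Shift359
  Crest.Agent.R059.DivT547

variable {P : Type*} [Fintype P] [DecidableEq P]
variable {F : Type*} [CommRing F]
variable {V : Type*} [AddCommGroup V] [LinearOrder V] [IsOrderedAddMonoid V]
variable {L : Type*} {L' : Type*}

/-! ### dictionary -/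

lemma sh_eq_Esh (arr : P → P → ℕ) (th : P → V) (f : P → L) :
    sh F arr th f = Esh f (JJ F arr th f) := by
  refine MvPolynomial.ringHom_ext (fun c => ?_) (fun a => ?_)
  · simp
  · simp

lemma Hom_iff {A : Type*} [CommRing A] (n : ℕ) (p : MvPolynomial L A) :
    Deg359.Hom (n : ℤ) p ↔ p.IsHomogeneous n := by
  constructor
  · intro h α hα
    have h2 : α.degree = n := by exact_mod_cast h α hα
    rw [Finsupp.degree_eq_weight_one] at h2
    exact h2
  · intro h α hα
    by_contra hc
    exact hα (h.coeff_eq_zero fun h' => hc (by rw [h']))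

/-! ### the merging substitution -/

section Merge

variable [DecidableEq L] {A : Type*} [CommRing A]

/-- inner variables: `X j ↦ v`, the others to zero -/
noncomputable def rho1 (A : Type*) [CommRing A] (j : L) : MvPolynomial L A →+* Polynomial A :=
  eval₂Hom Polynomial.C (fun l => if l = j then Polynomial.X else 0)

/-- outer variables are kept -/
noncomputable def rho (A : Type*) [CommRing A] (j : L) :
    MvPolynomial L (MvPolynomial L A) →+* Polynomial (MvPolynomial L A) :=
  eval₂Hom ((Polynomial.mapRingHom C).comp (rho1 A j)) (fun l => Polynomial.C (X l))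

lemma rho_sft (i j : L) (y : MvPolynomial L A) :
    rho A j (sft (Function.update id j i) y) = psi i j y := by
  have : (rho A j).comp (sft (Function.update id j i)) = (psi i j).toRingHom := by
    refine MvPolynomial.ringHom_ext (fun c => ?_) (fun l => ?_)
    · simp [rho, rho1, psi]
    · by_cases h : l = j
      · subst h
        simp [rho, rho1, psi, add_comm]
      · simp [rho, rho1, psi, h]
  exact congrArg (fun φ : MvPolynomial L A →+* _ => φ y) this

lemma coeff_rho (j : L) {M : ℤ} (z : MvPolynomial L (MvPolynomial L A))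
    (hz : ∀ γ : L →₀ ℕ, M < ((γ.degree : ℕ) : ℤ) → coeff γ z = 0) (r : ℕ) (γ : L →₀ ℕ)
    (hγ : M < ((γ.degree : ℕ) : ℤ)) : coeff γ ((rho A j z).coeff r) = 0 := by
  classical
  rw [z.as_sum, map_sum, Polynomial.finsetSum_coeff, coeff_sum]
  refine Finset.sum_eq_zero fun α hα => ?_
  have hαM : ((α.degree : ℕ) : ℤ) ≤ M := by
    by_contra h
    rw [mem_support_iff] at hα
    exact hα (hz α (by omega))
  have h1 : rho A j (monomial α (coeff α z))
      = Polynomial.map C (rho1 A j (coeff α z)) * Polynomial.C (monomial α 1) := by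
    rw [rho, coe_eval₂Hom, eval₂_monomial]
    congr 1
    rw [monomial_eq, C_1, one_mul, Finsupp.prod, Finsupp.prod, map_prod]
    exact Finset.prod_congr rfl fun a _ => by rw [map_pow]
  rw [h1, Polynomial.coeff_mul_C, Polynomial.coeff_map, C_mul_monomial, coeff_monomial, if_neg]
  rintro rfl
  omega

end Merge

/-- merging `j` into `i` -/
def mg [DecidableEq L] (i j : L) : L → L := Function.update id j i

/-- **T divisible, one pair.** -/
theorem merge_top [DecidableEq L] (arr : P → P → ℕ) (th : P → V) (f : P → L) (hf : Good th f)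
    {i j : L} {m : ℤ} {p : ℕ} {x : MvPolynomial P F} (hx : ud F arr th f m x)
    (hx' : ud F arr th (mg i j ∘ f) (m - p) x) :
    (X j - X i) ^ p ∣ Deg359.top m (sh F arr th f x) := by
  classical
  have hx1 : Deg359.TD m (Esh f (JJ F arr th f) x) := by
    have := hx
    rwa [ud, sh_eq_Esh] at this
  have hx2 : Deg359.TD (m - p) (Esh (mg i j ∘ f) (JJ F arr th (mg i j ∘ f)) x) := by
    have := hx'
    rwa [ud, sh_eq_Esh] at this
  have hJ : JJ F arr th (mg i j ∘ f) ≤ JJ F arr th f := JJ_le_of_refine arr f (mg i j) hf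
  have hk : Kill f (JJ F arr th f) := by
    apply Kill_of_le_ker
    rw [← sh_eq_Esh]
    exact ThinRef971.JJ_le_ker arr th f
  rw [sh_eq_Esh]
  rcases lt_or_ge m 0 with hm | hm
  · rw [Deg359.eq_zero_of_TD hm hx1, Deg359.top_zero]
    exact dvd_zero _
  obtain ⟨n, rfl⟩ := Int.eq_ofNat_of_zero_le hm
  have hhom : (Deg359.top (n : ℤ) (Esh f (JJ F arr th f) x)).IsHomogeneous n :=
    (Hom_iff n _).1 (Deg359.top_hom _ _)
  apply pow_dvd_of_coeff_psi
  intro r hr
  ext γ
  rw [coeff_zero]
  by_contra hne
  have h2 := psi_biHom hhom r γ hne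
  apply hne
  rw [← rho_sft]
  apply coeff_rho (M := (n : ℤ) - p)
  · intro γ' hγ'
    exact coarsen_zero_top f (mg i j) hJ hk hx2 hx1 γ' hγ'
  · omega

section Prod

variable [Fintype L] [LinearOrder L]

/-- arrows from block `i` to block `j` -/
noncomputable def arrL (arr : P → P → ℕ) (f : P → L) (i j : L) : ℕ :=
  ∑ a ∈ fib f i, ∑ b ∈ fib f j, arr a b

/-- the ordered pairs of labels -/
def prs (L : Type*) [Fintype L] [LinearOrder L] : Finset (L × L) :=
  univ.filter fun e => e.1 < e.2

@[simp] lemma mem_prs (e : L × L) : e ∈ prs L ↔ e.1 < e.2 := by simp [prs]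

/-- `∑_{i<j} arrL i j` -/
noncomputable def arrS (arr : P → P → ℕ) (f : P → L) : ℕ := ∑ e ∈ prs L, arrL arr f e.1 e.2

/-- `∏_{i<j} (X j - X i)^{arrL i j}` -/
noncomputable def dpr (A : Type*) [CommRing A] (arr : P → P → ℕ) (f : P → L) : MvPolynomial L A :=
  dprod A (prs L) fun e => arrL arr f e.1 e.2

lemma dpr_isHomogeneous (A : Type*) [CommRing A] (arr : P → P → ℕ) (f : P → L) :
    (dpr A arr f).IsHomogeneous (arrS arr f) :=
  dprod_isHomogeneous _ _

lemma prs_ne {e : L × L} (he : e ∈ prs L) : e.1 ≠ e.2 := by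
  rw [mem_prs] at he
  exact he.ne

lemma dpr_mul_inj {A : Type*} [CommRing A] (arr : P → P → ℕ) (f : P → L)
    {S S' : MvPolynomial L A} (h : dpr A arr f * S = dpr A arr f * S') : S = S' :=
  dprod_mul_inj _ _ (fun _ he => prs_ne he) h

/-- **T divisible, all pairs.** -/
theorem dpr_dvd_top (arr : P → P → ℕ) (th : P → V) (f : P → L) (hf : Good th f)
    {m : ℤ} {x : MvPolynomial P F} (hx : ud F arr th f m x)
    (hx' : ∀ i j : L, i < j → ud F arr th (mg i j ∘ f) (m - arrL arr f i j) x) :
    dpr _ arr f ∣ Deg359.top m (sh F arr th f x) := by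
  refine dprod_dvd _ _ (fun e he => prs_ne he) ?_ ?_
  · intro e he e' he' h
    rw [mem_prs] at he he'
    rw [Sym2.eq_iff] at h
    rcases h with ⟨h1, h2⟩ | ⟨h1, h2⟩
    · exact Prod.ext h1 h2
    · rw [h1, h2] at he
      exact absurd he (lt_asymm he')
  · intro e he
    rw [mem_prs] at he
    exact merge_top arr th f hf hx (hx' e.1 e.2 he)

/-- **T_b = ∏ · t** with `t` homogeneous of degree `m - ∑_{i<j} arrL i j`. -/
theorem top_factor (arr : P → P → ℕ) (th : P → V) (f : P → L) (hf : Good th f)
    {m : ℤ} {x : MvPolynomial P F} (hx : ud F arr th f m x)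
    (hx' : ∀ i j : L, i < j → ud F arr th (mg i j ∘ f) (m - arrL arr f i j) x) :
    ∃ t : MvPolynomial L (MvPolynomial P F ⧸ JJ F arr th f),
      Deg359.Hom (m - arrS arr f) t ∧
        Deg359.top m (sh F arr th f x) = dpr _ arr f * t := by
  have hd := dpr_dvd_top arr th f hf hx hx'
  rcases lt_or_ge m (arrS arr f : ℤ) with hm | hm
  · refine ⟨0, Deg359.Hom_zero _, ?_⟩
    rw [mul_zero]
    rcases lt_or_ge m 0 with hm0 | hm0
    · rw [Deg359.eq_zero_of_TD hm0 hx, Deg359.top_zero]
    · obtain ⟨n, rfl⟩ := Int.eq_ofNat_of_zero_le hm0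
      exact eq_zero_of_dvd_of_lt (dpr_isHomogeneous _ arr f)
        ((Hom_iff n _).1 (Deg359.top_hom _ _)) (by exact_mod_cast hm) hd
  · obtain ⟨n, hn⟩ := Int.eq_ofNat_of_zero_le (sub_nonneg.2 hm)
    have hmn : m = ((arrS arr f + n : ℕ) : ℤ) := by push_cast; omega
    subst hmn
    obtain ⟨t, ht, h⟩ := exists_homogeneous_quotient (dpr_isHomogeneous _ arr f)
      ((Hom_iff _ _).1 (Deg359.top_hom _ _)) hd
    refine ⟨t, ?_, h⟩
    have h2 := (Hom_iff _ _).2 ht
    rw [hn]
    exact h2

end Prod

/-! ### counting arrows after merging -/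

theorem N2_merge [DecidableEq L] (arr : P → P → ℕ) (th : P → V) (hS : Sym arr th) (f : P → L)
    (hf : Good th f) {i j : L} (hij : i ≠ j) :
    N2 arr (mg i j ∘ f) + 2 * (∑ a ∈ fib f i, ∑ b ∈ fib f j, arr a b) = N2 arr f := by
  classical
  have hdis : Disjoint (fib f i) (fib f j) := by
    rw [Finset.disjoint_left]
    intro a ha hb
    rw [mem_fib] at ha hb
    exact hij (ha.symm.trans hb)
  have hs := hS (fib f i) (fib f j) hdis (hf i) (hf j)
  have h1 : ∀ (s t : L), ∑ a ∈ fib f s, ∑ b ∈ fib f t, arr a b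
      = ∑ a, ∑ b, if f a = s ∧ f b = t then arr a b else 0 := by
    intro s t
    unfold fib
    rw [Finset.sum_filter]
    refine Finset.sum_congr rfl fun a _ => ?_
    rw [Finset.sum_filter]
    by_cases ha : f a = s
    · rw [if_pos ha]
      refine Finset.sum_congr rfl fun b _ => ?_
      by_cases hb : f b = t <;> simp [ha, hb]
    · simp [ha]
  have h2 : ∑ a ∈ fib f i, ∑ b ∈ fib f j, arr b a
      = ∑ a ∈ fib f j, ∑ b ∈ fib f i, arr a b := Finset.sum_comm
  rw [two_mul]
  conv_lhs => rw [← add_assoc]; arg 2; rw [hs, h2]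
  rw [h1, h1]
  unfold N2
  rw [← Finset.sum_add_distrib, ← Finset.sum_add_distrib]
  refine Finset.sum_congr rfl fun a _ => ?_
  rw [← Finset.sum_add_distrib, ← Finset.sum_add_distrib]
  refine Finset.sum_congr rfl fun b _ => ?_
  by_cases ha : f a = j
  · by_cases hb : f b = j
    · simp [mg, ha, hb, Ne.symm hij]
    · by_cases hb' : f b = i
      · simp [mg, ha, hb', hij, Ne.symm hij]
      · simp [mg, ha, hb, hb', Ne.symm hij, Ne.symm hb', Ne.symm hb]
  · by_cases hb : f b = j
    · by_cases ha' : f a = i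
      · simp [mg, hb, ha', hij, Ne.symm hij]
      · simp [mg, ha, hb, ha', Ne.symm hij]
    · simp [mg, ha, hb]

end Crest.Agent.R059.ThinDiv971
end

-- ▼ part R059/NoPole_359
section

/-!
# Row 59, Theorem B (thin form): no poles

* `dvd_of_merge` : (COARSEN ⇒ divisibility) a homogeneous `T` of degree `m` whose coarse shift
  (labels `i`, `j` merged) has degree `≤ m - p` is divisible by `(X j - X i)^p`;
* `reg_sub` : `X j - X i` is a non zero divisor;
* `prod_dvd` : powers of differences for different pairs are coprime;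
* `coeff_mem_of_mul` : if `q = ∏ (X j - X i)^p` and all coefficients of `q * t` are in a subspace
  `W`, then so are the coefficients of `t`.
-/

open MvPolynomial

namespace Crest.Agent.R059.NoPole359

open Crest.Agent.R059.Deg359 Crest.Agent.R059.Shift359

variable {L B : Type*} [CommRing B]

section merge

variable [DecidableEq L]

/-- merge the label `j` into the label `i` -/
def mrg (i j : L) : L → L := fun l => if l = j then i else l

/-- inner specialization -/
noncomputable def kap (j : L) : MvPolynomial L B →+* Polynomial (MvPolynomial L B) :=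
  eval₂Hom ((Polynomial.C : MvPolynomial L B →+* _).comp C)
    (fun l => if l = j then Polynomial.X else 0)

/-- outer specialization -/
noncomputable def the (j : L) :
    MvPolynomial L (MvPolynomial L B) →+* Polynomial (MvPolynomial L B) :=
  eval₂Hom (kap j) (fun l => Polynomial.C (X l))










end merge





section coprime

variable [DecidableEq L]









end coprime




/-! ## coefficients in a subspace -/

section subspace

variable {F : Type*} [Field F] [Algebra F B]





end subspace

end Crest.Agent.R059.NoPole359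
end

-- ▼ part R059/Half1_226
section

set_option autoImplicit false
set_option linter.unusedSectionVars false

namespace Crest.Agent.R059.Half1

open MvPolynomial Finset Crest.Agent.R059.Thin613 Crest.Agent.R059.Shift359
  Crest.Agent.R059.ThinDiv971

variable {P : Type*} [Fintype P] [DecidableEq P]
variable {F : Type*} [Field F]
variable {V : Type*} [AddCommGroup V] [LinearOrder V] [IsOrderedAddMonoid V]
variable {L : Type*} {L' : Type*}


/-! ### block count -/

/-- the number of nonempty blocks -/
noncomputable def bc (f : P → L) : ℕ := (univ.image fun a => fib f (f a)).card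

/-- a map factors through a surjective finer labelling -/
lemma exists_comp {c : P → L} (hc : Function.Surjective c) {f' : P → L'}
    (h : Fine c f') : ∃ g : L → L', f' = g ∘ c :=
  ⟨f' ∘ Function.surjInv hc, by
    ext a
    exact (h _ _ (Function.surjInv_eq hc (c a))).symm⟩

lemma bc_congr {f : P → L} {g : P → L'} (h : Same f g) : bc f = bc g := by
  unfold bc
  congr 1
  refine Finset.image_congr fun a _ => fib_eq_of_same h a

lemma bc_of_surj {n : ℕ} {c : P → Fin n} (hc : Function.Surjective c) : bc c = n := by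
  have h1 : (univ.image fun a => fib c (c a)) = univ.image (fib c) := by
    ext B
    simp only [Finset.mem_image, Finset.mem_univ, true_and]
    constructor
    · rintro ⟨a, rfl⟩
      exact ⟨c a, rfl⟩
    · rintro ⟨l, rfl⟩
      obtain ⟨a, rfl⟩ := hc l
      exact ⟨a, rfl⟩
  unfold bc
  rw [h1, Finset.card_image_of_injective, Finset.card_univ, Fintype.card_fin]
  intro i j hij
  obtain ⟨a, rfl⟩ := hc i
  have : a ∈ fib c j := by rw [← hij]; simp
  simpa using this

lemma le_of_fine {m n : ℕ} {c : P → Fin m} {d : P → Fin n} (hc : Function.Surjective c)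
    (hd : Function.Surjective d) (h : Fine c d) : n ≤ m := by
  obtain ⟨e, rfl⟩ := exists_comp hc h
  have : Function.Surjective e := Function.Surjective.of_comp hd
  simpa using Fintype.card_le_of_surjective e this

lemma bc_le_of_fine {f : P → L} {g : P → L'} (h : Fine f g) : bc g ≤ bc f := by
  obtain ⟨m, c, hc, hfc⟩ := exists_same_Fin f
  obtain ⟨n, d, hd, hgd⟩ := exists_same_Fin g
  rw [bc_congr hfc, bc_congr hgd, bc_of_surj hc, bc_of_surj hd]
  exact le_of_fine hc hd fun a b hab => (hgd a b).1 (h a b ((hfc a b).2 hab))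

lemma fine_of_bc_le {f : P → L} {g : P → L'} (h : Fine f g) (hb : bc f ≤ bc g) : Fine g f := by
  obtain ⟨m, c, hc, hfc⟩ := exists_same_Fin f
  obtain ⟨n, d, hd, hgd⟩ := exists_same_Fin g
  rw [bc_congr hfc, bc_congr hgd, bc_of_surj hc, bc_of_surj hd] at hb
  have hcd : Fine c d := fun a b hab => (hgd a b).1 (h a b ((hfc a b).2 hab))
  obtain rfl : m = n := le_antisymm hb (le_of_fine hc hd hcd)
  obtain ⟨e, rfl⟩ := exists_comp hc hcd
  have he : Function.Surjective e := Function.Surjective.of_comp hd
  have hi : Function.Injective e := Finite.injective_iff_surjective.2 he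
  intro a b hab
  exact (hfc a b).2 (hi ((hgd a b).1 hab))



/-! ### the filtration -/

section defs

variable (F) (arr : P → P → ℕ) (th : P → V)

/-- growth `≤ NF f + k` at every good `f`, `≤ NF f + k - 1` if `f` has at least `s` blocks -/
noncomputable def GG (k : ℤ) (s : ℕ) : Submodule F (MvPolynomial P F) where
  carrier := {x | ∀ f : P → P, Good th f → ud F arr th f ((NF arr f : ℤ) + k) x ∧
    (s ≤ bc f → ud F arr th f ((NF arr f : ℤ) + k - 1) x)}
  zero_mem' := fun f _ => ⟨ud_zero arr th f _, fun _ => ud_zero arr th f _⟩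
  add_mem' := fun {x y} hx hy f hf => ⟨ud_add arr th f (hx f hf).1 (hy f hf).1,
    fun h => ud_add arr th f ((hx f hf).2 h) ((hy f hf).2 h)⟩
  smul_mem' := fun c x hx f hf => by
    have key : ∀ m : ℤ, ud F arr th f m x → ud F arr th f m (c • x) := by
      intro m h
      rw [MvPolynomial.smul_eq_C_mul]
      have := ud_mul arr th f (ud_C arr th f c) h
      rwa [zero_add] at this
    exact ⟨key _ (hx f hf).1, fun h => key _ ((hx f hf).2 h)⟩

/-- `{w | InV b w}` as a subspace of the polynomial ring -/
noncomputable def VV (b : P → L) : Submodule F (MvPolynomial P F) where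
  carrier := {w | InV F arr th b w}
  zero_mem' := fun g _ _ => ⟨ud_zero arr th g _, fun _ => ud_zero arr th g _⟩
  add_mem' := fun {x y} hx hy g hg hgf => ⟨ud_add arr th g (hx g hg hgf).1 (hy g hg hgf).1,
    fun h => ud_add arr th g ((hx g hg hgf).2 h) ((hy g hg hgf).2 h)⟩
  smul_mem' := fun c x hx f hf hfb => by
    have key : ∀ m : ℤ, ud F arr th f m x → ud F arr th f m (c • x) := by
      intro m h
      rw [MvPolynomial.smul_eq_C_mul]
      have := ud_mul arr th f (ud_C arr th f c) h
      rwa [zero_add] at this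
    exact ⟨key _ (hx f hf hfb).1, fun h => key _ ((hx f hf hfb).2 h)⟩

/-- the class map, `F`-linear -/
noncomputable def qm (b : P → L) : MvPolynomial P F →ₗ[F] (MvPolynomial P F ⧸ JJ F arr th b) :=
  (Ideal.Quotient.mkₐ F (JJ F arr th b)).toLinearMap

end defs

@[simp] lemma qm_apply (arr : P → P → ℕ) (th : P → V) (b : P → L) (x : MvPolynomial P F) :
    qm F arr th b x = Ideal.Quotient.mk (JJ F arr th b) x := rfl

lemma mem_VV {arr : P → P → ℕ} {th : P → V} {b : P → L} {w : MvPolynomial P F} :
    w ∈ VV F arr th b ↔ InV F arr th b w := Iff.rfl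



lemma ud_le {arr : P → P → ℕ} {th : P → V} {k : ℤ} {s : ℕ} {x : MvPolynomial P F}
    (hx : x ∈ GG F arr th k s) {f : P → L} (hf : Good th f) :
    ud F arr th f ((NF arr f : ℤ) + k) x := by
  obtain ⟨g, hg⟩ := exists_same_P f
  rw [ud_congr arr th hg, NF_congr arr hg]
  exact (hx g (hf.congr hg)).1









/-! ### counting the arrows -/

section lin
variable [Fintype L] [LinearOrder L]

lemma prod_fiberwise {M : Type*} [CommMonoid M] (b : P → L) (φ : P → P → M) :
    ∏ x ∈ (univ : Finset (P × P)).filter (fun x => b x.1 < b x.2), φ x.1 x.2 =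
      ∏ e ∈ prs L, ∏ a ∈ fib b e.1, ∏ c ∈ fib b e.2, φ a c := by
  classical
  rw [← Finset.prod_fiberwise_of_maps_to
    (s := (univ : Finset (P × P)).filter (fun x => b x.1 < b x.2))
    (t := prs L) (g := fun x => (b x.1, b x.2))]
  · refine Finset.prod_congr rfl fun e he => ?_
    rw [← Finset.prod_product']
    refine Finset.prod_congr ?_ fun _ _ => rfl
    ext ⟨a, c⟩
    rw [mem_prs] at he
    simp only [Finset.mem_filter, Finset.mem_univ, true_and, Finset.mem_product, mem_fib,
      Prod.ext_iff]
    constructor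
    · rintro ⟨_, h1, h2⟩; exact ⟨h1, h2⟩
    · rintro ⟨h1, h2⟩
      exact ⟨by rw [h1, h2]; exact he, h1, h2⟩
  · rintro ⟨a, c⟩ hx
    simp only [Finset.mem_filter, Finset.mem_univ, true_and] at hx
    rw [mem_prs]
    exact hx



lemma DP_eq_dpr (A : Type*) [CommRing A] (arr : P → P → ℕ) (b : P → L) :
    DP A arr b = dpr A arr b := by
  classical
  unfold DP dpr DivT547.dprod arrL
  rw [prod_fiberwise b (fun a c => (X (b c) - X (b a) : MvPolynomial L A) ^ arr a c)]
  refine Finset.prod_congr rfl fun e _ => ?_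
  rw [← Finset.prod_pow_eq_pow_sum]
  refine Finset.prod_congr rfl fun a ha => ?_
  rw [← Finset.prod_pow_eq_pow_sum]
  refine Finset.prod_congr rfl fun c hc => ?_
  rw [mem_fib] at ha hc
  rw [ha, hc]


end lin

/-! ### values -/




section sym

variable [Fintype L] [LinearOrder L]







end sym


/-! ### onto -/

section onto

variable [Fintype L] [LinearOrder L]

/-- the family elements -/
noncomputable def fam (arr : P → P → ℕ) (b : P → L) (a : L → P) (w : MvPolynomial P F)
    (α : L →₀ ℕ) : MvPolynomial P F :=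
  KL F arr b * (w * ∏ l, X (a l) ^ α l)

lemma degree_eq_sum (α : L →₀ ℕ) : α.degree = ∑ l, α l := by
  rw [Finsupp.degree_apply]
  exact Finset.sum_subset (Finset.subset_univ _) (fun l _ hl => by simpa using hl)

lemma ud_monom (arr : P → P → ℕ) (th : P → V) (f : P → L') (a : L → P) (α : L →₀ ℕ) :
    ud F arr th f ((α.degree : ℕ) : ℤ) (∏ l, X (a l) ^ α l) := by
  unfold ud
  rw [map_prod, degree_eq_sum]
  push_cast
  refine Deg359.TD.prod _ _ _ fun l _ => ?_
  rw [map_pow]
  have := (show Deg359.TD 1 (sh F arr th f (X (a l))) from ud_X arr th f (a l)).pow (α l)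
  simpa using this

/-- the family elements lie in the filtration -/
theorem fam_mem {arr : P → P → ℕ} {th : P → V} (hs : Sym arr th) {b : P → L} (hb : Good th b)
    (a : L → P) {w : MvPolynomial P F} (hw : w ∈ VV F arr th b) (α : L →₀ ℕ) :
    fam arr b a w α ∈ GG F arr th ((α.degree : ℕ) : ℤ) (bc b + 1) := by
  intro f hf
  refine ⟨ud_family arr hs hf hb hw (fun _ => ud_monom arr th _ a α), fun h => ?_⟩
  refine ud_family_strict arr hs hf hb ?_ hw (fun _ => ud_monom arr th _ a α)
  intro hc
  have := bc_le_of_fine hc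
  omega

/-- top part at another partition with at least as many blocks -/
theorem top_fam_of_ne {arr : P → P → ℕ} {th : P → V} (hs : Sym arr th) {b : P → L}
    (hb : Good th b) (a : L → P) {w : MvPolynomial P F} (hw : w ∈ VV F arr th b) (α : L →₀ ℕ)
    {f : P → L'} (hf : Good th f) (hbc : bc b ≤ bc f) (hne : ¬ Same b f) :
    Deg359.top ((NF arr f : ℤ) + ((α.degree : ℕ) : ℤ)) (sh F arr th f (fam arr b a w α)) = 0 := by
  have h1 := ud_family_strict arr hs hf hb (f' := b) (k := ((α.degree : ℕ) : ℤ)) ?_ hw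
    (M := ∏ l, X (a l) ^ α l) (fun _ => ud_monom arr th _ a α)
  · exact Deg359.top_eq_zero_of_TD (show Deg359.TD _ _ from h1) (by omega)
  · intro hc
    have h2 := fine_of_bc_le hc hbc
    exact hne fun x y => ⟨hc x y, h2 x y⟩

/-- top part at its own labelling -/
theorem top_fam {arr : P → P → ℕ} {th : P → V} (hs : Sym arr th) {b : P → L}
    (hb : Good th b) (a : L → P) (ha : ∀ l, b (a l) = l) {w : MvPolynomial P F}
    (hw : w ∈ VV F arr th b) (α : L →₀ ℕ) :
    Deg359.top ((NF arr b : ℤ) + ((α.degree : ℕ) : ℤ)) (sh F arr th b (fam arr b a w α)) =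
      dpr _ arr b * monomial α (qm F arr th b w) := by
  have hw0 : ud F arr th b 0 w := by
    have := InV.ud_le (mem_VV.1 hw) hb (fun _ _ h => h)
    rwa [sub_self] at this
  have h := top_family (F := F) arr hs hb hw0 a ha α
  rw [← degree_eq_sum, DP_eq_dpr] at h
  unfold fam
  rw [h, qm_apply, monomial_eq, Finsupp.prod_fintype _ _ (fun _ => pow_zero _)]


/-- **HALF 1 (c)**: onto. The lift is in the span of the family elements with `w` in a given
subspace `W` of `V_b` (for instance the homogeneous ones). -/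
theorem onto {arr : P → P → ℕ} {th : P → V} (hs : Sym arr th) {b : P → L}
    (hb : Good th b) (a : L → P) (ha : ∀ l, b (a l) = l) {k : ℤ}
    {W : Submodule F (MvPolynomial P F)} (hW : W ≤ VV F arr th b)
    {t : MvPolynomial L (MvPolynomial P F ⧸ JJ F arr th b)} (ht : Deg359.Hom k t)
    (htW : ∀ α, coeff α t ∈ W.map (qm F arr th b)) :
    ∃ x ∈ Submodule.span F {y | ∃ w ∈ W, ∃ α : L →₀ ℕ, ((α.degree : ℕ) : ℤ) = k ∧
        y = fam arr b a w α},
      x ∈ GG F arr th k (bc b + 1) ∧
      Deg359.top ((NF arr b : ℤ) + k) (sh F arr th b x) = dpr _ arr b * t ∧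
      ∀ {L'' : Type} (f : P → L''), Good th f → bc b ≤ bc f → ¬ Same b f →
        Deg359.top ((NF arr f : ℤ) + k) (sh F arr th f x) = 0 := by
  classical
  choose w hwW hw using htW
  have hdeg : ∀ α ∈ t.support, ((α.degree : ℕ) : ℤ) = k := fun α hα =>
    ht α (mem_support_iff.1 hα)
  refine ⟨∑ α ∈ t.support, fam arr b a (w α) α, ?_, ?_, ?_, ?_⟩
  · exact Submodule.sum_mem _ fun α hα =>
      Submodule.subset_span ⟨w α, hwW α, α, hdeg α hα, rfl⟩
  · refine Submodule.sum_mem _ fun α hα => ?_
    rw [← hdeg α hα]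
    exact fam_mem hs hb a (hW (hwW α)) α
  · rw [map_sum, Deg359.top_sum]
    conv_rhs => rw [t.as_sum]
    rw [Finset.mul_sum]
    refine Finset.sum_congr rfl fun α hα => ?_
    rw [← hdeg α hα, top_fam hs hb a ha (hW (hwW α)) α, hw]
  · intro L'' f hf hbc hne
    rw [map_sum, Deg359.top_sum]
    refine Finset.sum_eq_zero fun α hα => ?_
    rw [← hdeg α hα]
    exact top_fam_of_ne hs hb a (hW (hwW α)) α hf hbc hne


end onto

end Crest.Agent.R059.Half1
end

-- ▼ part R059/ThinVal_971
section

set_option autoImplicit false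
set_option linter.unusedSectionVars false

namespace Crest.Agent.R059.ThinVal971

open MvPolynomial Finset Crest.Agent.R059.Thin613 Crest.Agent.R059.Shift359
  Crest.Agent.R059.DivT547 Crest.Agent.R059.ThinDiv971

variable {P : Type*} [Fintype P] [DecidableEq P]
variable {F : Type*} [CommRing F]
variable {V : Type*} [AddCommGroup V] [LinearOrder V] [IsOrderedAddMonoid V]
variable {L : Type*} {L' : Type*}

/-! ### coefficientwise additive maps -/

section Cw

variable {σ A B : Type*} [CommRing A] [CommRing B]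

/-- the coefficientwise additive map -/
noncomputable def cw (φ : A →+ B) (p : MvPolynomial σ A) : MvPolynomial σ B :=
  ∑ α ∈ p.support, monomial α (φ (coeff α p))

@[simp] lemma coeff_cw (φ : A →+ B) (p : MvPolynomial σ A) (α : σ →₀ ℕ) :
    coeff α (cw φ p) = φ (coeff α p) := by
  classical
  rw [cw, coeff_sum]
  simp only [coeff_monomial]
  rw [Finset.sum_ite_eq']
  split_ifs with h
  · rfl
  · rw [notMem_support_iff.1 h, map_zero]

lemma cw_sub (φ : A →+ B) (p q : MvPolynomial σ A) : cw φ (p - q) = cw φ p - cw φ q := by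
  ext α
  simp

lemma cw_X_mul (φ : A →+ B) (i : σ) (p : MvPolynomial σ A) : cw φ (X i * p) = X i * cw φ p := by
  classical
  ext α
  rw [coeff_cw, coeff_X_mul', coeff_X_mul']
  split_ifs with h
  · rw [coeff_cw]
  · rw [map_zero]

lemma cw_diff_pow_mul (φ : A →+ B) (i j : σ) (n : ℕ) (p : MvPolynomial σ A) :
    cw φ ((X j - X i) ^ n * p) = (X j - X i) ^ n * cw φ p := by
  induction n generalizing p with
  | zero => simp
  | succ n ih =>
    rw [pow_succ, mul_assoc, ih, sub_mul, cw_sub, cw_X_mul, cw_X_mul]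
    ring

lemma cw_dprod_mul (φ : A →+ B) (Q : Finset (σ × σ)) (e : σ × σ → ℕ) (p : MvPolynomial σ A) :
    cw φ (dprod A Q e * p) = dprod B Q e * cw φ p := by
  classical
  induction Q using Finset.induction_on generalizing p with
  | empty => simp [dprod]
  | insert a Q ha ih =>
    unfold dprod at ih ⊢
    rw [Finset.prod_insert ha, Finset.prod_insert ha, mul_assoc, cw_diff_pow_mul, ih, mul_assoc]

lemma cw_eq_zero_iff (φ : A →+ B) (p : MvPolynomial σ A) :
    cw φ p = 0 ↔ ∀ α, φ (coeff α p) = 0 := by
  constructor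
  · intro h α
    rw [← coeff_cw, h, coeff_zero]
  · intro h
    ext α
    rw [coeff_cw, h, coeff_zero]

end Cw

section Transfer

variable [Fintype L] [LinearOrder L] {A B : Type*} [CommRing A] [CommRing B]

/-- **TRANSFER**: an additive condition on all coefficients passes from `dpr * t` to `t`. -/
theorem transfer (arr : P → P → ℕ) (f : P → L) (φ : A →+ B) {t : MvPolynomial L A}
    (h : ∀ α, φ (coeff α (dpr A arr f * t)) = 0) (α : L →₀ ℕ) : φ (coeff α t) = 0 := by
  have h1 : cw φ (dpr A arr f * t) = 0 := (cw_eq_zero_iff φ _).2 h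
  unfold dpr at h1
  rw [cw_dprod_mul] at h1
  have h2 := dprod_mul_eq_zero _ _ (fun _ he => prs_ne he) h1
  exact (cw_eq_zero_iff φ t).1 h2 α


end Transfer

/-! ### values -/

section Values

variable [Fintype L] [LinearOrder L]

lemma mk_surj (arr : P → P → ℕ) (th : P → V) (f : P → L)
    (c : MvPolynomial P F ⧸ JJ F arr th f) :
    ∃ w : MvPolynomial P F, Ideal.Quotient.mk (JJ F arr th f) w = c :=
  Ideal.Quotient.mk_surjective c

/-- growth of the coefficients of the reduced top part at a refinement -/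
theorem values (arr : P → P → ℕ) (th : P → V) (f : P → L') (g : L' → L) (hf : Good th f)
    {m m' : ℤ} {x w : MvPolynomial P F} (hx' : ud F arr th f m' x)
    {t : MvPolynomial L (MvPolynomial P F ⧸ JJ F arr th (g ∘ f))}
    (ht : Deg359.top m (sh F arr th (g ∘ f) x) = dpr _ arr (g ∘ f) * t) {α : L →₀ ℕ}
    (hw : Ideal.Quotient.mk (JJ F arr th (g ∘ f)) w = coeff α t) :
    ud F arr th f (m' - m) w := by
  intro β hβ
  by_contra hlt
  rw [not_le] at hlt
  apply hβ
  -- the additive functional: coefficient `β` of the fine shift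
  let φ : (MvPolynomial P F ⧸ JJ F arr th (g ∘ f)) →+ (MvPolynomial P F ⧸ JJ F arr th f) :=
    (coeffAddMonoidHom β).comp (ThinRef971.shL arr th f g hf).toAddMonoidHom
  have hφ : ∀ y : MvPolynomial P F, φ (Ideal.Quotient.mk _ y) = coeff β (sh F arr th f y) := by
    intro y
    simp [φ]
  have key := transfer arr (g ∘ f) φ (t := t) (fun γ => ?_) α
  · rw [← hw, hφ] at key
    exact key
  rw [← ht, Deg359.coeff_top]
  split_ifs with hγ
  · obtain ⟨y, hy⟩ := mk_surj arr th (g ∘ f) (coeff γ (sh F arr th (g ∘ f) x))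
    rw [← hy, hφ]
    have h1 := ThinRef971.refine_coeff arr th f g hf hx' hy
    exact h1.coeff_eq_zero (by rw [hγ]; exact hlt)
  · rw [map_zero]

/-- **HALF 1, direction `x ↦ t`**: the top part of `x` at `f`, its divisibility and its values.
`D = m - arrS arr f` is the degree of `t`. -/
theorem top_values (arr : P → P → ℕ) (th : P → V) (f : P → L) (hf : Good th f)
    {m : ℤ} {x : MvPolynomial P F} (hx : ud F arr th f m x)
    (hmerge : ∀ i j : L, i < j → ud F arr th (mg i j ∘ f) (m - arrL arr f i j) x) :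
    ∃ t : MvPolynomial L (MvPolynomial P F ⧸ JJ F arr th f),
      Deg359.Hom (m - arrS arr f) t ∧
        Deg359.top m (sh F arr th f x) = dpr _ arr f * t ∧
        (∀ (L₂ : Type) (f₂ : P → L₂) (g : L₂ → L) (_ : Good th f₂) (_ : g ∘ f₂ = f) (m₂ : ℤ)
          (_ : ud F arr th f₂ m₂ x) (w : MvPolynomial P F) (α : L →₀ ℕ)
          (_ : Ideal.Quotient.mk (JJ F arr th f) w = coeff α t), ud F arr th f₂ (m₂ - m) w) := by
  obtain ⟨t, h1, h2⟩ := top_factor arr th f hf hx hmerge
  refine ⟨t, h1, h2, ?_⟩
  intro L₂ f₂ g hg hgf m₂ hm₂ w α hw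
  subst hgf
  exact values arr th f₂ g hg hm₂ h2 hw

end Values

end Crest.Agent.R059.ThinVal971
end

-- ▼ part R059/ThinB1_359
section

/-!
# Row 59, Theorem B (thin form), leaf AB5/AB6, part 1: preparations

Relabelling invariance of `ud`, `JJ`, `N2`, `nb`; `JJ` is killed by the shift; the number
`AL f = NR (f a < f b)`, and the count for merging two labels.
-/

set_option autoImplicit false
set_option linter.unusedSectionVars false

namespace Crest.Agent.R059.ThinB359

open MvPolynomial Finset
open Crest.Agent.R059.Thin613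
open Crest.Agent.R059.Deg359 (TD_zero TD_X TD_C TD_one)
open Crest.Agent.R059.Shift359

variable {P : Type*} [Fintype P] [DecidableEq P]
variable {F : Type*} [CommRing F]
variable {V : Type*} [AddCommGroup V] [LinearOrder V] [IsOrderedAddMonoid V]
variable {L : Type*} {L' : Type*}

/-! ### bridge between `sh` and `Esh` -/

theorem sh_eq_Esh (arr : P → P → ℕ) (th : P → V) (f : P → L) (x : MvPolynomial P F) :
    sh F arr th f x = Esh f (JJ F arr th f) x := by
  rw [sh_eq, Esh_apply]
  rfl

theorem ud_iff_Esh (arr : P → P → ℕ) (th : P → V) (f : P → L) (m : ℤ) (x : MvPolynomial P F) :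
    ud F arr th f m x ↔ Deg359.TD m (Esh f (JJ F arr th f) x) := by
  unfold ud
  rw [sh_eq_Esh]


theorem ud_mono {arr : P → P → ℕ} {th : P → V} {f : P → L} {m n : ℤ} {x : MvPolynomial P F}
    (h : ud F arr th f m x) (hmn : m ≤ n) : ud F arr th f n x := by
  rw [ud_iff_Esh] at h ⊢
  exact h.mono hmn








/-! ### `JJ` is killed by the shift -/





/-! ### injective relabelling -/


theorem Good_comp {th : P → V} {f : P → L} (g : L → L') (hf : Good th f) : Good th (g ∘ f) := by
  classical
  intro l'
  have h : wt th (fib (g ∘ f) l')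
      = ∑ m ∈ univ.image f, wt th ((fib (g ∘ f) l').filter fun a => f a = m) :=
    wt_eq_sum_image th f _
  rw [h]
  refine Finset.sum_eq_zero fun m _ => ?_
  by_cases hm : g m = l'
  · have : (fib (g ∘ f) l').filter (fun a => f a = m) = fib f m := by
      ext a
      simp only [Finset.mem_filter, mem_fib, Function.comp_apply]
      constructor
      · rintro ⟨_, h⟩
        exact h
      · intro h
        exact ⟨by rw [h, hm], h⟩
    rw [this]
    exact hf m
  · have : (fib (g ∘ f) l').filter (fun a => f a = m) = ∅ := by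
      rw [Finset.filter_eq_empty_iff]
      intro a ha h
      simp only [mem_fib, Function.comp_apply] at ha
      exact hm (by rw [← h, ha])
    rw [this, wt_empty]




/-! ### number of blocks -/







/-! ### arrows -/





/-- number of arrows between two blocks -/
noncomputable def pij (arr : P → P → ℕ) (f : P → L) (i j : L) : ℕ :=
  NR arr (fun a b => f a = i ∧ f b = j)

/-- merging two labels -/
theorem N2_merge (arr : P → P → ℕ) {th : P → V} (hs : Sym arr th) [DecidableEq L]
    {f : P → L} (hf : Good th f) {i j : L} (hij : i ≠ j) :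
    N2 arr f = N2 arr (NoPole359.mrg i j ∘ f) + 2 * pij arr f i j := by
  have hsym : NR arr (fun a b => f a = j ∧ f b = i) = pij arr f i j := by
    have h3 := NR_swap arr (fun a b => f a = i ∧ f b = j)
    have h4 := NR_symm arr hs hf (fun l l' => l = i ∧ l' = j)
      (fun l h => hij (h.1.symm.trans h.2))
    unfold pij
    rw [h4, ← h3]
    congr 1
    funext a b
    exact propext and_comm
  have h1 : N2 arr f = NR arr (fun a b => (NoPole359.mrg i j ∘ f) a ≠ (NoPole359.mrg i j ∘ f) b)
      + NR arr (fun a b => (f a = i ∧ f b = j) ∨ (f a = j ∧ f b = i)) := by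
    rw [N2_eq]
    refine NR_add arr _ _ _ (fun a b => ?_) (fun a b => ?_)
    · simp only [Function.comp_apply, NoPole359.mrg]
      by_cases ha : f a = j
      · by_cases hb : f b = j
        · simp [ha, hb, hij.symm]
        · rw [if_pos ha, if_neg hb, ha]
          constructor
          · intro h
            by_cases hi : f b = i
            · exact Or.inr (Or.inr ⟨rfl, hi⟩)
            · exact Or.inl (fun hc => hi hc.symm)
          · rintro (h | ⟨h, _⟩ | ⟨_, h⟩)
            · exact fun hc => hb hc.symm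
            · exact absurd h hij.symm
            · intro hc
              exact hb hc.symm
      · by_cases hb : f b = j
        · rw [if_neg ha, if_pos hb, hb]
          constructor
          · intro h
            by_cases hi : f a = i
            · exact Or.inr (Or.inl ⟨hi, rfl⟩)
            · exact Or.inl hi
          · rintro (h | ⟨_, _⟩ | ⟨h, _⟩)
            · exact ha
            · exact ha
            · exact ha
        · rw [if_neg ha, if_neg hb]
          constructor
          · intro h
            exact Or.inl h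
          · rintro (h | ⟨_, h⟩ | ⟨h, _⟩)
            · exact h
            · exact absurd h hb
            · exact absurd h ha
    · simp only [Function.comp_apply, NoPole359.mrg]
      rintro ⟨h, ⟨h1, h2⟩ | ⟨h1, h2⟩⟩
      · rw [h1, h2, if_neg hij, if_pos rfl] at h
        exact h rfl
      · rw [h1, h2, if_neg hij, if_pos rfl] at h
        exact h rfl
  have h2 : NR arr (fun a b => (f a = i ∧ f b = j) ∨ (f a = j ∧ f b = i))
      = pij arr f i j + NR arr (fun a b => f a = j ∧ f b = i) := by
    refine NR_add arr _ _ _ (fun a b => Iff.rfl) (fun a b => ?_)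
    rintro ⟨⟨h1, _⟩, h2, _⟩
    exact hij (h1.symm.trans h2)
  rw [h1, h2, hsym, N2_eq]
  ring

end Crest.Agent.R059.ThinB359
end

-- ▼ part R059/Val_944
section

/-!
# Values of the top part (row 59, Theorem B, HALF 2, leaf (P7) = (S1))

`b : P → L` good labelling.  If the growth of `x` at all good labellings `g'` is `≤ NF g' + g`
(strictly at the proper refinements of `b`) then `top (NF b + g) (sh b x) = DP b * t` with `t`
homogeneous of degree `g` and all the lifts of the coefficients of `t` in `V_b`.
-/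

set_option autoImplicit false
set_option linter.unusedSectionVars false

open MvPolynomial Finset

namespace Crest.Agent.R059.Val944

open Crest.Agent.R059.Thin613 Crest.Agent.R059.ThinEq494

section A

variable {P : Type} [Fintype P] [DecidableEq P] {F : Type*} [CommRing F]
variable {V : Type*} [AddCommGroup V] [LinearOrder V] [IsOrderedAddMonoid V]
variable {L : Type} [Fintype L] [LinearOrder L]

theorem prod_pairs {M : Type*} [CommMonoid M] (b : P → L) (u : L → L → M) (arr : P → P → ℕ) :
    ∏ x ∈ (univ : Finset (P × P)).filter (fun x => b x.1 < b x.2), (u (b x.1) (b x.2)) ^ arr x.1 x.2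
      = ∏ e ∈ ThinDiv971.prs L, (u e.1 e.2) ^ ThinDiv971.arrL arr b e.1 e.2 := by
  classical
  rw [← Finset.prod_fiberwise_of_maps_to (t := ThinDiv971.prs L) (g := fun x => (b x.1, b x.2))]
  · refine Finset.prod_congr rfl fun e he => ?_
    rw [ThinDiv971.mem_prs] at he
    have h1 : ∀ x ∈ ((univ : Finset (P × P)).filter (fun x => b x.1 < b x.2)).filter
        (fun x => (b x.1, b x.2) = e), (u (b x.1) (b x.2)) ^ arr x.1 x.2
          = (u e.1 e.2) ^ arr x.1 x.2 := by
      intro x hx
      rw [Finset.mem_filter] at hx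
      rw [← hx.2]
    rw [Finset.prod_congr rfl h1, Finset.prod_pow_eq_pow_sum]
    congr 1
    unfold ThinDiv971.arrL
    rw [← Finset.sum_product']
    refine Finset.sum_congr ?_ fun _ _ => rfl
    ext ⟨a, c⟩
    simp only [Finset.mem_filter, Finset.mem_univ, true_and, Finset.mem_product, mem_fib,
      Prod.ext_iff]
    constructor
    · rintro ⟨-, h⟩; exact h
    · rintro ⟨h2, h3⟩
      exact ⟨by rw [h2, h3]; exact he, h2, h3⟩
  · intro x hx
    rw [Finset.mem_filter] at hx
    rw [ThinDiv971.mem_prs]
    exact hx.2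

theorem DP_eq_dpr (A : Type*) [CommRing A] (arr : P → P → ℕ) (b : P → L) :
    DP A arr b = ThinDiv971.dpr A arr b := by
  unfold DP ThinDiv971.dpr DivT547.dprod
  exact prod_pairs b (fun i j => (X j - X i : MvPolynomial L A)) arr

theorem NR_eq_arrS (arr : P → P → ℕ) (b : P → L) :
    NR arr (fun x y => b x < b y) = ThinDiv971.arrS arr b := by
  classical
  have h := prod_pairs b (fun _ _ => Multiplicative.ofAdd (1 : ℕ)) arr
  simp only [← ofAdd_nsmul, smul_eq_mul, mul_one] at h
  rw [← ofAdd_sum, ← ofAdd_sum] at h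
  unfold NR ThinDiv971.arrS
  have h2 := Multiplicative.ofAdd.injective h
  convert h2 using 2
  ext x
  simp

theorem DP_mul_inj {A : Type*} [CommRing A] (arr : P → P → ℕ) (b : P → L)
    {S S' : MvPolynomial L A} (h : DP A arr b * S = DP A arr b * S') : S = S' := by
  rw [DP_eq_dpr] at h
  exact ThinDiv971.dpr_mul_inj arr b h

theorem map_DP {A B : Type*} [CommRing A] [CommRing B] (φ : A →+* B) (arr : P → P → ℕ)
    (b : P → L) : MvPolynomial.map φ (DP A arr b) = DP B arr b := by
  unfold DP
  rw [map_prod]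
  refine Finset.prod_congr rfl fun x _ => ?_
  rw [map_pow, map_sub, map_X, map_X]

/-- **(A)** the reduced top part and its values -/
theorem coeff_values {arr : P → P → ℕ} {th : P → V} (hs : Sym arr th) {b : P → L}
    (hb : Good th b) {g : ℤ} {x : MvPolynomial P F}
    (h1 : ∀ g' : P → P, Good th g' → ud F arr th g' ((NF arr g' : ℤ) + g) x)
    (h2 : ∀ g' : P → P, Good th g' → Fine g' b → ¬ Fine b g' →
      ud F arr th g' ((NF arr g' : ℤ) + g - 1) x) :
    ∃ t : MvPolynomial L (MvPolynomial P F ⧸ JJ F arr th b),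
      Deg359.Hom g t ∧
      Deg359.top ((NF arr b : ℤ) + g) (sh F arr th b x) = DP _ arr b * t ∧
      ∀ (α : L →₀ ℕ) (w : MvPolynomial P F), Ideal.Quotient.mk (JJ F arr th b) w = coeff α t →
        InV F arr th b w := by
  classical
  have h1' : ∀ {L₂ : Type} (f₂ : P → L₂), Good th f₂ →
      ud F arr th f₂ ((NF arr f₂ : ℤ) + g) x := by
    intro L₂ f₂ hf₂
    obtain ⟨g', hg'⟩ := exists_same_P f₂
    rw [ud_congr arr th hg', NF_congr arr hg']
    exact h1 g' (hf₂.congr hg')
  obtain ⟨t, ht1, ht2, ht3⟩ := ThinVal971.top_values arr th b hb (m := (NF arr b : ℤ) + g) (x := x)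
    (h1' b hb) (by
      intro i j hij
      have hgood : Good th (ThinDiv971.mg i j ∘ b) := ThinB359.Good_comp _ hb
      have h3 := h1' (ThinDiv971.mg i j ∘ b) hgood
      have h4 := ThinDiv971.N2_merge arr th hs b hb hij.ne
      have h5 := two_mul_NF arr hs hgood
      have h6 := two_mul_NF arr hs hb
      refine ud_mono arr th _ ?_ h3
      unfold ThinDiv971.arrL
      omega)
  refine ⟨t, ?_, ?_, ?_⟩
  · have h3 : ((NF arr b : ℤ) + g) - ThinDiv971.arrS arr b = g := by
      rw [NF_eq arr hs hb, NR_eq_arrS]; ring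
    rwa [h3] at ht1
  · rw [ht2, DP_eq_dpr]
  · intro α w hw g' hg' hfine
    obtain ⟨i, hi⟩ : ∃ i : P → L, i ∘ g' = b := by
      rcases isEmpty_or_nonempty P with hP | hP
      · exact ⟨fun p => hP.elim p, funext fun p => hP.elim p⟩
      · have : Nonempty L := ⟨b (Classical.arbitrary P)⟩
        obtain ⟨i, hi⟩ := hfine.factor
        exact ⟨i, hi.symm⟩
    constructor
    · have h3 := ht3 P g' i hg' hi ((NF arr g' : ℤ) + g) (h1 g' hg') w α hw
      refine ud_mono arr th g' ?_ h3
      omega
    · intro hne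
      have h3 := ht3 P g' i hg' hi ((NF arr g' : ℤ) + g - 1) (h2 g' hg' hfine hne) w α hw
      refine ud_mono arr th g' ?_ h3
      omega

/-- the coefficients of `t` are eigenvectors -/
theorem coeff_eigen {arr : P → P → ℕ} {th : P → V} {b : P → L} {m : ℤ} {x : MvPolynomial P F}
    {t : MvPolynomial L (MvPolynomial P F ⧸ JJ F arr th b)}
    (ht : Deg359.top m (sh F arr th b x) = DP _ arr b * t)
    (σ : Equiv.Perm P) (harr : ∀ a c, arr a c = arr (σ a) (σ c)) (hth : ∀ a, th a = th (σ a))
    (hσ : ∀ a, b (σ a) = b a) {c : F} (hx : rename σ x = C c * x) (α : L →₀ ℕ)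
    (w : MvPolynomial P F) (hw : Ideal.Quotient.mk (JJ F arr th b) w = coeff α t) :
    rename σ w - C c * w ∈ JJ F arr th b := by
  have hM : Mor arr th b arr th b σ id := mor_perm σ harr hth b hσ
  have h1 := quot_coeff_div σ hM hx (D := DP _ arr b) (t := t) (m := m) (map_DP _ arr b)
    (fun y hy => DP_mul_inj arr b (by rw [hy, mul_zero])) ht α
  rw [← hw, Mor.quot_mk, ← map_mul] at h1
  rw [← Ideal.Quotient.eq_zero_iff_mem, map_sub, h1, sub_self]

end A

end Crest.Agent.R059.Val944
end

-- ▼ part R059/Val2_944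
section

/-!
# Alternating elements of `V_b` and words of letters (row 59, Theorem B, HALF 2, (P7) = (S1))
-/

set_option autoImplicit false
set_option linter.unusedSectionVars false

open MvPolynomial Finset

namespace Crest.Agent.R059.Val944

open Crest.Agent.R059.Thin613 Crest.Agent.R059.ThinEq494 Crest.Agent.R059.PL547
open Crest.Agent.R059.ThinTens559 (Par arrB thB VB VV)

variable {P : Type*} [Fintype P] [DecidableEq P]
variable {V : Type*} [AddCommGroup V] [LinearOrder V] [IsOrderedAddMonoid V]
variable {L : Type*} [Fintype L] [DecidableEq L]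
variable {Q : L → Type*} [∀ l, Fintype (Q l)] [∀ l, DecidableEq (Q l)]
variable {b : P → L} {e : ∀ l, Q l ↪ P} {I : Type*}

/-! ### permutations acting in the blocks -/

noncomputable def glueE (h : Par b e) : (Σ l, Q l) ≃ P := Equiv.ofBijective _ h.bijective


/-- a family of permutations of the blocks -/
noncomputable def glue (h : Par b e) (σ : ∀ l, Equiv.Perm (Q l)) : Equiv.Perm P :=
  ((glueE h).symm.trans (Equiv.sigmaCongrRight σ)).trans (glueE h)

theorem glue_apply (h : Par b e) (σ : ∀ l, Equiv.Perm (Q l)) (l : L) (q : Q l) :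
    glue h σ (e l q) = e l (σ l q) := by
  have h1 : (glueE h).symm (e l q) = ⟨l, q⟩ := by
    rw [Equiv.symm_apply_eq]; rfl
  simp only [glue, Equiv.trans_apply, h1]
  rfl

theorem exists_eq (h : Par b e) (a : P) : ∃ l, ∃ q : Q l, e l q = a := by
  obtain ⟨q, hq⟩ := (h (b a) a).1 rfl
  exact ⟨b a, q, hq⟩

theorem b_glue (h : Par b e) (σ : ∀ l, Equiv.Perm (Q l)) (a : P) : b (glue h σ a) = b a := by
  obtain ⟨l, q, rfl⟩ := exists_eq h a
  rw [glue_apply, h.apply, h.apply]

theorem col_glue (h : Par b e) {c : P → I} {σ : ∀ l, Equiv.Perm (Q l)}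
    (hσ : ∀ l q, c (e l (σ l q)) = c (e l q)) (a : P) : c (glue h σ a) = c a := by
  obtain ⟨l, q, rfl⟩ := exists_eq h a
  rw [glue_apply, hσ]

theorem sg_glue (h : Par b e) (σ : ∀ l, Equiv.Perm (Q l)) :
    sg (glue h σ) = ∏ l, sg (σ l) := by
  unfold glue
  rw [sg_trans_symm]
  unfold sg
  rw [sign_sigmaCongrRight]
  push_cast
  rfl

/-- products of placed alternating elements -/
theorem prod_alt (h : Par b e) (c : P → I) (y : ∀ l, MvPolynomial (Q l) ℚ) :
    ∏ l, rename (e l) (alt (c ∘ e l) (y l)) =
      ∑ σ ∈ Fintype.piFinset (fun l => GG (c ∘ e l)),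
        sg (glue h σ) • rename (glue h σ) (∏ l, rename (e l) (y l)) := by
  classical
  have h1 : ∀ l, rename (e l) (alt (c ∘ e l) (y l)) =
      ∑ σ ∈ GG (c ∘ e l), sg σ • rename (e l) (rename σ (y l)) := by
    intro l
    unfold alt
    rw [map_sum]
    exact Finset.sum_congr rfl fun σ _ => by rw [map_smul]
  simp_rw [h1]
  rw [Finset.prod_univ_sum]
  refine Finset.sum_congr rfl fun σ _ => ?_
  have h2 : ∏ l, sg (σ l) • rename (e l) (rename (σ l) (y l))
      = (∏ l, sg (σ l)) • ∏ l, rename (e l) (rename (σ l) (y l)) := by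
    simp_rw [MvPolynomial.smul_eq_C_mul]
    rw [Finset.prod_mul_distrib, map_prod]
  rw [h2, sg_glue, map_prod]
  congr 1
  refine Finset.prod_congr rfl fun l _ => ?_
  rw [rename_rename, rename_rename]
  congr 1
  ext q
  simp [glue_apply]

/-- products of elements of subspaces, placed in the blocks -/
def PS (e : ∀ l, Q l ↪ P) (W : ∀ l, Submodule ℚ (MvPolynomial (Q l) ℚ)) :
    Set (MvPolynomial P ℚ) :=
  {z | ∃ y : ∀ l, MvPolynomial (Q l) ℚ, (∀ l, y l ∈ W l) ∧ z = ∏ l, rename (e l) (y l)}

/-! ### equivariance of `V` -/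

theorem InV_rename_const {P' : Type*} [Fintype P'] [DecidableEq P'] {F : Type*} [CommRing F]
    {arr : P' → P' → ℕ} {th : P' → V} (σ : Equiv.Perm P')
    (harr : ∀ a c, arr a c = arr (σ a) (σ c)) (hth : ∀ a, th a = th (σ a))
    {y : MvPolynomial P' F} (hy : InV F arr th (fun _ => ()) y) :
    InV F arr th (fun _ => ()) (rename σ y) := by
  intro g' hg' _
  have M : Mor arr th (g' ∘ σ) arr th g' σ id := mor_equiv' σ harr hth (fun _ => rfl)
  have hgood : Good th (g' ∘ σ) := (Good_equiv M).1 hg'
  have hN : NF arr g' = NF arr (g' ∘ σ) := by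
    unfold NF; rw [N2_equiv M]
  have h0 := hy (g' ∘ σ) hgood (fun _ _ _ => rfl)
  constructor
  · rw [ud_equiv M, hN]
    exact h0.1
  · intro hne
    rw [ud_equiv M, hN]
    apply h0.2
    intro hf
    apply hne
    intro a c _
    have := hf (σ.symm a) (σ.symm c) rfl
    simpa using this

/-! ### (V2) for alternating elements -/

section V2

variable {arr : P → P → ℕ} {th : P → V} {c : P → I}

theorem alt_mem_VB (harr : ∀ a a' d d', c a = c a' → c d = c d' → arr a d = arr a' d')
    (hth : ∀ a a', c a = c a' → th a = th a') (l : L) {y : MvPolynomial (Q l) ℚ}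
    (hy : y ∈ VB ℚ arr th e l) : alt (c ∘ e l) y ∈ VB ℚ arr th e l := by
  unfold alt
  apply Submodule.sum_mem
  intro σ hσ
  rw [mem_GG] at hσ
  apply Submodule.smul_mem
  exact InV_rename_const σ (fun a d => harr _ _ _ _ (hσ a).symm (hσ d).symm)
    (fun a => hth _ _ (hσ a).symm) hy

theorem rename_mem_JJ {F : Type*} [CommRing F] {σ : Equiv.Perm P}
    (harr : ∀ a d, arr a d = arr (σ a) (σ d))
    (hth : ∀ a, th a = th (σ a)) (hσ : ∀ a, b (σ a) = b a) {w : MvPolynomial P F}
    (hw : w ∈ JJ F arr th b) : rename σ w ∈ JJ F arr th b :=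
  (mem_JJ_equiv (mor_perm σ harr hth b hσ) w).2 hw

/-- **(V2), alternating**: from the plain (V2) by averaging over the block permutations. -/
theorem V2alt (h : Par b e)
    (harr : ∀ a a' d d', c a = c a' → c d = c d' → arr a d = arr a' d')
    (hth : ∀ a a', c a = c a' → th a = th a') {w : MvPolynomial P ℚ}
    (hV2 : w ∈ Submodule.span ℚ (PS e (VB ℚ arr th e)) ⊔
      (JJ ℚ arr th b).restrictScalars ℚ)
    (halt : ∀ σ : Equiv.Perm P, (∀ a, c (σ a) = c a) → (∀ a, b (σ a) = b a) →
      rename σ w - C (sg σ) * w ∈ JJ ℚ arr th b) :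
    w ∈ Submodule.span ℚ (PS e (fun l => VB ℚ arr th e l ⊓ Anti (c ∘ e l))) ⊔
      (JJ ℚ arr th b).restrictScalars ℚ := by
  classical
  set G := Fintype.piFinset (fun l => GG (c ∘ e l)) with hG
  have hcol : ∀ σ ∈ G, ∀ a, c (glue h σ a) = c a := by
    intro σ hσ a
    apply col_glue h
    intro l q
    have := Fintype.mem_piFinset.1 hσ l
    rw [mem_GG] at this
    exact this q
  let A : MvPolynomial P ℚ →ₗ[ℚ] MvPolynomial P ℚ :=
    ∑ σ ∈ G, sg (glue h σ) • (rename (glue h σ)).toLinearMap
  have hA : ∀ x, A x = ∑ σ ∈ G, sg (glue h σ) • rename (glue h σ) x := by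
    intro x
    simp [A, LinearMap.sum_apply]
  set T : Submodule ℚ (MvPolynomial P ℚ) :=
    Submodule.span ℚ (PS e (fun l => VB ℚ arr th e l ⊓ Anti (c ∘ e l))) ⊔
      (JJ ℚ arr th b).restrictScalars ℚ with hT
  have hJT : (JJ ℚ arr th b).restrictScalars ℚ ≤ T := le_sup_right
  have h1 : A w - (G.card : ℚ) • w ∈ T := by
    apply hJT
    have h2 : A w - (G.card : ℚ) • w =
        ∑ σ ∈ G, sg (glue h σ) • (rename (glue h σ) w - C (sg (glue h σ)) * w) := by
      have h9 : ∀ σ ∈ G, sg (glue h σ) • (rename (glue h σ) w - C (sg (glue h σ)) * w)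
          = sg (glue h σ) • rename (glue h σ) w - w := by
        intro σ _
        rw [smul_sub, ← MvPolynomial.smul_eq_C_mul, smul_smul, sg_mul_self, one_smul]
      rw [hA, Finset.sum_congr rfl h9, Finset.sum_sub_distrib, Finset.sum_const,
        Nat.cast_smul_eq_nsmul]
    rw [h2]
    apply Submodule.sum_mem
    intro σ hσ
    apply Submodule.smul_mem
    exact halt _ (hcol σ hσ) (b_glue h σ)
  have h3 : ∀ x ∈ Submodule.span ℚ (PS e (VB ℚ arr th e)) ⊔
      (JJ ℚ arr th b).restrictScalars ℚ, A x ∈ T := by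
    intro x hx
    have h4 : Submodule.span ℚ (PS e (VB ℚ arr th e)) ⊔
      (JJ ℚ arr th b).restrictScalars ℚ ≤ T.comap A := by
      apply sup_le
      · rw [Submodule.span_le]
        rintro z ⟨y, hy, rfl⟩
        change A _ ∈ T
        rw [hA, ← prod_alt h c y]
        apply Submodule.mem_sup_left
        apply Submodule.subset_span
        refine ⟨fun l => alt (c ∘ e l) (y l), fun l => ⟨?_, alt_mem _ _⟩, rfl⟩
        exact alt_mem_VB harr hth l (hy l)
      · intro z hz
        change A z ∈ T
        apply hJT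
        rw [hA]
        apply Submodule.sum_mem
        intro σ hσ
        apply Submodule.smul_mem
        exact rename_mem_JJ (fun a d => harr _ _ _ _ (hcol σ hσ a).symm (hcol σ hσ d).symm)
          (fun a => hth _ _ (hcol σ hσ a).symm) (b_glue h σ) hz
    exact h4 hx
  have h5 : (G.card : ℚ) • w ∈ T := by
    have := T.sub_mem (h3 w hV2) h1
    rwa [sub_sub_cancel] at this
  have hGc : (G.card : ℚ) ≠ 0 := by
    rw [hG, Fintype.card_piFinset]
    push_cast
    exact Finset.prod_ne_zero_iff.2 fun l _ => GG_card_ne_zero _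
  have h6 := T.smul_mem (G.card : ℚ)⁻¹ h5
  rwa [smul_smul, inv_mul_cancel₀ hGc, one_smul] at h6

/-- expansion in letters -/
theorem span_letters (h : Par b e) {Λ : L → Type*} (pol : ∀ l, Λ l → MvPolynomial (Q l) ℚ)
    (W : ∀ l, Submodule ℚ (MvPolynomial (Q l) ℚ))
    (hpol : ∀ l, W l ≤ Submodule.span ℚ (Set.range (pol l)) ⊔
      (J0 ℚ (arrB arr (e l)) (thB th (e l)) univ).restrictScalars ℚ) :
    Submodule.span ℚ (PS e W) ⊔ (JJ ℚ arr th b).restrictScalars ℚ ≤
      Submodule.span ℚ (Set.range fun s : ∀ l, Λ l => ∏ l, rename (e l) (pol l (s l))) ⊔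
        (JJ ℚ arr th b).restrictScalars ℚ := by
  classical
  apply sup_le _ le_sup_right
  rw [Submodule.span_le]
  rintro z ⟨y, hy, rfl⟩
  choose p hp j hj hpj using fun l => Submodule.mem_sup.1 (hpol l (hy l))
  have hj2 : ∀ l, rename (e l) (j l) ∈ JJ ℚ arr th b := by
    intro l
    apply ThinTens559.JJ_rename arr th (h.sat (g := b) (fun _ _ h => h) l)
    have h1 : b ∘ e l = fun _ => l := by
      funext q; exact h.apply l q
    rw [h1, JJ_const]
    exact hj l
  have h2 : ∏ l, rename (e l) (y l) - ∏ l, rename (e l) (p l) ∈ JJ ℚ arr th b := by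
    rw [← Ideal.Quotient.eq_zero_iff_mem, map_sub, map_prod, map_prod, sub_eq_zero]
    refine Finset.prod_congr rfl fun l _ => ?_
    rw [← hpj l, map_add, map_add, Ideal.Quotient.eq_zero_iff_mem.2 (hj2 l), add_zero]
  have h3 : ∏ l, rename (e l) (p l) ∈
      Submodule.span ℚ (Set.range fun s : ∀ l, Λ l => ∏ l, rename (e l) (pol l (s l))) := by
    choose k hk using fun l => (Finsupp.mem_span_range_iff_exists_finsupp).1 (hp l)
    have h4 : ∀ l, rename (e l) (p l) =
        ∑ i ∈ (k l).support, (k l i) • rename (e l) (pol l i) := by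
      intro l
      rw [← hk l, Finsupp.sum, map_sum]
      exact Finset.sum_congr rfl fun i _ => by rw [map_smul]
    simp_rw [h4]
    rw [Finset.prod_univ_sum]
    apply Submodule.sum_mem
    intro s _
    have h5 : ∏ l, (k l (s l)) • rename (e l) (pol l (s l))
        = (∏ l, k l (s l)) • ∏ l, rename (e l) (pol l (s l)) := by
      simp_rw [MvPolynomial.smul_eq_C_mul]
      rw [Finset.prod_mul_distrib, map_prod]
    rw [h5]
    apply Submodule.smul_mem
    exact Submodule.subset_span ⟨s, rfl⟩
  have h6 : ∏ l, rename (e l) (y l) = ∏ l, rename (e l) (p l) +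
      (∏ l, rename (e l) (y l) - ∏ l, rename (e l) (p l)) := by ring
  rw [SetLike.mem_coe, h6]
  exact Submodule.add_mem_sup h3 h2

end V2

/-- 559's (V2) in the language of `PS` -/
theorem V2_of_InV (h : Par b e) {arr : P → P → ℕ} {th : P → V} (hs : Sym arr th)
    (hb : Good th b) {w : MvPolynomial P ℚ} (hw : InV ℚ arr th b w) :
    w ∈ Submodule.span ℚ (PS e (VB ℚ arr th e)) ⊔ (JJ ℚ arr th b).restrictScalars ℚ := by
  have h1 := ThinTens559.mem_PW_of_InV h hs hb hw
  have h2 : Tens559.PW (ThinTens559.WB ℚ arr th e) ≤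
      Submodule.span ℚ (PS e (VB ℚ arr th e)) := by
    unfold Tens559.PW
    apply Submodule.span_mono
    rintro z ⟨y, hy, rfl⟩
    choose u hu huy using hy
    exact ⟨u, hu, Finset.prod_congr rfl fun l _ => (huy l).symm⟩
  have h3 := sup_le_sup_right h2 ((JJ ℚ arr th b).restrictScalars ℚ)
  exact h3 h1

end Crest.Agent.R059.Val944

namespace Crest.Agent.R059.Val944

open Crest.Agent.R059.Thin613 Crest.Agent.R059.ThinEq494 Crest.Agent.R059.PL547
open Crest.Agent.R059.ThinTens559 (Par arrB thB VB VV)

section final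

variable {P : Type} [Fintype P] [DecidableEq P]
variable {V : Type*} [AddCommGroup V] [LinearOrder V] [IsOrderedAddMonoid V]
variable {L : Type} [Fintype L] [LinearOrder L]
variable {Q : L → Type*} [∀ l, Fintype (Q l)] [∀ l, DecidableEq (Q l)]
variable {b : P → L} {e : ∀ l, Q l ↪ P} {I : Type*} {arr : P → P → ℕ} {th : P → V} {c : P → I}
variable {Λ : L → Type*}

/-- the symbol of a word: letters `s l`, exponents `a l` -/
noncomputable def sym (arr : P → P → ℕ) (th : P → V) (b : P → L) (e : ∀ l, Q l ↪ P)
    (pol : ∀ l, Λ l → MvPolynomial (Q l) ℚ) (s : ∀ l, Λ l) (a : L → ℕ) :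
    MvPolynomial L (MvPolynomial P ℚ ⧸ JJ ℚ arr th b) :=
  DP _ arr b * (C (Ideal.Quotient.mk _ (∏ l, rename (e l) (pol l (s l)))) * ∏ l, X l ^ a l)

theorem monomial_eq_prod {A : Type*} [CommRing A] (α : L →₀ ℕ) (r : A) :
    monomial α r = C r * ∏ l, X l ^ α l := by
  rw [MvPolynomial.monomial_eq, Finsupp.prod_fintype]
  intro l
  rw [pow_zero]

/-- **(B) span_words** -/
theorem span_words (hs : Sym arr th) (hb : Good th b) (h : Par b e)
    (harr : ∀ a a' d d', c a = c a' → c d = c d' → arr a d = arr a' d')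
    (hth : ∀ a a', c a = c a' → th a = th a')
    (pol : ∀ l, Λ l → MvPolynomial (Q l) ℚ)
    (hpol : ∀ l, VB ℚ arr th e l ⊓ Anti (c ∘ e l) ≤ Submodule.span ℚ (Set.range (pol l)) ⊔
      (J0 ℚ (arrB arr (e l)) (thB th (e l)) univ).restrictScalars ℚ)
    {g : ℤ} {x : MvPolynomial P ℚ} (hx : x ∈ Anti c)
    (h1 : ∀ g' : P → P, Good th g' → ud ℚ arr th g' ((NF arr g' : ℤ) + g) x)
    (h2 : ∀ g' : P → P, Good th g' → Fine g' b → ¬ Fine b g' →
      ud ℚ arr th g' ((NF arr g' : ℤ) + g - 1) x) :
    Deg359.top ((NF arr b : ℤ) + g) (sh ℚ arr th b x) ∈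
      Submodule.span ℚ {z | ∃ (s : ∀ l, Λ l) (a : L → ℕ), ((∑ l, a l : ℕ) : ℤ) = g ∧
        z = sym arr th b e pol s a} := by
  classical
  obtain ⟨t, ht1, ht2, ht3⟩ := coeff_values hs hb h1 h2
  rw [ht2]
  set U : Submodule ℚ (MvPolynomial L (MvPolynomial P ℚ ⧸ JJ ℚ arr th b)) :=
    Submodule.span ℚ {z | ∃ (s : ∀ l, Λ l) (a : L → ℕ), ((∑ l, a l : ℕ) : ℤ) = g ∧
        z = sym arr th b e pol s a} with hU
  let D : MvPolynomial L (MvPolynomial P ℚ ⧸ JJ ℚ arr th b) →ₗ[ℚ]
      MvPolynomial L (MvPolynomial P ℚ ⧸ JJ ℚ arr th b) := LinearMap.mulLeft ℚ (DP _ arr b)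
  change D t ∈ U
  rw [t.as_sum, map_sum]
  apply Submodule.sum_mem
  intro α hα
  have hdeg : ((α.degree : ℕ) : ℤ) = g := ht1 α (by rwa [mem_support_iff] at hα)
  obtain ⟨w, hw⟩ := Ideal.Quotient.mk_surjective (coeff α t)
  have hInV := ht3 α w hw
  have hwT : w ∈ Submodule.span ℚ (Set.range fun s : ∀ l, Λ l =>
      ∏ l, rename (e l) (pol l (s l))) ⊔ (JJ ℚ arr th b).restrictScalars ℚ := by
    apply span_letters h pol (fun l => VB ℚ arr th e l ⊓ Anti (c ∘ e l)) hpol
    apply V2alt h harr hth (V2_of_InV h hs hb hInV)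
    intro σ hσ hσb
    apply coeff_eigen ht2 σ (fun a d => harr _ _ _ _ (hσ a).symm (hσ d).symm)
      (fun a => hth _ _ (hσ a).symm) hσb ?_ α w hw
    rw [hx σ hσ, MvPolynomial.smul_eq_C_mul]
  obtain ⟨p, hp, j, hj, hpj⟩ := Submodule.mem_sup.1 hwT
  have hmk : coeff α t = Ideal.Quotient.mk (JJ ℚ arr th b) p := by
    rw [← hw, ← hpj, map_add, Ideal.Quotient.eq_zero_iff_mem.2 hj, add_zero]
  rw [hmk]
  let Φ : MvPolynomial P ℚ →ₗ[ℚ] MvPolynomial L (MvPolynomial P ℚ ⧸ JJ ℚ arr th b) :=
    D ∘ₗ ((monomial α : (MvPolynomial P ℚ ⧸ JJ ℚ arr th b) →ₗ[MvPolynomial P ℚ ⧸ JJ ℚ arr th b]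
      MvPolynomial L (MvPolynomial P ℚ ⧸ JJ ℚ arr th b)).restrictScalars ℚ) ∘ₗ
      (Ideal.Quotient.mkₐ ℚ (JJ ℚ arr th b)).toLinearMap
  change Φ p ∈ U
  have hle : Submodule.span ℚ (Set.range fun s : ∀ l, Λ l =>
      ∏ l, rename (e l) (pol l (s l))) ≤ U.comap Φ := by
    rw [Submodule.span_le]
    rintro _ ⟨s, rfl⟩
    change Φ _ ∈ U
    apply Submodule.subset_span
    refine ⟨s, α, ?_, ?_⟩
    · rw [← hdeg, Finsupp.degree_eq_sum]
    · change DP _ arr b * monomial α _ = _
      rw [monomial_eq_prod]
      rfl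
  exact hle hp

/-- **(C) indep_words** -/
theorem indep_words (h : Par b e) (pol : ∀ l, Λ l → MvPolynomial (Q l) ℚ)
    (hind : ∀ l, LinearIndependent ℚ fun i =>
      Ideal.Quotient.mk (J0 ℚ (arrB arr (e l)) (thB th (e l)) univ) (pol l i)) :
    LinearIndependent ℚ (fun φ : (∀ l, Λ l) × (L → ℕ) => sym arr th b e pol φ.1 φ.2) := by
  classical
  have h0 := ThinTens559.indep_JJ h arr th pol hind
  have h0 := linearIndependent_iff'.1 h0
  refine (linearIndependent_iff' (R := ℚ)
    (M := MvPolynomial L (MvPolynomial P ℚ ⧸ JJ ℚ arr th b))).2 ?_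
  intro S k hk φ₀ hφ₀
  -- remove `DP`
  have h1 : DP _ arr b * (∑ φ ∈ S, k φ • (C (Ideal.Quotient.mk (JJ ℚ arr th b)
      (∏ l, rename (e l) (pol l (φ.1 l)))) * ∏ l, X l ^ φ.2 l)) = DP _ arr b * 0 := by
    rw [mul_zero, Finset.mul_sum, ← hk]
    refine Finset.sum_congr rfl fun φ _ => ?_
    rw [mul_smul_comm]
    rfl
  have h2 := DP_mul_inj arr b h1
  -- coefficient at the exponent of `φ₀`
  have h3 := congrArg (coeff (Finsupp.equivFunOnFinite.symm φ₀.2)) h2
  rw [coeff_sum, coeff_zero] at h3
  have h4 : ∀ φ ∈ S, coeff (Finsupp.equivFunOnFinite.symm φ₀.2)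
      (k φ • (C (Ideal.Quotient.mk (JJ ℚ arr th b)
        (∏ l, rename (e l) (pol l (φ.1 l)))) * ∏ l, X l ^ φ.2 l))
      = if φ.2 = φ₀.2 then k φ • Ideal.Quotient.mk (JJ ℚ arr th b)
        (∏ l, rename (e l) (pol l (φ.1 l))) else 0 := by
    intro φ _
    have h5 : (C (Ideal.Quotient.mk (JJ ℚ arr th b)
        (∏ l, rename (e l) (pol l (φ.1 l)))) * ∏ l, X l ^ φ.2 l :
          MvPolynomial L (MvPolynomial P ℚ ⧸ JJ ℚ arr th b))
        = monomial (Finsupp.equivFunOnFinite.symm φ.2) (Ideal.Quotient.mk (JJ ℚ arr th b)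
        (∏ l, rename (e l) (pol l (φ.1 l)))) := by
      rw [monomial_eq_prod]
      rfl
    rw [coeff_smul, h5, coeff_monomial]
    by_cases h6 : φ.2 = φ₀.2
    · rw [if_pos (by rw [h6]), if_pos h6]
    · rw [if_neg, if_neg h6, smul_zero]
      intro h7
      exact h6 (Finsupp.equivFunOnFinite.symm.injective h7)
  rw [Finset.sum_congr rfl h4, ← Finset.sum_filter] at h3
  -- transport to the index set of the letters
  have h8 := h0 ((S.filter fun φ => φ.2 = φ₀.2).image Prod.fst) (fun s => k (s, φ₀.2)) (by
    rw [Finset.sum_image]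
    · rw [← h3]
      refine Finset.sum_congr rfl fun φ hφ => ?_
      rw [Finset.mem_filter] at hφ
      rw [← hφ.2]
    · intro φ hφ ψ hψ hφψ
      rw [Finset.mem_coe, Finset.mem_filter] at hφ hψ
      exact Prod.ext hφψ (hφ.2.trans hψ.2.symm)) φ₀.1
    (Finset.mem_image.2 ⟨φ₀, Finset.mem_filter.2 ⟨hφ₀, rfl⟩, rfl⟩)
  exact h8

end final

end Crest.Agent.R059.Val944
end

-- ▼ part R059/Letters_613

set_option autoImplicit false
set_option linter.unusedSectionVars false

namespace Crest.Agent.R059.Thin613

open MvPolynomial Finset Deg359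

/-! ### homogeneous basis of a graded subspace modulo a graded subspace -/

theorem exb {σ F : Type*} [Finite σ] [Field F] (A J : Submodule F (MvPolynomial σ F))
    (hA : ∀ f ∈ A, ∀ n, homogeneousComponent n f ∈ A)
    (hJ : ∀ f ∈ J, ∀ n, homogeneousComponent n f ∈ J) :
    ∃ (mult : ℕ → ℕ) (e : (Σ n, Fin (mult n)) → MvPolynomial σ F),
      (∀ i, (e i).IsHomogeneous i.1) ∧ (∀ i, e i ∈ A) ∧
      (∀ x : (Σ n, Fin (mult n)) →₀ F, (x.sum fun i a => a • e i) ∈ J → x = 0) ∧
      A ≤ J ⊔ Submodule.span F (Set.range e) := by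
  classical
  let M : ℕ → Submodule F (MvPolynomial σ F) := fun n => homogeneousSubmodule σ F n ⊓ A
  let N : ∀ n, Submodule F (M n) := fun n => J.comap (M n).subtype
  have hfd : ∀ n, FiniteDimensional F (M n) := fun n =>
    DimCount830.finiteDimensional_homog_inf n A
  let b : ∀ n, Module.Basis (Fin (Module.finrank F (M n ⧸ N n))) F (M n ⧸ N n) :=
    fun n => Module.finBasis F (M n ⧸ N n)
  have hlift : ∀ n (q : M n ⧸ N n), ∃ y : M n, (N n).mkQ y = q := fun n q =>
    Submodule.mkQ_surjective (N n) q
  choose lf hlf using hlift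
  let e : (Σ n, Fin (Module.finrank F (M n ⧸ N n))) → MvPolynomial σ F :=
    fun i => (lf i.1 (b i.1 i.2) : MvPolynomial σ F)
  have hhom : ∀ i, (e i).IsHomogeneous i.1 := fun i =>
    (mem_homogeneousSubmodule _ _).1 (lf i.1 (b i.1 i.2)).2.1
  refine ⟨fun n => Module.finrank F (M n ⧸ N n), e, hhom, fun i => (lf i.1 (b i.1 i.2)).2.2,
    ?_, ?_⟩
  · -- independence
    intro x hx
    -- the component of degree `n`
    have hcomp : ∀ n, (∑ i : Fin (Module.finrank F (M n ⧸ N n)), x ⟨n, i⟩ • e ⟨n, i⟩) ∈ J := by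
      intro n
      have h1 := hJ _ hx n
      have h2 : homogeneousComponent n (x.sum fun i a => a • e i) =
          ∑ i : Fin (Module.finrank F (M n ⧸ N n)), x ⟨n, i⟩ • e ⟨n, i⟩ := by
        rw [Finsupp.sum, map_sum]
        have h3 : ∀ i ∈ x.support, homogeneousComponent n (x i • e i) =
            if i.1 = n then x i • e i else 0 := by
          intro i _
          rw [map_smul, homogeneousComponent_of_mem
            ((mem_homogeneousSubmodule _ _).2 (hhom i))]
          by_cases h : n = i.1
          · rw [if_pos h, if_pos h.symm]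
          · rw [if_neg h, if_neg (Ne.symm h), smul_zero]
        rw [Finset.sum_congr rfl h3]
        rw [← Finset.sum_filter]
        symm
        rw [← Finset.sum_subset (s₁ := (univ : Finset (Fin (Module.finrank F (M n ⧸ N n)))).filter
          (fun i => x ⟨n, i⟩ ≠ 0)) (Finset.filter_subset _ _)]
        · refine Finset.sum_bij (fun i _ => (⟨n, i⟩ : Σ n, Fin (Module.finrank F (M n ⧸ N n))))
            ?_ ?_ ?_ ?_
          · intro i hi
            rw [Finset.mem_filter] at hi ⊢
            exact ⟨Finsupp.mem_support_iff.2 hi.2, rfl⟩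
          · intro i _ j _ hij
            simpa using hij
          · rintro ⟨n', i⟩ hi
            rw [Finset.mem_filter] at hi
            obtain ⟨hi1, hi2⟩ := hi
            change n' = n at hi2
            subst hi2
            exact ⟨i, by
              rw [Finset.mem_filter]
              exact ⟨mem_univ _, Finsupp.mem_support_iff.1 hi1⟩, rfl⟩
          · intro i _
            rfl
        · intro i _ hi
          rw [Finset.mem_filter, not_and, not_not] at hi
          rw [hi (mem_univ i), zero_smul]
      rw [← h2]; exact h1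
    ext ⟨n, i⟩
    have h4 : (∑ i : Fin (Module.finrank F (M n ⧸ N n)), x ⟨n, i⟩ • lf n (b n i)) ∈ N n := by
      change (M n).subtype _ ∈ J
      rw [map_sum]
      convert hcomp n using 2
      rw [map_smul]
      rfl
    have h5 : ∑ i : Fin (Module.finrank F (M n ⧸ N n)), x ⟨n, i⟩ • b n i = 0 := by
      have h6 : (N n).mkQ (∑ i : Fin (Module.finrank F (M n ⧸ N n)), x ⟨n, i⟩ • lf n (b n i)) = 0 := by
        rw [Submodule.mkQ_apply, Submodule.Quotient.mk_eq_zero]; exact h4
      rw [map_sum] at h6
      rw [← h6]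
      refine Finset.sum_congr rfl fun i _ => ?_
      rw [map_smul, hlf]
    have h7 := Fintype.linearIndependent_iff.1 (b n).linearIndependent (fun i => x ⟨n, i⟩) h5 i
    simpa using h7
  · -- spanning
    intro f hf
    have h1 : f = ∑ n ∈ range (f.totalDegree + 1), homogeneousComponent n f :=
      (sum_homogeneousComponent f).symm
    rw [h1]
    refine Submodule.sum_mem _ fun n _ => ?_
    have h2 : homogeneousComponent n f ∈ M n :=
      ⟨homogeneousComponent_mem n f, hA f hf n⟩
    set y : M n := ⟨homogeneousComponent n f, h2⟩ with hy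
    have h3 : (N n).mkQ (y - ∑ i, (b n).repr ((N n).mkQ y) i • lf n (b n i)) = 0 := by
      rw [map_sub, map_sum]
      have h4 : ∑ i, (N n).mkQ ((b n).repr ((N n).mkQ y) i • lf n (b n i)) =
          ∑ i, (b n).repr ((N n).mkQ y) i • b n i := by
        refine Finset.sum_congr rfl fun i _ => ?_
        rw [map_smul, hlf]
      rw [h4, (b n).sum_repr, sub_self]
    rw [Submodule.mkQ_apply, Submodule.Quotient.mk_eq_zero] at h3
    have h5 : (M n).subtype (y - ∑ i, (b n).repr ((N n).mkQ y) i • lf n (b n i)) ∈ J := h3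
    rw [map_sub, map_sum] at h5
    have h6 : homogeneousComponent n f =
        ((M n).subtype y - ∑ i, (M n).subtype ((b n).repr ((N n).mkQ y) i • lf n (b n i))) +
          ∑ i, (M n).subtype ((b n).repr ((N n).mkQ y) i • lf n (b n i)) := by
      rw [sub_add_cancel]; rfl
    rw [h6]
    refine Submodule.add_mem_sup h5 (Submodule.sum_mem _ fun i _ => ?_)
    rw [map_smul]
    exact Submodule.smul_mem _ _ (Submodule.subset_span ⟨⟨n, i⟩, rfl⟩)

/-! ### growth is graded -/

section graded

variable {P : Type*} [Fintype P] [DecidableEq P]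
variable {F : Type*} [Field F]
variable {V : Type*} [AddCommGroup V] [LinearOrder V] [IsOrderedAddMonoid V]
variable {L : Type*}

theorem ud_homogeneousComponent (arr : P → P → ℕ) (th : P → V) (f : P → L) {m : ℤ}
    {x : MvPolynomial P F} (h : ud F arr th f m x) (n : ℕ) :
    ud F arr th f m (homogeneousComponent n x) := by
  classical
  by_cases hn : n < x.totalDegree + 1
  swap
  · rw [homogeneousComponent_eq_zero _ _ (by omega)]
    exact ud_zero arr th f m
  intro α hα
  by_contra hlt
  apply hα
  have hlt' := not_le.1 hlt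
  have hy := fun k => ThinEq494.HG_sh (F := F) (arr := arr) (th := th) f
    (homogeneousComponent_isHomogeneous k x) α
  choose y hy hy' using hy
  have hsum : (∑ k ∈ range (x.totalDegree + 1), y k) ∈ JJ F arr th f := by
    rw [← Ideal.Quotient.eq_zero_iff_mem, map_sum]
    rw [Finset.sum_congr rfl fun k _ => hy' k]
    rw [← coeff_sum, ← map_sum, sum_homogeneousComponent]
    exact TD.coeff_eq_zero h hlt'
  have htop : top ((n : ℤ) - ((α.degree : ℕ) : ℤ)) (∑ k ∈ range (x.totalDegree + 1), y k) = y n := by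
    rw [top_sum, Finset.sum_eq_single n]
    · exact top_of_Hom (hy n)
    · intro k _ hk
      ext β
      rw [coeff_top, coeff_zero]
      split_ifs with hβ
      · apply (hy k).coeff_eq_zero
        rw [hβ]
        intro h1
        apply hk
        omega
      · rfl
    · intro hk
      exact absurd (Finset.mem_range.2 hn) hk
  have hmem : y n ∈ JJ F arr th f := by
    rw [← htop]
    unfold top
    split_ifs
    · exact ThinEq494.homogeneousComponent_mem_JJ f hsum _
    · exact zero_mem _
  rw [← hy' n, Ideal.Quotient.eq_zero_iff_mem]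
  exact hmem

theorem InV_homogeneousComponent (arr : P → P → ℕ) (th : P → V) (f : P → L)
    {x : MvPolynomial P F} (h : InV F arr th f x) (n : ℕ) :
    InV F arr th f (homogeneousComponent n x) := fun g hg hgf =>
  ⟨ud_homogeneousComponent arr th g (h g hg hgf).1 n,
    fun hfg => ud_homogeneousComponent arr th g ((h g hg hgf).2 hfg) n⟩

end graded

/-! ### letters -/

section letters

open PL547

theorem Anti_homogeneousComponent {I P : Type*} [Fintype P] [DecidableEq P] (c : P → I)
    {x : MvPolynomial P ℚ} (h : x ∈ Anti c) (n : ℕ) : homogeneousComponent n x ∈ Anti c := by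
  intro w hw
  rw [rename_homogeneousComponent, h w hw, map_smul]

variable {I : Type} [Fintype I] [DecidableEq I] (k : I → I → ℕ) (θ : I → ℤ)

theorem Wt_homogeneousComponent (c : I → ℕ) {x : MvPolynomial (Vt c) ℚ} (h : x ∈ Wt k θ c)
    (n : ℕ) : homogeneousComponent n x ∈ Wt k θ c :=
  ⟨Anti_homogeneousComponent _ h.1 n, InV_homogeneousComponent _ _ _ h.2 n⟩

theorem J0s_homogeneousComponent {P : Type*} [Fintype P] [DecidableEq P] (c : P → I)
    {x : MvPolynomial P ℚ} (h : x ∈ J0s k θ c) (n : ℕ) :
    homogeneousComponent n x ∈ J0s k θ c := by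
  change homogeneousComponent n x ∈ J0 ℚ (ar k c) (tw θ c) univ
  have h' : x ∈ J0 ℚ (ar k c) (tw θ c) univ := h
  rw [← JJ_const (F := ℚ) (ar k c) (tw θ c) ()] at h' ⊢
  exact ThinEq494.homogeneousComponent_mem_JJ _ h' n

/-- **(S5)** letters exist -/
theorem exists_letters {T : Type} (cl : T → I → ℕ) : Nonempty (Letters k θ cl) := by
  classical
  have h := fun t => exb (Wt k θ (cl t)) (J0s k θ (colV (cl t)))
    (fun f hf n => Wt_homogeneousComponent k θ (cl t) hf n)
    (fun f hf n => J0s_homogeneousComponent k θ (colV (cl t)) hf n)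
  choose mult e he1 he2 he3 he4 using h
  exact ⟨{ L := fun t => Σ n, Fin (mult t n)
           lo := fun t => LinearOrder.lift'
             (toLex : (Σ n, Fin (mult t n)) → Σₗ n, Fin (mult t n)) toLex.injective
           pol := e
           deg := fun t l => l.1
           hom := he1
           mem := he2
           indep := he3
           span := he4
           fin := fun t n => by
             refine (Set.finite_range (fun i : Fin (mult t n) => (⟨n, i⟩ : Σ n, Fin (mult t n)))).subset ?_
             rintro ⟨n', i⟩ hi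
             change n' = n at hi
             subst hi
             exact ⟨i, rfl⟩ }⟩

end letters

end Crest.Agent.R059.Thin613
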