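import Mathlib
import Crest.Agent.R059.Thin4c_613
import Crest.Agent.R059.PL1_547
import Crest.Agent.R059.PL2_547
import Crest.Agent.R059.PL3_547
import Crest.Agent.R059.ThinTens_559

-- ▼ part R059/BlkSign_537
section

/-!
Row 59, TEAM THIN, leaf T7 (helper537): representative labellings of `Σ i, Fin (d i)` by consecutive
blocks, block permutations and their signs.
-/

set_option autoImplicit false

namespace Crest.Agent.R059.BlkSign537

open Equiv Equiv.Perm Finset

/-! ### Sign of a permutation which is increasing on the blocks -/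





/-! ### `finSigmaFinEquiv` is increasing for the lexicographic order -/





/-! ### Representative labelling -/

section rep

variable {I : Type*} {s : ℕ}

/-- the particles of dimension vector `d` -/
abbrev V (d : I → ℕ) := Σ i, Fin (d i)

variable (c : Fin s → I → ℕ) {d : I → ℕ} (hc : ∀ i, ∑ j, c j i = d i)

/-- one colour cut into consecutive blocks -/
def E1 (i : I) : Fin (d i) ≃ Σ j, Fin (c j i) :=
  (finCongr (hc i).symm).trans finSigmaFinEquiv.symm

/-- every colour is cut into consecutive blocks -/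
def E : V d ≃ Σ i, Σ j, Fin (c j i) :=
  Equiv.sigmaCongrRight (E1 c hc)

/-- the representative labelling with list of types `c` -/
def rep (v : V d) : Fin s := (E c hc v).2.1

/-- the inclusion of the `j`-th block -/
def emb (j : Fin s) (y : V (c j)) : V d := (E c hc).symm ⟨y.1, j, y.2⟩


@[simp] theorem rep_emb (j : Fin s) (y : V (c j)) : rep c hc (emb c hc j y) = j := by
  unfold rep emb
  rw [apply_symm_apply]

theorem emb_injective (j : Fin s) : Function.Injective (emb c hc j) := by
  intro y y' h
  have h1 := (E c hc).symm.injective h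
  obtain ⟨i, y⟩ := y
  obtain ⟨i', y'⟩ := y'
  simp only [Sigma.mk.injEq] at h1
  obtain ⟨rfl, h1⟩ := h1
  rw [heq_eq_eq, Sigma.mk.injEq] at h1
  rw [Sigma.mk.injEq]
  exact ⟨rfl, h1.2⟩




theorem emb_inj_iff {j j' : Fin s} {y : V (c j)} {y' : V (c j')}
    (h : emb c hc j y = emb c hc j' y') : j = j' := by
  rw [← rep_emb c hc j y, h, rep_emb]


/-! ### Block permutations -/

theorem hcτ {c : Fin s → I → ℕ} {d : I → ℕ} (hc : ∀ i, ∑ j, c j i = d i) (τ : Perm (Fin s)) :
    ∀ i, ∑ j, c (τ j) i = d i := fun i => by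
  rw [← hc i]; exact Equiv.sum_comp τ (fun j => c j i)

/-- the block permutation in one colour -/
def blk1 (τ : Perm (Fin s)) (i : I) : Perm (Fin (d i)) :=
  ((E1 c hc i).trans (Equiv.sigmaCongrLeft (β := fun j => Fin (c j i)) τ).symm).trans
    (E1 (fun j => c (τ j)) (hcτ hc τ) i).symm

/-- the block permutation: maps the block `τ j` of `rep c` onto the block `j` of `rep (c ∘ τ)` -/
def blk (τ : Perm (Fin s)) : Perm (V d) := Equiv.sigmaCongrRight (blk1 c hc τ)






variable [Fintype I] [DecidableEq I]





end rep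

end Crest.Agent.R059.BlkSign537
end

-- ▼ part R059/Stab_537
section

/-!
Row 59, TEAM THIN, leaf T7 (helper537): swaps of equal blocks, stabilisers of labelled partitions.
-/

set_option autoImplicit false
set_option linter.unusedSectionVars false

namespace Crest.Agent.R059.Stab537

open Equiv Equiv.Perm Finset

/-! ### The swap of two disjoint embedded copies -/


section swapE

variable {α V : Type*} [Fintype α] [DecidableEq V] [Fintype V]

/-- the permutation of `V` exchanging two disjoint embedded copies of `α` -/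
def swapE (e₁ e₂ : α → V) (h₁ : Function.Injective e₁) (h₂ : Function.Injective e₂)
    (h : ∀ a a', e₁ a ≠ e₂ a') : Perm V :=
  Equiv.Perm.viaFintypeEmbedding (Equiv.sumComm α α : Perm (α ⊕ α))
    ⟨Sum.elim e₁ e₂, h₁.sumElim h₂ h⟩

variable {e₁ e₂ : α → V} (h₁ : Function.Injective e₁) (h₂ : Function.Injective e₂)
    (h : ∀ a a', e₁ a ≠ e₂ a')







end swapE

/-! ### Induction over the stabiliser of a function on the blocks -/


/-! ### Inversions of a transposition -/

/-- the product of an invariant symmetric involutive-valued function over the inversions of the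
transposition `(j k)` is its value at `(j, k)` -/
theorem prod_inv_swap {S M : Type*} [Fintype S] [LinearOrder S] [CommMonoid M]
    (φ : S → S → M) (hsym : ∀ u v, φ u v = φ v u) (h2 : ∀ u v, φ u v * φ u v = 1)
    (j k : S) (hjk : j < k) (hinv : ∀ v, v ≠ j → v ≠ k → φ j v = φ k v) :
    (∏ u : S, ∏ v : S, if u < v ∧ swap j k v < swap j k u then φ u v else 1) = φ j k := by
  classical
  -- inner products
  have hj : (∏ v : S, if j < v ∧ swap j k v < swap j k j then φ j v else 1) =
      φ j k * ∏ v ∈ Finset.univ.filter (fun v => j < v ∧ v < k), φ j v := by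
    rw [swap_apply_left, ← Finset.prod_erase_mul _ _ (mem_univ k)]
    rw [if_pos ⟨hjk, by rw [swap_apply_right]; exact hjk⟩, mul_comm]
    congr 1
    rw [Finset.prod_filter]
    rw [← Finset.prod_erase_mul (a := k) _ _ (mem_univ k), if_neg (fun h => lt_irrefl _ h.2), mul_one]
    refine prod_congr rfl fun v hv => ?_
    have hvk : v ≠ k := (mem_erase.1 hv).1
    by_cases hjv : j < v
    · rw [swap_apply_of_ne_of_ne hjv.ne' hvk]
    · simp [hjv]
  have hu : ∀ u, u ≠ j → (∏ v : S, if u < v ∧ swap j k v < swap j k u then φ u v else 1) =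
      if j < u ∧ u < k then φ u k else 1 := by
    intro u huj
    by_cases huk : u = k
    · subst huk
      rw [if_neg (fun h => lt_irrefl _ h.2)]
      refine prod_eq_one fun v _ => if_neg ?_
      rintro ⟨h3, h4⟩
      rw [swap_apply_right, swap_apply_of_ne_of_ne (hjk.trans h3).ne' h3.ne'] at h4
      exact absurd (hjk.trans (h3.trans h4)) (lt_irrefl _)
    · rw [Finset.prod_eq_single k]
      · rw [swap_apply_right, swap_apply_of_ne_of_ne huj huk]
        simp only [and_comm]
      · intro v _ hvk
        refine if_neg ?_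
        rintro ⟨h3, h4⟩
        rw [swap_apply_of_ne_of_ne huj huk] at h4
        by_cases hvj : v = j
        · subst hvj
          rw [swap_apply_left] at h4
          exact absurd (hjk.trans (h4.trans h3)) (lt_irrefl _)
        · rw [swap_apply_of_ne_of_ne hvj hvk] at h4
          exact absurd (h3.trans h4) (lt_irrefl _)
      · intro h; exact absurd (mem_univ _) h
  rw [← Finset.mul_prod_erase _ _ (mem_univ j), hj]
  rw [prod_congr rfl fun u hu' => hu u (mem_erase.1 hu').1]
  have h5 : (∏ u ∈ univ.erase j, if j < u ∧ u < k then φ u k else 1) =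
      ∏ v ∈ Finset.univ.filter (fun v => j < v ∧ v < k), φ j v := by
    rw [Finset.prod_filter]
    rw [← Finset.mul_prod_erase univ (fun v => if j < v ∧ v < k then φ j v else 1) (mem_univ j),
      if_neg (fun h => lt_irrefl _ h.1), one_mul]
    refine prod_congr rfl fun v _ => ?_
    split_ifs with h6
    · rw [hsym v k, hinv v h6.1.ne' h6.2.ne]
    · rfl
  rw [h5, mul_assoc, ← prod_mul_distrib, prod_congr rfl fun v _ => h2 j v, prod_const_one, mul_one]

/-! ### The swap of two blocks of equal type in the representative labelling -/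

section bsw

open BlkSign537

variable {I : Type*} [Fintype I] [DecidableEq I] {s : ℕ}
variable (c : Fin s → I → ℕ) {d : I → ℕ} (hc : ∀ i, ∑ j, c j i = d i)

/-- transport between equal dimension vectors -/
def vcast {a b : I → ℕ} (h : a = b) (y : V a) : V b := ⟨y.1, Fin.cast (congrFun h y.1) y.2⟩

@[simp] theorem vcast_rfl {a : I → ℕ} (y : V a) : vcast (rfl : a = a) y = y := rfl

theorem vcast_injective {a b : I → ℕ} (h : a = b) : Function.Injective (vcast h) := by
  subst h
  exact fun _ _ h => h

@[simp] theorem vcast_vcast {a b : I → ℕ} (h : a = b) (y : V b) :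
    vcast h (vcast h.symm y) = y := by subst h; rfl

/-- the swap of two blocks of equal type -/
def bsw (j k : Fin s) (hjk : j ≠ k) (h : c j = c k) : Perm (V d) :=
  swapE (α := V (c j)) (emb c hc j) (fun y => emb c hc k (vcast h y)) (emb_injective c hc j)
    ((emb_injective c hc k).comp (vcast_injective h))
    (fun _ _ e => hjk (emb_inj_iff c hc e))

variable {j k : Fin s} (hjk : j ≠ k) (h : c j = c k)













end bsw

/-! ### The sign of the kernel `∏_{u < v} (X v - X u)^{e u v}` under a permutation of the labels -/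

section delta

open MvPolynomial

variable {S F : Type*} [Fintype S] [LinearOrder S] [CommRing F]

theorem rename_delta (e : S → S → ℕ) (hsym : ∀ u v, e u v = e v u) (τ : Perm S)
    (he : ∀ u v, e (τ u) (τ v) = e u v) :
    rename τ (∏ u, ∏ v, if u < v then ((X v - X u : MvPolynomial S F)) ^ e u v else 1) =
      (∏ u : S, ∏ v : S, if u < v ∧ τ v < τ u then (-1 : MvPolynomial S F) ^ e u v else 1) *
      ∏ u, ∏ v, if u < v then ((X v - X u : MvPolynomial S F)) ^ e u v else 1 := by
  classical
  have h1 : rename τ (∏ u, ∏ v, if u < v then ((X v - X u : MvPolynomial S F)) ^ e u v else 1) =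
      ∏ u, ∏ v, if u < v then ((X (τ v) - X (τ u) : MvPolynomial S F)) ^ e u v else 1 := by
    rw [map_prod]
    refine prod_congr rfl fun u _ => ?_
    rw [map_prod]
    refine prod_congr rfl fun v _ => ?_
    split_ifs <;> simp
  have h2 : ∀ u v : S, (if u < v then ((X (τ v) - X (τ u) : MvPolynomial S F)) ^ e u v else 1) =
      (if u < v ∧ τ v < τ u then (-1 : MvPolynomial S F) ^ e u v else 1) *
      (if u < v then (if τ u < τ v then (X (τ v) - X (τ u) : MvPolynomial S F) ^ e u v
        else (X (τ u) - X (τ v)) ^ e u v) else 1) := by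
    intro u v
    by_cases huv : u < v
    · have hne : τ u ≠ τ v := fun e => huv.ne (τ.injective e)
      rcases hne.lt_or_gt with h | h
      · simp [huv, h, h.le]
      · simp only [huv, h, if_pos, and_self, not_lt.2 h.le, if_false]
        rw [← mul_pow]
        congr 1
        ring
    · simp [huv]
  rw [h1]
  rw [prod_congr rfl fun u _ => prod_congr rfl fun v _ => h2 u v]
  simp only [prod_mul_distrib]
  congr 1
  rw [← Fintype.prod_prod_type', ← Fintype.prod_prod_type', ← Finset.prod_filter,
    ← Finset.prod_filter]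
  refine Finset.prod_nbij'
    (fun p => if τ p.1 < τ p.2 then (τ p.1, τ p.2) else (τ p.2, τ p.1))
    (fun q => if τ.symm q.1 < τ.symm q.2 then (τ.symm q.1, τ.symm q.2)
      else (τ.symm q.2, τ.symm q.1)) ?_ ?_ ?_ ?_ ?_
  · rintro ⟨u, v⟩ hp
    have huv : u < v := (mem_filter.1 hp).2
    have hne : τ u ≠ τ v := fun e => huv.ne (τ.injective e)
    rw [mem_filter]
    refine ⟨mem_univ _, ?_⟩
    rcases hne.lt_or_gt with h | h
    · simp [h]
    · simp [not_lt.2 h.le, h]
  · rintro ⟨u, v⟩ hp
    have huv : u < v := (mem_filter.1 hp).2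
    have hne : τ.symm u ≠ τ.symm v := fun e => huv.ne (τ.symm.injective e)
    rw [mem_filter]
    refine ⟨mem_univ _, ?_⟩
    rcases hne.lt_or_gt with h | h
    · simp [h]
    · simp [not_lt.2 h.le, h]
  · rintro ⟨u, v⟩ hp
    have huv : u < v := (mem_filter.1 hp).2
    have hne : τ u ≠ τ v := fun e => huv.ne (τ.injective e)
    rcases hne.lt_or_gt with h | h
    · simp [h, huv]
    · simp [not_lt.2 h.le, not_lt.2 huv.le]
  · rintro ⟨u, v⟩ hp
    have huv : u < v := (mem_filter.1 hp).2
    have hne : τ.symm u ≠ τ.symm v := fun e => huv.ne (τ.symm.injective e)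
    rcases hne.lt_or_gt with h | h
    · simp [h, huv]
    · simp [not_lt.2 h.le, not_lt.2 huv.le]
  · rintro ⟨u, v⟩ hp
    have huv : u < v := (mem_filter.1 hp).2
    have hne : τ u ≠ τ v := fun e => huv.ne (τ.injective e)
    rcases hne.lt_or_gt with h | h
    · simp [h, he]
    · simp [not_lt.2 h.le, he, hsym v u]

/-- the sign of the kernel under the swap of two labels -/
theorem rename_delta_swap (e : S → S → ℕ) (hsym : ∀ u v, e u v = e v u) (j k : S) (hjk : j ≠ k)
    (he : ∀ v, e j v = e k v) :
    rename (swap j k)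
      (∏ u, ∏ v, if u < v then ((X v - X u : MvPolynomial S F)) ^ e u v else 1) =
      (-1 : MvPolynomial S F) ^ e j k *
      ∏ u, ∏ v, if u < v then ((X v - X u : MvPolynomial S F)) ^ e u v else 1 := by
  classical
  have hτ : ∀ u v, e (swap j k u) (swap j k v) = e u v := by
    have h1 : ∀ u v, e (swap j k u) v = e u v := by
      intro u v
      rw [swap_apply_def]
      split_ifs with h1 h2
      · rw [h1, he]
      · rw [h2, he]
      · rfl
    intro u v
    rw [h1, hsym, h1, hsym]
  have h2 : ∀ u v : S, ((-1 : MvPolynomial S F) ^ e u v) * (-1) ^ e u v = 1 := fun u v => by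
    rw [← mul_pow, neg_one_mul, neg_neg, one_pow]
  rw [rename_delta e hsym _ hτ]
  congr 1
  rcases hjk.lt_or_gt with h | h
  · exact prod_inv_swap (fun u v => (-1 : MvPolynomial S F) ^ e u v)
      (fun u v => by rw [hsym]) h2 j k h fun v _ _ => by rw [he]
  · rw [swap_comm, hsym]
    exact prod_inv_swap (fun u v => (-1 : MvPolynomial S F) ^ e u v)
      (fun u v => by rw [hsym]) h2 k j h fun v _ _ => by rw [he]

end delta

end Crest.Agent.R059.Stab537
end

-- ▼ part R059/SignDP_613
section

set_option autoImplicit false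
set_option linter.unusedSectionVars false

namespace Crest.Agent.R059.Thin613

open MvPolynomial Finset Deg359 PL547

section general

variable {P : Type*} [Fintype P] [DecidableEq P]
variable {L : Type*} [Fintype L] [LinearOrder L]

/-- number of arrows from the block `i` to the block `j` -/
noncomputable def eL (arr : P → P → ℕ) (f : P → L) (i j : L) : ℕ :=
  ∑ a ∈ fib f i, ∑ b ∈ fib f j, arr a b

/-- `DP` as a product over pairs of labels -/
theorem DP_eq (A : Type*) [CommRing A] (arr : P → P → ℕ) (f : P → L) :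
    DP A arr f = ∏ i, ∏ j, if i < j then (X j - X i : MvPolynomial L A) ^ eL arr f i j else 1 := by
  classical
  unfold DP
  rw [← Finset.prod_fiberwise_of_maps_to
    (s := (univ : Finset (P × P)).filter (fun x => f x.1 < f x.2))
    (t := (univ : Finset (L × L))) (g := fun x => (f x.1, f x.2)) (fun _ _ => mem_univ _)]
  rw [← Finset.univ_product_univ, Finset.prod_product]
  refine Finset.prod_congr rfl fun i _ => Finset.prod_congr rfl fun j _ => ?_
  by_cases hij : i < j
  · rw [if_pos hij]
    have h1 : (((univ : Finset (P × P)).filter (fun x => f x.1 < f x.2)).filter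
        (fun x => (f x.1, f x.2) = (i, j))) = fib f i ×ˢ fib f j := by
      ext ⟨a, b⟩
      simp only [Finset.mem_filter, Finset.mem_univ, true_and, Prod.mk.injEq, Finset.mem_product,
        mem_fib]
      constructor
      · rintro ⟨_, h⟩; exact h
      · rintro ⟨h1, h2⟩
        exact ⟨by rw [h1, h2]; exact hij, h1, h2⟩
    rw [h1, Finset.prod_product]
    unfold eL
    rw [← Finset.prod_pow_eq_pow_sum]
    refine Finset.prod_congr rfl fun a ha => ?_
    rw [← Finset.prod_pow_eq_pow_sum]
    refine Finset.prod_congr rfl fun b hb => ?_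
    rw [mem_fib] at ha hb
    rw [ha, hb]
  · rw [if_neg hij]
    refine Finset.prod_eq_one ?_
    rintro ⟨a, b⟩ hx
    simp only [Finset.mem_filter, Finset.mem_univ, true_and, Prod.mk.injEq] at hx
    rw [hx.2.1, hx.2.2] at hx
    exact absurd hx.1 hij

/-- one swap of two labels with the same arrow numbers -/
theorem rename_DP_swap (A : Type*) [CommRing A] (arr : P → P → ℕ) (f : P → L)
    (hsym : ∀ u v, eL arr f u v = eL arr f v u) (j k : L) (hjk : j ≠ k)
    (he : ∀ v, eL arr f j v = eL arr f k v) :
    rename (Equiv.swap j k) (DP A arr f) = (-1 : MvPolynomial L A) ^ eL arr f j k * DP A arr f := by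
  rw [DP_eq]
  exact Stab537.rename_delta_swap (eL arr f) hsym j k hjk he

end general

section model

variable {I : Type*} [Fintype I] [DecidableEq I] {T : Type*} [Fintype T] [DecidableEq T]
variable (cl : T → I → ℕ) (m : T → ℕ)

/-- the arrow form on dimension vectors -/
def kf (k : I → I → ℕ) (c c' : I → ℕ) : ℕ := ∑ i, ∑ j, k i j * c i * c' j

/-- arrows on the model set -/
def arrS (k : I → I → ℕ) (x y : Sm cl m) : ℕ := k (colS cl m x) (colS cl m y)

theorem sum_blk {M : Type*} [AddCommMonoid M] (F : Sm cl m → M) (j : Jm m) :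
    ∑ a ∈ fib (blk cl m) j, F a = ∑ x : Vt (cl j.1), F ⟨j, x⟩ := by
  classical
  refine (Finset.sum_bij (fun x _ => (⟨j, x⟩ : Sm cl m)) ?_ ?_ ?_ ?_).symm
  · intro x _
    rw [mem_fib]; rfl
  · intro x _ y _ h
    simpa using h
  · rintro ⟨j', x⟩ hx
    rw [mem_fib] at hx
    change j' = j at hx
    subst hx
    exact ⟨x, mem_univ _, rfl⟩
  · intro x _
    rfl

theorem sum_Vt {M : Type*} [AddCommMonoid M] (c : I → ℕ) (F : I → M) :
    ∑ x : Vt c, F x.1 = ∑ i, c i • F i := by
  rw [Fintype.sum_sigma]
  simp

theorem eL_blk (k : I → I → ℕ) (j j' : Jm m) :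
    eL (arrS cl m k) (blk cl m) j j' = kf k (cl j.1) (cl j'.1) := by
  unfold eL kf
  rw [sum_blk]
  have h1 : ∀ x : Vt (cl j.1), (∑ b ∈ fib (blk cl m) j', arrS cl m k ⟨j, x⟩ b) =
      ∑ i', cl j'.1 i' * k x.1 i' := by
    intro x
    rw [sum_blk]
    change ∑ y : Vt (cl j'.1), k x.1 y.1 = _
    rw [sum_Vt (cl j'.1) (fun i' => k x.1 i')]
    simp
  rw [Finset.sum_congr rfl fun x _ => h1 x]
  rw [sum_Vt (cl j.1) (fun i => ∑ i', cl j'.1 i' * k i i')]
  refine Finset.sum_congr rfl fun i _ => ?_
  rw [smul_eq_mul, Finset.mul_sum]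
  refine Finset.sum_congr rfl fun i' _ => ?_
  ring

/-- the sign of a block permutation on the difference product -/
theorem rename_DP_pr (A : Type*) [CommRing A] [LinearOrder (Jm m)] (k : I → I → ℕ)
    (hsym : ∀ t t', kf k (cl t) (cl t') = kf k (cl t') (cl t))
    (ρ : ∀ t, Equiv.Perm (Fin (m t))) :
    rename (pr ρ) (DP A (arrS cl m k) (blk cl m)) =
      (((∏ t, Equiv.Perm.sign (ρ t) ^ kf k (cl t) (cl t) : ℤˣ) : ℤ) : MvPolynomial (Jm m) A) *
        DP A (arrS cl m k) (blk cl m) := by
  classical
  set D := DP A (arrS cl m k) (blk cl m) with hD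
  let S : Submonoid (∀ t, Equiv.Perm (Fin (m t))) :=
    { carrier := {ρ | rename (pr ρ) D =
        (((∏ t, Equiv.Perm.sign (ρ t) ^ kf k (cl t) (cl t) : ℤˣ) : ℤ) : MvPolynomial (Jm m) A) * D}
      mul_mem' := by
        intro ρ ρ' h h'
        change rename _ _ = _ at h h' ⊢
        have h1 : (pr (ρ * ρ') : Jm m → Jm m) = pr ρ ∘ pr ρ' := by
          funext j; rfl
        rw [h1, ← rename_rename, h', map_mul, h, map_intCast]
        simp only [Pi.mul_apply, Equiv.Perm.sign_mul, mul_pow, Finset.prod_mul_distrib,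
          Units.val_mul, Int.cast_mul]
        ring
      one_mem' := by
        change rename _ _ = _
        have h1 : (pr (1 : ∀ t, Equiv.Perm (Fin (m t))) : Jm m → Jm m) = id := by
          funext j; rfl
        rw [h1, rename_id]
        simp }
  suffices h : ρ ∈ S from h
  refine Submonoid.pi_mem_of_mulSingle_mem ρ fun t => ?_
  -- one type at a time
  have hmap : ∀ σ σ' : Equiv.Perm (Fin (m t)),
      (Pi.mulSingle t (σ * σ') : ∀ t, Equiv.Perm (Fin (m t))) =
        Pi.mulSingle t σ * Pi.mulSingle t σ' := fun σ σ' =>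
    map_mul (MonoidHom.mulSingle (fun t => Equiv.Perm (Fin (m t))) t) σ σ'
  refine Equiv.Perm.swap_induction_on
    (motive := fun σ => (Pi.mulSingle t σ : ∀ t, Equiv.Perm (Fin (m t))) ∈ S) (ρ t) ?_ ?_
  · rw [Pi.mulSingle_one]; exact S.one_mem
  · intro σ x y hxy hσ
    rw [hmap]
    refine S.mul_mem ?_ hσ
    change rename (pr (Pi.mulSingle t (Equiv.swap x y))) D = _ * D
    have h1 : pr (Pi.mulSingle t (Equiv.swap x y)) =
        Equiv.swap (⟨t, x⟩ : Jm m) ⟨t, y⟩ := by
      ext1 ⟨t', z⟩
      rw [pr_apply]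
      by_cases ht : t' = t
      · subst ht
        simp only [Pi.mulSingle_eq_same]
        rw [Equiv.swap_apply_def, Equiv.swap_apply_def]
        by_cases hzx : z = x
        · simp [hzx]
        · by_cases hzy : z = y
          · simp [hzy, Ne.symm hxy]
          · simp [hzx, hzy]
      · simp only [Pi.mulSingle_eq_of_ne ht]
        rw [Equiv.swap_apply_of_ne_of_ne]
        · rfl
        · intro h
          exact ht (congrArg Sigma.fst h)
        · intro h
          exact ht (congrArg Sigma.fst h)
    rw [h1]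
    have hne : (⟨t, x⟩ : Jm m) ≠ ⟨t, y⟩ := by
      intro h
      exact hxy (by simpa using h)
    have key := rename_DP_swap A (arrS cl m k) (blk cl m)
      (fun u v => by rw [eL_blk, eL_blk]; exact hsym _ _) _ _ hne
      (fun v => by rw [eL_blk, eL_blk])
    have key' : rename (Equiv.swap (⟨t, x⟩ : Jm m) ⟨t, y⟩) D =
        (-1) ^ eL (arrS cl m k) (blk cl m) (⟨t, x⟩ : Jm m) ⟨t, y⟩ * D := by
      convert key
    rw [key']
    congr 1
    rw [eL_blk]
    have h2 : (∏ t', Equiv.Perm.sign ((Pi.mulSingle t (Equiv.swap x y) :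
        ∀ t, Equiv.Perm (Fin (m t))) t') ^ kf k (cl t') (cl t') : ℤˣ) =
        (-1) ^ kf k (cl t) (cl t) := by
      rw [Finset.prod_eq_single t]
      · rw [Pi.mulSingle_eq_same, Equiv.Perm.sign_swap hxy]
      · intro t' _ ht'
        rw [Pi.mulSingle_eq_of_ne ht']
        simp
      · simp
    rw [h2]
    push_cast
    rfl


/-- the same with rational scalars -/
theorem rename_DP_pr_smul (A : Type*) [CommRing A] [Algebra ℚ A] [LinearOrder (Jm m)]
    (k : I → I → ℕ)
    (hsym : ∀ t t', kf k (cl t) (cl t') = kf k (cl t') (cl t))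
    (ρ : ∀ t, Equiv.Perm (Fin (m t))) :
    rename (pr ρ) (DP A (arrS cl m k) (blk cl m)) =
      (∏ t, sg (ρ t) ^ kf k (cl t) (cl t) : ℚ) • DP A (arrS cl m k) (blk cl m) := by
  rw [rename_DP_pr cl m A k hsym ρ, Algebra.smul_def]
  congr 1
  rw [← map_intCast (algebraMap ℚ (MvPolynomial (Jm m) A))]
  congr 1
  unfold sg
  push_cast
  rfl

end model

end Crest.Agent.R059.Thin613
end

-- ▼ part R059/WordsS3_537
section

/-!
Row 59, TEAM THIN, leaf T7 / piece (S3) of 547 (helper537): word functions which transform by a sign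
under permutations of the places of equal type.
-/

set_option autoImplicit false
set_option linter.unusedSectionVars false

namespace Crest.Agent.R059.WordsS3_537

open Equiv Equiv.Perm Finset

variable {T : Type*} [Fintype T] {m : T → ℕ} {A : T → Type*} [∀ t, LinearOrder (A t)]

/-- monotone on every type, strictly monotone on the odd ones -/
def Adm (p : T → ℕ) (φ : ∀ t, Fin (m t) → A t) : Prop :=
  ∀ t, Monotone (φ t) ∧ (Odd (p t) → StrictMono (φ t))




theorem eq_of_comp_eq {n : ℕ} {α : Type*} [LinearOrder α] {f g : Fin n → α} (hf : Monotone f)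
    (hg : Monotone g) (σ : Perm (Fin n)) (h : g ∘ σ = f) : f = g := by
  have h1 : f ∘ Tuple.sort f = f := by
    have := (Tuple.comp_sort_eq_comp_iff_monotone (f := f) (σ := 1)).2 (by simpa using hf)
    simpa using this.symm
  have h2 : g ∘ Tuple.sort g = g := by
    have := (Tuple.comp_sort_eq_comp_iff_monotone (f := g) (σ := 1)).2 (by simpa using hg)
    simpa using this.symm
  have h3 := Tuple.comp_perm_comp_sort_eq_comp_sort (f := g) (σ := σ)
  rw [h] at h3
  rw [← h1, h3, h2]



section count

variable [DecidableEq T] [DecidableEq (∀ t, Fin (m t) → A t)]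




end count

end Crest.Agent.R059.WordsS3_537
end

-- ▼ part R059/Loc_830
section

/-!
# Row 59, Theorem B: the abstract local lemma (helper830)

`G` a finite group acting on `M` with a sign `sg`; `B ≤ A` submodules (growth `≤ g - 1`, `≤ g` at the
place), `T : M → S` the symbol map (`ker T ∩ A = B`); words `Ω` with independent symbols `e φ`,
elements `Mo φ ∈ A` with symbol `e φ`; `N` = elements of `G` which fix the place, they permute the
symbols up to signs `η`, the other elements kill the symbol of `Mo φ`.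
The signed orbit sums `P t` of the representatives `rep t` of the admissible words are independent
modulo `B`, and span the alternating elements of `A` (whose symbol is a combination of words) modulo
`B`.
-/

set_option autoImplicit false
set_option linter.unusedSectionVars false

namespace Crest.Agent.R059.Loc830

open Finset

variable {F M S G Ω τ : Type*} [Field F] [CharZero F] [AddCommGroup M] [Module F M]
  [AddCommGroup S] [Module F S] [Group G] [Fintype G]

/-- the local data -/
structure Loc (F M S G Ω τ : Type*) [Field F] [AddCommGroup M] [Module F M]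
    [AddCommGroup S] [Module F S] [Group G] where
  /-- the action -/
  ρ : G → M →ₗ[F] M
  ρ_mul : ∀ w w' x, ρ (w * w') x = ρ w (ρ w' x)
  /-- the sign -/
  sg : G → F
  sg_mul : ∀ w w', sg (w * w') = sg w * sg w'
  sg_sq : ∀ w, sg w * sg w = 1
  A : Submodule F M
  B : Submodule F M
  BA : B ≤ A
  /-- the symbol -/
  T : M →ₗ[F] S
  ker : ∀ x ∈ A, T x = 0 ↔ x ∈ B
  /-- the stabiliser of the place -/
  N : G → Prop
  N_one : N 1
  N_A : ∀ w, N w → ∀ x ∈ A, ρ w x ∈ A
  a : G → Ω → Ω
  a_one : ∀ φ, a 1 φ = φ
  a_inj : ∀ w, N w → Function.Injective (a w)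
  e : Ω → S
  ind : LinearIndependent F e
  Mo : Ω → M
  Mo_A : ∀ φ, Mo φ ∈ A
  T_Mo : ∀ φ, T (Mo φ) = e φ
  Mo_B : ∀ w, ¬ N w → ∀ φ, ρ w (Mo φ) ∈ B
  Φ : G → S →ₗ[F] S
  T_ρ : ∀ w, N w → ∀ x ∈ A, T (ρ w x) = Φ w (T x)
  η : G → F
  Φ_e : ∀ w, N w → ∀ φ, Φ w (e φ) = η w • e (a w φ)
  adm : Ω → Prop
  rep : τ → Ω
  adm_rep : ∀ t, adm (rep t)
  orbit : ∀ φ, adm φ → ∃ t w, N w ∧ a w (rep t) = φ
  orbit_inj : ∀ t t' w, N w → a w (rep t) = rep t' → t = t'
  sign_pos : ∀ φ, adm φ → ∀ w, N w → a w φ = φ → sg w * η w = 1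
  sign_neg : ∀ φ, ¬ adm φ → ∃ w, N w ∧ a w φ = φ ∧ sg w * η w = -1

variable (D : Loc F M S G Ω τ)

/-- the signed orbit sum -/
noncomputable def P (t : τ) : M := ∑ w, D.sg w • D.ρ w (D.Mo (D.rep t))

omit [CharZero F] in
theorem P_alt (t : τ) (w : G) : D.ρ w (P D t) = D.sg w • P D t := by
  unfold P
  rw [map_sum, Finset.smul_sum]
  refine Fintype.sum_equiv (Equiv.mulLeft w) _ _ fun v => ?_
  rw [map_smul, Equiv.coe_mulLeft, D.sg_mul, D.ρ_mul, smul_smul, ← mul_assoc, D.sg_sq, one_mul]

omit [CharZero F] in
theorem P_mem (t : τ) : P D t ∈ D.A := by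
  unfold P
  refine Submodule.sum_mem _ fun w _ => Submodule.smul_mem _ _ ?_
  by_cases hw : D.N w
  · exact D.N_A w hw _ (D.Mo_A _)
  · exact D.BA (D.Mo_B w hw _)

open scoped Classical in
/-- the coefficient function of the symbol of `P t` -/
noncomputable def cP (t : τ) : Ω →₀ F :=
  ∑ w ∈ univ.filter (fun w => D.N w), Finsupp.single (D.a w (D.rep t)) (D.sg w * D.η w)

omit [CharZero F] in
theorem T_P (t : τ) : D.T (P D t) = Finsupp.linearCombination F D.e (cP D t) := by
  classical
  unfold P cP
  rw [map_sum, map_sum, Finset.sum_filter]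
  refine Finset.sum_congr rfl fun w _ => ?_
  rw [map_smul]
  split_ifs with hw
  · rw [D.T_ρ w hw _ (D.Mo_A _), D.T_Mo, D.Φ_e w hw, Finsupp.linearCombination_single, smul_smul]
  · rw [(D.ker _ (D.BA (D.Mo_B w hw _))).2 (D.Mo_B w hw _), smul_zero]

/-- order of the stabiliser of the representative -/
noncomputable def nst (t : τ) : ℕ := by
  classical exact (univ.filter (fun w => D.N w ∧ D.a w (D.rep t) = D.rep t)).card

omit [CharZero F] in
theorem nst_pos (t : τ) : 0 < nst D t := by
  classical
  unfold nst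
  refine Finset.card_pos.2 ⟨1, ?_⟩
  rw [Finset.mem_filter]
  exact ⟨mem_univ _, D.N_one, D.a_one _⟩

open scoped Classical in
omit [CharZero F] in
theorem cP_rep (t t' : τ) : cP D t (D.rep t') = if t = t' then (nst D t : F) else 0 := by
  unfold cP
  rw [Finsupp.finsetSum_apply]
  by_cases h : t = t'
  · subst h
    rw [if_pos rfl]
    unfold nst
    rw [Finset.card_eq_sum_ones, Finset.sum_filter, Finset.sum_filter, Nat.cast_sum]
    refine Finset.sum_congr rfl fun w _ => ?_
    by_cases hw : D.N w
    · rw [if_pos hw, Finsupp.single_apply]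
      by_cases ha : D.a w (D.rep t) = D.rep t
      · rw [if_pos ha, if_pos ⟨hw, ha⟩, D.sign_pos _ (D.adm_rep t) w hw ha]
        simp
      · rw [if_neg ha, if_neg (fun h => ha h.2)]
        simp
    · rw [if_neg hw, if_neg (fun h => hw h.1)]
      simp
  · rw [if_neg h]
    refine Finset.sum_eq_zero fun w hw => ?_
    rw [Finset.mem_filter] at hw
    rw [Finsupp.single_apply, if_neg]
    exact fun h2 => h (D.orbit_inj t t' w hw.2 h2)

/-- **local independence** -/
theorem LI (c : τ →₀ F) (hc : (c.sum fun t x => x • P D t) ∈ D.B) : c = 0 := by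
  classical
  have hA : (c.sum fun t x => x • P D t) ∈ D.A := D.BA hc
  have h0 := (D.ker _ hA).2 hc
  have h1 : Finsupp.linearCombination F D.e (c.sum fun t x => x • cP D t) = 0 := by
    rw [← h0, Finsupp.sum, Finsupp.sum, map_sum, map_sum]
    refine Finset.sum_congr rfl fun t _ => ?_
    rw [map_smul, map_smul, T_P]
  have h2 : (c.sum fun t x => x • cP D t) = 0 :=
    (linearIndependent_iff.1 D.ind) _ h1
  ext t
  have h3 := DFunLike.congr_fun h2 (D.rep t)
  rw [Finsupp.sum, Finsupp.finsetSum_apply, Finsupp.coe_zero, Pi.zero_apply] at h3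
  have h4 : ∑ i ∈ c.support, (c i • cP D i) (D.rep t) = c t * (nst D t : F) := by
    rw [Finset.sum_eq_single t]
    · rw [Finsupp.smul_apply, cP_rep, if_pos rfl, smul_eq_mul]
    · intro i _ hi
      rw [Finsupp.smul_apply, cP_rep, if_neg hi, smul_zero]
    · intro ht
      rw [Finsupp.notMem_support_iff.1 ht, zero_smul, Finsupp.coe_zero, Pi.zero_apply]
  rw [h4] at h3
  have h5 : (nst D t : F) ≠ 0 := by exact_mod_cast (nst_pos D t).ne'
  simpa [h5] using h3

omit [CharZero F] in
/-- equivariance of the coefficient function -/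
theorem eqv {x : M} (hx : x ∈ D.A) {w : G} (hw : D.N w) (halt : D.ρ w x = D.sg w • x) {C : Ω →₀ F}
    (hC : D.T x = Finsupp.linearCombination F D.e C) (φ : Ω) :
    C (D.a w φ) = D.sg w * D.η w * C φ := by
  classical
  have h1 : D.sg w • D.T x = D.Φ w (D.T x) := by
    rw [← map_smul, ← halt, D.T_ρ w hw x hx]
  have h2 : D.Φ w (Finsupp.linearCombination F D.e C) =
      Finsupp.linearCombination F D.e (D.η w • C.mapDomain (D.a w)) := by
    rw [Finsupp.linearCombination_apply, Finsupp.sum, map_sum, map_smul,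
      Finsupp.linearCombination_mapDomain, Finsupp.linearCombination_apply, Finsupp.sum,
      Finset.smul_sum]
    refine Finset.sum_congr rfl fun ψ _ => ?_
    rw [map_smul, D.Φ_e w hw, smul_comm]
    rfl
  rw [hC, h2, ← map_smul] at h1
  have h3 := (linearIndependent_iff_injective_finsuppLinearCombination.1 D.ind) h1
  have h4 := DFunLike.congr_fun h3 (D.a w φ)
  rw [Finsupp.smul_apply, Finsupp.smul_apply, Finsupp.mapDomain_apply (D.a_inj w hw)] at h4
  simp only [smul_eq_mul] at h4
  calc C (D.a w φ) = D.sg w * (D.sg w * C (D.a w φ)) := by rw [← mul_assoc, D.sg_sq, one_mul]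
    _ = D.sg w * (D.η w * C φ) := by rw [h4]
    _ = _ := by ring

/-- an alternating element whose symbol vanishes at the representatives has symbol zero -/
theorem eq_zero_of_rep {x : M} (hx : x ∈ D.A) (halt : ∀ w, D.N w → D.ρ w x = D.sg w • x)
    {C : Ω →₀ F} (hC : D.T x = Finsupp.linearCombination F D.e C) (h0 : ∀ t, C (D.rep t) = 0) :
    C = 0 := by
  ext φ
  by_cases hφ : D.adm φ
  · obtain ⟨t, w, hw, rfl⟩ := D.orbit φ hφ
    rw [eqv D hx hw (halt w hw) hC, h0, mul_zero]
    rfl
  · obtain ⟨w, hw, ha, hs⟩ := D.sign_neg φ hφ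
    have h1 := eqv D hx hw (halt w hw) hC φ
    rw [ha, hs] at h1
    have h2 : C φ + C φ = 0 := by
      nth_rw 1 [h1]
      ring
    have h3 : (2 : F) * C φ = 0 := by rw [two_mul]; exact h2
    simpa using h3

/-- **local spanning** -/
theorem LS {f : M} (hf : f ∈ D.A) (halt : ∀ w, D.N w → D.ρ w f = D.sg w • f)
    (hT : D.T f ∈ Submodule.span F (Set.range D.e)) :
    ∃ h ∈ Submodule.span F (Set.range (P D)), f - h ∈ D.B := by
  classical
  obtain ⟨C, hC⟩ := (Finsupp.mem_span_range_iff_exists_finsupp).1 hT
  have hC' : D.T f = Finsupp.linearCombination F D.e C := by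
    rw [← hC, Finsupp.linearCombination_apply]
  have hrep : Function.Injective D.rep := fun t t' h =>
    D.orbit_inj t t' 1 D.N_one (by rw [D.a_one]; exact h)
  set h : M := ∑ t ∈ (C.comapDomain D.rep hrep.injOn).support,
    (C (D.rep t) / (nst D t : F)) • P D t with hh
  have hspan : h ∈ Submodule.span F (Set.range (P D)) :=
    Submodule.sum_mem _ fun t _ => Submodule.smul_mem _ _ (Submodule.subset_span ⟨t, rfl⟩)
  have hhA : h ∈ D.A := Submodule.sum_mem _ fun t _ => Submodule.smul_mem _ _ (P_mem D t)
  have hhalt : ∀ w, D.ρ w h = D.sg w • h := by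
    intro w
    rw [hh, map_sum, Finset.smul_sum]
    refine Finset.sum_congr rfl fun t _ => ?_
    rw [map_smul, P_alt, smul_comm]
  refine ⟨h, hspan, ?_⟩
  have hfh : f - h ∈ D.A := D.A.sub_mem hf hhA
  set C' : Ω →₀ F := C - ∑ t ∈ (C.comapDomain D.rep hrep.injOn).support,
    (C (D.rep t) / (nst D t : F)) • cP D t with hC''
  have hTC' : D.T (f - h) = Finsupp.linearCombination F D.e C' := by
    rw [map_sub, hC', hC'', map_sub, hh, map_sum, map_sum]
    congr 1
    refine Finset.sum_congr rfl fun t _ => ?_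
    rw [map_smul, map_smul, T_P]
  have hz : C' = 0 := by
    refine eq_zero_of_rep D hfh (fun w hw => ?_) hTC' fun t => ?_
    · rw [map_sub, halt w hw, hhalt w, smul_sub]
    · rw [hC'', Finsupp.sub_apply, Finsupp.finsetSum_apply]
      have h5 : (nst D t : F) ≠ 0 := by exact_mod_cast (nst_pos D t).ne'
      rw [sub_eq_zero]
      symm
      by_cases ht : C (D.rep t) = 0
      · rw [ht]
        refine Finset.sum_eq_zero fun i hi => ?_
        rw [Finsupp.smul_apply, cP_rep, if_neg, smul_zero]
        rintro rfl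
        rw [Finsupp.mem_support_iff, Finsupp.comapDomain_apply] at hi
        exact hi ht
      · rw [Finset.sum_eq_single t]
        · rw [Finsupp.smul_apply, cP_rep, if_pos rfl, smul_eq_mul, div_mul_cancel₀ _ h5]
        · intro i _ hi
          rw [Finsupp.smul_apply, cP_rep, if_neg hi, smul_zero]
        · intro hi
          exfalso
          apply hi
          rw [Finsupp.mem_support_iff, Finsupp.comapDomain_apply]
          exact ht
  rw [hz, map_zero] at hTC'
  exact (D.ker _ hfh).1 hTC'

end Crest.Agent.R059.Loc830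
end

-- ▼ part R059/PLloc_830

/-!
# Row 59, Theorem B, half 2 (helper830): the local lemma at a place and a level, in 547's shape
-/

set_option autoImplicit false
set_option linter.unusedSectionVars false

namespace Crest.Agent.R059.PLloc830

open MvPolynomial Finset Thin613 Deg359 PL547

/-! ### degree and renaming -/

section top

variable {L L' A : Type*} [CommRing A]



end top

/-! ### growth spaces and symbols -/

section growth

variable {P : Type*} [Fintype P] [DecidableEq P] {L : Type*} (arr : P → P → ℕ) (th : P → ℤ)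
  (f : P → L)






end growth

/-! ### colour preserving permutations as a group -/

section group

variable {I : Type} {P : Type}

variable [Fintype P] [DecidableEq P]

theorem alt_eq_sum (c : P → I) (f : MvPolynomial P ℚ) :
    alt c f = ∑ w : GS c, sg (w : Equiv.Perm P) • rename (w : Equiv.Perm P) f := by
  rw [alt]
  refine Finset.sum_subtype (GG c) (fun w => ?_) (fun w => sg w • rename w f)
  rw [mem_GG]
  rfl


end group

/-! ### block permutations of the model -/

section model

variable {I : Type} [Fintype I] [DecidableEq I] {T : Type} [Fintype T] [LinearOrder T]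
  {cl : T → I → ℕ} {m : T → ℕ}

/-- `w` permutes the blocks by `ρ` -/
def BP (w : Equiv.Perm (Sm cl m)) (ρ : ∀ t, Equiv.Perm (Fin (m t))) : Prop :=
  ∀ x, blk cl m (w x) = pr ρ (blk cl m x)


theorem BP_unique (pt : ∀ t, Vt (cl t)) {w : Equiv.Perm (Sm cl m)}
    {ρ ρ' : ∀ t, Equiv.Perm (Fin (m t))} (h : BP w ρ) (h' : BP w ρ') : ρ = ρ' := by
  funext t
  ext r
  have h1 := h ⟨⟨t, r⟩, pt t⟩
  rw [h' ⟨⟨t, r⟩, pt t⟩] at h1
  change (⟨t, ρ' t r⟩ : Jm m) = ⟨t, ρ t r⟩ at h1
  simp only [Sigma.mk.injEq, heq_eq_eq, true_and] at h1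
  rw [h1]


variable (cl m) in
/-- a colour preserving permutation with `blk` finer than `blk ∘ w` permutes the blocks -/
theorem exists_BP (hcl : Function.Injective cl) (pt : ∀ t, Vt (cl t))
    {w : Equiv.Perm (Sm cl m)} (hw : ∀ x, colS cl m (w x) = colS cl m x)
    (hf : Fine (blk cl m) (blk cl m ∘ w)) : ∃ ρ, BP w ρ := by
  classical
  set f : Jm m → Jm m := fun j => blk cl m (w ⟨j, pt j.1⟩) with hfdef
  have hf1 : ∀ x, blk cl m (w x) = f (blk cl m x) := fun x => hf x ⟨x.1, pt x.1.1⟩ rfl
  have hsurj : Function.Surjective f := by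
    intro j
    refine ⟨blk cl m (w.symm ⟨j, pt j.1⟩), ?_⟩
    rw [← hf1, Equiv.apply_symm_apply]
    rfl
  have hbij : Function.Bijective f := Finite.surjective_iff_bijective.1 hsurj
  -- types are preserved
  have htype : ∀ j, (f j).1 = j.1 := by
    intro j
    apply hcl
    funext i
    have e : {x : Vt (cl j.1) // x.1 = i} ≃ {y : Vt (cl (f j).1) // y.1 = i} := by
      have h2 : ∀ x : Vt (cl j.1), ∃ y : Vt (cl (f j).1), w ⟨j, x⟩ = ⟨f j, y⟩ := by
        intro x
        have h3 := hf1 ⟨j, x⟩
        rcases hwx : w ⟨j, x⟩ with ⟨j', y⟩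
        rw [hwx] at h3
        change j' = f j at h3
        subst h3
        exact ⟨y, rfl⟩
      choose g hg using h2
      have hgi : ∀ x, (g x).1 = x.1 := by
        intro x
        have h4 := hw ⟨j, x⟩
        rw [hg] at h4
        exact h4
      refine Equiv.ofBijective (fun x => ⟨g x.1, by rw [hgi, x.2]⟩) ⟨?_, ?_⟩
      · rintro ⟨x, hx⟩ ⟨y, hy⟩ hxy
        simp only [Subtype.mk.injEq] at hxy
        have h5 : w ⟨j, x⟩ = w ⟨j, y⟩ := by rw [hg, hg, hxy]
        have h6 := w.injective h5
        simp only [Sigma.mk.injEq, heq_eq_eq, true_and] at h6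
        exact Subtype.ext h6
      · rintro ⟨y, hy⟩
        rcases hz : w.symm ⟨f j, y⟩ with ⟨j', x⟩
        have h7 : w ⟨j', x⟩ = ⟨f j, y⟩ := by rw [← hz, Equiv.apply_symm_apply]
        have h8 := hf1 ⟨j', x⟩
        rw [h7] at h8
        change f j = f j' at h8
        have h9 := hbij.1 h8
        subst h9
        have h10 := hg x
        rw [h7] at h10
        simp only [Sigma.mk.injEq, heq_eq_eq, true_and] at h10
        refine ⟨⟨x, ?_⟩, ?_⟩
        · rw [← hgi, ← h10]; exact hy
        · exact Subtype.ext h10.symm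
    have h11 := Fintype.card_congr e
    rw [Fintype.card_subtype, Fintype.card_subtype, card_Vt, card_Vt] at h11
    exact h11.symm
  obtain ⟨ρ, hρ⟩ := exists_fibrewise (Equiv.ofBijective f hbij) htype
  refine ⟨ρ, fun x => ?_⟩
  rw [hf1]
  exact DFunLike.congr_fun hρ (blk cl m x)

end model

end Crest.Agent.R059.PLloc830
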