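import Mathlib
import Crest.Agent.R059.PL3_547
import Crest.Agent.R059.PL1_547
import Crest.Agent.R059.Thin4c_613
import Crest.Agent.R059.ThinEq_494
import Crest.Agent.R059.PL2_547
import Crest.Agent.R059.PLloc_830

-- ▼ part R059/PL4_547
section

/-!
# Row 59, Theorem B, half 2 (helper547): symbol map and its equivariance
-/

set_option autoImplicit false
set_option linter.unusedSectionVars false

namespace Crest.Agent.R059.PL547

open MvPolynomial Finset Thin613 Deg359

section symb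

theorem top_rename_equiv {L A : Type*} [CommRing A] (ρ : Equiv.Perm L) (m : ℤ)
    (p : MvPolynomial L A) : top m (rename ρ p) = rename ρ (top m p) := by
  ext α
  obtain ⟨β, rfl⟩ : ∃ β : L →₀ ℕ, β.mapDomain ρ = α := ⟨α.mapDomain ρ.symm, by
    rw [← Finsupp.mapDomain_comp]
    have : (ρ ∘ ρ.symm : L → L) = id := by ext x; simp
    rw [this, Finsupp.mapDomain_id]⟩
  rw [coeff_top, coeff_rename_mapDomain _ ρ.injective, coeff_rename_mapDomain _ ρ.injective,
    coeff_top, Finsupp.degree_mapDomain]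

theorem top_C_mul {L A : Type*} [CommRing A] (m : ℤ) (a : A) (p : MvPolynomial L A) :
    top m (C a * p) = C a * top m p := by
  ext α
  rw [coeff_top, coeff_C_mul, coeff_C_mul, coeff_top]
  split_ifs <;> simp

variable {I : Type} [Fintype I] [DecidableEq I] (k : I → I → ℕ) (θ : I → ℤ)
variable {P : Type} [Fintype P] [DecidableEq P] {L : Type}

/-- the target of the symbol map -/
abbrev Sy (c : P → I) (b : P → L) : Type :=
  MvPolynomial L (MvPolynomial P ℚ ⧸ JJ ℚ (ar k c) (tw θ c) b)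

theorem smul_Sy (c : P → I) (b : P → L) (r : ℚ) (x : Sy k θ c b) :
    r • x = C (Ideal.Quotient.mk _ (C r)) * x := by
  rw [Algebra.smul_def]
  rfl

/-- the symbol map -/
noncomputable def Tm (c : P → I) (b : P → L) (g : ℤ) :
    MvPolynomial P ℚ →ₗ[ℚ] Sy k θ c b where
  toFun x := top ((NF (ar k c) b : ℤ) + g) (sh ℚ (ar k c) (tw θ c) b x)
  map_add' x y := by rw [map_add, Deg359.top_add]
  map_smul' r x := by
    rw [RingHom.id_apply, smul_Sy, smul_eq_C_mul, map_mul, sh_C, top_C_mul]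

variable {k θ}

theorem Tm_apply (c : P → I) (b : P → L) (g : ℤ) (x : MvPolynomial P ℚ) :
    Tm k θ c b g x = top ((NF (ar k c) b : ℤ) + g) (sh ℚ (ar k c) (tw θ c) b x) := rfl

theorem Tm_ker (c : P → I) (b : P → L) (g : ℤ) {x : MvPolynomial P ℚ}
    (hx : x ∈ Gr k θ c b g) : Tm k θ c b g x = 0 ↔ x ∈ Gr k θ c b (g - 1) := by
  constructor
  · intro h
    have h1 := TD.of_top_eq_zero (show TD ((NF (ar k c) b : ℤ) + g)
      (sh ℚ (ar k c) (tw θ c) b x) from hx) h
    rw [mem_Gr, show ((NF (ar k c) b : ℤ) + (g - 1)) = (NF (ar k c) b : ℤ) + g - 1 by ring]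
    exact h1
  · intro h
    exact top_eq_zero_of_TD (show TD ((NF (ar k c) b : ℤ) + (g - 1))
      (sh ℚ (ar k c) (tw θ c) b x) from h) (by omega)

/-- a colour preserving permutation which permutes the blocks is a morphism -/
theorem mor_self {c : P → I} {b : P → L} {w : Equiv.Perm P} (hw : ∀ a, c (w a) = c a)
    {ρ : Equiv.Perm L} (hb : ∀ a, b (w a) = ρ (b a)) :
    ThinEq494.Mor (ar k c) (tw θ c) b (ar k c) (tw θ c) b w ρ where
  inj := w.injective
  arr_eq a a' := ar_perm hw a a'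
  th_eq a := tw_perm hw a
  lab := hb
  full a b' h := by
    refine ⟨w⁻¹ b', ?_, ?_⟩
    · apply ρ.injective
      rw [← hb, ← hb, ← h, ← Equiv.Perm.mul_apply, mul_inv_cancel, Equiv.Perm.one_apply]
    · rw [← Equiv.Perm.mul_apply, mul_inv_cancel, Equiv.Perm.one_apply]

/-- the action on the symbols -/
noncomputable def Phi {c : P → I} {b : P → L} {w : Equiv.Perm P} {ρ : Equiv.Perm L}
    (h : ThinEq494.Mor (ar k c) (tw θ c) b (ar k c) (tw θ c) b w ρ) :
    Sy k θ c b →ₗ[ℚ] Sy k θ c b where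
  toFun x := rename ρ (MvPolynomial.map (h.quot ℚ) x)
  map_add' x y := by rw [map_add, map_add]
  map_smul' r x := by
    rw [RingHom.id_apply, smul_Sy, smul_Sy, map_mul, map_mul, map_C, rename_C, h.quot_mk, rename_C]

theorem Phi_apply {c : P → I} {b : P → L} {w : Equiv.Perm P} {ρ : Equiv.Perm L}
    (h : ThinEq494.Mor (ar k c) (tw θ c) b (ar k c) (tw θ c) b w ρ) (x : Sy k θ c b) :
    Phi h x = rename ρ (MvPolynomial.map (h.quot ℚ) x) := rfl

theorem Tm_rename {c : P → I} {b : P → L} {w : Equiv.Perm P} {ρ : Equiv.Perm L}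
    (h : ThinEq494.Mor (ar k c) (tw θ c) b (ar k c) (tw θ c) b w ρ) (g : ℤ)
    (x : MvPolynomial P ℚ) : Tm k θ c b g (rename w x) = Phi h (Tm k θ c b g x) := by
  rw [Phi_apply, Tm_apply, Tm_apply, h.sh_rename, top_rename_equiv, top_map]

theorem rename_mem_Gr {c : P → I} {b : P → L} {w : Equiv.Perm P} {ρ : Equiv.Perm L}
    (h : ThinEq494.Mor (ar k c) (tw θ c) b (ar k c) (tw θ c) b w ρ) (g : ℤ)
    {x : MvPolynomial P ℚ} (hx : x ∈ Gr k θ c b g) : rename w x ∈ Gr k θ c b g :=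
  h.ud hx

theorem map_DP {A B : Type*} [CommRing A] [CommRing B] [LinearOrder L] (f : A →+* B)
    (arr : P → P → ℕ) (b : P → L) : MvPolynomial.map f (DP A arr b) = DP B arr b := by
  unfold DP
  rw [map_prod]
  refine Finset.prod_congr rfl fun x _ => ?_
  rw [map_pow, map_sub, map_X, map_X]

/-- `DP` is invariant under equivalences of particles -/
theorem DP_equiv {A : Type*} [CommRing A] [LinearOrder L] {Q : Type*} [Fintype Q]
    [DecidableEq Q] (E : Q ≃ P) (arr : P → P → ℕ) (arr' : Q → Q → ℕ) (b : P → L) (b' : Q → L)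
    (h1 : ∀ x y, arr' x y = arr (E x) (E y)) (h2 : ∀ x, b' x = b (E x)) :
    DP A arr b = DP A arr' b' := by
  unfold DP
  symm
  refine Finset.prod_bij (fun x _ => (E x.1, E x.2)) ?_ ?_ ?_ ?_
  · intro x hx
    simp only [mem_filter, mem_univ, true_and] at hx ⊢
    rwa [← h2, ← h2]
  · rintro ⟨a, a'⟩ _ ⟨c, c'⟩ _ h
    simp only [Prod.mk.injEq, EmbeddingLike.apply_eq_iff_eq] at h
    rw [h.1, h.2]
  · rintro ⟨a, a'⟩ ha
    refine ⟨(E.symm a, E.symm a'), ?_, by simp⟩
    simp only [mem_filter, mem_univ, true_and] at ha ⊢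
    rw [h2, h2]
    simpa using ha
  · intro x _
    rw [h1, h2, h2]

end symb

/-! ### action of the stabiliser on the placed letters -/

section act

variable {I : Type} [Fintype I] [DecidableEq I] {k : I → I → ℕ} {θ : I → ℤ}
  {T : Type} [Fintype T] [LinearOrder T] {cl : T → I → ℕ} {𝓛 : Letters k θ cl}

/-- inverse block permutation acting on words -/
def Wd.act {m : T → ℕ} (ρ : ∀ t, Equiv.Perm (Fin (m t))) (φ : Wd 𝓛 m) : Wd 𝓛 m :=
  fun t => φ t ∘ (ρ t).symm

theorem Wd.act_at {m : T → ℕ} (ρ : ∀ t, Equiv.Perm (Fin (m t))) (φ : Wd 𝓛 m) (j : Jm m) :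
    (φ.act ρ).at (pr ρ j) = φ.at j := by
  change φ j.1 ((ρ j.1).symm (ρ j.1 j.2)) = φ j.1 j.2
  rw [Equiv.symm_apply_apply]

theorem Wd.act_tot {m : T → ℕ} (ρ : ∀ t, Equiv.Perm (Fin (m t))) (φ : Wd 𝓛 m) :
    (φ.act ρ).tot = φ.tot := by
  unfold Wd.tot
  rw [← Equiv.sum_comp (pr ρ)]
  refine Finset.sum_congr rfl fun j _ => ?_
  exact congrArg Al.a (Wd.act_at ρ φ j)

theorem rename_wr_lp {m : T → ℕ} (ρ : ∀ t, Equiv.Perm (Fin (m t))) (φ : Wd 𝓛 m) :
    rename (wr ρ) φ.lp = (φ.act ρ).lp := by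
  unfold Wd.lp
  rw [map_prod, ← Equiv.prod_comp (pr ρ) (fun j => rename (Sigma.mk j)
    (𝓛.pol j.1 ((φ.act ρ).at j).l))]
  refine Finset.prod_congr rfl fun j _ => ?_
  rw [rename_rename]
  have h1 : 𝓛.pol (pr ρ j).1 ((φ.act ρ).at (pr ρ j)).l = 𝓛.pol j.1 (φ.at j).l :=
    congrArg (fun x : Al (𝓛.L j.1) => 𝓛.pol j.1 x.l) (Wd.act_at ρ φ j)
  rw [h1]
  rfl

theorem rename_fib_lp {m : T → ℕ} (g : ∀ j : Jm m, Equiv.Perm (Vt (cl j.1)))
    (hg : ∀ j a, colV (cl j.1) (g j a) = colV (cl j.1) a) (φ : Wd 𝓛 m) :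
    rename (Equiv.sigmaCongrRight g : Equiv.Perm (Sm cl m)) φ.lp =
      sg (Equiv.sigmaCongrRight g : Equiv.Perm (Sm cl m)) • φ.lp := by
  have hs : sg (Equiv.sigmaCongrRight g : Equiv.Perm (Sm cl m)) = ∏ j, sg (g j) := by
    unfold sg
    rw [sign_sigmaCongrRight]
    push_cast
    rfl
  unfold Wd.lp
  rw [map_prod, hs, ← Finset.prod_smul]
  refine Finset.prod_congr rfl fun j _ => ?_
  rw [rename_rename]
  have h1 : (⇑(Equiv.sigmaCongrRight g : Equiv.Perm (Sm cl m)) ∘ Sigma.mk j) =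
      Sigma.mk j ∘ g j := by
    funext x
    rfl
  rw [h1, ← rename_rename]
  have h2 : rename (g j) (𝓛.pol j.1 (φ.at j).l) = sg (g j) • 𝓛.pol j.1 (φ.at j).l :=
    (𝓛.mem j.1 (φ.at j).l).1 (g j) (hg j)
  rw [h2, map_smul]

/-- a colour preserving permutation of the model that permutes the blocks by `ρ` -/
theorem rename_lp {m : T → ℕ} (w : Equiv.Perm (Sm cl m)) (ρ : ∀ t, Equiv.Perm (Fin (m t)))
    (hw : ∀ x, colS cl m (w x) = colS cl m x) (hb : ∀ x, blk cl m (w x) = pr ρ (blk cl m x))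
    (φ : Wd 𝓛 m) :
    rename w φ.lp = (sg w * sg (wr (cl := cl) ρ)) • (φ.act ρ).lp := by
  have hfix : ∀ x : Sm cl m, (((wr (cl := cl) ρ)⁻¹ * w) x).1 = x.1 := by
    intro x
    rw [Equiv.Perm.mul_apply]
    have h1 : pr ρ (((wr (cl := cl) ρ)⁻¹ (w x)).1) = pr ρ x.1 := by
      have h2 := blk_wr (cl := cl) ρ ((wr (cl := cl) ρ)⁻¹ (w x))
      rw [← Equiv.Perm.mul_apply, mul_inv_cancel, Equiv.Perm.one_apply] at h2
      exact h2.symm.trans (hb x)
    exact (pr ρ).injective h1
  obtain ⟨g, hg⟩ := exists_fibrewise ((wr (cl := cl) ρ)⁻¹ * w) hfix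
  have hw2 : w = wr (cl := cl) ρ * (Equiv.sigmaCongrRight g : Equiv.Perm (Sm cl m)) := by
    rw [← hg, mul_inv_cancel_left]
  have hgc : ∀ j a, colV (cl j.1) (g j a) = colV (cl j.1) a := by
    intro j a
    have h1 := hw ⟨j, a⟩
    rw [hw2, Equiv.Perm.mul_apply, colS_wr] at h1
    exact h1
  have h3 : rename w φ.lp = rename (wr (cl := cl) ρ)
      (rename (Equiv.sigmaCongrRight g : Equiv.Perm (Sm cl m)) φ.lp) := by
    rw [rename_rename, hw2]
    rfl
  rw [h3, rename_fib_lp g hgc, map_smul, rename_wr_lp]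
  congr 1
  rw [hw2, sg_mul, mul_comm, ← mul_assoc, sg_mul_self, one_mul]

end act

end Crest.Agent.R059.PL547
end

-- ▼ part R059/Places_494
section

/-!
# Row 59, Theorem B, half 2, piece (S4) of helper547 #22735 (helper494)

Every good labelling of a coloured set is, up to a colour preserving permutation, the block labelling
of a place; hence growth conditions for alternating polynomials need only be checked at places.
-/

set_option autoImplicit false
set_option linter.unusedSectionVars false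

namespace Crest.Agent.R059.Places494

open MvPolynomial Finset Crest.Agent.R059.Thin613 Crest.Agent.R059.PL547

variable {I : Type*} [Fintype I] [DecidableEq I] {T : Type*} [Fintype T] [DecidableEq T]
variable {cl : T → I → ℕ}
variable {P : Type*} [Fintype P] [DecidableEq P]
variable {L L' : Type*}

open scoped Classical in
/-- the number of elements of colour `i` in the block of `a` -/
noncomputable def cnt (c : P → I) (g : P → L) (a : P) (i : I) : ℕ :=
  (univ.filter fun b => g b = g a ∧ c b = i).card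

open scoped Classical in
/-- number of blocks -/
noncomputable def nblk (g : P → L) : ℕ := (univ.image g).card

/-- the partition of a labelling whose blocks have types in the range of `cl` is a place -/
theorem exists_place_equiv (c : P → I) (g : P → L) (hT : ∀ a : P, ∃ t : T, cl t = cnt c g a) :
    ∃ (m : T → ℕ) (e : Sm cl m ≃ P), (∀ x, c (e x) = colS cl m x) ∧
      (∀ x y, g (e x) = g (e y) ↔ x.1 = y.1) ∧ nblk g = ∑ t, m t := by
  classical
  rcases isEmpty_or_nonempty P with hP | hP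
  · refine ⟨fun _ => 0, ?_, ?_, ?_, ?_⟩
    · have : IsEmpty (Sm cl (fun _ : T => 0)) := ⟨fun x => x.1.2.elim0⟩
      exact Equiv.equivOfIsEmpty _ _
    · intro x; exact x.1.2.elim0
    · intro x; exact x.1.2.elim0
    · unfold nblk
      rw [Finset.univ_eq_empty, Finset.image_empty]
      simp
  have hTne : Nonempty T := ⟨(hT (Classical.arbitrary P)).choose⟩
  -- types of the labels
  have hτ : ∃ τ : L → T, ∀ a, cl (τ (g a)) = cnt c g a := by
    refine ⟨fun l => if hl : ∃ a, g a = l then (hT hl.choose).choose else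
      Classical.arbitrary T, fun a => ?_⟩
    have hl : ∃ b, g b = g a := ⟨a, rfl⟩
    simp only [dif_pos hl]
    rw [(hT hl.choose).choose_spec]
    funext i
    unfold cnt
    rw [hl.choose_spec]
  obtain ⟨τ, hτ⟩ := hτ
  let B : T → Finset L := fun t => (univ.image g).filter fun l => τ l = t
  let m : T → ℕ := fun t => (B t).card
  let lab : Jm m → L := fun j => ((B j.1).equivFin.symm j.2 : L)
  have hlab : ∀ j : Jm m, lab j ∈ B j.1 := fun j => ((B j.1).equivFin.symm j.2).2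
  have hlabτ : ∀ j : Jm m, τ (lab j) = j.1 := fun j => (Finset.mem_filter.1 (hlab j)).2
  have hlabi : ∀ j : Jm m, lab j ∈ univ.image g := fun j => (Finset.mem_filter.1 (hlab j)).1
  have hinj : Function.Injective lab := by
    rintro ⟨t, r⟩ ⟨t', r'⟩ h
    have h1 : t = t' := by
      have e1 := hlabτ ⟨t, r⟩
      have e2 := hlabτ ⟨t', r'⟩
      rw [h] at e1
      exact e1.symm.trans e2
    subst h1
    have h2 : (B t).equivFin.symm r = (B t).equivFin.symm r' := Subtype.ext h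
    have h3 := (B t).equivFin.symm.injective h2
    rw [h3]
  have hsurj : ∀ a : P, ∃ j : Jm m, lab j = g a := by
    intro a
    have h1 : g a ∈ B (τ (g a)) :=
      Finset.mem_filter.2 ⟨Finset.mem_image_of_mem _ (Finset.mem_univ a), rfl⟩
    refine ⟨⟨τ (g a), (B (τ (g a))).equivFin ⟨g a, h1⟩⟩, ?_⟩
    change (((B (τ (g a))).equivFin.symm ((B (τ (g a))).equivFin ⟨g a, h1⟩)) : L) = g a
    rw [Equiv.symm_apply_apply]
  -- bijections of the blocks
  have hψ : ∀ j : Jm m, ∃ ψ : Vt (cl j.1) ≃ {a : P // g a = lab j}, ∀ v, c (ψ v).1 = v.1 := by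
    intro j
    obtain ⟨a, _, ha⟩ := Finset.mem_image.1 (hlabi j)
    have h := exists_colour_equiv (P := Vt (cl j.1)) (Q := {a : P // g a = lab j})
      (fun v => v.1) (fun b => c b.1) ?_
    · exact h
    · intro i
      rw [card_Vt]
      have h1 : cl j.1 = cnt c g a := by rw [← hτ a, ha, hlabτ]
      rw [h1]
      unfold cnt
      rw [ha, ← Fintype.card_subtype, ← Fintype.card_subtype]
      refine Fintype.card_congr ?_
      exact
        { toFun := fun x => ⟨⟨x.1, x.2.1⟩, x.2.2⟩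
          invFun := fun x => ⟨x.1.1, x.1.2, x.2⟩
          left_inv := fun x => rfl
          right_inv := fun x => rfl }
  choose ψ hψ using hψ
  let e0 : Sm cl m → P := fun x => (ψ x.1 x.2).1
  have he0 : ∀ x, g (e0 x) = lab x.1 := fun x => (ψ x.1 x.2).2
  have hbij : Function.Bijective e0 := by
    constructor
    · rintro ⟨j, v⟩ ⟨j', v'⟩ h
      have h1 : j = j' := by
        apply hinj
        rw [← he0 ⟨j, v⟩, ← he0 ⟨j', v'⟩, h]
      subst h1
      have h2 : ψ j v = ψ j v' := Subtype.ext h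
      rw [(ψ j).injective h2]
    · intro a
      obtain ⟨j, hj⟩ := hsurj a
      refine ⟨⟨j, (ψ j).symm ⟨a, hj.symm⟩⟩, ?_⟩
      change (ψ j ((ψ j).symm ⟨a, hj.symm⟩)).1 = a
      rw [Equiv.apply_symm_apply]
  refine ⟨m, Equiv.ofBijective e0 hbij, fun x => ?_, fun x y => ?_, ?_⟩
  · rw [Equiv.ofBijective_apply]
    exact hψ x.1 x.2
  · rw [Equiv.ofBijective_apply, Equiv.ofBijective_apply, he0, he0]
    exact hinj.eq_iff
  · unfold nblk
    have h1 : (univ.image g) = univ.image lab := by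
      ext l
      simp only [Finset.mem_image, Finset.mem_univ, true_and]
      constructor
      · rintro ⟨a, rfl⟩
        exact hsurj a
      · rintro ⟨j, rfl⟩
        obtain ⟨a, _, ha⟩ := Finset.mem_image.1 (hlabi j)
        exact ⟨a, ha⟩
    rw [h1, Finset.card_image_of_injective _ hinj, Finset.card_univ, Fintype.card_sigma]
    simp

/-- the multiplicities of `exists_place_equiv` are a place of the given coloured set -/
theorem place_sum (c : P → I) {m : T → ℕ} (e : Sm cl m ≃ P) (he : ∀ x, c (e x) = colS cl m x)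
    (i : I) : ∑ t, m t * cl t i = (univ.filter fun a => c a = i).card := by
  classical
  rw [← card_colS, ← Fintype.card_subtype, ← Fintype.card_subtype]
  refine Fintype.card_congr (e.subtypeEquiv fun x => ?_)
  rw [he]

section growth

variable (k : I → I → ℕ) (θ : I → ℤ)

/-- arrows of coloured particles -/
def arrC (c : P → I) : P → P → ℕ := fun a b => k (c a) (c b)

/-- weights of coloured particles -/
def thC (c : P → I) : P → ℤ := fun a => θ (c a)

theorem wt_fib_eq (c : P → I) (g : P → L) (a : P) :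
    wt (thC θ c) (fib g (g a)) = ∑ i, θ i * (cnt c g a i : ℤ) := by
  classical
  unfold wt thC cnt
  rw [← Finset.sum_fiberwise (fib g (g a)) c (fun b => θ (c b))]
  refine Finset.sum_congr rfl fun i _ => ?_
  rw [Finset.sum_congr rfl (g := fun _ => θ i)
    (fun b hb => by rw [(Finset.mem_filter.1 hb).2])]
  rw [Finset.sum_const, nsmul_eq_mul, mul_comm]
  congr 2
  congr 1
  ext b
  simp

/-- **(P1)** every good labelling is a place up to a colour preserving equivalence -/
theorem exists_place (c : P → I)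
    (hcl : ∀ c' : I → ℕ, c' ≠ 0 → ∑ i, θ i * (c' i : ℤ) = 0 →
      (∀ i, c' i ≤ (univ.filter fun a => c a = i).card) → ∃ t, cl t = c')
    (g : P → L) (hg : Good (thC θ c) g) :
    ∃ (m : T → ℕ) (e : Sm cl m ≃ P), (∀ i, ∑ t, m t * cl t i = (univ.filter fun a => c a = i).card)
      ∧ (∀ x, c (e x) = colS cl m x) ∧ Same g (blk cl m ∘ e.symm) ∧ nblk g = ∑ t, m t := by
  classical
  obtain ⟨m, e, h1, h2, h3⟩ := exists_place_equiv (cl := cl) c g (fun a => by
    apply hcl
    · intro h0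
      have h4 : cnt c g a (c a) = 0 := by rw [h0]; rfl
      unfold cnt at h4
      rw [Finset.card_eq_zero] at h4
      have h5 : a ∈ univ.filter fun b => g b = g a ∧ c b = c a := by simp
      rw [h4] at h5
      simp at h5
    · rw [← wt_fib_eq]
      exact hg _
    · intro i
      unfold cnt
      refine Finset.card_le_card fun b hb => ?_
      rw [Finset.mem_filter] at hb ⊢
      exact ⟨hb.1, hb.2.2⟩)
  refine ⟨m, e, fun i => place_sum c e h1 i, h1, fun a b => ?_, h3⟩
  have := h2 (e.symm a) (e.symm b)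
  rw [Equiv.apply_symm_apply, Equiv.apply_symm_apply] at this
  exact this

variable {k θ}

theorem ud_smul_iff {arr : P → P → ℕ} {th : P → ℤ} (g : P → L) (n : ℤ)
    (w : Equiv.Perm P) (x : MvPolynomial P ℚ) :
    ud ℚ arr th g n (sg w • x) ↔ ud ℚ arr th g n x := by
  have key : ∀ y : MvPolynomial P ℚ, ud ℚ arr th g n y → ud ℚ arr th g n (sg w • y) := by
    intro y hy
    have h1 := ud_mul arr th g (ud_C arr th g (sg w)) hy
    rw [zero_add] at h1
    rwa [smul_eq_C_mul]
  constructor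
  · intro h
    have h1 := key _ h
    rwa [smul_smul, sg_mul_self, one_smul] at h1
  · exact key x

/-- **(P2)** for alternating `x` the growth at a labelling depends only on the colour preserving
orbit of its partition -/
theorem ud_iff_of_equiv {c : P → I} {x : MvPolynomial P ℚ} (hx : x ∈ Anti c) {g : P → L}
    {g' : P → L'} (w : Equiv.Perm P) (hw : ∀ a, c (w a) = c a) (hs : Same g (g' ∘ w.symm)) (n : ℤ) :
    ud ℚ (arrC k c) (thC θ c) g n x ↔ ud ℚ (arrC k c) (thC θ c) g' n x := by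
  have hm : ThinEq494.Mor (arrC k c) (thC θ c) g' (arrC k c) (thC θ c) (g' ∘ w.symm) w id :=
    ThinEq494.mor_equiv w (fun a b => by unfold arrC; rw [hw, hw])
      (fun a => by unfold thC; rw [hw]) g'
  rw [ud_congr (arrC k c) (thC θ c) hs, ← ThinEq494.ud_equiv hm n x, hx w hw, ud_smul_iff]

theorem NF_eq_of_equiv {c : P → I} {g : P → L} {g' : P → L'} (w : Equiv.Perm P)
    (hw : ∀ a, c (w a) = c a) (hs : Same g (g' ∘ w.symm)) :
    NF (arrC k c) g = NF (arrC k c) g' := by
  have hm : ThinEq494.Mor (arrC k c) (thC (fun _ => 0) c) g' (arrC k c) (thC (fun _ => 0) c) (g' ∘ w.symm) w id :=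
    ThinEq494.mor_equiv w (fun a b => by unfold arrC; rw [hw, hw])
      (fun a => by unfold thC; rw [hw]) g'
  rw [NF_congr (arrC k c) hs]
  unfold NF
  rw [ThinEq494.N2_equiv hm]






/-- number of blocks of a place -/
theorem nblk_place {m : T → ℕ} (hcl0 : ∀ t, cl t ≠ 0) (e : Sm cl m ≃ P) :
    nblk (blk cl m ∘ e.symm) = ∑ t, m t := by
  classical
  unfold nblk
  refine Eq.trans (congrArg Finset.card (a₂ := (univ : Finset (Jm m))) ?_) ?_
  · ext j
    simp only [Finset.mem_image, Finset.mem_univ, true_and, iff_true]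
    have h2 : ∃ i, cl j.1 i ≠ 0 := by
      by_contra hcon
      push Not at hcon
      exact hcl0 j.1 (funext hcon)
    obtain ⟨i, hi⟩ := h2
    refine ⟨e ⟨j, ⟨i, ⟨0, Nat.pos_of_ne_zero hi⟩⟩⟩, ?_⟩
    rw [Function.comp_apply, Equiv.symm_apply_apply]
    rfl
  · rw [Finset.card_univ, Fintype.card_sigma]
    simp

/-- blocks: a strictly finer labelling has more blocks -/
theorem nblk_lt_of_fine {g : P → L} {g' : P → L'} (h : Fine g' g) (hne : ¬ Fine g g') :
    nblk g < nblk g' := by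
  classical
  rcases isEmpty_or_nonempty P with hP | hP
  · exact absurd (fun a => hP.elim a) hne
  · have : Nonempty L := ⟨g (Classical.arbitrary P)⟩
    obtain ⟨i, rfl⟩ := h.factor
    unfold nblk
    rw [← Finset.image_image]
    refine lt_of_le_of_ne Finset.card_image_le fun heq => hne ?_
    have hinj := Finset.card_image_iff.1 heq
    intro a b hab
    exact hinj (Finset.mem_coe.2 (Finset.mem_image_of_mem _ (Finset.mem_univ a)))
      (Finset.mem_coe.2 (Finset.mem_image_of_mem _ (Finset.mem_univ b))) hab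

/-- if `f'` is finer than `f` (as partitions) and `f` has at least as many blocks, they are the same -/
theorem same_of_fine_of_nblk_le {g : P → L} {g' : P → L'} (h : Fine g' g)
    (hn : nblk g' ≤ nblk g) : Same g g' := by
  intro a b
  refine ⟨?_, h a b⟩
  by_contra hcon
  have hne : ¬ Fine g g' := fun hf => hcon (hf a b)
  exact absurd (nblk_lt_of_fine h hne) (not_lt.2 hn)

end growth

end Crest.Agent.R059.Places494
end

-- ▼ part R059/Places2_494
section

/-!
# Row 59, Theorem B, half 2 (helper494): places in the language of `PL2_547`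

* `good_lab`, `nblk_lab`;
* `ud_of_Pl`, `ud_of_Pl_lt` : growth of alternating polynomials at all places implies growth at all
  good labellings;
* `mem_J0s_of_Pl` (growth `-1` at all places), `exists_growth_Pl`;
* `not_fine_of_ne` : a placed labelling does not refine another place with at least as many blocks.
-/

set_option autoImplicit false
set_option linter.unusedSectionVars false

namespace Crest.Agent.R059.Places494

open MvPolynomial Finset Crest.Agent.R059.Thin613 Crest.Agent.R059.PL547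

variable {I : Type} [Fintype I] [DecidableEq I] {k : I → I → ℕ} {θ : I → ℤ}
  {T : Type} [Fintype T] [LinearOrder T] {cl : T → I → ℕ} {d : I → ℕ} {L L' : Type*}

/-- all nonzero types `≤ d` of weight zero occur among the `cl t` -/
def AllTypes (θ : I → ℤ) (cl : T → I → ℕ) (d : I → ℕ) : Prop :=
  ∀ c' : I → ℕ, c' ≠ 0 → thc θ c' = 0 → (∀ i, c' i ≤ d i) → ∃ t, cl t = c'

theorem card_colV (i : I) : (univ.filter fun a : Vt d => colV d a = i).card = d i := card_Vt d i

theorem hcl_of_AllTypes (h : AllTypes θ cl d) :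
    ∀ c' : I → ℕ, c' ≠ 0 → ∑ i, θ i * (c' i : ℤ) = 0 →
      (∀ i, c' i ≤ (univ.filter fun a : Vt d => colV d a = i).card) → ∃ t, cl t = c' := by
  intro c' h0 h1 h2
  exact h c' h0 h1 fun i => by rw [← card_colV (d := d) i]; exact h2 i

/-- every good labelling is the standard labelling of a place, up to a colour preserving
permutation -/
theorem exists_Pl (hT : AllTypes θ cl d) (g : Vt d → L) (hg : Good (tw θ (colV d)) g) :
    ∃ (m : Pl cl d) (w : Equiv.Perm (Vt d)), (∀ a, colV d (w a) = colV d a) ∧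
      Same g (lab cl d m ∘ w.symm) ∧ nblk g = m.card := by
  obtain ⟨m, e, h1, h2, h3, h4⟩ := exists_place (cl := cl) θ (colV d) (hcl_of_AllTypes hT) g hg
  have hm : ∀ i, ∑ t, m t * cl t i = d i := fun i => by rw [h1 i, card_colV]
  refine ⟨⟨m, hm⟩, (Em cl d ⟨m, hm⟩).symm.trans e, fun a => ?_, ?_, h4⟩
  · rw [Equiv.trans_apply, h2, ← Em_col cl d ⟨m, hm⟩, Equiv.apply_symm_apply]
  · have h5 : lab cl d ⟨m, hm⟩ ∘ ((Em cl d ⟨m, hm⟩).symm.trans e).symm = blk cl m ∘ e.symm := by
      funext a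
      simp [lab]
    rw [h5]
    exact h3

/-- **(P3)** in the language of `PL2_547` -/
theorem ud_of_Pl (hT : AllTypes θ cl d) {x : MvPolynomial (Vt d) ℚ} (hx : x ∈ Anti (colV d))
    {g : ℤ} (H : ∀ m : Pl cl d, ud ℚ (ar k (colV d)) (tw θ (colV d)) (lab cl d m)
      ((NF (ar k (colV d)) (lab cl d m) : ℤ) + g) x)
    (g' : Vt d → L) (hg' : Good (tw θ (colV d)) g') :
    ud ℚ (ar k (colV d)) (tw θ (colV d)) g' ((NF (ar k (colV d)) g' : ℤ) + g) x := by
  obtain ⟨m, w, hw, hs, _⟩ := exists_Pl hT g' hg'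
  have h1 := ud_iff_of_equiv (k := k) (θ := θ) hx w hw hs
    ((NF (ar k (colV d)) g' : ℤ) + g)
  have h2 : NF (ar k (colV d)) g' = NF (ar k (colV d)) (lab cl d m) :=
    NF_eq_of_equiv (k := k) w hw hs
  refine h1.2 ?_
  rw [h2]
  exact H m

/-- **(P4)** in the language of `PL2_547` -/
theorem ud_of_Pl_lt (hT : AllTypes θ cl d) {x : MvPolynomial (Vt d) ℚ} (hx : x ∈ Anti (colV d))
    {g : ℤ} {s : ℕ} (H : ∀ m : Pl cl d, s < m.card →
      ud ℚ (ar k (colV d)) (tw θ (colV d)) (lab cl d m)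
        ((NF (ar k (colV d)) (lab cl d m) : ℤ) + g) x)
    (g' : Vt d → L) (hg' : Good (tw θ (colV d)) g') (hs' : s < nblk g') :
    ud ℚ (ar k (colV d)) (tw θ (colV d)) g' ((NF (ar k (colV d)) g' : ℤ) + g) x := by
  obtain ⟨m, w, hw, hs, hn⟩ := exists_Pl hT g' hg'
  have h1 := ud_iff_of_equiv (k := k) (θ := θ) hx w hw hs
    ((NF (ar k (colV d)) g' : ℤ) + g)
  have h2 : NF (ar k (colV d)) g' = NF (ar k (colV d)) (lab cl d m) :=
    NF_eq_of_equiv (k := k) w hw hs
  refine h1.2 ?_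
  rw [h2]
  exact H m (by rw [← hn]; exact hs')

/-- weight of the whole standard set -/
theorem wt_univ (θ : I → ℤ) (d : I → ℕ) : wt (tw θ (colV d)) univ = thc θ d := by
  unfold wt tw thc colV
  rw [Fintype.sum_sigma]
  refine Finset.sum_congr rfl fun i _ => ?_
  simp [mul_comm]

theorem good_const (hd : thc θ d = 0) : Good (tw θ (colV d)) (fun _ : Vt d => ()) := by
  intro l
  have : fib (fun _ : Vt d => ()) l = univ := by
    ext a; simp
  rw [this, wt_univ, hd]

/-- **zero**: growth `-1` at all places means membership in the ideal -/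
theorem mem_J0s_of_Pl (hT : AllTypes θ cl d) (hd : thc θ d = 0) {x : MvPolynomial (Vt d) ℚ}
    (hx : x ∈ Anti (colV d))
    (H : ∀ m : Pl cl d, ud ℚ (ar k (colV d)) (tw θ (colV d)) (lab cl d m)
      ((NF (ar k (colV d)) (lab cl d m) : ℤ) + (-1)) x) :
    x ∈ J0s k θ (colV d) := by
  have h := ud_of_Pl (k := k) hT hx H (fun _ => ()) (good_const hd)
  rw [NF_const] at h
  have h1 := (ud_neg_iff (ar k (colV d)) (tw θ (colV d)) (fun _ : Vt d => ()) (by norm_num)).1 h
  rw [JJ_const] at h1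
  exact h1

/-- the growth of a polynomial is bounded by its degree -/
theorem ud_totalDegree {P : Type*} [Fintype P] [DecidableEq P] (arr : P → P → ℕ) (th : P → ℤ)
    (f : P → L) (x : MvPolynomial P ℚ) : ud ℚ arr th f (x.totalDegree : ℕ) x := by
  classical
  have key : ∀ n : ℕ, ∀ y : MvPolynomial P ℚ, y.totalDegree ≤ n → ud ℚ arr th f (n : ℕ) y := by
    intro n y hy
    rw [y.as_sum]
    unfold ud
    rw [map_sum]
    refine Deg359.TD.sum _ _ fun m hm => ?_
    have hmd : ∑ a ∈ m.support, m a ≤ n := by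
      have := le_totalDegree hm
      exact le_trans this hy
    rw [monomial_eq, map_mul, Finsupp.prod, map_prod]
    have h1 : Deg359.TD 0 (sh ℚ arr th f (C (coeff m y))) := ud_C arr th f _
    have h2 : Deg359.TD (∑ a ∈ m.support, ((m a : ℕ) : ℤ) * 1)
        (∏ a ∈ m.support, sh ℚ arr th f (X a ^ m a)) := by
      refine Deg359.TD.prod _ _ _ fun a _ => ?_
      rw [map_pow]
      exact Deg359.TD.pow (ud_X arr th f a) _
    refine (h1.mul h2).mono ?_
    have h3 : (∑ a ∈ m.support, ((m a : ℕ) : ℤ) * 1) = ((∑ a ∈ m.support, m a : ℕ) : ℤ) := by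
      push_cast; simp
    rw [zero_add, h3]
    exact_mod_cast hmd
  exact key _ x le_rfl

/-- **exh** -/
theorem exists_growth_Pl (x : MvPolynomial (Vt d) ℚ) :
    ∃ g : ℕ, ∀ m : Pl cl d, ud ℚ (ar k (colV d)) (tw θ (colV d)) (lab cl d m)
      ((NF (ar k (colV d)) (lab cl d m) : ℤ) + g) x := by
  refine ⟨x.totalDegree, fun m => ?_⟩
  refine ud_mono _ _ _ ?_ (ud_totalDegree _ _ _ x)
  omega

/-- number of blocks of a place -/
theorem nblk_lab (hcl0 : ∀ t, cl t ≠ 0) (m : Pl cl d) : nblk (lab cl d m) = m.card :=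
  nblk_place hcl0 (Em cl d m)

/-- content of a block of a place -/
theorem cnt_lab (m : Pl cl d) (a : Vt d) (i : I) :
    cnt (colV d) (lab cl d m) a i = cl (lab cl d m a).1 i := by
  classical
  unfold cnt
  rw [← card_Vt (cl (lab cl d m a).1) i, ← Fintype.card_subtype, ← Fintype.card_subtype]
  set j := lab cl d m a with hj
  refine Fintype.card_congr (Equiv.symm ?_)
  refine Equiv.ofBijective
    (fun v : {x : Vt (cl j.1) // x.1 = i} => (⟨Em cl d m ⟨j, v.1⟩, ?_⟩ :
      {b : Vt d // lab cl d m b = j ∧ colV d b = i})) ⟨?_, ?_⟩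
  · refine ⟨?_, ?_⟩
    · simp [lab, blk]
    · rw [Em_col]
      exact v.2
  · rintro ⟨v, hv⟩ ⟨v', hv'⟩ h
    have h1 := (Em cl d m).injective (congrArg Subtype.val h)
    have h2 : v = v' := by simpa using h1
    exact Subtype.ext h2
  · rintro ⟨b, hb1, hb2⟩
    have h3 : ((Em cl d m).symm b).1 = j := hb1
    have h4 : Em cl d m ((Em cl d m).symm b) = b := Equiv.apply_symm_apply _ _
    obtain ⟨x, hx⟩ : ∃ x, x = (Em cl d m).symm b := ⟨_, rfl⟩
    rw [← hx] at h3 h4
    obtain ⟨j', v⟩ := x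
    change j' = j at h3
    subst h3
    refine ⟨⟨v, ?_⟩, Subtype.ext h4⟩
    rw [← hb2, ← h4, Em_col]
    rfl

/-- blocks of places are good -/
theorem good_lab (hθ : ∀ t, thc θ (cl t) = 0) (m : Pl cl d) :
    Good (tw θ (colV d)) (lab cl d m) := by
  intro l
  by_cases hl : ∃ a, lab cl d m a = l
  · obtain ⟨a, rfl⟩ := hl
    have h := wt_fib_eq θ (colV d) (lab cl d m) a
    have h1 : wt (tw θ (colV d)) (fib (lab cl d m) (lab cl d m a))
        = wt (thC θ (colV d)) (fib (lab cl d m) (lab cl d m a)) := rfl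
    rw [h1, h, ← hθ (lab cl d m a).1]
    unfold thc
    exact Finset.sum_congr rfl fun i _ => by rw [cnt_lab]
  · push Not at hl
    rw [fib_eq_empty hl, wt_empty]

theorem cnt_congr {P : Type*} [Fintype P] [DecidableEq P] {c : P → I} {g : P → L} {g' : P → L'}
    (h : Same g g') (a : P) (i : I) : cnt c g a i = cnt c g' a i := by
  classical
  unfold cnt
  congr 1
  ext b
  simp only [Finset.mem_filter, Finset.mem_univ, true_and, h b a]

theorem cnt_comp_symm {P : Type*} [Fintype P] [DecidableEq P] {c : P → I} {g : P → L}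
    (w : Equiv.Perm P) (hw : ∀ a, c (w a) = c a) (a : P) (i : I) :
    cnt c (g ∘ w.symm) a i = cnt c g (w.symm a) i := by
  classical
  unfold cnt
  rw [← Fintype.card_subtype, ← Fintype.card_subtype]
  refine Fintype.card_congr (w.symm.subtypeEquiv fun b => ?_)
  have h1 : c (w.symm b) = c b := by
    have := hw (w.symm b)
    rw [Equiv.apply_symm_apply] at this
    exact this.symm
  simp only [Function.comp_apply, h1]

/-- multiplicity of a type as a number of blocks -/
theorem mult_eq (hcl : Function.Injective cl) (hcl0 : ∀ t, cl t ≠ 0) (m : Pl cl d) (t : T) :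
    m.1 t = Nat.card {S : Finset (Vt d) // ∃ a, S = fib (lab cl d m) (lab cl d m a) ∧
      cnt (colV d) (lab cl d m) a = cl t} := by
  classical
  have hex : ∀ j : Jm m.1, ∃ a, lab cl d m a = j := by
    intro j
    have h2 : ∃ i, cl j.1 i ≠ 0 := by
      by_contra hcon
      push Not at hcon
      exact hcl0 j.1 (funext hcon)
    obtain ⟨i, hi⟩ := h2
    refine ⟨Em cl d m ⟨j, ⟨i, ⟨0, Nat.pos_of_ne_zero hi⟩⟩⟩, ?_⟩
    simp [lab, blk]
  have h1 : Nat.card (Fin (m.1 t)) = m.1 t := by simp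
  conv_lhs => rw [← h1]
  refine Nat.card_congr (Equiv.ofBijective (fun r : Fin (m.1 t) =>
    (⟨fib (lab cl d m) (⟨t, r⟩ : Jm m.1), ?_⟩ : {S : Finset (Vt d) // ∃ a,
      S = fib (lab cl d m) (lab cl d m a) ∧ cnt (colV d) (lab cl d m) a = cl t})) ⟨?_, ?_⟩)
  · obtain ⟨a, ha⟩ := hex ⟨t, r⟩
    refine ⟨a, by rw [ha], ?_⟩
    funext i
    rw [cnt_lab, ha]
  · intro r r' h
    have h2 : fib (lab cl d m) (⟨t, r⟩ : Jm m.1) = fib (lab cl d m) (⟨t, r'⟩ : Jm m.1) :=
      congrArg Subtype.val h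
    obtain ⟨a, ha⟩ := hex ⟨t, r⟩
    have h3 : a ∈ fib (lab cl d m) (⟨t, r⟩ : Jm m.1) := by rw [mem_fib]; exact ha
    rw [h2, mem_fib, ha] at h3
    simpa using h3
  · rintro ⟨S, a, rfl, ha⟩
    have h3 : cl (lab cl d m a).1 = cl t := by
      rw [← ha]
      funext i
      rw [cnt_lab]
    have h4 : (lab cl d m a).1 = t := hcl h3
    obtain ⟨j, hj⟩ : ∃ j, j = lab cl d m a := ⟨_, rfl⟩
    rw [← hj] at h4
    obtain ⟨t1, r1⟩ := j
    change t1 = t at h4
    subst h4
    exact ⟨r1, Subtype.ext (congrArg (fib (lab cl d m)) hj)⟩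

/-- a place is determined by the orbit of its partition -/
theorem Pl_eq_of_same (hcl : Function.Injective cl) (hcl0 : ∀ t, cl t ≠ 0) {m σ : Pl cl d}
    (w : Equiv.Perm (Vt d)) (hw : ∀ a, colV d (w a) = colV d a)
    (h : Same (lab cl d m ∘ w.symm) (lab cl d σ)) : m = σ := by
  classical
  apply Subtype.ext
  funext t
  rw [mult_eq hcl hcl0 m t, mult_eq hcl hcl0 σ t]
  have hc : ∀ a i, cnt (colV d) (lab cl d m) (w.symm a) i = cnt (colV d) (lab cl d σ) a i := by
    intro a i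
    rw [← cnt_comp_symm w hw a i, cnt_congr h]
  have hf : ∀ a, (fib (lab cl d m) (lab cl d m (w.symm a))).image w
      = fib (lab cl d σ) (lab cl d σ a) := by
    intro a
    ext b
    simp only [Finset.mem_image, mem_fib]
    constructor
    · rintro ⟨b', hb', rfl⟩
      have := (h (w b') a).1 (by simpa using hb')
      exact this
    · intro hb
      refine ⟨w.symm b, ?_, by simp⟩
      have := (h b a).2 hb
      simpa using this
  refine Nat.card_congr (Equiv.ofBijective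
    (fun S : {S : Finset (Vt d) // ∃ a, S = fib (lab cl d m) (lab cl d m a) ∧
      cnt (colV d) (lab cl d m) a = cl t} =>
      (⟨S.1.image w, ?_⟩ : {S : Finset (Vt d) // ∃ a, S = fib (lab cl d σ) (lab cl d σ a) ∧
        cnt (colV d) (lab cl d σ) a = cl t})) ⟨?_, ?_⟩)
  · obtain ⟨a, ha, ha'⟩ := S.2
    refine ⟨w a, ?_, ?_⟩
    · rw [ha, ← hf (w a)]
      simp
    · funext i
      rw [← hc, ← ha']
      simp
  · intro S S' hSS
    have h1 : S.1.image w = S'.1.image w := congrArg Subtype.val hSS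
    exact Subtype.ext (Finset.image_injective w.injective h1)
  · rintro ⟨S, a, rfl, ha⟩
    refine ⟨⟨fib (lab cl d m) (lab cl d m (w.symm a)), w.symm a, rfl, ?_⟩, Subtype.ext (hf a)⟩
    funext i
    rw [hc, ha]

/-- **memlt, combinatorial part** -/
theorem not_fine_of_ne (hcl : Function.Injective cl) (hcl0 : ∀ t, cl t ≠ 0) {m σ : Pl cl d}
    (hne : m ≠ σ) (hcard : m.card ≤ σ.card) (w : Equiv.Perm (Vt d))
    (hw : ∀ a, colV d (w a) = colV d a) : ¬ Fine (lab cl d m ∘ w.symm) (lab cl d σ) := by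
  intro hf
  apply hne
  have hn : nblk (lab cl d m ∘ w.symm) = m.card := by
    rw [← nblk_lab hcl0 m]
    classical
    unfold nblk
    congr 1
    ext j
    simp only [Finset.mem_image, Finset.mem_univ, true_and, Function.comp_apply]
    constructor
    · rintro ⟨a, ha⟩
      exact ⟨_, ha⟩
    · rintro ⟨a, ha⟩
      exact ⟨w a, by simpa using ha⟩
  have hs := same_of_fine_of_nblk_le hf (by rw [hn, nblk_lab hcl0]; exact hcard)
  exact Pl_eq_of_same hcl hcl0 w hw hs.symm

end Crest.Agent.R059.Places494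
end

-- ▼ part R059/PL5_547
section

/-!
# Row 59, Theorem B, half 2 (helper547): the local data of 830's `Loc` at a place and a level
-/

set_option autoImplicit false
set_option linter.unusedSectionVars false

namespace Crest.Agent.R059.PL547

open MvPolynomial Finset Thin613 Deg359

attribute [local instance] Letters.lo

section loc

variable {I : Type} [Fintype I] [DecidableEq I] {k : I → I → ℕ} {θ : I → ℤ}
  {T : Type} [Fintype T] [LinearOrder T] {cl : T → I → ℕ} {d : I → ℕ} {𝓛 : Letters k θ cl}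

/-- conjugate on the model -/
noncomputable def cj (m : Pl cl d) (w : Equiv.Perm (Vt d)) : Equiv.Perm (Sm cl m.1) :=
  ((Em cl d m).trans w).trans (Em cl d m).symm

/-- conjugate on the standard set -/
noncomputable def cj' (m : Pl cl d) (w : Equiv.Perm (Sm cl m.1)) : Equiv.Perm (Vt d) :=
  ((Em cl d m).symm.trans w).trans (Em cl d m)

theorem lab_Em (m : Pl cl d) (x : Sm cl m.1) : lab cl d m (Em cl d m x) = blk cl m.1 x := by
  simp [lab]

theorem cj_col (m : Pl cl d) {w : Equiv.Perm (Vt d)} (hw : ∀ a, colV d (w a) = colV d a)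
    (x : Sm cl m.1) : colS cl m.1 (cj m w x) = colS cl m.1 x := by
  rw [← Em_col cl d m, ← Em_col cl d m, ← hw (Em cl d m x)]
  simp [cj]

theorem cj'_col (m : Pl cl d) {w : Equiv.Perm (Sm cl m.1)}
    (hw : ∀ x, colS cl m.1 (w x) = colS cl m.1 x) (a : Vt d) :
    colV d (cj' m w a) = colV d a := by
  obtain ⟨x, rfl⟩ := (Em cl d m).surjective a
  rw [Em_col, ← hw x, ← Em_col cl d m]
  simp [cj']

theorem sg_cj (m : Pl cl d) (w : Equiv.Perm (Vt d)) : sg (cj m w) = sg w := by
  have := sg_trans_symm (Em cl d m).symm w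
  simpa [cj] using this


theorem rename_cj (m : Pl cl d) (w : Equiv.Perm (Vt d)) (x : MvPolynomial (Sm cl m.1) ℚ) :
    rename w (rename (Em cl d m) x) = rename (Em cl d m) (rename (cj m w) x) := by
  rw [rename_rename, rename_rename]
  congr 2
  funext a
  simp [cj]

/-- `w` permutes the blocks of the place by `ρ` -/
def NN (m : Pl cl d) (w : Equiv.Perm (Vt d)) (ρ : ∀ t, Equiv.Perm (Fin (m.1 t))) : Prop :=
  ∀ a, lab cl d m (w a) = pr ρ (lab cl d m a)

theorem NN.blk {m : Pl cl d} {w : Equiv.Perm (Vt d)} {ρ : ∀ t, Equiv.Perm (Fin (m.1 t))}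
    (h : NN m w ρ) (x : Sm cl m.1) : PL547.blk cl m.1 (cj m w x) = pr ρ (PL547.blk cl m.1 x) := by
  rw [← lab_Em, ← lab_Em, ← h]
  simp [cj]

theorem NN_cj' {m : Pl cl d} {w : Equiv.Perm (Sm cl m.1)} {ρ : ∀ t, Equiv.Perm (Fin (m.1 t))}
    (h : ∀ x, blk cl m.1 (w x) = pr ρ (blk cl m.1 x)) : NN m (cj' m w) ρ := by
  intro a
  obtain ⟨x, rfl⟩ := (Em cl d m).surjective a
  rw [lab_Em, ← h, ← lab_Em]
  simp [cj']

theorem NN_unique (pt : ∀ t, Vt (cl t)) {m : Pl cl d} {w : Equiv.Perm (Vt d)}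
    {ρ ρ' : ∀ t, Equiv.Perm (Fin (m.1 t))} (h : NN m w ρ) (h' : NN m w ρ') : ρ = ρ' :=
  PLloc830.BP_unique pt h.blk h'.blk

/-- the stabiliser of a place -/
def Nst (m : Pl cl d) (w : Equiv.Perm (Vt d)) : Prop := ∃ ρ, NN m w ρ

open scoped Classical in
/-- the block permutation of an element of the stabiliser -/
noncomputable def rh (m : Pl cl d) (w : Equiv.Perm (Vt d)) : ∀ t, Equiv.Perm (Fin (m.1 t)) :=
  if h : Nst m w then h.choose else 1

theorem rh_spec {m : Pl cl d} {w : Equiv.Perm (Vt d)} (h : Nst m w) : NN m w (rh m w) := by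
  unfold rh
  rw [dif_pos h]
  exact h.choose_spec

theorem rh_eq (pt : ∀ t, Vt (cl t)) {m : Pl cl d} {w : Equiv.Perm (Vt d)}
    {ρ : ∀ t, Equiv.Perm (Fin (m.1 t))} (h : NN m w ρ) : rh m w = ρ :=
  NN_unique pt (rh_spec ⟨ρ, h⟩) h

theorem NN_one (m : Pl cl d) : NN m 1 1 := fun _ => rfl

theorem exists_NN (hinj : Function.Injective cl) (pt : ∀ t, Vt (cl t)) (m : Pl cl d)
    {w : Equiv.Perm (Vt d)} (hw : ∀ a, colV d (w a) = colV d a)
    (hf : Fine (lab cl d m ∘ ⇑w⁻¹) (lab cl d m)) : Nst m w := by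
  have hf' : Fine (blk cl m.1) (blk cl m.1 ∘ cj m w) := by
    intro x y hxy
    have h0 : ∀ z, w⁻¹ (w z) = z := fun z => w.symm_apply_apply z
    have h1 := hf (w (Em cl d m x)) (w (Em cl d m y)) (by
      simp only [Function.comp_apply, h0, lab_Em]
      exact hxy)
    have h2 : ∀ z, blk cl m.1 (cj m w z) = lab cl d m (w (Em cl d m z)) := by
      intro z
      rw [← lab_Em]
      simp [cj]
    simp only [Function.comp_apply]
    rw [h2, h2, h1]
  obtain ⟨ρ, hρ⟩ := PLloc830.exists_BP cl m.1 hinj pt (cj_col m hw) hf'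
  refine ⟨ρ, fun a => ?_⟩
  obtain ⟨x, rfl⟩ := (Em cl d m).surjective a
  rw [lab_Em]
  have := hρ x
  rw [← this, ← lab_Em]
  simp [cj]

/-! ### symbols of words -/

/-- the symbol of a word -/
noncomputable def eW (m : Pl cl d) (φ : Wd 𝓛 m.1) : Sy k θ (colV d) (lab cl d m) :=
  DP _ (ar k (colV d)) (lab cl d m) *
    (C (Ideal.Quotient.mk _ (rename (Em cl d m) φ.lp)) * ∏ j, X j ^ (φ.at j).a)

theorem mor_Em (m : Pl cl d) : ThinEq494.Mor (ar k (colS cl m.1)) (tw θ (colS cl m.1))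
    (blk cl m.1) (ar k (colV d)) (tw θ (colV d)) (lab cl d m) (Em cl d m) id :=
  ThinEq494.mor_equiv' (Em cl d m) (fun a b => by simp [ar, Em_col])
    (fun a => by simp [tw, Em_col]) (fun a => lab_Em m a)

theorem NF_lab (m : Pl cl d) : NF (ar k (colV d)) (lab cl d m) =
    NF (ar k (colS cl m.1)) (blk cl m.1) := by
  unfold NF
  rw [ThinEq494.N2_equiv (mor_Em (k := k) (θ := fun _ => 0) m)]

theorem DP_lab (A : Type*) [CommRing A] (m : Pl cl d) :
    DP A (ar k (colV d)) (lab cl d m) = DP A (ar k (colS cl m.1)) (blk cl m.1) :=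
  DP_equiv (Em cl d m) _ _ _ _ (fun a b => by simp [ar, Em_col]) (fun a => (lab_Em m a).symm)

theorem T_Mo (m : Pl cl d) (hs : Sym (ar k (colS cl m.1)) (tw θ (colS cl m.1)))
    (hg : Good (tw θ (colS cl m.1)) (blk cl m.1)) (pt : ∀ t, Vt (cl t)) (φ : Wd 𝓛 m.1)
    (hφ : InV ℚ (ar k (colS cl m.1)) (tw θ (colS cl m.1)) (blk cl m.1) φ.lp) :
    Tm k θ (colV d) (lab cl d m) φ.tot (rename (Em cl d m) (φ.Kh pt)) = eW m φ := by
  have hid : ∀ (A : Type) [CommRing A] (x : MvPolynomial (Jm m.1) A),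
      rename (id : Jm m.1 → Jm m.1) x = x := fun A _ x => by rw [rename_id_apply]
  have hw : ud ℚ (ar k (colS cl m.1)) (tw θ (colS cl m.1)) (blk cl m.1) 0 φ.lp := by
    have := hφ.ud_le hg (fun _ _ h => h)
    simpa using this
  have h1 := top_family (ar k (colS cl m.1)) hs hg hw
    (fun j : Jm m.1 => (⟨j, pt j.1⟩ : Sm cl m.1)) (fun j => rfl) (fun j => (φ.at j).a)
  rw [Tm_apply, (mor_Em m).sh_rename, hid, top_map, NF_lab]
  have h2 : ((φ.tot : ℕ) : ℤ) = ((∑ j : Jm m.1, (φ.at j).a : ℕ) : ℤ) := rfl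
  rw [h2]
  unfold Wd.Kh eW
  push_cast at h1 ⊢
  rw [h1, map_mul, map_DP, DP_lab, map_mul, map_C, (mor_Em m).quot_mk, map_prod]
  congr 2
  refine Finset.prod_congr rfl fun j _ => ?_
  rw [map_pow, map_X]

end loc

end Crest.Agent.R059.PL547
end

-- ▼ part R059/PL6_547

/-!
# Row 59, Theorem B, half 2 (helper547): the local data of 830's `Loc` at a place and a level
-/

set_option autoImplicit false
set_option linter.unusedSectionVars false

namespace Crest.Agent.R059.PL547

open MvPolynomial Finset Thin613 Deg359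

attribute [local instance] Letters.lo

section loc

variable {I : Type} [Fintype I] [DecidableEq I] {k : I → I → ℕ} {θ : I → ℤ}
  {T : Type} [Fintype T] [LinearOrder T] {cl : T → I → ℕ} {d : I → ℕ} {𝓛 : Letters k θ cl}

theorem Phi_eW (hkk : ∀ t t', kk k (cl t) (cl t') = kk k (cl t') (cl t)) {m : Pl cl d}
    {w : Equiv.Perm (Vt d)} (hw : ∀ a, colV d (w a) = colV d a)
    {ρ : ∀ t, Equiv.Perm (Fin (m.1 t))} (h : NN m w ρ) (φ : Wd 𝓛 m.1) :
    Phi (mor_self (k := k) (θ := θ) hw h) (eW m φ) =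
      ((∏ t, sg (ρ t) ^ kk k (cl t) (cl t)) * (sg w * sg (wr (cl := cl) ρ))) •
        eW m (φ.act ρ) := by
  have hDP := rename_DP_pr_smul cl m.1
    (MvPolynomial (Vt d) ℚ ⧸ JJ ℚ (ar k (colV d)) (tw θ (colV d)) (lab cl d m)) k hkk ρ
  have hX : rename (pr ρ) (∏ j : Jm m.1, (X j : Sy k θ (colV d) (lab cl d m)) ^ (φ.at j).a) =
      ∏ j : Jm m.1, (X j : Sy k θ (colV d) (lab cl d m)) ^ ((φ.act ρ).at j).a := by
    rw [map_prod, ← Equiv.prod_comp (pr ρ)
      (fun j => (X j : Sy k θ (colV d) (lab cl d m)) ^ ((φ.act ρ).at j).a)]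
    refine Finset.prod_congr rfl fun j _ => ?_
    rw [map_pow, rename_X]
    have h1 : ((φ.act ρ).at (pr ρ j)).a = (φ.at j).a :=
      congrArg (fun x : Al (𝓛.L j.1) => x.a) (Wd.act_at ρ φ j)
    rw [h1]
  have hL : rename w (rename (Em cl d m) φ.lp) =
      (sg w * sg (wr (cl := cl) ρ)) • rename (Em cl d m) (φ.act ρ).lp := by
    rw [rename_cj, rename_lp (cj m w) ρ (cj_col m hw) h.blk, sg_cj, map_smul]
  rw [Phi_apply, eW, eW, map_mul, map_DP, DP_lab, map_mul, map_mul, map_mul, map_C, map_prod,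
    (mor_self (k := k) (θ := θ) hw h).quot_mk, hL]
  have hXm : (∏ j : Jm m.1, MvPolynomial.map ((mor_self (k := k) (θ := θ) hw h).quot ℚ)
      ((X j : Sy k θ (colV d) (lab cl d m)) ^ (φ.at j).a)) =
      ∏ j : Jm m.1, (X j : Sy k θ (colV d) (lab cl d m)) ^ (φ.at j).a := by
    refine Finset.prod_congr rfl fun j _ => ?_
    rw [map_pow, map_X]
  rw [hXm, hX, rename_C]
  have hDP' : rename (pr ρ) (DP (MvPolynomial (Vt d) ℚ ⧸
      JJ ℚ (ar k (colV d)) (tw θ (colV d)) (lab cl d m)) (ar k (colS cl m.1)) (blk cl m.1)) =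
      (∏ t, sg (ρ t) ^ kk k (cl t) (cl t) : ℚ) • DP (MvPolynomial (Vt d) ℚ ⧸
      JJ ℚ (ar k (colV d)) (tw θ (colV d)) (lab cl d m)) (ar k (colS cl m.1)) (blk cl m.1) := hDP
  rw [hDP', smul_eq_C_mul, smul_Sy, smul_Sy]
  simp only [map_mul]
  ring

/-- the character of the block permutations on words -/
noncomputable def chQ (k : I → I → ℕ) (cl : T → I → ℕ) {m : T → ℕ}
    (ρ : ∀ t, Equiv.Perm (Fin (m t))) : ℚ :=
  ∏ t, sg (ρ t) ^ par k (cl t)

theorem sg_wr {m : T → ℕ} (ρ : ∀ t, Equiv.Perm (Fin (m t))) :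
    sg (wr (cl := cl) ρ) = ∏ t, sg (ρ t) ^ (∑ i, cl t i) := by
  unfold sg
  rw [sign_wr]
  push_cast
  rfl

theorem chi_eq {m : T → ℕ} (ρ : ∀ t, Equiv.Perm (Fin (m t))) (s : ℚ) (hs : s * s = 1) :
    s * ((∏ t, sg (ρ t) ^ kk k (cl t) (cl t)) * (s * sg (wr (cl := cl) ρ))) =
      chQ k cl ρ := by
  have h1 : s * ((∏ t, sg (ρ t) ^ kk k (cl t) (cl t)) * (s * sg (wr (cl := cl) ρ))) =
      (s * s) * ((∏ t, sg (ρ t) ^ kk k (cl t) (cl t)) * sg (wr (cl := cl) ρ)) := by ring
  rw [h1, hs, one_mul, sg_wr, ← Finset.prod_mul_distrib]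
  unfold chQ par
  refine Finset.prod_congr rfl fun t _ => ?_
  rw [← pow_add, add_comm]

theorem sg_pow_even {n : ℕ} (σ : Equiv.Perm (Fin n)) {p : ℕ} (hp : Even p) : sg σ ^ p = 1 := by
  obtain ⟨q, rfl⟩ := hp
  rw [pow_add, ← mul_pow, sg_mul_self, one_pow]

/-- words without repeated odd letters -/
def Wd.NR {m : T → ℕ} (φ : Wd 𝓛 m) : Prop :=
  ∀ t, Odd (par k (cl t)) → Function.Injective (φ t)

theorem chQ_eq_one {m : T → ℕ} {φ : Wd 𝓛 m} (hφ : φ.NR) {ρ : ∀ t, Equiv.Perm (Fin (m t))}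
    (h : φ.act ρ = φ) : chQ k cl ρ = 1 := by
  refine Finset.prod_eq_one fun t _ => ?_
  rcases Nat.even_or_odd (par k (cl t)) with he | ho
  · exact sg_pow_even _ he
  · have h1 : ρ t = 1 := by
      ext x
      have h2 := congrFun (congrFun h t) (ρ t x)
      simp only [Wd.act, Function.comp_apply, Equiv.symm_apply_apply] at h2
      have h3 := hφ t ho h2
      rw [← h3]
      rfl
    rw [h1, sg_one, one_pow]

theorem exists_swap {m : T → ℕ} {φ : Wd 𝓛 m} (hφ : ¬ φ.NR) :
    ∃ ρ : ∀ t, Equiv.Perm (Fin (m t)), φ.act ρ = φ ∧ chQ k cl ρ = -1 := by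
  unfold Wd.NR at hφ
  push Not at hφ
  obtain ⟨t, ho, hni⟩ := hφ
  simp only [Function.Injective, not_forall] at hni
  obtain ⟨a, b, hab, hne⟩ := hni
  refine ⟨Pi.mulSingle t (Equiv.swap a b), ?_, ?_⟩
  · funext t'
    by_cases ht : t' = t
    · subst ht
      unfold Wd.act
      rw [Pi.mulSingle_eq_same]
      funext x
      simp only [Function.comp_apply, Equiv.symm_swap, Equiv.swap_apply_def]
      split_ifs with h3 h4
      · rw [h3, hab]
      · rw [h4, hab]
      · rfl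
    · unfold Wd.act
      rw [Pi.mulSingle_eq_of_ne ht]
      rfl
  · unfold chQ
    rw [Finset.prod_eq_single t]
    · rw [Pi.mulSingle_eq_same, sg, Equiv.Perm.sign_swap hne]
      simp only [Units.val_neg, Units.val_one, Int.cast_neg, Int.cast_one]
      exact ho.neg_one_pow
    · intro t' _ ht
      rw [Pi.mulSingle_eq_of_ne ht, sg_one, one_pow]
    · intro h; exact absurd (mem_univ _) h

theorem Wd.Adm.nr {m : T → ℕ} {φ : Wd 𝓛 m} (h : φ.Adm) : φ.NR := fun t ho => (h t).2 ho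

/-- every word without repeated odd letters is a permuted admissible word -/
theorem exists_sort {m : T → ℕ} {φ : Wd 𝓛 m} (h : φ.NR) :
    ∃ (ψ : Wd 𝓛 m) (ρ : ∀ t, Equiv.Perm (Fin (m t))), ψ.Adm ∧ ψ.act ρ = φ := by
  refine ⟨fun t => φ t ∘ Tuple.sort (φ t), fun t => Tuple.sort (φ t), fun t => ⟨?_, ?_⟩, ?_⟩
  · exact Tuple.monotone_sort (φ t)
  · intro ho
    exact (h t ho).comp (Tuple.sort (φ t)).injective
  · funext t
    unfold Wd.act
    funext x
    simp

theorem adm_act_eq {m : T → ℕ} {φ ψ : Wd 𝓛 m} (hφ : φ.Adm) (hψ : ψ.Adm)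
    {ρ : ∀ t, Equiv.Perm (Fin (m t))} (h : φ.act ρ = ψ) : φ = ψ := by
  funext t
  symm
  exact WordsS3_537.eq_of_comp_eq (hψ t).1 (hφ t).1 (ρ t).symm (congrFun h t)

theorem Wd.act_one {m : T → ℕ} (φ : Wd 𝓛 m) : φ.act 1 = φ := rfl

theorem Wd.act_inj {m : T → ℕ} (ρ : ∀ t, Equiv.Perm (Fin (m t))) :
    Function.Injective (fun φ : Wd 𝓛 m => φ.act ρ) := by
  intro φ ψ h
  funext t
  funext x
  have h1 := congrFun (congrFun h t) (ρ t x)
  simpa [Wd.act] using h1

/-- the local data -/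
noncomputable def locD (pt : ∀ t, Vt (cl t))
    (hkk : ∀ t t', kk k (cl t) (cl t') = kk k (cl t') (cl t)) (m : Pl cl d) (g : ℕ)
    (HM : ∀ φ : Wd 𝓛 m.1, rename (Em cl d m) (φ.Kh pt) ∈ Gr k θ (colV d) (lab cl d m) φ.tot)
    (HT : ∀ φ : Wd 𝓛 m.1,
      Tm k θ (colV d) (lab cl d m) φ.tot (rename (Em cl d m) (φ.Kh pt)) = eW m φ)
    (HB : ∀ w : Equiv.Perm (Vt d), (∀ a, colV d (w a) = colV d a) → ¬ Nst m w →
      ∀ φ : Wd 𝓛 m.1, rename w (rename (Em cl d m) (φ.Kh pt)) ∈
        Gr k θ (colV d) (lab cl d m) ((φ.tot : ℤ) - 1))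
    (HI : LinearIndependent ℚ
      (fun φ : {φ : Wd 𝓛 m.1 // φ.tot = g} => (eW m φ.1 : Sy k θ (colV d) (lab cl d m)))) :
    Loc830.Loc ℚ (MvPolynomial (Vt d) ℚ) (Sy k θ (colV d) (lab cl d m)) (GS (colV d))
      {φ : Wd 𝓛 m.1 // φ.tot = g} {φ : {φ : Wd 𝓛 m.1 // φ.tot = g} // φ.1.Adm} where
  ρ w := (rename (w : Equiv.Perm (Vt d)) : MvPolynomial (Vt d) ℚ →ₐ[ℚ] _).toLinearMap
  ρ_mul w w' x := by
    simp only [AlgHom.toLinearMap_apply]
    rw [rename_rename]
    rfl
  sg w := sg (w : Equiv.Perm (Vt d))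
  sg_mul w w' := sg_mul _ _
  sg_sq w := sg_mul_self _
  A := Gr k θ (colV d) (lab cl d m) g
  B := Gr k θ (colV d) (lab cl d m) ((g : ℤ) - 1)
  BA := Gr_mono _ _ (by omega)
  T := Tm k θ (colV d) (lab cl d m) g
  ker x hx := Tm_ker _ _ _ hx
  N w := Nst m (w : Equiv.Perm (Vt d))
  N_one := ⟨1, NN_one m⟩
  N_A w hw x hx := rename_mem_Gr (mor_self w.2 (rh_spec hw)) _ hx
  a w φ := ⟨φ.1.act (rh m w), by rw [Wd.act_tot, φ.2]⟩
  a_one φ := by
    apply Subtype.ext
    change φ.1.act (rh m ((1 : GS (colV d)) : Equiv.Perm (Vt d))) = φ.1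
    have : rh m ((1 : GS (colV d)) : Equiv.Perm (Vt d)) = 1 := rh_eq pt (NN_one m)
    rw [this, Wd.act_one]
  a_inj w _ φ ψ h := by
    apply Subtype.ext
    exact Wd.act_inj (rh m w) (congrArg Subtype.val h)
  e φ := eW m φ.1
  ind := HI
  Mo φ := rename (Em cl d m) (φ.1.Kh pt)
  Mo_A φ := by
    have := HM φ.1
    rwa [φ.2] at this
  T_Mo φ := by
    have := HT φ.1
    rwa [φ.2] at this
  Mo_B w hw φ := by
    have := HB w w.2 hw φ.1
    rwa [φ.2] at this
  Φ w := by
    classical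
    exact if h : Nst m (w : Equiv.Perm (Vt d)) then
      Phi (mor_self (k := k) (θ := θ) w.2 (rh_spec h)) else 0
  T_ρ w hw x _ := by
    rw [dif_pos hw]
    exact Tm_rename (mor_self (k := k) (θ := θ) w.2 (rh_spec hw)) _ x
  η w := (∏ t, sg (rh m (w : Equiv.Perm (Vt d)) t) ^ kk k (cl t) (cl t)) *
    (sg (w : Equiv.Perm (Vt d)) * sg (wr (cl := cl) (rh m (w : Equiv.Perm (Vt d)))))
  Φ_e w hw φ := by
    rw [dif_pos hw]
    exact Phi_eW hkk w.2 (rh_spec hw) φ.1
  adm φ := φ.1.NR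
  rep := Subtype.val
  adm_rep t := Wd.Adm.nr t.2
  orbit φ hφ := by
    obtain ⟨ψ, ρ, hψ, hρ⟩ := exists_sort hφ
    have htot : ψ.tot = g := by rw [← Wd.act_tot ρ ψ, hρ, φ.2]
    have hw : ∀ a, colV d (cj' m (wr ρ) a) = colV d a :=
      cj'_col m (w := wr ρ) (fun x => colS_wr ρ x)
    have hNN : NN m (cj' m (wr ρ)) ρ := NN_cj' (fun x => blk_wr ρ x)
    refine ⟨⟨⟨ψ, htot⟩, hψ⟩, ⟨cj' m (wr ρ), hw⟩, ⟨ρ, hNN⟩, ?_⟩
    apply Subtype.ext
    change ψ.act (rh m (cj' m (wr ρ))) = φ.1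
    rw [rh_eq pt hNN, hρ]
  orbit_inj t t' w _ h := by
    have h1 : t.1.1.act (rh m w) = t'.1.1 := congrArg Subtype.val h
    exact Subtype.ext (Subtype.ext (adm_act_eq t.2 t'.2 h1))
  sign_pos φ hφ w _ h := by
    have h1 : φ.1.act (rh m w) = φ.1 := congrArg Subtype.val h
    change sg (w : Equiv.Perm (Vt d)) * _ = 1
    rw [chi_eq _ _ (sg_mul_self _), chQ_eq_one hφ h1]
  sign_neg φ hφ := by
    obtain ⟨ρ, h1, h2⟩ := exists_swap hφ
    have hw : ∀ a, colV d (cj' m (wr ρ) a) = colV d a :=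
      cj'_col m (w := wr ρ) (fun x => colS_wr ρ x)
    have hNN : NN m (cj' m (wr ρ)) ρ := NN_cj' (fun x => blk_wr ρ x)
    refine ⟨⟨cj' m (wr ρ), hw⟩, ⟨ρ, hNN⟩, ?_, ?_⟩
    · apply Subtype.ext
      change φ.1.act (rh m (cj' m (wr ρ))) = φ.1
      rw [rh_eq pt hNN, h1]
    · change sg (cj' m (wr ρ)) * _ = -1
      rw [chi_eq _ _ (sg_mul_self _)]
      change chQ k cl (rh m (cj' m (wr ρ))) = -1
      rw [rh_eq pt hNN, h2]

end loc

end Crest.Agent.R059.PL547
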