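import Mathlib
import Crest.Agent.R059.PLloc_830
import Crest.Agent.R059.ThinEq_494
import Crest.Agent.R059.Thin4c_613
import Crest.Agent.R059.Letters_613_Mg
import Crest.Agent.R059.PL6_547

-- ▼ part R059/PLloc3_830
section

/-!
# Row 59, Theorem B, half 2 (helper830): the instance of `Loc` at a place and a level (model)
-/

set_option autoImplicit false
set_option linter.unusedSectionVars false

namespace Crest.Agent.R059.PLloc830

open MvPolynomial Finset Thin613 Deg359 PL547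

/-! ### independence of monomials with independent coefficients -/


/-! ### good labellings and symmetry for coloured sets -/

section good

variable {I : Type} [Fintype I] [DecidableEq I] {k : I → I → ℕ} {θ : I → ℤ}

theorem sum_colour {P : Type*} (c : P → I) (S : Finset P) {M : Type*} [AddCommMonoid M]
    (F : I → M) : ∑ a ∈ S, F (c a) = ∑ i, (S.filter fun a => c a = i).card • F i := by
  classical
  rw [← Finset.sum_fiberwise S c]
  refine Finset.sum_congr rfl fun i _ => ?_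
  rw [Finset.sum_congr rfl (g := fun _ => F i) (fun a ha => by rw [(Finset.mem_filter.1 ha).2]),
    Finset.sum_const]

theorem sym_col (hk : ∀ c e : I → ℕ, thc θ c = 0 → thc θ e = 0 → PL547.kk k c e = PL547.kk k e c)
    {P : Type*} [Fintype P] [DecidableEq P] (c : P → I) : Sym (ar k c) (tw θ c) := by
  classical
  intro S T _ hS hT
  have hw : ∀ S : Finset P, wt (tw θ c) S = thc θ (fun i => (S.filter fun a => c a = i).card) := by
    intro S
    unfold wt thc
    have := sum_colour c S θ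
    unfold tw
    rw [this]
    refine Finset.sum_congr rfl fun i _ => ?_
    rw [nsmul_eq_mul, mul_comm]
  have hb : ∀ (k' : I → I → ℕ) (S T : Finset P), ∑ a ∈ S, ∑ b ∈ T, k' (c a) (c b) =
      PL547.kk k' (fun i => (S.filter fun a => c a = i).card)
        (fun i => (T.filter fun a => c a = i).card) := by
    intro k' S T
    unfold PL547.kk
    have h1 : ∀ a, ∑ b ∈ T, k' (c a) (c b) =
        ∑ j, (T.filter fun a => c a = j).card • k' (c a) j := fun a =>
      sum_colour c T (fun j => k' (c a) j)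
    rw [Finset.sum_congr rfl (fun a _ => h1 a),
      sum_colour c S (fun i => ∑ j, (T.filter fun a => c a = j).card • k' i j)]
    refine Finset.sum_congr rfl fun i _ => ?_
    rw [Finset.smul_sum]
    refine Finset.sum_congr rfl fun j _ => ?_
    simp only [smul_eq_mul]
    ring
  have h1 := hb k S T
  have h2 := hb (fun i j => k j i) S T
  have h3 := hk (fun i => (S.filter fun a => c a = i).card)
    (fun i => (T.filter fun a => c a = i).card) (by rw [← hw]; exact hS) (by rw [← hw]; exact hT)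
  change ∑ a ∈ S, ∑ b ∈ T, k (c a) (c b) = ∑ a ∈ S, ∑ b ∈ T, k (c b) (c a)
  rw [h1, h2, h3]
  unfold PL547.kk
  rw [Finset.sum_comm]
  refine Finset.sum_congr rfl fun i _ => Finset.sum_congr rfl fun j _ => ?_
  ring

variable {T : Type} [Fintype T] [LinearOrder T] {cl : T → I → ℕ} (m : T → ℕ)

theorem good_model (hcl : ∀ t, thc θ (cl t) = 0) :
    Good (tw θ (colS cl m)) (blk cl m) := by
  intro j
  unfold wt
  rw [sum_blk]
  change ∑ x : Vt (cl j.1), θ x.1 = 0
  rw [sum_Vt (cl j.1) θ]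
  have h := hcl j.1
  unfold thc at h
  rw [← h]
  refine Finset.sum_congr rfl fun i _ => ?_
  rw [nsmul_eq_mul, mul_comm]

/-- the embeddings of the blocks -/
def eb (cl : T → I → ℕ) (m : T → ℕ) (j : Jm m) : Vt (cl j.1) ↪ Sm cl m := Function.Embedding.sigmaMk (β := fun j : Jm m => Vt (cl j.1)) j

theorem par_model : ThinTens559.Par (blk cl m) (eb cl m) := by
  rintro j ⟨j', x⟩
  constructor
  · intro h
    change j' = j at h
    subst h
    exact ⟨x, rfl⟩
  · rintro ⟨y, hy⟩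
    rw [← hy]
    rfl

end good

/-! ### the family elements on the model -/

section family

variable {I : Type} [Fintype I] [DecidableEq I] {k : I → I → ℕ} {θ : I → ℤ}
  {T : Type} [Fintype T] [LinearOrder T] {cl : T → I → ℕ} {𝓛 : Letters k θ cl} {m : T → ℕ}
  (hcl : ∀ t, thc θ (cl t) = 0)
  (hk : ∀ c e : I → ℕ, thc θ c = 0 → thc θ e = 0 → PL547.kk k c e = PL547.kk k e c)
  (pt : ∀ t, Vt (cl t))

include hcl hk in
theorem inV_lp (φ : Wd 𝓛 m) :
    InV ℚ (ar k (colS cl m)) (tw θ (colS cl m)) (blk cl m) φ.lp :=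
  ThinTens559.prod_mem_VV (par_model m) (sym_col hk _) (good_model m hcl)
    (fun j => 𝓛.pol j.1 (φ.at j).l) (fun j => (𝓛.mem j.1 (φ.at j).l).2)

/-- the monomial part -/
noncomputable def mo (φ : Wd 𝓛 m) : MvPolynomial (Sm cl m) ℚ :=
  ∏ j : Jm m, X (⟨j, pt j.1⟩ : Sm cl m) ^ (φ.at j).a


theorem ud_mo {L : Type*} (f : Sm cl m → L) (φ : Wd 𝓛 m) :
    ud ℚ (ar k (colS cl m)) (tw θ (colS cl m)) f (φ.tot : ℤ) (mo pt φ) := by
  unfold mo Wd.tot
  push_cast
  refine ThinTens559.ud_prod _ _ _ _ _ _ fun j _ => ?_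
  have h := TD.pow (ud_X (F := ℚ) (ar k (colS cl m)) (tw θ (colS cl m)) f
    (⟨j, pt j.1⟩ : Sm cl m)) (φ.at j).a
  unfold ud
  rw [map_pow]
  rwa [mul_one] at h

include hcl hk in
/-- growth at any good labelling -/
theorem ud_Kh {L : Type*} {f : Sm cl m → L} (hf : Good (tw θ (colS cl m)) f) (φ : Wd 𝓛 m) :
    ud ℚ (ar k (colS cl m)) (tw θ (colS cl m)) f
      ((NF (ar k (colS cl m)) f : ℤ) + φ.tot) (φ.Kh pt) :=
  ud_family _ (sym_col hk _) hf (good_model m hcl) (inV_lp hcl hk φ) fun _ => ud_mo pt _ φ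

include hcl hk in
theorem ud_Kh_strict {L : Type*} {f : Sm cl m → L} (hf : Good (tw θ (colS cl m)) f)
    (hne : ¬ Fine (blk cl m) f) (φ : Wd 𝓛 m) :
    ud ℚ (ar k (colS cl m)) (tw θ (colS cl m)) f
      ((NF (ar k (colS cl m)) f : ℤ) + φ.tot - 1) (φ.Kh pt) :=
  ud_family_strict _ (sym_col hk _) hf (good_model m hcl) hne (inV_lp hcl hk φ)
    fun _ => ud_mo pt _ φ


/-- the exponent of a word -/
noncomputable def ex (φ : Wd 𝓛 m) : Jm m →₀ ℕ := Finsupp.equivFunOnFinite.symm fun j => (φ.at j).a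




end family

end Crest.Agent.R059.PLloc830
end

-- ▼ part R059/PL7_547

/-!
# Row 59, Theorem B, half 2 (helper547): the basis of the alternating polynomials modulo `J0`
-/

set_option autoImplicit false
set_option linter.unusedSectionVars false

namespace Crest.Agent.R059.PL547

open MvPolynomial Finset Thin613 Deg359

attribute [local instance] Letters.lo

section fin

variable {I : Type} [Fintype I] [DecidableEq I] {k : I → I → ℕ} {θ : I → ℤ}
  {T : Type} [Fintype T] [LinearOrder T] {cl : T → I → ℕ} {d : I → ℕ} {𝓛 : Letters k θ cl}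

/-! ### growth of the family -/

theorem morE {L : Type} (m : Pl cl d) {w : Equiv.Perm (Vt d)}
    (hw : ∀ a, colV d (w a) = colV d a) (f : Vt d → L) :
    ThinEq494.Mor (ar k (colS cl m.1)) (tw θ (colS cl m.1)) (fun y => f (w (Em cl d m y)))
      (ar k (colV d)) (tw θ (colV d)) f ((Em cl d m).trans w) id :=
  ThinEq494.mor_equiv' ((Em cl d m).trans w) (fun a b => by simp [ar, hw, Em_col])
    (fun a => by simp [tw, hw, Em_col]) (fun a => rfl)

theorem rename_trans (m : Pl cl d) (w : Equiv.Perm (Vt d)) (x : MvPolynomial (Sm cl m.1) ℚ) :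
    rename w (rename (Em cl d m) x) = rename ((Em cl d m).trans w) x := by
  rw [rename_rename]
  rfl

theorem NF_morE {L : Type} (m : Pl cl d) {w : Equiv.Perm (Vt d)}
    (hw : ∀ a, colV d (w a) = colV d a) (f : Vt d → L) :
    NF (ar k (colV d)) f = NF (ar k (colS cl m.1)) (fun y => f (w (Em cl d m y))) := by
  unfold NF
  rw [ThinEq494.N2_equiv (morE (k := k) (θ := fun _ => 0) m hw f)]

theorem Kh_mem {L : Type} (hcl : ∀ t, thc θ (cl t) = 0)
    (hk : ∀ c e : I → ℕ, thc θ c = 0 → thc θ e = 0 → kk k c e = kk k e c)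
    (pt : ∀ t, Vt (cl t)) (m : Pl cl d) {w : Equiv.Perm (Vt d)}
    (hw : ∀ a, colV d (w a) = colV d a) {f : Vt d → L} (hf : Good (tw θ (colV d)) f)
    (φ : Wd 𝓛 m.1) :
    rename w (rename (Em cl d m) (φ.Kh pt)) ∈ Gr k θ (colV d) f φ.tot := by
  rw [mem_Gr, rename_trans, ThinEq494.ud_equiv (morE m hw f), NF_morE m hw f]
  exact PLloc830.ud_Kh hcl hk pt ((ThinEq494.Good_equiv (morE (k := k) m hw f)).1 hf) φ

theorem Kh_lt {L : Type} (hcl : ∀ t, thc θ (cl t) = 0)
    (hk : ∀ c e : I → ℕ, thc θ c = 0 → thc θ e = 0 → kk k c e = kk k e c)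
    (pt : ∀ t, Vt (cl t)) (m : Pl cl d) {w : Equiv.Perm (Vt d)}
    (hw : ∀ a, colV d (w a) = colV d a) {f : Vt d → L} (hf : Good (tw θ (colV d)) f)
    (hne : ¬ Fine (lab cl d m ∘ w.symm) f) (φ : Wd 𝓛 m.1) :
    rename w (rename (Em cl d m) (φ.Kh pt)) ∈ Gr k θ (colV d) f ((φ.tot : ℤ) - 1) := by
  have hne' : ¬ Fine (blk cl m.1) (fun y => f (w (Em cl d m y))) := by
    intro h
    apply hne
    intro a b hab
    obtain ⟨x, rfl⟩ := ((Em cl d m).trans w).surjective a
    obtain ⟨y, rfl⟩ := ((Em cl d m).trans w).surjective b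
    apply h
    simpa [lab_Em] using hab
  rw [mem_Gr, rename_trans, ThinEq494.ud_equiv (morE m hw f), NF_morE m hw f]
  have := PLloc830.ud_Kh_strict hcl hk pt
    ((ThinEq494.Good_equiv (morE (k := k) m hw f)).1 hf) hne' φ
  refine ud_mono _ _ _ ?_ this
  omega

theorem el_mem (hcl : ∀ t, thc θ (cl t) = 0)
    (hk : ∀ c e : I → ℕ, thc θ c = 0 → thc θ e = 0 → kk k c e = kk k e c)
    (pt : ∀ t, Vt (cl t)) (m m' : Pl cl d) (φ : Wd 𝓛 m.1) :
    φ.el pt ∈ Gr k θ (colV d) (lab cl d m') φ.tot := by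
  unfold Wd.el alt
  refine Submodule.sum_mem _ fun w hw => Submodule.smul_mem _ _ ?_
  exact Kh_mem hcl hk pt m (mem_GG.1 hw) (Places494.good_lab hcl m') φ

theorem el_lt (hinj : Function.Injective cl) (hcl0 : ∀ t, cl t ≠ 0)
    (hcl : ∀ t, thc θ (cl t) = 0)
    (hk : ∀ c e : I → ℕ, thc θ c = 0 → thc θ e = 0 → kk k c e = kk k e c)
    (pt : ∀ t, Vt (cl t)) (m m' : Pl cl d) (hne : m' ≠ m) (hc : m.card ≤ m'.card)
    (φ : Wd 𝓛 m.1) :
    φ.el pt ∈ Gr k θ (colV d) (lab cl d m') ((φ.tot : ℤ) - 1) := by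
  unfold Wd.el alt
  refine Submodule.sum_mem _ fun w hw => Submodule.smul_mem _ _ ?_
  exact Kh_lt hcl hk pt m (mem_GG.1 hw) (Places494.good_lab hcl m')
    (Places494.not_fine_of_ne hinj hcl0 hne.symm hc w (mem_GG.1 hw)) φ

/-! ### words and symbols -/

/-- the embeddings of the blocks -/
noncomputable def ebV (m : Pl cl d) (j : Jm m.1) : Vt (cl j.1) ↪ Vt d :=
  (Function.Embedding.sigmaMk (β := fun j : Jm m.1 => Vt (cl j.1)) j).trans
    (Em cl d m).toEmbedding

theorem ebV_apply (m : Pl cl d) (j : Jm m.1) (x : Vt (cl j.1)) :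
    ebV m j x = Em cl d m ⟨j, x⟩ := rfl

theorem par_V (m : Pl cl d) : ThinTens559.Par (lab cl d m) (ebV m) := by
  intro j a
  constructor
  · intro h
    obtain ⟨⟨j', x⟩, rfl⟩ := (Em cl d m).surjective a
    rw [lab_Em] at h
    change j' = j at h
    subst h
    exact ⟨x, rfl⟩
  · rintro ⟨y, rfl⟩
    rw [ebV_apply, lab_Em]
    rfl

theorem arrB_ebV (m : Pl cl d) (j : Jm m.1) :
    ThinTens559.arrB (ar k (colV d)) (ebV m j) = ar k (colV (cl j.1)) := by
  funext x y
  simp only [ThinTens559.arrB, ar, ebV_apply, Em_col]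
  rfl

theorem thB_ebV (m : Pl cl d) (j : Jm m.1) :
    ThinTens559.thB (tw θ (colV d)) (ebV m j) = tw θ (colV (cl j.1)) := by
  funext x
  simp only [ThinTens559.thB, tw, ebV_apply, Em_col]
  rfl

theorem col_ebV (m : Pl cl d) (j : Jm m.1) : colV d ∘ ebV m j = colV (cl j.1) := by
  funext x
  simp only [Function.comp_apply, ebV_apply, Em_col]
  rfl

theorem sym_eq (m : Pl cl d) (φ : Wd 𝓛 m.1) :
    Val944.sym (ar k (colV d)) (tw θ (colV d)) (lab cl d m) (ebV m) (fun j => 𝓛.pol j.1)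
      (fun j => (φ.at j).l) (fun j => (φ.at j).a) = eW m φ := by
  unfold Val944.sym eW Wd.lp
  have : (∏ l : Jm m.1, rename (ebV m l) (𝓛.pol l.1 (φ.at l).l)) =
      rename (Em cl d m) (∏ j : Jm m.1, rename (Sigma.mk j) (𝓛.pol j.1 (φ.at j).l)) := by
    rw [map_prod]
    refine Finset.prod_congr rfl fun j _ => ?_
    rw [rename_rename]
    rfl
  rw [this]

theorem indep_eW (m : Pl cl d) (g : ℕ) : LinearIndependent ℚ
    (fun φ : {φ : Wd 𝓛 m.1 // φ.tot = g} => (eW m φ.1 : Sy k θ (colV d) (lab cl d m))) := by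
  have hind : ∀ j : Jm m.1, LinearIndependent ℚ fun i =>
      Ideal.Quotient.mk (J0 ℚ (ThinTens559.arrB (ar k (colV d)) (ebV m j))
        (ThinTens559.thB (tw θ (colV d)) (ebV m j)) univ) (𝓛.pol j.1 i) := by
    intro j
    rw [arrB_ebV, thB_ebV, linearIndependent_iff]
    intro c hc
    apply 𝓛.indep j.1 c
    have h2 : Ideal.Quotient.mk (J0 ℚ (ar k (colV (cl j.1))) (tw θ (colV (cl j.1))) univ)
        (c.sum fun l a => a • 𝓛.pol j.1 l) = 0 := by
      rw [Finsupp.linearCombination_apply] at hc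
      refine Eq.trans ?_ hc
      rw [Finsupp.sum, Finsupp.sum, map_sum]
      rfl
    exact Ideal.Quotient.eq_zero_iff_mem.1 h2
  have h1 := Val944.indep_words (par_V m) (arr := ar k (colV d)) (th := tw θ (colV d))
    (fun j => 𝓛.pol j.1) hind
  have h3 : Function.Injective (fun φ : {φ : Wd 𝓛 m.1 // φ.tot = g} =>
      ((fun j => (φ.1.at j).l : ∀ j : Jm m.1, 𝓛.L j.1), (fun j => (φ.1.at j).a : Jm m.1 → ℕ))) := by
    intro φ φ' h
    simp only [Prod.mk.injEq] at h
    apply Subtype.ext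
    funext t r
    apply Al.ext'
    · exact congrFun h.1 ⟨t, r⟩
    · exact congrFun h.2 (⟨t, r⟩ : Jm m.1)
  have h4 := h1.comp _ h3
  convert h4 using 1
  funext φ
  exact (sym_eq m φ.1).symm

theorem mem_span_eW (hT : Places494.AllTypes θ cl d) (hcl0 : ∀ t, cl t ≠ 0)
    (hcl : ∀ t, thc θ (cl t) = 0)
    (hk : ∀ c e : I → ℕ, thc θ c = 0 → thc θ e = 0 → kk k c e = kk k e c)
    (m : Pl cl d) (g : ℕ) {x : MvPolynomial (Vt d) ℚ} (hx : x ∈ Anti (colV d))
    (h1 : ∀ m' : Pl cl d, x ∈ Gr k θ (colV d) (lab cl d m') g)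
    (h2 : ∀ m' : Pl cl d, m.card < m'.card → x ∈ Gr k θ (colV d) (lab cl d m') ((g : ℤ) - 1)) :
    Tm k θ (colV d) (lab cl d m) g x ∈ Submodule.span ℚ (Set.range
      (fun φ : {φ : Wd 𝓛 m.1 // φ.tot = g} => (eW m φ.1 : Sy k θ (colV d) (lab cl d m)))) := by
  have hpol : ∀ j : Jm m.1, ThinTens559.VB ℚ (ar k (colV d)) (tw θ (colV d)) (ebV m) j ⊓
      Anti (colV d ∘ ebV m j) ≤ Submodule.span ℚ (Set.range (𝓛.pol j.1)) ⊔
        (J0 ℚ (ThinTens559.arrB (ar k (colV d)) (ebV m j))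
          (ThinTens559.thB (tw θ (colV d)) (ebV m j)) univ).restrictScalars ℚ := by
    intro j y hy
    have hy1 : InV ℚ (ThinTens559.arrB (ar k (colV d)) (ebV m j))
        (ThinTens559.thB (tw θ (colV d)) (ebV m j)) (fun _ => ()) y := hy.1
    have hy2 := hy.2
    rw [col_ebV] at hy2
    rw [arrB_ebV, thB_ebV] at hy1
    have h3 := 𝓛.span j.1 (show y ∈ Wt k θ (cl j.1) from ⟨hy2, hy1⟩)
    rw [arrB_ebV, thB_ebV, sup_comm]
    exact h3
  have key := Val944.span_words (PLloc830.sym_col hk (colV d)) (Places494.good_lab hcl m)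
    (par_V m) (c := colV d) (fun a a' d d' h h' => by simp only [ar, h, h'])
    (fun a a' h => by simp only [tw, h]) (fun j => 𝓛.pol j.1) hpol (g := g) hx
    (fun g' hg' => Places494.ud_of_Pl hT hx (fun m' => h1 m') g' hg')
    (fun g' hg' hf hnf => by
      have hs : m.card < Places494.nblk g' := by
        rw [← Places494.nblk_lab hcl0 m]
        exact Places494.nblk_lt_of_fine hf hnf
      have := Places494.ud_of_Pl_lt (k := k) hT hx (g := (g : ℤ) - 1) (s := m.card)
        (fun m' hm' => h2 m' hm') g' hg' hs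
      refine ud_mono _ _ _ ?_ this
      omega)
  rw [Tm_apply]
  refine Submodule.span_mono ?_ key
  rintro z ⟨s, a, ha, rfl⟩
  have ha' : ∑ l, a l = g := by exact_mod_cast ha
  refine ⟨⟨fun t r => ⟨s ⟨t, r⟩, a ⟨t, r⟩⟩, ha'⟩, ?_⟩
  exact (sym_eq m (fun t r => ⟨s ⟨t, r⟩, a ⟨t, r⟩⟩ : Wd 𝓛 m.1)).symm

end fin

end Crest.Agent.R059.PL547
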