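import Crest.Agent.R059.AltTr_568_Mg
import Mathlib
import Crest.Agent.R059.Grnd_883
import Crest.Agent.R059.DilogPS_344
import Crest.Agent.R059.Hilb2_568
import Crest.Agent.R059.ABOut_883
import Crest.Agent.R059.PL3_547
import Crest.Agent.R059.Bridge_830_Mg
import Crest.Agent.R059.DimCount_830
import Crest.Agent.R059.Fac_150
import Crest.Agent.R059.CloB_987
import Crest.Agent.R059.PL7_547
import Crest.Agent.R059.PL2_547

-- ▼ part R059/AltA_599
section

/-!
# Theorem A'' in numeric form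
-/

set_option autoImplicit false

open MvPolynomial

namespace Crest.Agent.R059.Alt599

open Hilb568 (dA Vars)
open AltTr568 (hd_H_std hd_Igt_std hd_Ile_std)

section conj

variable {V I : Type*} [Fintype V] [DecidableEq V] [DecidableEq I]

omit [DecidableEq I] in
/-- sets with the same colour counts are conjugate -/
theorem exists_conj [DecidableEq I] {c : V → I} {A X : Finset V}
    (h : ∀ i, (A.filter (fun v => c v = i)).card = (X.filter (fun v => c v = i)).card) :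
    ∃ w : Equiv.Perm V, (∀ v, c (w v) = c v) ∧ A.map w.toEmbedding = X := by
  classical
  have hcard : ∀ (B : Finset V) (i : I), Fintype.card {x : {v // c v = i} // x.1 ∈ B}
      = (B.filter (fun v => c v = i)).card := by
    intro B i
    rw [← Fintype.card_coe]
    refine Fintype.card_congr ⟨fun x => ⟨x.1.1, Finset.mem_filter.2 ⟨x.2, x.1.2⟩⟩,
      fun y => ⟨⟨y.1, (Finset.mem_filter.1 y.2).2⟩, (Finset.mem_filter.1 y.2).1⟩, ?_, ?_⟩
    · intro x; rfl
    · intro y; rfl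
  have hE : ∀ i, Nonempty ({x : {v // c v = i} // x.1 ∈ A} ≃ {x : {v // c v = i} // x.1 ∈ X}) :=
    fun i => Fintype.card_eq.1 (by rw [hcard, hcard, h i])
  let f : ∀ i, {x : {v // c v = i} // x.1 ∈ A} ≃ {x : {v // c v = i} // x.1 ∈ X} :=
    fun i => (hE i).some
  let g : ∀ i, Equiv.Perm {v // c v = i} := fun i => (f i).extendSubtype
  let w : Equiv.Perm V := (Equiv.sigmaFiberEquiv c).symm.trans
    ((Equiv.sigmaCongrRight g).trans (Equiv.sigmaFiberEquiv c))
  have hw : ∀ v, w v = (g (c v) ⟨v, rfl⟩ : {u // c u = c v}).1 := fun v => rfl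
  have hwc : ∀ v, c (w v) = c v := fun v => by
    rw [hw]; exact (g (c v) ⟨v, rfl⟩ : {u // c u = c v}).2
  have hmem : ∀ v, v ∈ A → w v ∈ X := by
    intro v hv
    rw [hw]
    exact (f (c v)).extendSubtype_mem ⟨v, rfl⟩ hv
  refine ⟨w, hwc, ?_⟩
  apply Finset.eq_of_subset_of_card_le
  · intro v hv
    obtain ⟨u, hu, rfl⟩ := Finset.mem_map.1 hv
    exact hmem u hu
  · rw [Finset.card_map]
    have h1 : ∀ B : Finset V, B.card = ∑ i ∈ Finset.univ.image c,
        (B.filter (fun v => c v = i)).card := by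
      intro B
      exact Finset.card_eq_sum_card_fiberwise fun v _ =>
        Finset.mem_coe.2 (Finset.mem_image_of_mem c (Finset.mem_univ v))
    rw [h1 A, h1 X]
    exact le_of_eq (Finset.sum_congr rfl fun i _ => (h i).symm)

end conj

section count

variable {V I : Type*} [Fintype V] [DecidableEq V] [DecidableEq I]

omit [DecidableEq I] in
/-- a homogeneous basis computes the dimensions -/
theorem hd_span {T : Type*} {v : T → MvPolynomial V ℚ} (hv : LinearIndependent ℚ v)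
    {δ : T → ℕ} (hδ : ∀ t, (v t).IsHomogeneous (δ t)) (n : ℕ) :
    hd (Submodule.span ℚ (Set.range v)) n = Nat.card {t : T // δ t = n} := by
  have h1 : Submodule.span ℚ (Set.range v) ⊓ homogeneousSubmodule V ℚ n
      = Submodule.span ℚ (Set.range (fun t : {t : T // δ t = n} => v t)) := by
    apply le_antisymm
    · rintro f ⟨hf, hn⟩
      have h2 : homogeneousComponent n f = f := homogeneousComponent_eq_self hn
      rw [← h2]
      have hle : Submodule.span ℚ (Set.range v) ≤ (Submodule.span ℚ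
          (Set.range (fun t : {t : T // δ t = n} => v t))).comap (homogeneousComponent n) := by
        rw [Submodule.span_le]
        rintro _ ⟨t, rfl⟩
        change homogeneousComponent n (v t) ∈ Submodule.span ℚ
          (Set.range (fun t : {t : T // δ t = n} => v t))
        rw [homogeneousComponent_of_mem ((mem_homogeneousSubmodule _ _).2 (hδ t))]
        split_ifs with h
        · exact Submodule.subset_span ⟨⟨t, h.symm⟩, rfl⟩
        · exact zero_mem _
      exact hle hf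
    · rw [Submodule.span_le]
      rintro _ ⟨t, rfl⟩
      refine ⟨Submodule.subset_span ⟨t, rfl⟩, ?_⟩
      have := hδ t
      rw [t.2] at this
      exact this
  unfold hd
  rw [h1]
  have h3 : LinearIndependent ℚ (fun t : {t : T // δ t = n} => v t) :=
    hv.comp _ Subtype.val_injective
  exact Module.finrank_eq_nat_card_basis (Module.Basis.span h3)

/-- the index count -/
theorem card_index {S : Type*} [Fintype S] (g e : S → ℕ → ℕ) (m : S → ℕ) (n : ℕ) :
    Nat.card {t : (Σ A : S, (Σ p : ℕ, Fin (g A p)) × (Σ r : ℕ, Fin (e A r))) //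
      m t.1 + (t.2.1.1 + t.2.2.1) = n}
      = ∑ A : S, if m A ≤ n then ∑ pr ∈ Finset.HasAntidiagonal.antidiagonal (n - m A),
        g A pr.1 * e A pr.2 else 0 := by
  classical
  -- the finite model
  let U : Type _ := Σ A : S, Σ pr : {pr : ℕ × ℕ // m A + (pr.1 + pr.2) = n},
    Fin (g A pr.1.1) × Fin (e A pr.1.2)
  let E : {t : (Σ A : S, (Σ p : ℕ, Fin (g A p)) × (Σ r : ℕ, Fin (e A r))) //
      m t.1 + (t.2.1.1 + t.2.2.1) = n} ≃ U :=
    { toFun := fun t => ⟨t.1.1, ⟨(t.1.2.1.1, t.1.2.2.1), t.2⟩, (t.1.2.1.2, t.1.2.2.2)⟩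
      invFun := fun u => ⟨⟨u.1, (⟨u.2.1.1.1, u.2.2.1⟩, ⟨u.2.1.1.2, u.2.2.2⟩)⟩, u.2.1.2⟩
      left_inv := fun t => rfl
      right_inv := fun u => rfl }
  rw [Nat.card_congr E]
  have hfin : ∀ A : S, Finite {pr : ℕ × ℕ // m A + (pr.1 + pr.2) = n} := by
    intro A
    refine Set.Finite.to_subtype (s := {pr : ℕ × ℕ | m A + (pr.1 + pr.2) = n}) ?_
    refine ((Finset.range (n + 1) ×ˢ Finset.range (n + 1)).finite_toSet).subset ?_
    rintro ⟨p, r⟩ h
    change m A + (p + r) = n at h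
    simp only [Finset.coe_product, Finset.coe_range, Set.mem_prod, Set.mem_Iio]
    omega
  have : ∀ A : S, Fintype {pr : ℕ × ℕ // m A + (pr.1 + pr.2) = n} :=
    fun A => Fintype.ofFinite _
  rw [Nat.card_sigma]
  refine Finset.sum_congr rfl fun A _ => ?_
  rw [Nat.card_sigma]
  have hc : ∀ pr : {pr : ℕ × ℕ // m A + (pr.1 + pr.2) = n},
      Nat.card (Fin (g A pr.1.1) × Fin (e A pr.1.2)) = g A pr.1.1 * e A pr.1.2 := by
    intro pr
    rw [Nat.card_prod, Nat.card_eq_fintype_card, Nat.card_eq_fintype_card, Fintype.card_fin,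
      Fintype.card_fin]
  rw [Finset.sum_congr rfl fun pr _ => hc pr]
  split_ifs with h
  · refine Finset.sum_bij (fun (pr : {pr : ℕ × ℕ // m A + (pr.1 + pr.2) = n}) _ => pr.1)
      ?_ ?_ ?_ ?_
    · rintro ⟨pr, hpr⟩ _
      rw [Finset.HasAntidiagonal.mem_antidiagonal]
      simp only
      omega
    · rintro ⟨pr, _⟩ _ ⟨pr', _⟩ _ hh
      exact Subtype.ext hh
    · rintro pr hpr
      rw [Finset.HasAntidiagonal.mem_antidiagonal] at hpr
      exact ⟨⟨pr, by omega⟩, Finset.mem_univ _, rfl⟩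
    · rintro pr _
      rfl
  · refine Finset.sum_eq_zero ?_
    rintro ⟨pr, hpr⟩ _
    omega

theorem Alt_homogeneous (c : V → I) (A : Finset V) {f : MvPolynomial V ℚ} {n : ℕ}
    (hf : f.IsHomogeneous n) : (Alt c A f).IsHomogeneous n := by
  have h1 := Alt_homogeneousComponent c A n f
  rw [homogeneousComponent_eq_self hf] at h1
  rw [← h1]
  exact homogeneousComponent_isHomogeneous n _

/-- the dimension count for a fixed particle set -/
theorem count_V (k : I → I → ℕ) (c : V → I) (θ : I → ℤ) (S : Finset (Finset V))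
    (hS1 : ∀ X ∈ S, ∀ Y ∈ S, (∀ i, (X.filter (fun v => c v = i)).card
      = (Y.filter (fun v => c v = i)).card) → X = Y)
    (hS2 : ∀ X : Finset V, ∃ A ∈ S, ∀ i, (A.filter (fun v => c v = i)).card
      = (X.filter (fun v => c v = i)).card) (n : ℕ) :
    hd (H c (Finset.univ : Finset V)) n = ∑ A : S, if kd k c (A : Finset V) (A : Finset V)ᶜ ≤ n then
      ∑ pr ∈ Finset.HasAntidiagonal.antidiagonal (n - kd k c (A : Finset V) (A : Finset V)ᶜ),
        (hd (H c (A : Finset V)) pr.1 - hd (Igt k c θ (A : Finset V)) pr.1) *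
        (hd (H c (A : Finset V)ᶜ) pr.2 - hd (Ile k c θ (A : Finset V)ᶜ) pr.2) else 0 := by
  have hexb := fun A : S => exists_compl (Igt_le_H k c θ (A : Finset V)) (graded_H c A)
    (graded_Igt k c θ A)
  choose b hb1 hb2 hb3 hb4 using hexb
  have hexd := fun A : S => exists_compl (Ile_le_H k c θ (A : Finset V)ᶜ) (graded_H c _)
    (graded_Ile k c θ _)
  choose d hd1 hd2 hd3 hd4 using hexd
  have hrep : ∀ X ∈ S, ∀ Y ∈ S, X ≠ Y → ∀ w : Equiv.Perm V, (∀ v, c (w v) = c v) →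
      X.map w.toEmbedding ≠ Y := by
    rintro X hX Y hY hne w hw rfl
    apply hne
    refine hS1 X hX _ hY fun i => ?_
    rw [Finset.filter_map, Finset.card_map]
    congr 1
    refine Finset.filter_congr fun v _ => ?_
    simp [hw]
  have hind := indep_all (k := k) (θ := θ) hrep b d hb1 hd1 hb4 hd4
  have hspan := span_all (k := k) (c := c) (θ := θ) (S := S) (fun X => by
    obtain ⟨A, hA, h⟩ := hS2 X
    obtain ⟨w, hw, hwX⟩ := exists_conj h
    exact ⟨A, hA, w, hw, hwX⟩) b d hb3 hd3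
  have hHle : Submodule.span ℚ (Set.range (fun p : Σ A : S, (Σ n : ℕ,
      Fin (hd (H c (A : Finset V)) n - hd (Igt k c θ (A : Finset V)) n)) × (Σ n : ℕ,
      Fin (hd (H c (A : Finset V)ᶜ) n - hd (Ile k c θ (A : Finset V)ᶜ) n)) =>
      Alt c Finset.univ (K k c (p.1 : Finset V) (p.1 : Finset V)ᶜ *
        (b p.1 p.2.1 * d p.1 p.2.2)))) ≤ H c Finset.univ := by
    rw [Submodule.span_le]
    rintro _ ⟨p, rfl⟩
    exact Alt_mem_H (by rw [RA_univ]; trivial)
  rw [le_antisymm hspan hHle]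
  rw [hd_span hind (δ := fun t => kd k c (t.1 : Finset V) (t.1 : Finset V)ᶜ + (t.2.1.1 + t.2.2.1))]
  · exact card_index _ _ (fun A : S => kd k c (A : Finset V) (A : Finset V)ᶜ) n
  · intro t
    exact Alt_homogeneous c _ ((K_homogeneous k c _ _).mul ((hb2 t.1 t.2.1).mul (hd2 t.1 t.2.2)))

end count

/-! ### numeric form -/

section numeric

variable {I : Type*} [Fintype I] [DecidableEq I]

/-- dimensions of the alternating polynomials on `V_d` -/
noncomputable def hH (d : I →₀ ℕ) (n : ℕ) : ℕ :=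
  hd (H (Sigma.fst : Vars (⇑d) → I) Finset.univ) n

/-- dimensions of `H / I^>` on `V_d` -/
noncomputable def hgt (k : I → I → ℕ) (θ : I → ℤ) (d : I →₀ ℕ) (n : ℕ) : ℕ :=
  hd (H (Sigma.fst : Vars (⇑d) → I) Finset.univ) n
    - hd (Igt k (Sigma.fst : Vars (⇑d) → I) θ Finset.univ) n

/-- dimensions of `H / I^≤` on `V_d` -/
noncomputable def hle (k : I → I → ℕ) (θ : I → ℤ) (d : I →₀ ℕ) (n : ℕ) : ℕ :=
  hd (H (Sigma.fst : Vars (⇑d) → I) Finset.univ) n
    - hd (Ile k (Sigma.fst : Vars (⇑d) → I) θ Finset.univ) n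

/-- colour counts -/
noncomputable def typ {V : Type*} [Fintype V] [DecidableEq V] (c : V → I) (A : Finset V) :
    I →₀ ℕ := Finsupp.equivFunOnFinite.symm (dA c A)

section

variable {V : Type*} [Fintype V] [DecidableEq V] (c : V → I) (A : Finset V)


theorem typ_apply (i : I) : typ c A i = (A.filter (fun v => c v = i)).card := rfl


theorem hgt_typ (k : I → I → ℕ) (θ : I → ℤ) (n : ℕ) :
    hd (H c A) n - hd (Igt k c θ A) n = hgt k θ (typ c A) n := by
  rw [hd_H_std, hd_Igt_std]; rfl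

theorem hle_typ (k : I → I → ℕ) (θ : I → ℤ) (n : ℕ) :
    hd (H c A) n - hd (Ile k c θ A) n = hle k θ (typ c A) n := by
  rw [hd_H_std, hd_Ile_std]; rfl

theorem sum_typ {M : Type*} [AddCommMonoid M] (f : I → M) :
    ∑ a ∈ A, f (c a) = ∑ i, typ c A i • f i := by
  rw [← Finset.sum_fiberwise A c]
  refine Finset.sum_congr rfl fun i _ => ?_
  rw [typ_apply, ← Finset.sum_const]
  exact Finset.sum_congr rfl fun a ha => by rw [(Finset.mem_filter.1 ha).2]

theorem kd_typ (k : I → I → ℕ) (B : Finset V) :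
    kd k c A B = ∑ i, ∑ j, k i j * typ c A i * typ c B j := by
  unfold kd
  rw [sum_typ c A (fun i => ∑ b ∈ B, k i (c b))]
  refine Finset.sum_congr rfl fun i _ => ?_
  rw [sum_typ c B (fun j => k i j), Finset.smul_sum]
  refine Finset.sum_congr rfl fun j _ => ?_
  simp only [smul_eq_mul]
  ring

theorem wt_typ (θ : I → ℤ) : wt θ c A = ∑ i, θ i * (typ c A i : ℤ) := by
  unfold wt
  rw [sum_typ c A θ]
  refine Finset.sum_congr rfl fun i _ => ?_
  rw [nsmul_eq_mul, mul_comm]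

theorem typ_add_compl : typ c A + typ c Aᶜ = typ c Finset.univ := by
  ext i
  rw [Finsupp.add_apply, typ_apply, typ_apply, typ_apply, ← Finset.card_union_of_disjoint]
  · congr 1
    ext v
    simp only [Finset.mem_union, Finset.mem_filter, Finset.mem_compl, Finset.mem_univ, true_and]
    tauto
  · exact (disjoint_compl_right (a := A)).mono (Finset.filter_subset _ _)
      (Finset.filter_subset _ _)

theorem exists_typ {a : I →₀ ℕ} (ha : a ≤ typ c Finset.univ) : ∃ A : Finset V, typ c A = a := by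
  classical
  have h : ∀ i, ∃ B ⊆ (Finset.univ : Finset V).filter (fun v => c v = i), B.card = a i :=
    fun i => Finset.exists_subset_card_eq (ha i)
  choose B hB1 hB2 using h
  refine ⟨Finset.univ.biUnion B, ?_⟩
  ext i
  rw [typ_apply, ← hB2 i]
  congr 1
  ext v
  simp only [Finset.mem_filter, Finset.mem_biUnion, Finset.mem_univ, true_and]
  constructor
  · rintro ⟨⟨j, hj⟩, hv⟩
    have := (Finset.mem_filter.1 (hB1 j hj)).2
    rw [hv] at this
    rwa [this]
  · intro hv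
    exact ⟨⟨i, hv⟩, (Finset.mem_filter.1 (hB1 i hv)).2⟩

end

theorem typ_univ (d : I →₀ ℕ) : typ (Sigma.fst : Vars (⇑d) → I) Finset.univ = d := by
  ext i
  rw [typ_apply]
  have : ((Finset.univ : Finset (Vars (⇑d))).filter (fun v => v.1 = i))
      = (Finset.univ : Finset (Fin (d i))).map ⟨fun x => (⟨i, x⟩ : Vars (⇑d)), fun x y h => by
          simpa using h⟩ := by
    ext ⟨j, x⟩
    simp only [Finset.mem_filter, Finset.mem_univ, true_and, Finset.mem_map,
      Function.Embedding.coeFn_mk]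
    constructor
    · rintro rfl
      exact ⟨x, rfl⟩
    · rintro ⟨y, hy⟩
      exact (congrArg Sigma.fst hy).symm
  rw [this, Finset.card_map, Finset.card_univ, Fintype.card_fin]

/-- **THEOREM A'' (numeric form)** -/
theorem thmA (k : I → I → ℕ) (θ : I → ℤ) (d : I →₀ ℕ) (n : ℕ) :
    hH d n = ∑ ab ∈ Finset.HasAntidiagonal.antidiagonal d,
      if ∑ i, ∑ j, k i j * ab.1 i * ab.2 j ≤ n then
        ∑ pr ∈ Finset.HasAntidiagonal.antidiagonal (n - ∑ i, ∑ j, k i j * ab.1 i * ab.2 j),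
          hgt k θ ab.1 pr.1 * hle k θ ab.2 pr.2 else 0 := by
  classical
  set c : Vars (⇑d) → I := Sigma.fst with hc
  let sec : (I →₀ ℕ) → Finset (Vars (⇑d)) := Function.invFun (typ c)
  have hsec : ∀ A, typ c (sec (typ c A)) = typ c A := fun A =>
    Function.invFun_eq ⟨A, rfl⟩
  let S : Finset (Finset (Vars (⇑d))) := Finset.univ.image (fun A => sec (typ c A))
  have hS1 : ∀ X ∈ S, ∀ Y ∈ S, (∀ i, (X.filter (fun v => c v = i)).card
      = (Y.filter (fun v => c v = i)).card) → X = Y := by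
    intro X hX Y hY h
    obtain ⟨A, _, rfl⟩ := Finset.mem_image.1 hX
    obtain ⟨B, _, rfl⟩ := Finset.mem_image.1 hY
    have h1 : typ c (sec (typ c A)) = typ c (sec (typ c B)) := by
      ext i
      exact h i
    rw [hsec, hsec] at h1
    rw [h1]
  have hS2 : ∀ X : Finset (Vars (⇑d)), ∃ A ∈ S, ∀ i, (A.filter (fun v => c v = i)).card
      = (X.filter (fun v => c v = i)).card := by
    intro X
    refine ⟨sec (typ c X), Finset.mem_image.2 ⟨X, Finset.mem_univ _, rfl⟩, fun i => ?_⟩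
    have := DFunLike.congr_fun (hsec X) i
    exact this
  unfold hH
  rw [count_V k c θ S hS1 hS2 n]
  simp only [hgt_typ, hle_typ, kd_typ]
  rw [Finset.sum_coe_sort S (fun A => if ∑ i, ∑ j, k i j * typ c A i * typ c Aᶜ j ≤ n then
      ∑ pr ∈ Finset.HasAntidiagonal.antidiagonal (n - ∑ i, ∑ j, k i j * typ c A i * typ c Aᶜ j),
        hgt k θ (typ c A) pr.1 * hle k θ (typ c Aᶜ) pr.2 else 0)]
  refine Finset.sum_bij (fun A _ => (typ c A, typ c Aᶜ)) ?_ ?_ ?_ ?_
  · intro A _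
    rw [Finset.HasAntidiagonal.mem_antidiagonal]
    exact (typ_add_compl c A).trans (typ_univ d)
  · intro X hX Y hY h
    have h1 : typ c X = typ c Y := congrArg Prod.fst h
    exact hS1 X hX Y hY fun i => DFunLike.congr_fun h1 i
  · rintro ⟨a, b⟩ hab
    rw [Finset.HasAntidiagonal.mem_antidiagonal] at hab
    have ha : a ≤ typ c Finset.univ := by
      rw [typ_univ, ← hab]
      exact le_self_add
    obtain ⟨A, hA⟩ := exists_typ c ha
    obtain ⟨B, hB, hBA⟩ := hS2 A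
    have h1 : typ c B = a := by
      rw [← hA]
      ext i
      exact hBA i
    refine ⟨B, hB, Prod.ext h1 ?_⟩
    have h2 := typ_add_compl c B
    rw [h1, typ_univ] at h2
    exact add_left_cancel (h2.trans hab.symm)
  · intro A _
    rfl

end numeric

end Crest.Agent.R059.Alt599
end

-- ▼ part R059/NumCount_469
section

set_option autoImplicit false

/-!
Row 59 (S0081), leaf NUM, part 1: counting multisets of natural numbers
(`e_odd(m) = X^{m(m-1)/2}/(q)_m`, `e_even(m) = 1/(q)_m`).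
-/

namespace Crest.Agent.R059.Num469

open Finset PowerSeries

/-- `∏_{r<m} (1 - X^{r+1})` -/
noncomputable def qf (m : ℕ) : PowerSeries ℤ := ∏ r ∈ range m, (1 - X ^ (r + 1))

theorem qf_succ (m : ℕ) : qf (m + 1) = qf m * (1 - X ^ (m + 1)) := by
  rw [qf, prod_range_succ, ← qf]

theorem constantCoeff_qf (m : ℕ) : constantCoeff (qf m) = 1 := by
  induction m with
  | zero => simp [qf]
  | succ m ih => rw [qf_succ, map_mul, ih]; simp

/-- inverse of `qf m` -/
noncomputable def iqf (m : ℕ) : PowerSeries ℤ := invOfUnit (qf m) 1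

theorem qf_mul_iqf (m : ℕ) : qf m * iqf m = 1 :=
  mul_invOfUnit _ _ (by rw [constantCoeff_qf]; rfl)

theorem iqf_succ (m : ℕ) : iqf (m + 1) * (1 - X ^ (m + 1)) = iqf m := by
  have h1 := qf_mul_iqf m
  have h2 := qf_mul_iqf (m + 1)
  rw [qf_succ] at h2
  calc iqf (m + 1) * (1 - X ^ (m + 1))
      = iqf (m + 1) * (1 - X ^ (m + 1)) * (qf m * iqf m) := by rw [h1, mul_one]
    _ = (qf m * (1 - X ^ (m + 1)) * iqf (m + 1)) * iqf m := by ring
    _ = iqf m := by rw [h2, one_mul]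

theorem iqf_zero : iqf 0 = 1 := by
  have h := qf_mul_iqf 0
  simpa [qf] using h

/-- `e_odd(m) = X^{m(m-1)/2}/(q)_m` (`o = true`), `e_even(m) = 1/(q)_m` (`o = false`). -/
noncomputable def ee (o : Bool) (m : ℕ) : PowerSeries ℤ :=
  X ^ (if o then m.choose 2 else 0) * iqf m

theorem ee_zero (o : Bool) : ee o 0 = 1 := by
  cases o <;> simp [ee, iqf_zero]

/-- defining equation of `ee`. -/
theorem ee_mul_qf (o : Bool) (m : ℕ) : ee o m * qf m = X ^ (if o then m.choose 2 else 0) := by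
  rw [ee, mul_assoc, mul_comm (iqf m), qf_mul_iqf, mul_one]

/-- the recursion of `ee` -/
theorem ee_succ (o : Bool) (m : ℕ) :
    ee o (m + 1) = X ^ (if o then m else 0) * ee o m + X ^ (m + 1) * ee o (m + 1) := by
  have h := iqf_succ m
  have h' : iqf (m + 1) = iqf m + X ^ (m + 1) * iqf (m + 1) := by
    rw [← h]; ring
  cases o with
  | false =>
    simp only [ee, Bool.false_eq_true, if_false, pow_zero, one_mul]
    exact h'
  | true =>
    simp only [ee, if_true]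
    have hc : (m + 1).choose 2 = m + m.choose 2 := by
      rw [Nat.choose_succ_succ' m 1, Nat.choose_one_right]
    rw [hc]
    conv_lhs => rw [h']
    ring

/-- multisets of `m` naturals with sum `n`, without repetition if `o`. -/
def MS (o : Bool) (m n : ℕ) : Set (Multiset ℕ) :=
  {s | (o = true → s.Nodup) ∧ Multiset.card s = m ∧ s.sum = n}

theorem ms_zero (o : Bool) (n : ℕ) : MS o 0 n = if n = 0 then {0} else ∅ := by
  ext s
  simp only [MS, Set.mem_ofPred_eq, Multiset.card_eq_zero]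
  constructor
  · rintro ⟨_, rfl, h⟩
    simp only [Multiset.sum_zero] at h
    simp [← h]
  · intro h
    split_ifs at h with hn
    · rw [Set.mem_singleton_iff] at h
      subst h
      simp [hn]
    · exact absurd h (Set.notMem_empty _)

theorem sum_map_succ (t : Multiset ℕ) : (t.map Nat.succ).sum = t.sum + Multiset.card t := by
  induction t using Multiset.induction with
  | empty => simp
  | cons a t ih => simp only [Multiset.map_cons, Multiset.sum_cons, Multiset.card_cons, ih]; omega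

theorem map_succ_map_pred {s : Multiset ℕ} (h : 0 ∉ s) : (s.map Nat.pred).map Nat.succ = s := by
  rw [Multiset.map_map]
  conv_rhs => rw [← Multiset.map_id s]
  apply Multiset.map_congr rfl
  intro a ha
  have : a ≠ 0 := fun h0 => h (h0 ▸ ha)
  simp only [Function.comp, id]
  exact Nat.succ_pred this

theorem map_succ_injective : Function.Injective (Multiset.map Nat.succ) :=
  Multiset.map_injective Nat.succ_injective

/-- the shift -/
def sh (o : Bool) (m : ℕ) : ℕ := if o then m else 0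

/-- insertion of the letter `0` -/
def ins (o : Bool) (t : Multiset ℕ) : Multiset ℕ := (0 : ℕ) ::ₘ (if o then t.map Nat.succ else t)

/-- multisets with a `0` -/
def MA (o : Bool) (m n : ℕ) : Set (Multiset ℕ) :=
  if sh o m ≤ n then ins o '' MS o m (n - sh o m) else ∅

/-- multisets without a `0` -/
def MB (o : Bool) (m n : ℕ) : Set (Multiset ℕ) :=
  if m + 1 ≤ n then (Multiset.map Nat.succ) '' MS o (m + 1) (n - (m + 1)) else ∅

theorem mem_MA {o : Bool} {m n : ℕ} {s : Multiset ℕ} :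
    s ∈ MA o m n ↔ sh o m ≤ n ∧ ∃ t ∈ MS o m (n - sh o m), ins o t = s := by
  unfold MA
  split_ifs with h
  · simp [h]
  · simp [h]

theorem mem_MB {o : Bool} {m n : ℕ} {s : Multiset ℕ} :
    s ∈ MB o m n ↔ m + 1 ≤ n ∧ ∃ t ∈ MS o (m + 1) (n - (m + 1)), t.map Nat.succ = s := by
  unfold MB
  split_ifs with h
  · simp [h]
  · simp [h]

/-- the two kinds of multisets: with or without `0`. -/
theorem ms_succ (o : Bool) (m n : ℕ) : MS o (m + 1) n = MA o m n ∪ MB o m n := by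
  ext s
  rw [Set.mem_union, mem_MA, mem_MB]
  constructor
  · rintro ⟨hnd, hcard, hsum⟩
    by_cases h0 : 0 ∈ s
    · left
      obtain ⟨t, rfl⟩ := Multiset.exists_cons_of_mem h0
      rw [Multiset.card_cons, Nat.succ_inj] at hcard
      rw [Multiset.sum_cons, zero_add] at hsum
      cases o with
      | false =>
        exact ⟨by simp [sh], t, ⟨by simp, hcard, by simp [sh, hsum]⟩, by simp [ins]⟩
      | true =>
        have hn := hnd rfl
        rw [Multiset.nodup_cons] at hn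
        have e1 := map_succ_map_pred hn.1
        have e2 := sum_map_succ (t.map Nat.pred)
        rw [e1, Multiset.card_map, hcard, hsum] at e2
        have hle : m ≤ n := by omega
        refine ⟨by simpa [sh] using hle, t.map Nat.pred,
          ⟨fun _ => ?_, by rw [Multiset.card_map, hcard], by simp only [sh, if_true]; omega⟩, ?_⟩
        · rw [← Multiset.nodup_map_iff_of_injective Nat.succ_injective, e1]
          exact hn.2
        · simp only [ins, if_true, e1]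
    · right
      have e1 := map_succ_map_pred h0
      have e2 := sum_map_succ (s.map Nat.pred)
      rw [e1, Multiset.card_map, hcard, hsum] at e2
      refine ⟨by omega, s.map Nat.pred,
        ⟨fun ho => ?_, by rw [Multiset.card_map, hcard], by omega⟩, e1⟩
      rw [← Multiset.nodup_map_iff_of_injective Nat.succ_injective, e1]
      exact hnd ho
  · rintro (⟨hle, t, ⟨hnd, hcard, hsum⟩, rfl⟩ | ⟨hle, t, ⟨hnd, hcard, hsum⟩, rfl⟩)
    · cases o with
      | false =>
        simp only [ins, sh, Bool.false_eq_true, if_false, Nat.sub_zero] at hsum ⊢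
        refine ⟨by simp, by rw [Multiset.card_cons, hcard], by rw [Multiset.sum_cons, hsum, zero_add]⟩
      | true =>
        simp only [ins, sh, if_true] at hsum hle ⊢
        refine ⟨fun _ => ?_, by rw [Multiset.card_cons, Multiset.card_map, hcard], ?_⟩
        · rw [Multiset.nodup_cons]
          refine ⟨?_, (Multiset.nodup_map_iff_of_injective Nat.succ_injective).2 (hnd rfl)⟩
          simp
        · rw [Multiset.sum_cons, sum_map_succ, hsum, hcard]; omega
    · refine ⟨fun ho => (Multiset.nodup_map_iff_of_injective Nat.succ_injective).2 (hnd ho),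
        by rw [Multiset.card_map, hcard], ?_⟩
      rw [sum_map_succ, hsum, hcard]; omega

theorem ins_injective (o : Bool) : Function.Injective (ins o) := by
  intro t t' ht
  unfold ins at ht
  rw [Multiset.cons_inj_right] at ht
  cases o with
  | false => simpa using ht
  | true =>
    simp only [if_true] at ht
    exact map_succ_injective ht

theorem ma_mb_disjoint (o : Bool) (m n : ℕ) : Disjoint (MA o m n) (MB o m n) := by
  rw [Set.disjoint_left]
  intro s h1 h2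
  rw [mem_MA] at h1
  rw [mem_MB] at h2
  obtain ⟨_, t, _, rfl⟩ := h1
  obtain ⟨_, t', _, h⟩ := h2
  have : (0 : ℕ) ∈ t'.map Nat.succ := by
    rw [h, ins]; exact Multiset.mem_cons_self _ _
  simp at this

theorem ms_aux (o : Bool) : ∀ (k m n : ℕ), m + n ≤ k →
    (MS o m n).Finite ∧ ((MS o m n).ncard : ℤ) = coeff n (ee o m) := by
  intro k
  induction k with
  | zero =>
    intro m n h
    obtain ⟨rfl, rfl⟩ : m = 0 ∧ n = 0 := by omega
    rw [ms_zero, ee_zero]
    simp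
  | succ k ih =>
    intro m n h
    cases m with
    | zero =>
      rw [ms_zero, ee_zero]
      by_cases hn : n = 0
      · subst hn; simp
      · simp [hn, coeff_one]
    | succ m =>
      have f1 : (MA o m n).Finite := by
        unfold MA
        split_ifs
        · exact ((ih m (n - sh o m) (by omega)).1).image _
        · simp
      have f2 : (MB o m n).Finite := by
        unfold MB
        split_ifs with hle
        · exact ((ih (m + 1) (n - (m + 1)) (by omega)).1).image _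
        · simp
      have e1 : ((MA o m n).ncard : ℤ) =
          (if sh o m ≤ n then coeff (n - sh o m) (ee o m) else 0) := by
        unfold MA
        split_ifs
        · rw [Set.ncard_image_of_injective _ (ins_injective o)]
          exact (ih m (n - sh o m) (by omega)).2
        · simp
      have e2 : ((MB o m n).ncard : ℤ) =
          (if m + 1 ≤ n then coeff (n - (m + 1)) (ee o (m + 1)) else 0) := by
        unfold MB
        split_ifs
        · rw [Set.ncard_image_of_injective _ map_succ_injective]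
          exact (ih (m + 1) (n - (m + 1)) (by omega)).2
        · simp
      refine ⟨by rw [ms_succ]; exact f1.union f2, ?_⟩
      rw [ms_succ, Set.ncard_union_eq (ma_mb_disjoint o m n) f1 f2, Nat.cast_add, e1, e2]
      conv_rhs => rw [ee_succ, map_add, coeff_X_pow_mul', coeff_X_pow_mul']
      rfl

theorem ms_finite (o : Bool) (m n : ℕ) : (MS o m n).Finite := (ms_aux o (m + n) m n le_rfl).1

theorem ms_ncard (o : Bool) (m n : ℕ) : ((MS o m n).ncard : ℤ) = coeff n (ee o m) :=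
  (ms_aux o (m + n) m n le_rfl).2

end Crest.Agent.R059.Num469
end

-- ▼ part R059/Iota_217
section

set_option autoImplicit false

/-!
# Row 59, leaf NUM: the coefficient homomorphism `ι : ℤ⟦X⟧ → KK`, `X ↦ vv ^ 2` (helper217)
-/

namespace Crest.Agent.R059.Iota217

open PowerSeries Finset

/-- doubling `ℕ → ℤ`. -/
def dbl : ℕ →+ ℤ where
  toFun n := 2 * (n : ℤ)
  map_zero' := by simp
  map_add' a b := by push_cast; ring

theorem dbl_apply (n : ℕ) : dbl n = 2 * (n : ℤ) := rfl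

theorem dbl_injective : Function.Injective dbl := fun a b h => by
  rw [dbl_apply, dbl_apply] at h; omega

theorem dbl_le (a b : ℕ) : dbl a ≤ dbl b ↔ a ≤ b := by
  rw [dbl_apply, dbl_apply]; omega

/-- `ι : ℤ⟦X⟧ →+* KK`, `X ↦ T²`. -/
noncomputable def iota : PowerSeries ℤ →+* KK :=
  ((HahnSeries.embDomainRingHom dbl dbl_injective dbl_le).comp
    (HahnSeries.toPowerSeries (R := ℚ)).symm.toRingHom).comp (PowerSeries.map (Int.castRingHom ℚ))

theorem iota_coeff (f : PowerSeries ℤ) (j : ℕ) :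
    HahnSeries.coeff (iota f) (2 * (j : ℤ)) = ((coeff j f : ℤ) : ℚ) := by
  have h : HahnSeries.coeff (iota f) (dbl j) =
      HahnSeries.coeff ((HahnSeries.toPowerSeries (R := ℚ)).symm
        (PowerSeries.map (Int.castRingHom ℚ) f)) j :=
    HahnSeries.embDomain_coeff
  rw [dbl_apply] at h
  rw [h, HahnSeries.coeff_toPowerSeries_symm, PowerSeries.coeff_map]
  rfl

theorem iota_coeff_of_ne (f : PowerSeries ℤ) (n : ℤ) (hn : ∀ j : ℕ, n ≠ 2 * (j : ℤ)) :
    HahnSeries.coeff (iota f) n = 0 := by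
  apply HahnSeries.embDomain_of_notMem_range
  rintro ⟨j, hj⟩
  exact hn j hj.symm

/-- extensionality against `ι f`. -/
theorem eq_iota {x : KK} {f : PowerSeries ℤ}
    (h1 : ∀ j : ℕ, HahnSeries.coeff x (2 * (j : ℤ)) = ((coeff j f : ℤ) : ℚ))
    (h2 : ∀ n : ℤ, (∀ j : ℕ, n ≠ 2 * (j : ℤ)) → HahnSeries.coeff x n = 0) : x = iota f := by
  ext n
  by_cases hn : ∃ j : ℕ, n = 2 * (j : ℤ)
  · obtain ⟨j, rfl⟩ := hn
    rw [h1, iota_coeff]
  · push Not at hn
    rw [h2 n hn, iota_coeff_of_ne f n hn]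

theorem iota_injective : Function.Injective iota := by
  intro f g h
  ext j
  have h1 := iota_coeff f j
  rw [h, iota_coeff] at h1
  exact_mod_cast h1.symm

theorem iota_X : iota (X : PowerSeries ℤ) = (vv : KK) ^ 2 := by
  symm
  apply eq_iota
  · intro j
    rw [vv_pow, PowerSeries.coeff_X]
    by_cases hj : j = 1
    · subst hj
      rw [if_pos rfl]
      simp
    · rw [HahnSeries.coeff_single_of_ne, if_neg hj]
      · simp
      · push_cast; omega
  · intro n hn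
    rw [vv_pow]
    apply HahnSeries.coeff_single_of_ne
    have := hn 1
    push_cast at this ⊢
    exact this

theorem iota_X_pow (m : ℕ) : iota ((X : PowerSeries ℤ) ^ m) = (vv : KK) ^ (2 * m) := by
  rw [map_pow, iota_X, ← pow_mul]

/-- `ι (X^M f)` has no coefficients below `2M`. -/
theorem coeff_iota_X_pow_mul (M : ℕ) (f : PowerSeries ℤ) (n : ℤ) (hn : n < 2 * (M : ℤ)) :
    HahnSeries.coeff (iota (X ^ M * f)) n = 0 := by
  by_cases h : ∃ j : ℕ, n = 2 * (j : ℤ)
  · obtain ⟨j, rfl⟩ := h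
    rw [iota_coeff, PowerSeries.coeff_X_pow_mul', if_neg (by omega)]
    simp
  · push Not at h
    exact iota_coeff_of_ne _ n h



/-! ### the coefficients of the dilogarithms -/

/-- `∏_{r<m} (1 - vv^{2(r+1)})`. -/
noncomputable def qpv (m : ℕ) : KK := ∏ r ∈ range m, (1 - (vv : KK) ^ (2 * (r + 1)))

theorem iota_qf (m : ℕ) : iota (Num469.qf m) = qpv m := by
  rw [Num469.qf, map_prod, qpv]
  refine Finset.prod_congr rfl fun r _ => ?_
  rw [map_sub, map_one, iota_X_pow]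

theorem vv_pow_ne_one (k : ℕ) : (vv : KK) ^ (2 * (k + 1)) ≠ 1 := by
  intro h
  rw [← iota_X_pow, ← map_one iota] at h
  have h1 := iota_injective h
  have h2 := congrArg (fun f => coeff 0 f) h1
  simp only [PowerSeries.coeff_X_pow, PowerSeries.coeff_one, if_true] at h2
  rw [if_neg (by omega)] at h2
  exact zero_ne_one h2

theorem one_sub_ne (k : ℕ) : (1 : KK) - (vv : KK) ^ (2 * (k + 1)) ≠ 0 := fun h =>
  vv_pow_ne_one k (sub_eq_zero.1 h).symm

theorem qpv_ne (m : ℕ) : qpv m ≠ 0 := by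
  rw [qpv, Finset.prod_ne_zero_iff]
  intro i _
  exact one_sub_ne i

/-- the regularity needed by 344. -/
theorem qreg : Dilog344.QReg ((vv : KK) ^ 2) := by
  intro k
  rw [isUnit_iff_ne_zero, ← pow_mul]
  intro h
  exact vv_pow_ne_one k (sub_eq_zero.1 h)

theorem choose_two_two (m : ℕ) : 2 * m.choose 2 = m * (m - 1) := by
  rw [Nat.choose_two_right]
  exact Nat.two_mul_div_two_of_even (Nat.even_mul_pred_self m)

/-- `ι (e_o(m))`, explicit form. -/
theorem iota_ee (o : Bool) (m : ℕ) :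
    iota (Num469.ee o m) = (if o then (vv : KK) ^ (m * (m - 1)) else 1) / qpv m := by
  rw [eq_div_iff (qpv_ne m), ← iota_qf, ← map_mul, Num469.ee_mul_qf, iota_X_pow]
  cases o with
  | false => simp
  | true => simp only [if_true]; rw [choose_two_two]

/-- `ι (e_o(m))` = coefficient of 344's `EE vv o 0`. -/
theorem coeff_EE_zero (o : Bool) (m : ℕ) :
    coeff m (Dilog344.EE vv o 0) = iota (Num469.ee o m) := by
  have hq : (Dilog344.qp1 ((vv : KK) ^ 2) m) * Dilog344.ec ((vv : KK) ^ 2) m = 1 :=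
    Dilog344.qp1_mul_ec qreg m
  have h1 : Dilog344.qp1 ((vv : KK) ^ 2) m = qpv m := by
    rw [Dilog344.qp1, qpv]
    refine Finset.prod_congr rfl fun i _ => ?_
    rw [← pow_mul]
  rw [h1] at hq
  have h2 : Dilog344.ec ((vv : KK) ^ 2) m = (qpv m)⁻¹ := eq_inv_of_mul_eq_one_right hq
  rw [iota_ee, Dilog344.EE, coeff_rescale, zpow_zero, Units.val_one, one_pow, one_mul]
  cases o with
  | false =>
    rw [cond_false, Dilog344.coeff_Ee, h2]
    simp
  | true =>
    rw [cond_true, Dilog344.coeff_Eo, h2, if_pos rfl, ← pow_mul,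
      Nat.two_mul_div_two_of_even (Nat.even_mul_pred_self m), div_eq_mul_inv]

/-- coefficient of 344's `EE vv o a = E_o(vv^a X)`. -/
theorem coeff_EE (o : Bool) (a : ℤ) (m : ℕ) :
    coeff m (Dilog344.EE vv o a) =
      ((vv ^ (a * (m : ℤ)) : KKˣ) : KK) * iota (Num469.ee o m) := by
  rw [← coeff_EE_zero, Dilog344.EE, Dilog344.EE, coeff_rescale, coeff_rescale, zpow_zero,
    Units.val_one, one_pow, one_mul, zpow_mul, zpow_natCast, Units.val_pow_eq_pow_val]

/-- the series `E_o(q^p X)`, `q = vv^2`. -/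
theorem coeff_EE_two (o : Bool) (p m : ℕ) :
    coeff m (Dilog344.EE vv o (2 * (p : ℤ))) = iota (X ^ (p * m) * Num469.ee o m) := by
  rw [coeff_EE, map_mul, iota_X_pow]
  congr 1
  have : (2 * (p : ℤ) * (m : ℤ)) = ((2 * (p * m) : ℕ) : ℤ) := by push_cast; ring
  rw [this, zpow_natCast, Units.val_pow_eq_pow_val]

end Crest.Agent.R059.Iota217
end

-- ▼ part R059/NumA_217
section

set_option autoImplicit false

/-!
# Row 59, leaf NUM: the numeric inputs (HILB), (THA) in power series form (helper217)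
-/

namespace Crest.Agent.R059.NumA217

open PowerSeries Finset HasAntidiagonal

/-! ### the form with natural values -/

section form

variable {I : Type*} [Fintype I]

/-- the bilinear form `∑ k i j d_i e_j` with natural values. -/
noncomputable def kkN (k : I → I → ℕ) : (I →₀ ℕ) →+ (I →₀ ℕ) →+ ℕ where
  toFun d :=
    { toFun := fun e => ∑ i, ∑ j, k i j * d i * e j
      map_zero' := by simp
      map_add' := fun e f => by
        simp only [Finsupp.add_apply, mul_add, sum_add_distrib] }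
  map_zero' := by ext e; simp
  map_add' d e := by
    apply AddMonoidHom.ext
    intro f
    simp only [AddMonoidHom.coe_mk, ZeroHom.coe_mk, AddMonoidHom.add_apply, Finsupp.add_apply,
      mul_add, add_mul, sum_add_distrib]

@[simp] theorem kkN_apply (k : I → I → ℕ) (d e : I →₀ ℕ) :
    kkN k d e = ∑ i, ∑ j, k i j * d i * e j := rfl


end form

/-! ### Hilbert series -/

/-- the Hilbert series of a sequence of dimensions. -/
noncomputable def hs (h : ℕ → ℕ) : PowerSeries ℤ := PowerSeries.mk fun n => (h n : ℤ)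

@[simp] theorem coeff_hs (h : ℕ → ℕ) (n : ℕ) : coeff n (hs h) = (h n : ℤ) := by simp [hs]

theorem hs_eq_one {h : ℕ → ℕ} (hh : ∀ n, h n = if n = 0 then 1 else 0) : hs h = 1 := by
  ext n
  rw [coeff_hs, hh, coeff_one]
  split_ifs <;> simp

theorem hs_eq_zero {h : ℕ → ℕ} (hh : ∀ n, h n = 0) : hs h = 0 := by
  ext n
  rw [coeff_hs, hh, map_zero, Nat.cast_zero]

/-- `X^k * F * G` as a count. -/
theorem coeff_X_pow_mul_hs (k : ℕ) (f g : ℕ → ℕ) (n : ℕ) :
    coeff n (X ^ k * (hs f * hs g)) =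
      ((if k ≤ n then ∑ pr ∈ antidiagonal (n - k), f pr.1 * g pr.2 else 0 : ℕ) : ℤ) := by
  rw [coeff_X_pow_mul']
  split_ifs with h
  · rw [coeff_mul]
    push_cast
    simp only [coeff_hs]
  · simp


section thA

variable {M : Type*} [AddCommMonoid M] [HasAntidiagonal M]

/-- **(THA)** in power series form. -/
theorem hs_of_thA (kk : M → M → ℕ) (h hg hl : M → ℕ → ℕ) (d : M)
    (hA : ∀ n, h d n = ∑ ab ∈ antidiagonal d, if kk ab.1 ab.2 ≤ n then
      ∑ pr ∈ antidiagonal (n - kk ab.1 ab.2), hg ab.1 pr.1 * hl ab.2 pr.2 else 0) :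
    hs (h d) = ∑ ab ∈ antidiagonal d, X ^ kk ab.1 ab.2 * (hs (hg ab.1) * hs (hl ab.2)) := by
  ext n
  rw [coeff_hs, hA, map_sum, Nat.cast_sum]
  exact Finset.sum_congr rfl fun ab _ => (coeff_X_pow_mul_hs _ _ _ _).symm


end thA

/-! ### (HILB) -/

section hilb

variable {I : Type*} [Fintype I]



end hilb

/-! ### the particle set `Σ i, Fin (d i)` of 599 -/

section alt

open Alt599 Hilb568

variable {I : Type*} [Fintype I] [DecidableEq I]




end alt

end Crest.Agent.R059.NumA217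
end

-- ▼ part R059/NumForm_217
section

set_option autoImplicit false

/-!
# Row 59, leaf NUM: multiset form and finsupp form of the supermonomials (helper217)
-/

namespace Crest.Agent.R059.NumForm217

open Finset

variable {A M : Type*} [AddCommMonoid M]

/-- supermonomials, multiset form. -/
def SMm [DecidableEq A] (od : A → Prop) (cl : A → M) (kc w : A → ℕ) (kd : ℕ) (d : M) (n : ℕ) :
    Set (Multiset A) :=
  {s | (∀ x ∈ s, od x → s.count x ≤ 1) ∧ (s.map cl).sum = d ∧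
    2 * n + (s.map kc).sum = 2 * (s.map w).sum + kd}







end Crest.Agent.R059.NumForm217
end

-- ▼ part R059/ABNum_217
section

set_option autoImplicit false

/-!
# Row 59: the NUMERIC OUTPUT of Theorems A + B (naturals only), consumed by NUM (helper217)
-/

namespace Crest.Agent.R059

open PowerSeries Finset HasAntidiagonal

namespace ABNum

variable {I : Type} [Fintype I] [DecidableEq I]

/-- numeric output of Theorems A + B for one quiver `k` and one `θ`. -/
structure NumData (k : I → I → ℕ) (θ : I → ℤ) where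
  /-- dimensions of the alternating polynomials. -/
  h : (I →₀ ℕ) → ℕ → ℕ
  /-- dimensions of `H / I^>`. -/
  hg : (I →₀ ℕ) → ℕ → ℕ
  /-- dimensions of `H / I^≤`. -/
  hl : (I →₀ ℕ) → ℕ → ℕ
  /-- letter types `(c, p, i)`. -/
  Lam : Type
  /-- class of a letter type. -/
  cL : Lam → (I →₀ ℕ)
  /-- degree of a letter type. -/
  pL : Lam → ℕ
  hilb : ∀ d : I →₀ ℕ, (PowerSeries.mk fun n => ((h d n : ℕ) : ℤ)) *
    ∏ i, ∏ r ∈ range (d i), (1 - X ^ (r + 1)) = X ^ (∑ i, (d i).choose 2)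
  thA : ∀ (d : I →₀ ℕ) (n : ℕ), h d n = ∑ ab ∈ antidiagonal d,
    if NumA217.kkN k ab.1 ab.2 ≤ n then
      ∑ pr ∈ antidiagonal (n - NumA217.kkN k ab.1 ab.2), hg ab.1 pr.1 * hl ab.2 pr.2 else 0
  hg_zero : ∀ n, hg 0 n = if n = 0 then 1 else 0
  hl_zero : ∀ n, hl 0 n = if n = 0 then 1 else 0
  hg_supp : ∀ a, a ≠ 0 → ABOut.th θ a ≤ 0 → ∀ n, hg a n = 0
  hl_supp : ∀ b, 0 < ABOut.th θ b → ∀ n, hl b n = 0
  cL_ne : ∀ b, cL b ≠ 0
  cL_th : ∀ b, ABOut.th θ (cL b) = 0
  fin : ∀ (c : I →₀ ℕ) (p : ℕ), {b | cL b = c ∧ pL b = p}.Finite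
  thB : ∀ (inst : DecidableEq (Lam × ℕ)) (d : I →₀ ℕ), ABOut.th θ d = 0 → ∀ n, hl d n =
    (NumForm217.SMm (A := Lam × ℕ)
      (fun x => Odd ((∑ i, cL x.1 i) + NumA217.kkN k (cL x.1) (cL x.1)))
      (fun x => cL x.1)
      (fun x => NumA217.kkN k (cL x.1) (cL x.1))
      (fun x => pL x.1 + x.2)
      (NumA217.kkN k d d) d n).ncard

end ABNum

open ABNum in
/-- **numeric output of Theorems A + B**. -/
def ABNum : Prop :=
  ∀ (I : Type) [Fintype I] [DecidableEq I] (k : I → I → ℕ) (θ : I → ℤ),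
    (∀ d e : I →₀ ℕ, ABOut.th θ d = 0 → ABOut.th θ e = 0 → ABOut.kk k d e = ABOut.kk k e d) →
    Nonempty (NumData k θ)

end Crest.Agent.R059
end

-- ▼ part R059/ThaBind_599
section

/-!
# Theorem A'': all the fields of `ABNum.NumData` except the letters
-/

set_option autoImplicit false

open MvPolynomial

namespace Crest.Agent.R059.ThaBind599

open Alt599
open Hilb568 (dA Vars)

variable {I : Type} [Fintype I] [DecidableEq I] (k : I → I → ℕ) (θ : I → ℤ)

theorem dA_univ (d : I →₀ ℕ) (i : I) :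
    dA (Sigma.fst : Vars (⇑d) → I) Finset.univ i = d i :=
  DFunLike.congr_fun (typ_univ d) i

/-- **HILB** -/
theorem hilb (d : I →₀ ℕ) : (PowerSeries.mk fun n => ((hH d n : ℕ) : ℤ)) *
    ∏ i, ∏ r ∈ Finset.range (d i), (1 - PowerSeries.X ^ (r + 1))
      = PowerSeries.X ^ (∑ i, (d i).choose 2) := by
  have h := Hilb568.hilb_H (Sigma.fst : Vars (⇑d) → I) Finset.univ ℤ
  simp only [dA_univ] at h
  exact h

/-- **THA** -/
theorem thA (d : I →₀ ℕ) (n : ℕ) :
    hH d n = ∑ ab ∈ Finset.HasAntidiagonal.antidiagonal d,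
      if NumA217.kkN k ab.1 ab.2 ≤ n then
        ∑ pr ∈ Finset.HasAntidiagonal.antidiagonal (n - NumA217.kkN k ab.1 ab.2),
          hgt k θ ab.1 pr.1 * hle k θ ab.2 pr.2 else 0 :=
  thmA k θ d n

theorem hH_zero (n : ℕ) : hH (0 : I →₀ ℕ) n = if n = 0 then 1 else 0 := by
  have h := hilb (0 : I →₀ ℕ)
  simp only [Finsupp.coe_zero, Pi.zero_apply, Finset.range_zero, Finset.prod_empty,
    Finset.prod_const_one, mul_one, Nat.choose_zero_succ, Finset.sum_const_zero, pow_zero] at h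
  have h1 := congrArg (PowerSeries.coeff n) h
  rw [PowerSeries.coeff_mk, PowerSeries.coeff_one] at h1
  split_ifs at h1 ⊢ with hn
  · exact_mod_cast h1
  · exact_mod_cast h1

omit [DecidableEq I] in
theorem hd_bot {V : Type*} (n : ℕ) : hd (⊥ : Submodule ℚ (MvPolynomial V ℚ)) n = 0 := by
  unfold hd
  rw [bot_inf_eq, finrank_bot]

theorem hg_zero (n : ℕ) : hgt k θ (0 : I →₀ ℕ) n = if n = 0 then 1 else 0 := by
  have h : Igt k (Sigma.fst : Vars (⇑(0 : I →₀ ℕ)) → I) θ Finset.univ = ⊥ := by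
    rw [eq_bot_iff]
    refine iSup₂_le fun A h => ?_
    exfalso
    rw [Finset.mem_filter] at h
    obtain ⟨⟨i, x⟩, _⟩ := h.2.1
    exact Fin.elim0 x
  have h1 : hgt k θ (0 : I →₀ ℕ) n = hH (0 : I →₀ ℕ) n
    - hd (Igt k (Sigma.fst : Vars (⇑(0 : I →₀ ℕ)) → I) θ Finset.univ) n := rfl
  rw [h1, h, hd_bot, Nat.sub_zero, hH_zero]

theorem hl_zero (n : ℕ) : hle k θ (0 : I →₀ ℕ) n = if n = 0 then 1 else 0 := by
  have h : Ile k (Sigma.fst : Vars (⇑(0 : I →₀ ℕ)) → I) θ Finset.univ = ⊥ := by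
    rw [eq_bot_iff]
    refine iSup₂_le fun A h => ?_
    exfalso
    rw [Finset.mem_filter] at h
    obtain ⟨⟨i, x⟩, _⟩ := h.2.1
    exact Fin.elim0 x
  have h1 : hle k θ (0 : I →₀ ℕ) n = hH (0 : I →₀ ℕ) n
    - hd (Ile k (Sigma.fst : Vars (⇑(0 : I →₀ ℕ)) → I) θ Finset.univ) n := rfl
  rw [h1, h, hd_bot, Nat.sub_zero, hH_zero]

theorem wt_univ (d : I →₀ ℕ) :
    wt θ (Sigma.fst : Vars (⇑d) → I) Finset.univ = ABOut.th θ d := by
  rw [wt_typ, typ_univ, ABOut.th_apply]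

theorem hg_supp (a : I →₀ ℕ) (ha : a ≠ 0) (h : ABOut.th θ a ≤ 0) (n : ℕ) :
    hgt k θ a n = 0 := by
  have hne : (Finset.univ : Finset (Vars (⇑a))).Nonempty := by
    obtain ⟨i, hi⟩ := Finsupp.ne_iff.1 ha
    exact ⟨⟨i, ⟨0, Nat.pos_of_ne_zero hi⟩⟩, Finset.mem_univ _⟩
  have h1 : H (Sigma.fst : Vars (⇑a) → I) Finset.univ
      ≤ Igt k (Sigma.fst : Vars (⇑a) → I) θ Finset.univ := by
    refine le_iSup₂_of_le Finset.univ ?_ ?_
    · rw [Finset.mem_filter, wt_univ]
      exact ⟨Finset.mem_powerset.2 (Finset.Subset.refl _), hne, h⟩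
    · rintro _ ⟨r, _, rfl⟩
      refine ⟨r, ?_, ?_⟩
      · rw [Finset.sdiff_self, Finset.empty_union, RA_univ]; trivial
      · rw [Finset.sdiff_self, Finset.empty_union, LinearMap.comp_apply, LinearMap.mulLeft_apply]
        simp [K]
  have h2 : Igt k (Sigma.fst : Vars (⇑a) → I) θ Finset.univ
      = H (Sigma.fst : Vars (⇑a) → I) Finset.univ := le_antisymm (Igt_le_H _ _ _ _) h1
  unfold hgt
  rw [h2, Nat.sub_self]

theorem hl_supp (b : I →₀ ℕ) (h : 0 < ABOut.th θ b) (n : ℕ) : hle k θ b n = 0 := by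
  have hne : (Finset.univ : Finset (Vars (⇑b))).Nonempty := by
    by_contra hne
    rw [Finset.not_nonempty_iff_eq_empty] at hne
    rw [← wt_univ, hne] at h
    simp [wt] at h
  have h1 : H (Sigma.fst : Vars (⇑b) → I) Finset.univ
      ≤ Ile k (Sigma.fst : Vars (⇑b) → I) θ Finset.univ := by
    refine le_iSup₂_of_le Finset.univ ?_ ?_
    · rw [Finset.mem_filter, wt_univ]
      exact ⟨Finset.mem_powerset.2 (Finset.Subset.refl _), hne, h⟩
    · rintro _ ⟨r, _, rfl⟩
      refine ⟨r, ?_, ?_⟩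
      · rw [Finset.sdiff_self, Finset.union_empty, RA_univ]; trivial
      · rw [Finset.sdiff_self, Finset.union_empty, LinearMap.comp_apply, LinearMap.mulLeft_apply]
        simp [K]
  have h2 : Ile k (Sigma.fst : Vars (⇑b) → I) θ Finset.univ
      = H (Sigma.fst : Vars (⇑b) → I) Finset.univ := le_antisymm (Ile_le_H _ _ _ _) h1
  unfold hle
  rw [h2, Nat.sub_self]

/-- **`ABNum` from Theorem B only**: the letters and the count of `hle` in weight zero. -/
theorem abNum_of_thB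
    (hB : ∀ (I : Type) [Fintype I] [DecidableEq I] (k : I → I → ℕ) (θ : I → ℤ),
      (∀ d e : I →₀ ℕ, ABOut.th θ d = 0 → ABOut.th θ e = 0 → ABOut.kk k d e = ABOut.kk k e d) →
      ∃ (Lam : Type) (cL : Lam → (I →₀ ℕ)) (pL : Lam → ℕ),
        (∀ b, cL b ≠ 0) ∧ (∀ b, ABOut.th θ (cL b) = 0) ∧
        (∀ (c : I →₀ ℕ) (p : ℕ), {b | cL b = c ∧ pL b = p}.Finite) ∧
        ∀ (inst : DecidableEq (Lam × ℕ)) (d : I →₀ ℕ), ABOut.th θ d = 0 → ∀ n, hle k θ d n =
          (NumForm217.SMm (A := Lam × ℕ)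
            (fun x => Odd ((∑ i, cL x.1 i) + NumA217.kkN k (cL x.1) (cL x.1)))
            (fun x => cL x.1)
            (fun x => NumA217.kkN k (cL x.1) (cL x.1))
            (fun x => pL x.1 + x.2)
            (NumA217.kkN k d d) d n).ncard) : ABNum := by
  intro I _ _ k θ hsym
  obtain ⟨Lam, cL, pL, h1, h2, h3, h4⟩ := hB I k θ hsym
  exact ⟨{ h := hH, hg := hgt k θ, hl := hle k θ, Lam := Lam, cL := cL, pL := pL,
           hilb := hilb, thA := thA k θ, hg_zero := hg_zero k θ, hl_zero := hl_zero k θ,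
           hg_supp := fun a ha h n => hg_supp k θ a ha h n,
           hl_supp := fun b h n => hl_supp k θ b h n,
           cL_ne := h1, cL_th := h2, fin := h3, thB := h4 }⟩

end Crest.Agent.R059.ThaBind599
end

-- ▼ part R059/Cnt_231
section

/-!
# Row 59, Theorem B, CNT (helper231): from a homogeneous basis to the count of supermonomials

Input: a global choice of letters `𝓖` and, for every `d` with `θ(d) = 0`, the family of the
admissible words at all places is a basis of the alternating polynomials modulo `J0`.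
Output: the hypothesis `hB` of `ThaBind599.abNum_of_thB`.
-/

set_option autoImplicit false
set_option linter.unusedSectionVars false

namespace Crest.Agent.R059.Cnt231

open MvPolynomial Finset Thin613 PL547

section sums

variable {I : Type} [Fintype I] [DecidableEq I] (k : I → I → ℕ) (θ : I → ℤ)

theorem sumVt {M : Type*} [AddCommMonoid M] (c : I → ℕ) (F : I → M) :
    ∑ x : Vt c, F x.1 = ∑ i, c i • F i := by
  rw [Fintype.sum_sigma]
  simp

theorem sumVt2 (c e : I → ℕ) : ∑ x : Vt c, ∑ y : Vt e, k x.1 y.1 = kk k c e := by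
  have h1 : ∀ x : Vt c, ∑ y : Vt e, k x.1 y.1 = ∑ j, e j • k x.1 j :=
    fun x => sumVt e (fun j => k x.1 j)
  rw [Finset.sum_congr rfl fun x _ => h1 x, sumVt c (fun i => ∑ j, e j • k i j)]
  unfold kk
  refine Finset.sum_congr rfl fun i _ => ?_
  rw [Finset.smul_sum]
  refine Finset.sum_congr rfl fun j _ => ?_
  simp only [smul_eq_mul]
  ring

theorem kk_eq (c e : I →₀ ℕ) : kk k ⇑c ⇑e = NumA217.kkN k c e := by
  rfl

theorem thc_eq (c : I →₀ ℕ) : thc θ ⇑c = ABOut.th θ c := by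
  rw [ABOut.th_apply]; rfl

end sums

section degree

variable {I : Type} [Fintype I] [DecidableEq I] {k : I → I → ℕ} {θ : I → ℤ}

/-- symmetry of the arrows of a coloured set -/
theorem sym_col (hsym : ∀ c e : I → ℕ, thc θ c = 0 → thc θ e = 0 → kk k c e = kk k e c)
    {P : Type} [Fintype P] [DecidableEq P] (c : P → I) : Thin613.Sym (PL547.ar k c) (PL547.tw θ c) := by
  intro S U _ hS hU
  have hw : ∀ A : Finset P, thc θ ⇑(Alt599.typ c A) = Thin613.wt (PL547.tw θ c) A := by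
    intro A
    have := Alt599.wt_typ c A θ
    exact this.symm
  have hk : ∀ A B : Finset P, ∑ a ∈ A, ∑ b ∈ B, ar k c a b =
      kk k ⇑(Alt599.typ c A) ⇑(Alt599.typ c B) := by
    intro A B
    exact Alt599.kd_typ c A k B
  rw [hk, hsym _ _ (by rw [hw, hS]) (by rw [hw, hU]), ← hk, Finset.sum_comm]

variable {T : Type} [Fintype T] [LinearOrder T] {cl : T → I → ℕ} {𝓛 : Letters k θ cl}

theorem good_blk' (hcl : ∀ t, thc θ (cl t) = 0) (m : T → ℕ) :
    Good (PL547.tw θ (colS cl m)) (blk cl m) := by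
  classical
  intro j
  have h1 : Thin613.wt (PL547.tw θ (colS cl m)) (fib (blk cl m) j) =
      ∑ x : Vt (cl j.1), θ x.1 := by
    unfold Thin613.wt
    refine (Finset.sum_bij (fun x _ => (⟨j, x⟩ : Sm cl m)) ?_ ?_ ?_ ?_).symm
    · intro x _
      rw [mem_fib]; rfl
    · intro x _ y _ h
      simpa using h
    · rintro ⟨j', x⟩ hx
      rw [mem_fib] at hx
      change j' = j at hx
      subst hx
      exact ⟨x, mem_univ _, rfl⟩
    · intro x _
      rfl
  rw [h1, sumVt (cl j.1) θ]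
  have h2 := hcl j.1
  unfold thc at h2
  rw [← h2]
  refine Finset.sum_congr rfl fun i _ => ?_
  rw [nsmul_eq_mul, mul_comm]

theorem KL_homog (hcl : ∀ t, thc θ (cl t) = 0)
    (hsym : ∀ c e : I → ℕ, thc θ c = 0 → thc θ e = 0 → kk k c e = kk k e c) (m : T → ℕ) :
    (KL ℚ (ar k (colS cl m)) (blk cl m)).IsHomogeneous (NF (ar k (colS cl m)) (blk cl m)) := by
  classical
  rw [KL_eq_KR, NF_eq (ar k (colS cl m)) (sym_col hsym (colS cl m)) (good_blk' hcl m)]
  unfold KR NR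
  refine IsHomogeneous.prod _ _ _ fun x _ => ?_
  have := ((isHomogeneous_X ℚ x.2).sub (isHomogeneous_X ℚ x.1)).pow (ar k (colS cl m) x.1 x.2)
  rwa [one_mul] at this

theorem Kh_homog (hcl : ∀ t, thc θ (cl t) = 0)
    (hsym : ∀ c e : I → ℕ, thc θ c = 0 → thc θ e = 0 → kk k c e = kk k e c)
    (pt : ∀ t, Vt (cl t)) {m : T → ℕ} (φ : Wd 𝓛 m) : (φ.Kh pt).IsHomogeneous φ.dn := by
  unfold Wd.Kh Wd.dn
  refine (KL_homog hcl hsym m).mul ?_
  unfold Wd.dg
  rw [Finset.sum_add_distrib]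
  refine IsHomogeneous.mul ?_ ?_
  · unfold Wd.lp
    refine IsHomogeneous.prod _ _ _ fun j _ => ?_
    exact (𝓛.hom j.1 (φ.at j).l).rename_isHomogeneous
  · refine IsHomogeneous.prod _ _ _ fun j _ => ?_
    have := (isHomogeneous_X ℚ (⟨j, pt j.1⟩ : Sm cl m)).pow (φ.at j).a
    rwa [one_mul] at this

theorem el_homog (hcl : ∀ t, thc θ (cl t) = 0)
    (hsym : ∀ c e : I → ℕ, thc θ c = 0 → thc θ e = 0 → kk k c e = kk k e c)
    (pt : ∀ t, Vt (cl t)) {d : I → ℕ} {m : Pl cl d} (φ : Wd 𝓛 m.1) :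
    (φ.el pt).IsHomogeneous φ.dn := by
  unfold Wd.el
  exact isHomogeneous_alt ((Kh_homog hcl hsym pt φ).rename_isHomogeneous)

/-- `2 NF + ∑_j kk(c_j, c_j) = kk(d, d)` -/
theorem two_NF (hcl : ∀ t, thc θ (cl t) = 0)
    (hsym : ∀ c e : I → ℕ, thc θ c = 0 → thc θ e = 0 → kk k c e = kk k e c)
    {d : I → ℕ} (m : Pl cl d) :
    2 * NF (ar k (colS cl m.1)) (blk cl m.1) + ∑ j : Jm m.1, kk k (cl j.1) (cl j.1) =
      kk k d d := by
  classical
  rw [two_mul_NF (ar k (colS cl m.1)) (sym_col hsym (colS cl m.1)) (good_blk' hcl m.1)]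
  have h1 : ∑ a : Sm cl m.1, ∑ b : Sm cl m.1,
      (if blk cl m.1 a ≠ blk cl m.1 b then 0 else ar k (colS cl m.1) a b) =
      ∑ j : Jm m.1, kk k (cl j.1) (cl j.1) := by
    rw [Fintype.sum_sigma]
    refine Finset.sum_congr rfl fun j _ => ?_
    rw [← sumVt2 k]
    refine Finset.sum_congr rfl fun x _ => ?_
    rw [Fintype.sum_sigma, Finset.sum_eq_single j]
    · refine Finset.sum_congr rfl fun y _ => ?_
      rw [if_neg (by simp [blk])]
      rfl
    · intro j' _ hj'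
      refine Finset.sum_eq_zero fun y _ => ?_
      rw [if_pos]
      exact fun h => hj' h.symm
    · intro h
      exact absurd (mem_univ _) h
  have h2 : ∑ a : Sm cl m.1, ∑ b : Sm cl m.1, ar k (colS cl m.1) a b = kk k d d := by
    rw [← sumVt2 k d d]
    refine Fintype.sum_equiv (Em cl d m) _ _ fun a => ?_
    refine Fintype.sum_equiv (Em cl d m) _ _ fun b => ?_
    have e1 := Em_col cl d m a
    have e2 := Em_col cl d m b
    unfold colV at e1 e2
    rw [e1, e2]
    rfl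
  rw [← h1, ← h2]
  unfold N2
  rw [← Finset.sum_add_distrib]
  refine Finset.sum_congr rfl fun a _ => ?_
  rw [← Finset.sum_add_distrib]
  refine Finset.sum_congr rfl fun b _ => ?_
  by_cases h : blk cl m.1 a ≠ blk cl m.1 b
  · rw [if_pos h, if_pos h, Nat.add_zero]
  · rw [if_neg h, if_neg h, Nat.zero_add]

end degree

section letters

variable {I : Type} [Fintype I] [DecidableEq I] {k : I → I → ℕ} {θ : I → ℤ}

/-- a global choice of letters -/
abbrev GLet (k : I → I → ℕ) (θ : I → ℤ) := Letters k θ (fun c : I → ℕ => c)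

/-- restriction of a global choice of letters -/
def res (𝓖 : GLet k θ) {T : Type} (cl : T → I → ℕ) : Letters k θ cl where
  L t := 𝓖.L (cl t)
  lo t := 𝓖.lo (cl t)
  pol t := 𝓖.pol (cl t)
  deg t := 𝓖.deg (cl t)
  hom t := 𝓖.hom (cl t)
  mem t := 𝓖.mem (cl t)
  indep t := 𝓖.indep (cl t)
  span t := 𝓖.span (cl t)
  fin t := 𝓖.fin (cl t)

/-- the nonzero types of weight zero below `d` -/
def TT (θ : I → ℤ) (d : I → ℕ) : Type := {c : I → ℕ // c ≠ 0 ∧ thc θ c = 0 ∧ c ≤ d}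

instance (d : I → ℕ) : Finite (TT θ d) := by
  have : Finite {c : I → ℕ // c ≤ d} := (Set.finite_Iic d).to_subtype
  exact Finite.of_injective (fun t : TT θ d => (⟨t.1, t.2.2.2⟩ : {c : I → ℕ // c ≤ d}))
    (fun a b h => by
      have h' := congrArg (fun x : {c : I → ℕ // c ≤ d} => x.1) h
      exact Subtype.ext h')

noncomputable instance (d : I → ℕ) : Fintype (TT θ d) := Fintype.ofFinite _

noncomputable instance (d : I → ℕ) : LinearOrder (TT θ d) :=
  LinearOrder.lift' (Fintype.equivFin (TT θ d)) (Equiv.injective _)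

/-- the class of a type -/
def TT.cl {d : I → ℕ} (t : TT θ d) : I → ℕ := t.1

theorem TT.cl_inj {d : I → ℕ} : Function.Injective (TT.cl (θ := θ) (d := d)) :=
  Subtype.val_injective

theorem TT.cl_ne {d : I → ℕ} (t : TT θ d) : TT.cl t ≠ 0 := t.2.1

theorem TT.cl_th {d : I → ℕ} (t : TT θ d) : thc θ (TT.cl t) = 0 := t.2.2.1


theorem TT.all {d : I → ℕ} (c : I → ℕ) (h0 : c ≠ 0) (h1 : thc θ c = 0) (h2 : c ≤ d) :
    ∃ t : TT θ d, TT.cl t = c := ⟨⟨c, h0, h1, h2⟩, rfl⟩

theorem TT.exists_pt (d : I → ℕ) : Nonempty (∀ t : TT θ d, Vt (TT.cl t)) := by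
  have : ∀ t : TT θ d, Nonempty (Vt (TT.cl t)) := by
    intro t
    obtain ⟨i, hi⟩ := Function.ne_iff.1 t.cl_ne
    exact ⟨⟨i, ⟨0, Nat.pos_of_ne_zero hi⟩⟩⟩
  exact ⟨fun t => (this t).some⟩

/-- all the words: a place and an admissible word -/
abbrev AW (𝓖 : GLet k θ) (d : I → ℕ) : Type :=
  Σ m : Pl (TT.cl (θ := θ) (d := d)) d, {φ : Wd (res 𝓖 (TT.cl (θ := θ) (d := d))) m.1 // φ.Adm}

/-- the letters -/
def Lam (𝓖 : GLet k θ) : Type := Σ c : {c : I → ℕ // c ≠ 0 ∧ thc θ c = 0}, 𝓖.L c.1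

/-- class of a letter -/
noncomputable def cL {𝓖 : GLet k θ} (x : Lam 𝓖) : I →₀ ℕ := Finsupp.equivFunOnFinite.symm x.1.1

/-- degree of a letter -/
def pL {𝓖 : GLet k θ} (x : Lam 𝓖) : ℕ := 𝓖.deg x.1.1 x.2

theorem cL_coe {𝓖 : GLet k θ} (x : Lam 𝓖) : ⇑(cL x) = x.1.1 := rfl

theorem cL_ne {𝓖 : GLet k θ} (x : Lam 𝓖) : cL x ≠ 0 := by
  intro h
  apply x.1.2.1
  rw [← cL_coe, h]
  rfl

theorem cL_th {𝓖 : GLet k θ} (x : Lam 𝓖) : ABOut.th θ (cL x) = 0 := by
  rw [← thc_eq, cL_coe]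
  exact x.1.2.2

theorem fin_L (𝓖 : GLet k θ) (c : I →₀ ℕ) (p : ℕ) :
    {b : Lam 𝓖 | cL b = c ∧ pL b = p}.Finite := by
  by_cases hc : (⇑c : I → ℕ) ≠ 0 ∧ thc θ ⇑c = 0
  · refine ((𝓖.fin ⇑c p).image (fun l => (⟨⟨⇑c, hc⟩, l⟩ : Lam 𝓖))).subset ?_
    rintro ⟨⟨c', hc'⟩, l⟩ ⟨h1, h2⟩
    have h3 : c' = ⇑c := by
      rw [← h1]; rfl
    subst h3
    exact ⟨l, h2, rfl⟩
  · convert Set.finite_empty
    rw [Set.eq_empty_iff_forall_notMem]
    rintro ⟨⟨c', hc'⟩, l⟩ ⟨h1, _⟩
    apply hc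
    have h3 : c' = ⇑c := by
      rw [← h1]; rfl
    rw [← h3]
    exact hc'

/-- the letters with exponents of the types below `d` -/
def EE (𝓖 : GLet k θ) (d : I → ℕ) (x : Σ t : TT θ d, Al ((res 𝓖 (TT.cl (θ := θ) (d := d))).L t)) :
    Lam 𝓖 × ℕ :=
  (⟨⟨x.1.1, x.1.2.1, x.1.2.2.1⟩, x.2.l⟩, x.2.a)

theorem EE_inj (𝓖 : GLet k θ) (d : I → ℕ) : Function.Injective (EE 𝓖 d) := by
  rintro ⟨⟨c, hc⟩, ⟨l, a⟩⟩ ⟨⟨c', hc'⟩, ⟨l', a'⟩⟩ h
  have h1 := congrArg Prod.fst h
  have h2 : a = a' := congrArg Prod.snd h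
  have h3 : c = c' := congrArg (fun x : Lam 𝓖 => x.1.1) h1
  subst h3
  subst h2
  have h4 : l = l' := by
    have := (Sigma.mk.inj_iff.1 h1).2
    exact eq_of_heq this
  rw [h4]

theorem EE_range (𝓖 : GLet k θ) (d : I → ℕ) (b : Lam 𝓖 × ℕ) (h : b.1.1.1 ≤ d) :
    ∃ x, EE 𝓖 d x = b := by
  obtain ⟨⟨⟨c, hc⟩, l⟩, a⟩ := b
  exact ⟨⟨⟨c, hc.1, hc.2, h⟩, ⟨l, a⟩⟩, rfl⟩

end letters

section count

variable {I : Type} [Fintype I] [DecidableEq I] {k : I → I → ℕ} {θ : I → ℤ}

/-- the multiset of letters of a word -/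
noncomputable def toMs (𝓖 : GLet k θ) (d : I → ℕ) (x : AW 𝓖 d) : Multiset (Lam 𝓖 × ℕ) :=
  ms (EE 𝓖 d) x.2.1

theorem sum_toMs {M : Type*} [AddCommMonoid M] (𝓖 : GLet k θ) (d : I → ℕ)
    (f : Lam 𝓖 × ℕ → M) (x : AW 𝓖 d) :
    ((toMs 𝓖 d x).map f).sum =
      ∑ j : Jm x.1.1, f (EE 𝓖 d ⟨j.1, x.2.1 j.1 j.2⟩) := sum_ms f x.2.1

theorem sum_cL (𝓖 : GLet k θ) (d : I →₀ ℕ) (m : TT θ ⇑d → ℕ)
    (φ : ∀ t, Fin (m t) → Al ((res 𝓖 (TT.cl (θ := θ) (d := ⇑d))).L t)) :
    ((ms (EE 𝓖 ⇑d) φ).map fun x => cL x.1).sum = d ↔ ∀ i, ∑ t, m t * TT.cl t i = d i := by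
  rw [sum_ms, DFunLike.ext_iff]
  refine forall_congr' fun i => ?_
  rw [Finsupp.finsetSum_apply, Fintype.sum_sigma]
  have h : ∀ t : TT θ ⇑d, ∑ r : Fin (m t), (cL (EE 𝓖 ⇑d ⟨t, φ t r⟩).1) i =
      m t * TT.cl t i := by
    intro t
    have h1 : ∀ r : Fin (m t), (cL (EE 𝓖 ⇑d ⟨t, φ t r⟩).1) i = TT.cl t i := fun r => rfl
    rw [Finset.sum_congr rfl fun r _ => h1 r, Finset.sum_const, Finset.card_univ,
      Fintype.card_fin, smul_eq_mul]
  rw [Finset.sum_congr rfl fun t _ => h t]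

theorem deg_iff (hsym : ∀ c e : I → ℕ, thc θ c = 0 → thc θ e = 0 → kk k c e = kk k e c)
    (𝓖 : GLet k θ) (d : I →₀ ℕ) (x : AW 𝓖 ⇑d) (n : ℕ) :
    (2 * n + ((toMs 𝓖 ⇑d x).map fun x => NumA217.kkN k (cL x.1) (cL x.1)).sum =
      2 * ((toMs 𝓖 ⇑d x).map fun x => pL x.1 + x.2).sum + NumA217.kkN k d d) ↔
      x.2.1.dn = n := by
  rw [sum_toMs, sum_toMs]
  have h1 := two_NF (k := k) (θ := θ) (cl := TT.cl (θ := θ) (d := ⇑d)) (fun t => t.cl_th)
    hsym x.1
  have h2 : ∑ j : Jm x.1.1, NumA217.kkN k (cL (EE 𝓖 ⇑d ⟨j.1, x.2.1 j.1 j.2⟩).1)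
      (cL (EE 𝓖 ⇑d ⟨j.1, x.2.1 j.1 j.2⟩).1) =
      ∑ j : Jm x.1.1, kk k (TT.cl j.1) (TT.cl j.1) := rfl
  have h3 : ∑ j : Jm x.1.1, (pL (EE 𝓖 ⇑d ⟨j.1, x.2.1 j.1 j.2⟩).1 +
      (EE 𝓖 ⇑d ⟨j.1, x.2.1 j.1 j.2⟩).2) = x.2.1.dg := rfl
  rw [h2, h3, ← kk_eq k d d]
  unfold Wd.dn
  omega

theorem card_words (hsym : ∀ c e : I → ℕ, thc θ c = 0 → thc θ e = 0 → kk k c e = kk k e c)
    (𝓖 : GLet k θ) (inst : DecidableEq (Lam 𝓖 × ℕ)) (d : I →₀ ℕ) (n : ℕ) :
    Nat.card {x : AW 𝓖 ⇑d // x.2.1.dn = n} = (NumForm217.SMm (A := Lam 𝓖 × ℕ)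
      (fun x => Odd ((∑ i, cL x.1 i) + NumA217.kkN k (cL x.1) (cL x.1)))
      (fun x => cL x.1)
      (fun x => NumA217.kkN k (cL x.1) (cL x.1))
      (fun x => pL x.1 + x.2)
      (NumA217.kkN k d d) d n).ncard := by
  let : ∀ t : TT θ ⇑d, LinearOrder (Al ((res 𝓖 (TT.cl (θ := θ) (d := ⇑d))).L t)) :=
    fun t => @instLinearOrderAl _ ((res 𝓖 (TT.cl (θ := θ) (d := ⇑d))).lo t)
  rw [← Nat.card_coe_set_eq]
  have hmem : ∀ x : AW 𝓖 ⇑d, x.2.1.dn = n → toMs 𝓖 ⇑d x ∈ NumForm217.SMm (A := Lam 𝓖 × ℕ)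
      (fun x => Odd ((∑ i, cL x.1 i) + NumA217.kkN k (cL x.1) (cL x.1)))
      (fun x => cL x.1)
      (fun x => NumA217.kkN k (cL x.1) (cL x.1))
      (fun x => pL x.1 + x.2)
      (NumA217.kkN k d d) d n := by
    intro x hx
    refine ⟨?_, (sum_cL 𝓖 d x.1.1 x.2.1).2 x.1.2, (deg_iff hsym 𝓖 d x n).2 hx⟩
    intro b hb hodd
    obtain ⟨j, rfl⟩ := mem_ms.1 hb
    have h1 : Function.Injective (x.2.1 j.1) := (x.2.2 j.1).2 hodd
    have h2 := count_ms (EE_inj 𝓖 ⇑d) x.2.1 j.1 (x.2.1 j.1 j.2)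
    unfold toMs
    rw [h2]
    exact (inj_iff_count (x.2.1 j.1)).1 h1 _
  refine Nat.card_congr (Equiv.ofBijective (fun x => ⟨toMs 𝓖 ⇑d x.1, hmem x.1 x.2⟩) ⟨?_, ?_⟩)
  · rintro ⟨⟨⟨m, hm⟩, ⟨φ, hφ⟩⟩, hx⟩ ⟨⟨⟨m', hm'⟩, ⟨φ', hφ'⟩⟩, hx'⟩ h
    have h1 : ms (EE 𝓖 ⇑d) φ = ms (EE 𝓖 ⇑d) φ' := congrArg Subtype.val h
    have h2 := ms_inj (EE_inj 𝓖 ⇑d) (fun t => (hφ t).1) (fun t => (hφ' t).1) h1
    have hmm : m = m' := congrArg Sigma.fst h2
    subst hmm
    have h3 : φ = φ' := eq_of_heq (Sigma.mk.inj_iff.1 h2).2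
    subst h3
    rfl
  · rintro ⟨s, hs1, hs2, hs3⟩
    have hr : ∀ b ∈ s, ∃ y, EE 𝓖 ⇑d y = b := by
      intro b hb
      apply EE_range
      have h1 : cL b.1 ≤ d := by
        have h2 : cL b.1 ∈ s.map (fun x => cL x.1) := Multiset.mem_map_of_mem _ hb
        have h3 := Multiset.single_le_sum (s := s.map (fun x : Lam 𝓖 × ℕ => cL x.1))
          (fun x _ => zero_le) _ h2
        rw [hs2] at h3
        exact h3
      exact h1
    obtain ⟨m, φ, h1, h2⟩ := ms_surj (EE_inj 𝓖 ⇑d) s hr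
    have hm : ∀ i, ∑ t, m t * TT.cl t i = d i := by
      rw [← sum_cL 𝓖 d m φ, h2]
      exact hs2
    have hadm : Wd.Adm (𝓛 := res 𝓖 (TT.cl (θ := θ) (d := ⇑d))) (m := m) φ := by
      intro t
      refine ⟨h1 t, fun hodd => ?_⟩
      rw [inj_iff_count]
      intro y
      rw [← count_ms (EE_inj 𝓖 ⇑d) φ t y, h2]
      by_cases hy : EE 𝓖 ⇑d ⟨t, y⟩ ∈ s
      · exact hs1 _ hy hodd
      · rw [Multiset.count_eq_zero_of_notMem hy]
        exact Nat.zero_le _
    let x : AW 𝓖 ⇑d := ⟨⟨m, hm⟩, ⟨φ, hadm⟩⟩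
    have hxs : toMs 𝓖 ⇑d x = s := h2
    refine ⟨⟨x, ?_⟩, Subtype.ext hxs⟩
    rw [← deg_iff hsym 𝓖 d x n, hxs]
    exact hs3

end count

section final

variable {I : Type} [Fintype I] [DecidableEq I] {k : I → I → ℕ} {θ : I → ℤ}

theorem J0s_graded {P : Type} [Fintype P] [DecidableEq P] (c : P → I) :
    ∀ f ∈ J0s k θ c, ∀ n, homogeneousComponent n f ∈ J0s k θ c := by
  intro f hf n
  refine DimCount830.component_mem_span _ ?_ f hf n
  rintro g ⟨S, _, _, rfl⟩
  exact ⟨_, DimCount830.isHomogeneous_KK _ _ _⟩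

theorem AltSub_eq {P : Type} [Fintype P] [DecidableEq P] (c : P → I) :
    Bridge830.AltSub c = Anti c := rfl

theorem Ile_eq {P : Type} [Fintype P] [DecidableEq P] (c : P → I) :
    Alt599.Ile k c θ univ = Anti c ⊓ J0s k θ c := by
  rw [Bridge830.Ile_univ_eq, AltSub_eq, ← Bridge830.J0_eq_Jid]
  rfl

theorem hle_eq (hsym : ∀ c e : I → ℕ, thc θ c = 0 → thc θ e = 0 → kk k c e = kk k e c)
    (𝓖 : GLet k θ) (d : I →₀ ℕ) (pt : ∀ t : TT θ ⇑d, Vt (TT.cl t))
    (ind : LinearIndependent ℚ (fun x : AW 𝓖 ⇑d => (J0s k θ (colV ⇑d)).mkQ (x.2.1.el pt)))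
    (sp : Anti (colV ⇑d) ≤ J0s k θ (colV ⇑d) ⊔
      Submodule.span ℚ (Set.range fun x : AW 𝓖 ⇑d => x.2.1.el pt)) (n : ℕ) :
    Alt599.hle k θ d n = Nat.card {x : AW 𝓖 ⇑d // x.2.1.dn = n} := by
  have h1 := DimCount830.count_sub (Anti (colV ⇑d)) (J0s k θ (colV ⇑d))
    (fun x : AW 𝓖 ⇑d => x.2.1.el pt) (fun x => x.2.1.dn) (J0s_graded (colV ⇑d))
    (fun x => alt_mem _ _) (fun x => el_homog (fun t => t.cl_th) hsym pt x.2.1) ind sp n
  rw [← h1]
  unfold Alt599.hle Alt599.hd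
  rw [Bridge830.H_univ_eq, Ile_eq, AltSub_eq, inf_comm (Anti _), inf_comm (Anti _ ⊓ _),
    ← inf_assoc]
  rfl

/-- **Theorem B from the basis theorem** -/
theorem thB_of_basis
    (hs : ∀ d e : I →₀ ℕ, ABOut.th θ d = 0 → ABOut.th θ e = 0 → ABOut.kk k d e = ABOut.kk k e d)
    (𝓖 : GLet k θ)
    (hbas : ∀ d : I → ℕ, thc θ d = 0 → ∃ pt : ∀ t : TT θ d, Vt (TT.cl t),
      LinearIndependent ℚ (fun x : AW 𝓖 d => (J0s k θ (colV d)).mkQ (x.2.1.el pt)) ∧
      Anti (colV d) ≤ J0s k θ (colV d) ⊔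
        Submodule.span ℚ (Set.range fun x : AW 𝓖 d => x.2.1.el pt)) :
    ∃ (Lam : Type) (cL : Lam → (I →₀ ℕ)) (pL : Lam → ℕ),
        (∀ b, cL b ≠ 0) ∧ (∀ b, ABOut.th θ (cL b) = 0) ∧
        (∀ (c : I →₀ ℕ) (p : ℕ), {b | cL b = c ∧ pL b = p}.Finite) ∧
        ∀ (inst : DecidableEq (Lam × ℕ)) (d : I →₀ ℕ), ABOut.th θ d = 0 → ∀ n,
          Alt599.hle k θ d n = (NumForm217.SMm (A := Lam × ℕ)
            (fun x => Odd ((∑ i, cL x.1 i) + NumA217.kkN k (cL x.1) (cL x.1)))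
            (fun x => cL x.1)
            (fun x => NumA217.kkN k (cL x.1) (cL x.1))
            (fun x => pL x.1 + x.2)
            (NumA217.kkN k d d) d n).ncard := by
  have hsym : ∀ c e : I → ℕ, thc θ c = 0 → thc θ e = 0 → kk k c e = kk k e c := by
    intro c e hc he
    have h1 := hs (Finsupp.equivFunOnFinite.symm c) (Finsupp.equivFunOnFinite.symm e)
      (by rw [← thc_eq]; exact hc) (by rw [← thc_eq]; exact he)
    rw [ABOut.kk_apply, ABOut.kk_apply] at h1
    unfold kk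
    exact_mod_cast h1
  refine ⟨Lam 𝓖, cL, pL, cL_ne, cL_th, fin_L 𝓖, fun inst d hd n => ?_⟩
  obtain ⟨pt, ind, sp⟩ := hbas ⇑d (by rw [thc_eq]; exact hd)
  rw [hle_eq hsym 𝓖 d pt ind sp n, card_words hsym 𝓖 inst d n]

/-- **`ABNum` from the basis theorem** -/
theorem abNum_of_basis
    (h : ∀ (I : Type) [Fintype I] [DecidableEq I] (k : I → I → ℕ) (θ : I → ℤ),
      (∀ c e : I → ℕ, thc θ c = 0 → thc θ e = 0 → kk k c e = kk k e c) →
      ∃ 𝓖 : GLet k θ, ∀ d : I → ℕ, thc θ d = 0 → ∃ pt : ∀ t : TT θ d, Vt (TT.cl t),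
        LinearIndependent ℚ (fun x : AW 𝓖 d => (J0s k θ (colV d)).mkQ (x.2.1.el pt)) ∧
        Anti (colV d) ≤ J0s k θ (colV d) ⊔
          Submodule.span ℚ (Set.range fun x : AW 𝓖 d => x.2.1.el pt)) : ABNum := by
  refine ThaBind599.abNum_of_thB ?_
  intro I _ _ k θ hs
  have hsym : ∀ c e : I → ℕ, thc θ c = 0 → thc θ e = 0 → kk k c e = kk k e c := by
    intro c e hc he
    have h1 := hs (Finsupp.equivFunOnFinite.symm c) (Finsupp.equivFunOnFinite.symm e)
      (by rw [← thc_eq]; exact hc) (by rw [← thc_eq]; exact he)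
    rw [ABOut.kk_apply, ABOut.kk_apply] at h1
    unfold kk
    exact_mod_cast h1
  obtain ⟨𝓖, h𝓖⟩ := h I k θ hsym
  exact thB_of_basis hs 𝓖 h𝓖

end final

end Crest.Agent.R059.Cnt231
end

-- ▼ part R059/NumGen_469
section

set_option autoImplicit false

/-!
Row 59 (S0081), leaf NUM, part 2: the generating series (in the twisted ring) of finite multisets
of letters `(b, a)`, `b` in a finite list of letter types, is the product of the ray series.
-/

namespace Crest.Agent.R059.Num469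

open Finset PowerSeries HasAntidiagonal

section tw

variable {M : Type*} [AddCommMonoid M] {K : Type*} [CommRing K]

/-- the natural number valued form `κ` is the form of `T` -/
def IsForm (T : Tw M K) (κ : M →+ M →+ ℕ) : Prop := ∀ a b, T.β a b = (κ a b : ℤ)

theorem wt_tw {T : Tw M K} {κ : M →+ M →+ ℕ} (hT : IsForm T κ) (a b : M) :
    TPS.wt T a b = (T.v : K) ^ (κ a b) := by
  rw [TPS.wt, hT]
  simp

/-- series with coefficients in the image of `ι` -/
noncomputable def gser (T : Tw M K) (ι : PowerSeries ℤ →+* K) (F : M → PowerSeries ℤ) : TPS T :=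
  ⟨fun d => ι (F d)⟩

@[simp] theorem gser_co (T : Tw M K) (ι : PowerSeries ℤ →+* K) (F : M → PowerSeries ℤ) (d : M) :
    (gser T ι F).co d = ι (F d) := rfl

variable [HasAntidiagonal M]

theorem gser_mul {T : Tw M K} {κ : M →+ M →+ ℕ} (hT : IsForm T κ) {ι : PowerSeries ℤ →+* K}
    (hι : ι X = T.v) (F G : M → PowerSeries ℤ) :
    gser T ι F * gser T ι G =
      gser T ι (fun d => ∑ p ∈ antidiagonal d, X ^ (κ p.1 p.2) * (F p.1 * G p.2)) := by
  ext d
  rw [TPS.co_mul, gser_co, map_sum]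
  apply sum_congr rfl
  intro p _
  rw [wt_tw hT, gser_co, gser_co, map_mul, map_mul, map_pow, hι]

end tw

/-! ### graded sets of multisets of letters -/

section graded

variable {M : Type*} [AddCommMonoid M] (κ : M →+ M →+ ℕ)
variable {Λ : Type*} (cL : Λ → M) (pL : Λ → ℕ)

/-- class of a multiset of letters -/
def cls (s : Multiset (Λ × ℕ)) : M := (s.map fun ℓ => cL ℓ.1).sum

/-- sum of the `p + a` -/
def sA (s : Multiset (Λ × ℕ)) : ℕ := (s.map fun ℓ => pL ℓ.1 + ℓ.2).sum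

/-- sum of the `κ c c` -/
def sC (s : Multiset (Λ × ℕ)) : ℕ := (s.map fun ℓ => κ (cL ℓ.1) (cL ℓ.1)).sum

theorem cls_add (s t : Multiset (Λ × ℕ)) : cls cL (s + t) = cls cL s + cls cL t := by
  simp [cls]

theorem sA_add (s t : Multiset (Λ × ℕ)) : sA pL (s + t) = sA pL s + sA pL t := by
  simp [sA]

theorem sC_add (s t : Multiset (Λ × ℕ)) : sC κ cL (s + t) = sC κ cL s + sC κ cL t := by
  simp [sC]

/-- the degree of a multiset of letters: `∑ (p + a) + ∑_{pairs} κ c c'` -/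
def Rel (s : Multiset (Λ × ℕ)) (n : ℕ) : Prop :=
  2 * n + sC κ cL s = 2 * sA pL s + κ (cls cL s) (cls cL s)

variable (Z : AddSubmonoid M)

theorem cls_mem (hc : ∀ b, cL b ∈ Z) (s : Multiset (Λ × ℕ)) : cls cL s ∈ Z := by
  apply AddSubmonoid.multiset_sum_mem
  intro x hx
  rw [Multiset.mem_map] at hx
  obtain ⟨ℓ, _, rfl⟩ := hx
  exact hc _

theorem exists_pairs (hc : ∀ b, cL b ∈ Z) (hsym : ∀ d ∈ Z, ∀ e ∈ Z, κ d e = κ e d)
    (s : Multiset (Λ × ℕ)) : ∃ t, κ (cls cL s) (cls cL s) = sC κ cL s + 2 * t := by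
  induction s using Multiset.induction with
  | empty => exact ⟨0, by simp [cls, sC]⟩
  | cons ℓ s ih =>
    obtain ⟨t, ht⟩ := ih
    refine ⟨t + κ (cL ℓ.1) (cls cL s), ?_⟩
    have e1 : cls cL (ℓ ::ₘ s) = cL ℓ.1 + cls cL s := by simp [cls]
    have e2 : sC κ cL (ℓ ::ₘ s) = κ (cL ℓ.1) (cL ℓ.1) + sC κ cL s := by simp [sC]
    have e3 := hsym _ (hc ℓ.1) _ (cls_mem cL Z hc s)
    rw [e1, e2]
    simp only [map_add, AddMonoidHom.add_apply]
    omega

/-- the degree function -/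
noncomputable def Nd (hc : ∀ b, cL b ∈ Z) (hsym : ∀ d ∈ Z, ∀ e ∈ Z, κ d e = κ e d)
    (s : Multiset (Λ × ℕ)) : ℕ :=
  sA pL s + (exists_pairs κ cL Z hc hsym s).choose

theorem Nd_spec (hc : ∀ b, cL b ∈ Z) (hsym : ∀ d ∈ Z, ∀ e ∈ Z, κ d e = κ e d)
    (s : Multiset (Λ × ℕ)) : Rel κ cL pL s (Nd κ cL pL Z hc hsym s) := by
  have := (exists_pairs κ cL Z hc hsym s).choose_spec
  unfold Rel Nd
  omega


variable {κ cL pL} in
theorem Rel.unique {s : Multiset (Λ × ℕ)} {n n' : ℕ} (h : Rel κ cL pL s n)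
    (h' : Rel κ cL pL s n') : n = n' := by
  unfold Rel at h h'; omega

variable {κ cL pL Z} in
theorem Rel.add (hc : ∀ b, cL b ∈ Z) (hsym : ∀ d ∈ Z, ∀ e ∈ Z, κ d e = κ e d)
    {s t : Multiset (Λ × ℕ)} {n n' : ℕ} (h : Rel κ cL pL s n) (h' : Rel κ cL pL t n') :
    Rel κ cL pL (s + t) (n + n' + κ (cls cL s) (cls cL t)) := by
  unfold Rel at h h' ⊢
  rw [cls_add, sA_add, sC_add]
  simp only [map_add, AddMonoidHom.add_apply]
  have := hsym _ (cls_mem cL Z hc s) _ (cls_mem cL Z hc t)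
  omega

/-- the graded set of the multisets in `Φ` of class `d` and degree `n` -/
def fib (Φ : Set (Multiset (Λ × ℕ))) (d : M) (n : ℕ) : Set (Multiset (Λ × ℕ)) :=
  {s | s ∈ Φ ∧ cls cL s = d ∧ Rel κ cL pL s n}

/-- the counting series -/
noncomputable def cser (Φ : Set (Multiset (Λ × ℕ))) (d : M) : PowerSeries ℤ :=
  PowerSeries.mk fun n => ((fib κ cL pL Φ d n).ncard : ℤ)

/-- `Φ₁ + Φ₂` where the decomposition is unique. -/
structure IsSum (Φ₁ Φ₂ Φ : Set (Multiset (Λ × ℕ))) : Prop where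
  mem : ∀ s, s ∈ Φ ↔ ∃ s₁ ∈ Φ₁, ∃ s₂ ∈ Φ₂, s₁ + s₂ = s
  uniq : ∀ s₁ ∈ Φ₁, ∀ s₂ ∈ Φ₂, ∀ t₁ ∈ Φ₁, ∀ t₂ ∈ Φ₂, s₁ + s₂ = t₁ + t₂ → s₁ = t₁ ∧ s₂ = t₂

variable [HasAntidiagonal M]

variable {κ cL pL Z} in
theorem fib_sum (hc : ∀ b, cL b ∈ Z) (hsym : ∀ d ∈ Z, ∀ e ∈ Z, κ d e = κ e d)
    {Φ₁ Φ₂ Φ : Set (Multiset (Λ × ℕ))} (hΦ : IsSum Φ₁ Φ₂ Φ)
    (f1 : ∀ d n, (fib κ cL pL Φ₁ d n).Finite) (f2 : ∀ d n, (fib κ cL pL Φ₂ d n).Finite)
    (d : M) (n : ℕ) :
    (fib κ cL pL Φ d n).Finite ∧ (fib κ cL pL Φ d n).ncard =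
      ∑ p ∈ antidiagonal d, if κ p.1 p.2 ≤ n then
        ∑ r ∈ antidiagonal (n - κ p.1 p.2),
          (fib κ cL pL Φ₁ p.1 r.1).ncard * (fib κ cL pL Φ₂ p.2 r.2).ncard else 0 := by
  classical
  set J : Finset (Σ _ : M × M, ℕ × ℕ) := (antidiagonal d).sigma
    (fun p => if κ p.1 p.2 ≤ n then antidiagonal (n - κ p.1 p.2) else ∅) with hJ
  set G : (Σ _ : M × M, ℕ × ℕ) → Finset (Multiset (Λ × ℕ)) := fun x =>
    ((f1 x.1.1 x.2.1).toFinset ×ˢ (f2 x.1.2 x.2.2).toFinset).image (fun u => u.1 + u.2) with hG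
  have hmemJ : ∀ x : (Σ _ : M × M, ℕ × ℕ), x ∈ J ↔ x.1.1 + x.1.2 = d ∧
      x.2.1 + x.2.2 + κ x.1.1 x.1.2 = n := by
    rintro ⟨p, r⟩
    rw [hJ, mem_sigma, HasAntidiagonal.mem_antidiagonal]
    simp only
    refine and_congr_right (fun _ => ?_)
    split_ifs with h
    · rw [HasAntidiagonal.mem_antidiagonal]; omega
    · simp only [notMem_empty, false_iff]; omega
  have hfib : fib κ cL pL Φ d n = ((J.biUnion G : Finset _) : Set (Multiset (Λ × ℕ))) := by
    ext s
    rw [mem_coe, mem_biUnion]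
    constructor
    · rintro ⟨hs, hd, hn⟩
      obtain ⟨s₁, h₁, s₂, h₂, rfl⟩ := (hΦ.mem s).1 hs
      have r1 := Nd_spec κ cL pL Z hc hsym s₁
      have r2 := Nd_spec κ cL pL Z hc hsym s₂
      refine ⟨⟨(cls cL s₁, cls cL s₂), (Nd κ cL pL Z hc hsym s₁, Nd κ cL pL Z hc hsym s₂)⟩, ?_, ?_⟩
      · rw [hmemJ]
        simp only
        refine ⟨by rw [← hd, cls_add], ?_⟩
        exact (Rel.add hc hsym r1 r2).unique hn
      · rw [hG]
        simp only [mem_image, mem_product, Set.Finite.mem_toFinset, Prod.exists]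
        exact ⟨s₁, s₂, ⟨⟨h₁, rfl, r1⟩, ⟨h₂, rfl, r2⟩⟩, rfl⟩
    · rintro ⟨⟨p, r⟩, hx, hs⟩
      rw [hmemJ] at hx
      rw [hG] at hs
      simp only [mem_image, mem_product, Set.Finite.mem_toFinset, Prod.exists] at hs hx
      obtain ⟨s₁, s₂, ⟨⟨h₁, c1, r1⟩, ⟨h₂, c2, r2⟩⟩, rfl⟩ := hs
      refine ⟨(hΦ.mem _).2 ⟨s₁, h₁, s₂, h₂, rfl⟩, by rw [cls_add, c1, c2, hx.1], ?_⟩
      have := Rel.add hc hsym r1 r2
      rw [c1, c2, hx.2] at this
      exact this
  refine ⟨by rw [hfib]; exact finite_toSet _, ?_⟩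
  rw [hfib, Set.ncard_coe_finset, card_biUnion]
  · have : ∀ x ∈ J, (G x).card = (fib κ cL pL Φ₁ x.1.1 x.2.1).ncard *
        (fib κ cL pL Φ₂ x.1.2 x.2.2).ncard := by
      intro x _
      rw [hG]
      simp only
      rw [card_image_of_injOn, card_product, Set.ncard_eq_toFinset_card _ (f1 _ _),
        Set.ncard_eq_toFinset_card _ (f2 _ _)]
      rintro ⟨s₁, s₂⟩ hs ⟨t₁, t₂⟩ ht h
      simp only [coe_product, Set.mem_prod, mem_coe, Set.Finite.mem_toFinset] at hs ht h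
      obtain ⟨e1, e2⟩ := hΦ.uniq _ hs.1.1 _ hs.2.1 _ ht.1.1 _ ht.2.1 h
      rw [e1, e2]
    rw [sum_congr rfl this, hJ, sum_sigma]
    apply sum_congr rfl
    intro p _
    split_ifs with h
    · rfl
    · rfl
  · rintro x hx y hy hxy
    rw [Function.onFun, Finset.disjoint_left]
    intro s h1 h2
    rw [hG] at h1 h2
    simp only [mem_image, mem_product, Set.Finite.mem_toFinset, Prod.exists] at h1 h2
    obtain ⟨s₁, s₂, ⟨⟨h₁, c1, r1⟩, ⟨h₂, c2, r2⟩⟩, rfl⟩ := h1
    obtain ⟨t₁, t₂, ⟨⟨k₁, c1', r1'⟩, ⟨k₂, c2', r2'⟩⟩, h⟩ := h2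
    obtain ⟨e1, e2⟩ := hΦ.uniq _ k₁ _ k₂ _ h₁ _ h₂ h
    subst e1 e2
    apply hxy
    obtain ⟨⟨x1, x2⟩, ⟨x3, x4⟩⟩ := x
    obtain ⟨⟨y1, y2⟩, ⟨y3, y4⟩⟩ := y
    simp only at c1 c2 c1' c2' r1 r2 r1' r2'
    rw [← c1, ← c2, ← c1', ← c2', r1.unique r1', r2.unique r2']

variable {κ cL pL Z} in
/-- the counting series of a sum is the twisted convolution. -/
theorem cser_sum (hc : ∀ b, cL b ∈ Z) (hsym : ∀ d ∈ Z, ∀ e ∈ Z, κ d e = κ e d)
    {Φ₁ Φ₂ Φ : Set (Multiset (Λ × ℕ))} (hΦ : IsSum Φ₁ Φ₂ Φ)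
    (f1 : ∀ d n, (fib κ cL pL Φ₁ d n).Finite) (f2 : ∀ d n, (fib κ cL pL Φ₂ d n).Finite)
    (d : M) : cser κ cL pL Φ d =
      ∑ p ∈ antidiagonal d, X ^ (κ p.1 p.2) * (cser κ cL pL Φ₁ p.1 * cser κ cL pL Φ₂ p.2) := by
  ext n
  rw [cser, coeff_mk, (fib_sum hc hsym hΦ f1 f2 d n).2, map_sum, Nat.cast_sum]
  apply sum_congr rfl
  intro p _
  rw [coeff_X_pow_mul']
  split_ifs with h
  · rw [coeff_mul, Nat.cast_sum]
    apply sum_congr rfl
    intro r _
    rw [cser, cser, coeff_mk, coeff_mk, Nat.cast_mul]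
  · simp

end graded

end Crest.Agent.R059.Num469
end

-- ▼ part R059/NumRay_469
section

set_option autoImplicit false

/-!
Row 59 (S0081), leaf NUM, part 3: one letter type gives a ray series; a finite list of letter types
gives the product of the ray series.
-/

namespace Crest.Agent.R059.Num469

open Finset PowerSeries HasAntidiagonal

section ray

variable {M : Type*} [AddCommMonoid M] (κ : M →+ M →+ ℕ)

open Classical in
/-- coefficients of the ray series `∑_m e_o(m) (q^p y^c)^m` -/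
noncomputable def rayF (o : Bool) (p : ℕ) (c d : M) : PowerSeries ℤ :=
  if h : ∃ m : ℕ, m • c = d then
    X ^ (p * h.choose + κ c c * h.choose.choose 2) * ee o h.choose else 0

theorem rayF_smul (o : Bool) (p : ℕ) {c : M} (hc : ∀ m m' : ℕ, m • c = m' • c → m = m') (m : ℕ) :
    rayF κ o p c (m • c) = X ^ (p * m + κ c c * m.choose 2) * ee o m := by
  have h : ∃ m' : ℕ, m' • c = m • c := ⟨m, rfl⟩
  have h' : h.choose = m := hc _ _ h.choose_spec
  rw [rayF, dif_pos h, h']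

theorem rayF_off (o : Bool) (p : ℕ) {c d : M} (h : ¬ ∃ m : ℕ, m • c = d) :
    rayF κ o p c d = 0 := by
  rw [rayF, dif_neg h]

end ray

section letters

variable {M : Type*} [AddCommMonoid M] (κ : M →+ M →+ ℕ)
variable {Λ : Type*} [DecidableEq Λ] (cL : Λ → M) (pL : Λ → ℕ) (oL : Λ → Bool)

/-- no letter of an odd type is repeated -/
def OddOk (s : Multiset (Λ × ℕ)) : Prop := ∀ ℓ, oL ℓ.1 = true → s.count ℓ ≤ 1

/-- multisets of letters of the types in `l` -/
def Phi (l : List Λ) : Set (Multiset (Λ × ℕ)) := {s | (∀ ℓ ∈ s, ℓ.1 ∈ l) ∧ OddOk oL s}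

/-- multisets of letters of type `b` -/
def Phi1 (b : Λ) : Set (Multiset (Λ × ℕ)) := {s | (∀ ℓ ∈ s, ℓ.1 = b) ∧ OddOk oL s}

theorem isSum_cons {b : Λ} {l : List Λ} (hb : b ∉ l) :
    IsSum (Phi1 oL b) (Phi oL l) (Phi oL (b :: l)) := by
  classical
  refine ⟨fun s => ⟨fun hs => ?_, ?_⟩, ?_⟩
  · refine ⟨s.filter (fun ℓ => ℓ.1 = b), ⟨fun ℓ hℓ => (Multiset.mem_filter.1 hℓ).2, fun ℓ hℓ => ?_⟩,
      s.filter (fun ℓ => ¬ ℓ.1 = b), ⟨fun ℓ hℓ => ?_, fun ℓ hℓ => ?_⟩,
      Multiset.filter_add_not _ s⟩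
    · exact (Multiset.count_le_of_le _ (Multiset.filter_le _ _)).trans (hs.2 ℓ hℓ)
    · rw [Multiset.mem_filter] at hℓ
      have := hs.1 ℓ hℓ.1
      rw [List.mem_cons] at this
      exact this.resolve_left hℓ.2
    · exact (Multiset.count_le_of_le _ (Multiset.filter_le _ _)).trans (hs.2 ℓ hℓ)
  · rintro ⟨s₁, h₁, s₂, h₂, rfl⟩
    refine ⟨fun ℓ hℓ => ?_, fun ℓ hℓ => ?_⟩
    · rw [Multiset.mem_add] at hℓ
      rw [List.mem_cons]
      exact hℓ.imp (h₁.1 ℓ) (h₂.1 ℓ)
    · rw [Multiset.count_add]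
      by_cases hm : ℓ ∈ s₁
      · have e := h₁.1 ℓ hm
        have : ℓ ∉ s₂ := fun h => hb (e ▸ h₂.1 ℓ h)
        rw [Multiset.count_eq_zero_of_notMem this, add_zero]
        exact h₁.2 ℓ hℓ
      · rw [Multiset.count_eq_zero_of_notMem hm, zero_add]
        exact h₂.2 ℓ hℓ
  · intro s₁ h₁ s₂ h₂ t₁ k₁ t₂ k₂ h
    have key : ∀ u₁ ∈ Phi1 oL b, ∀ u₂ ∈ Phi oL l,
        (u₁ + u₂).filter (fun ℓ => ℓ.1 = b) = u₁ ∧ (u₁ + u₂).filter (fun ℓ => ¬ ℓ.1 = b) = u₂ := by
      intro u₁ hu₁ u₂ hu₂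
      rw [Multiset.filter_add, Multiset.filter_add]
      constructor
      · rw [Multiset.filter_eq_self.2 hu₁.1, Multiset.filter_eq_nil.2, add_zero]
        intro ℓ hℓ he
        exact hb (he ▸ hu₂.1 ℓ hℓ)
      · rw [Multiset.filter_eq_nil.2, zero_add, Multiset.filter_eq_self.2]
        · intro ℓ hℓ he
          exact hb (he ▸ hu₂.1 ℓ hℓ)
        · intro ℓ hℓ he
          exact he (hu₁.1 ℓ hℓ)
    have a := key s₁ h₁ s₂ h₂
    have b' := key t₁ k₁ t₂ k₂
    rw [h] at a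
    exact ⟨a.1.symm.trans b'.1, a.2.symm.trans b'.2⟩

/-! ### one letter type -/

/-- the multiset of letters of type `b` with given values -/
def emb (b : Λ) (t : Multiset ℕ) : Multiset (Λ × ℕ) := t.map fun a => (b, a)

omit [DecidableEq Λ] in
theorem emb_injective (b : Λ) : Function.Injective (emb b) :=
  Multiset.map_injective (fun a a' h => by simpa using h)

omit [DecidableEq Λ] in
theorem cls_emb (b : Λ) (t : Multiset ℕ) : cls cL (emb b t) = Multiset.card t • cL b := by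
  simp [cls, emb, Multiset.map_map]

omit [DecidableEq Λ] in
theorem sA_emb (b : Λ) (t : Multiset ℕ) :
    sA pL (emb b t) = Multiset.card t * pL b + t.sum := by
  unfold sA emb
  rw [Multiset.map_map]
  simp only [Function.comp_def]
  rw [Multiset.sum_map_add]
  simp

omit [DecidableEq Λ] in
theorem sC_emb (b : Λ) (t : Multiset ℕ) :
    sC κ cL (emb b t) = Multiset.card t * κ (cL b) (cL b) := by
  simp [sC, emb, Multiset.map_map]

theorem two_choose (m : ℕ) : 2 * m.choose 2 + m = m * m := by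
  induction m with
  | zero => rfl
  | succ m ih =>
    rw [Nat.choose_succ_succ' m 1, Nat.choose_one_right]
    ring_nf
    ring_nf at ih
    omega

omit [DecidableEq Λ] in
theorem rel_emb (b : Λ) (t : Multiset ℕ) (n : ℕ) :
    Rel κ cL pL (emb b t) n ↔
      n = (pL b * Multiset.card t + κ (cL b) (cL b) * (Multiset.card t).choose 2) + t.sum := by
  unfold Rel
  rw [cls_emb, sA_emb, sC_emb]
  simp only [map_nsmul, AddMonoidHom.smul_apply, smul_eq_mul]
  have h := two_choose (Multiset.card t)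
  set m := Multiset.card t
  set k := κ (cL b) (cL b)
  have h2 : m * (m * k) = 2 * (k * m.choose 2) + m * k := by
    rw [← mul_assoc, ← h]; ring
  rw [h2]
  constructor
  · intro h3
    have : m * pL b = pL b * m := mul_comm _ _
    omega
  · intro h3
    have : m * pL b = pL b * m := mul_comm _ _
    omega

theorem mem_Phi1_iff (b : Λ) (s : Multiset (Λ × ℕ)) :
    s ∈ Phi1 oL b ↔ ∃ t : Multiset ℕ, (oL b = true → t.Nodup) ∧ emb b t = s := by
  constructor
  · rintro ⟨h1, h2⟩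
    have e : emb b (s.map Prod.snd) = s := by
      unfold emb
      rw [Multiset.map_map]
      conv_rhs => rw [← Multiset.map_id s]
      apply Multiset.map_congr rfl
      rintro ⟨x, a⟩ hℓ
      have := h1 _ hℓ
      simp only at this
      simp [this]
    refine ⟨s.map Prod.snd, fun ho => ?_, e⟩
    rw [Multiset.nodup_iff_count_le_one]
    intro a
    have := h2 (b, a) ho
    rw [← e] at this
    unfold emb at this
    rwa [Multiset.count_map_eq_count' _ _ (fun a a' h => by simpa using h)] at this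
  · rintro ⟨t, ht, rfl⟩
    refine ⟨fun ℓ hℓ => ?_, fun ℓ hℓ => ?_⟩
    · unfold emb at hℓ
      rw [Multiset.mem_map] at hℓ
      obtain ⟨a, _, rfl⟩ := hℓ
      rfl
    · by_cases hm : ℓ ∈ emb b t
      · unfold emb at hm
        rw [Multiset.mem_map] at hm
        obtain ⟨a, _, rfl⟩ := hm
        unfold emb
        rw [Multiset.count_map_eq_count' _ _ (fun a a' h => by simpa using h)]
        exact Multiset.nodup_iff_count_le_one.1 (ht hℓ) a
      · rw [Multiset.count_eq_zero_of_notMem hm]; exact Nat.zero_le _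

variable (hc0 : ∀ b, ∀ m m' : ℕ, m • cL b = m' • cL b → m = m')

include hc0 in
theorem fib_Phi1 (b : Λ) (m n : ℕ) :
    fib κ cL pL (Phi1 oL b) (m • cL b) n =
      if pL b * m + κ (cL b) (cL b) * m.choose 2 ≤ n then
        emb b '' MS (oL b) m (n - (pL b * m + κ (cL b) (cL b) * m.choose 2)) else ∅ := by
  ext s
  constructor
  · rintro ⟨hs, hd, hn⟩
    obtain ⟨t, ht, rfl⟩ := (mem_Phi1_iff oL b s).1 hs
    rw [cls_emb] at hd
    have hm := hc0 b _ _ hd
    rw [rel_emb, hm] at hn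
    rw [if_pos (by omega)]
    exact ⟨t, ⟨ht, hm, by omega⟩, rfl⟩
  · intro h
    split_ifs at h with hle
    · obtain ⟨t, ⟨ht, hm, hsum⟩, rfl⟩ := h
      refine ⟨(mem_Phi1_iff oL b _).2 ⟨t, ht, rfl⟩, by rw [cls_emb, hm], ?_⟩
      rw [rel_emb, hm, hsum]
      omega
    · exact absurd h (Set.notMem_empty _)

theorem fib_Phi1_off (b : Λ) {d : M} (hd : ¬ ∃ m : ℕ, m • cL b = d) (n : ℕ) :
    fib κ cL pL (Phi1 oL b) d n = ∅ := by
  rw [Set.eq_empty_iff_forall_notMem]
  rintro s ⟨hs, hd', _⟩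
  obtain ⟨t, ht, rfl⟩ := (mem_Phi1_iff oL b s).1 hs
  rw [cls_emb] at hd'
  exact hd ⟨_, hd'⟩

include hc0 in
theorem fib_Phi1_finite (b : Λ) (d : M) (n : ℕ) : (fib κ cL pL (Phi1 oL b) d n).Finite := by
  by_cases h : ∃ m : ℕ, m • cL b = d
  · obtain ⟨m, rfl⟩ := h
    rw [fib_Phi1 κ cL pL oL hc0]
    split_ifs
    · exact (ms_finite _ _ _).image _
    · exact Set.finite_empty
  · rw [fib_Phi1_off κ cL pL oL b h]
    exact Set.finite_empty

include hc0 in
theorem cser_Phi1 (b : Λ) (d : M) :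
    cser κ cL pL (Phi1 oL b) d = rayF κ (oL b) (pL b) (cL b) d := by
  by_cases h : ∃ m : ℕ, m • cL b = d
  · obtain ⟨m, rfl⟩ := h
    rw [rayF_smul κ _ _ (hc0 b)]
    ext n
    rw [cser, coeff_mk, fib_Phi1 κ cL pL oL hc0, coeff_X_pow_mul']
    split_ifs
    · rw [Set.ncard_image_of_injective _ (emb_injective b), ms_ncard]
    · simp
  · rw [rayF_off κ _ _ h]
    ext n
    rw [cser, coeff_mk, fib_Phi1_off κ cL pL oL b h]
    simp

/-! ### lists of letter types -/

theorem fib_nil (d : M) (n : ℕ) [Decidable (d = 0 ∧ n = 0)] :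
    fib κ cL pL (Phi oL []) d n = if d = 0 ∧ n = 0 then {0} else ∅ := by
  ext s
  constructor
  · rintro ⟨hs, hd, hn⟩
    have h0 : s = 0 := by
      rw [Multiset.eq_zero_iff_forall_notMem]
      intro ℓ hℓ
      exact absurd (hs.1 ℓ hℓ) (by simp)
    subst h0
    have e : cls cL (0 : Multiset (Λ × ℕ)) = 0 := by simp [cls]
    unfold Rel at hn
    rw [e] at hd hn
    simp [sA, sC] at hn
    simp [← hd, hn]
  · intro h
    split_ifs at h with h0
    · rw [Set.mem_singleton_iff] at h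
      subst h
      obtain ⟨rfl, rfl⟩ := h0
      refine ⟨⟨by simp, fun ℓ _ => by simp⟩, by simp [cls], ?_⟩
      unfold Rel
      simp [sA, sC, cls]
    · exact absurd h (Set.notMem_empty _)

variable {K : Type*} [CommRing K] {T : Tw M K} {ι : PowerSeries ℤ →+* K} [HasAntidiagonal M]

include hc0 in
theorem fib_Phi_finite (Z : AddSubmonoid M) (hc : ∀ b, cL b ∈ Z)
    (hsym : ∀ d ∈ Z, ∀ e ∈ Z, κ d e = κ e d) (l : List Λ) (hl : l.Nodup) (d : M) (n : ℕ) :
    (fib κ cL pL (Phi oL l) d n).Finite := by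
  classical
  induction l generalizing d n with
  | nil => rw [fib_nil]; split_ifs <;> simp
  | cons b l ih =>
    rw [List.nodup_cons] at hl
    exact (fib_sum hc hsym (isSum_cons oL hl.1) (fib_Phi1_finite κ cL pL oL hc0 b)
      (ih hl.2) d n).1

include hc0 in
/-- **the counting series of multisets of letters is the product of the ray series.** -/
theorem gser_cser (hT : IsForm T κ) (hι : ι X = T.v) (Z : AddSubmonoid M) (hc : ∀ b, cL b ∈ Z)
    (hsym : ∀ d ∈ Z, ∀ e ∈ Z, κ d e = κ e d) (l : List Λ) (hl : l.Nodup) :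
    gser T ι (cser κ cL pL (Phi oL l)) =
      (l.map fun b => gser T ι (rayF κ (oL b) (pL b) (cL b))).prod := by
  classical
  induction l with
  | nil =>
    rw [List.map_nil, List.prod_nil]
    ext d
    rw [gser_co, TPS.co_one]
    have : cser κ cL pL (Phi oL []) d = if d = 0 then 1 else 0 := by
      ext n
      rw [cser, coeff_mk, fib_nil]
      by_cases hd : d = 0
      · by_cases hn : n = 0
        · simp [hd, hn]
        · simp [hd, hn, coeff_one]
      · simp [hd]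
    rw [this]
    split_ifs <;> simp
  | cons b l ih =>
    rw [List.nodup_cons] at hl
    rw [List.map_cons, List.prod_cons, ← ih hl.2, gser_mul hT hι]
    congr 1
    ext d
    rw [cser_sum hc hsym (isSum_cons oL hl.1) (fib_Phi1_finite κ cL pL oL hc0 b)
      (fib_Phi_finite κ cL pL oL hc0 Z hc hsym l hl.2)]
    simp only [cser_Phi1 κ cL pL oL hc0]

end letters

end Crest.Agent.R059.Num469
end

-- ▼ part R059/NumMain_469
section

set_option autoImplicit false

/-!
Row 59 (S0081), leaf NUM, part 4: truncation (infinitely many letter types) and the parts of the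
quiver series.
-/

namespace Crest.Agent.R059.Num469

open Finset PowerSeries HasAntidiagonal

section trunc

variable {M : Type*} [AddCommMonoid M] {κ : M →+ M →+ ℕ}
variable {Λ : Type*} [DecidableEq Λ] {cL : Λ → M} {pL : Λ → ℕ} {oL : Λ → Bool}
variable {Z : AddSubmonoid M}

/-- all supermonomials -/
def PhiAll (oL : Λ → Bool) : Set (Multiset (Λ × ℕ)) := {s | OddOk oL s}

omit [DecidableEq Λ] in
theorem ht_le_of_mem (ht : M →+ ℕ) {s : Multiset (Λ × ℕ)} {d : M} (hd : cls cL s = d)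
    {ℓ : Λ × ℕ} (hℓ : ℓ ∈ s) : ht (cL ℓ.1) ≤ ht d := by
  obtain ⟨t, rfl⟩ := Multiset.exists_cons_of_mem hℓ
  rw [← hd]
  simp only [cls, Multiset.map_cons, Multiset.sum_cons, map_add]
  exact Nat.le_add_right _ _

omit [DecidableEq Λ] in
theorem pL_le_of_mem (hc : ∀ b, cL b ∈ Z) (hsym : ∀ d ∈ Z, ∀ e ∈ Z, κ d e = κ e d)
    {s : Multiset (Λ × ℕ)} {n : ℕ} (hn : Rel κ cL pL s n)
    {ℓ : Λ × ℕ} (hℓ : ℓ ∈ s) : pL ℓ.1 ≤ n := by
  obtain ⟨t, ht⟩ := exists_pairs κ cL Z hc hsym s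
  have h1 : pL ℓ.1 ≤ sA pL s := by
    obtain ⟨u, rfl⟩ := Multiset.exists_cons_of_mem hℓ
    simp only [sA, Multiset.map_cons, Multiset.sum_cons]
    omega
  unfold Rel at hn
  omega

theorem fib_trunc (ht : M →+ ℕ) (hc : ∀ b, cL b ∈ Z)
    (hsym : ∀ d ∈ Z, ∀ e ∈ Z, κ d e = κ e d) {N B : ℕ} {l : List Λ}
    (hl : ∀ b, ht (cL b) ≤ N → pL b < B → b ∈ l) {d : M} (hd : ht d ≤ N) {n : ℕ} (hn : n < B) :
    fib κ cL pL (PhiAll oL) d n = fib κ cL pL (Phi oL l) d n := by
  ext s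
  constructor
  · rintro ⟨h1, h2, h3⟩
    refine ⟨⟨fun ℓ hℓ => hl _ ?_ ?_, h1⟩, h2, h3⟩
    · exact (ht_le_of_mem ht h2 hℓ).trans hd
    · exact (pL_le_of_mem hc hsym h3 hℓ).trans_lt hn
  · rintro ⟨h1, h2, h3⟩
    exact ⟨h1.2, h2, h3⟩

omit [DecidableEq Λ] in
theorem fib_off (hc : ∀ b, cL b ∈ Z) (Φ : Set (Multiset (Λ × ℕ))) {d : M} (hd : d ∉ Z) (n : ℕ) :
    fib κ cL pL Φ d n = ∅ := by
  rw [Set.eq_empty_iff_forall_notMem]
  rintro s ⟨_, h2, _⟩
  exact hd (h2 ▸ cls_mem cL Z hc s)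

variable {K : Type*} [CommRing K] {T : Tw M K} {ι : PowerSeries ℤ →+* K} [HasAntidiagonal M]

/-- the `E`-series of a letter type. -/
noncomputable def Eser (κ : M →+ M →+ ℕ) (T : Tw M K) (ι : PowerSeries ℤ →+* K) (o : Bool)
    (p : ℕ) (c : M) : TPS T := gser T ι (rayF κ o p c)

/-- **(ii)**: `Q` counts supermonomials `⇒` in heights `≤ N` and modulo `X^B` it is a finite
product of `E`-series. -/
theorem num_trunc (hT : IsForm T κ) (hι : ι X = T.v) (ht : M →+ ℕ) (hc : ∀ b, cL b ∈ Z)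
    (hsym : ∀ d ∈ Z, ∀ e ∈ Z, κ d e = κ e d)
    (hc0 : ∀ b, ∀ m m' : ℕ, m • cL b = m' • cL b → m = m')
    (hfin : ∀ N B, {b | ht (cL b) ≤ N ∧ pL b < B}.Finite)
    {Q : M → PowerSeries ℤ}
    (hQ : ∀ d ∈ Z, ∀ n, coeff n (Q d) = ((fib κ cL pL (PhiAll oL) d n).ncard : ℤ))
    (N B : ℕ) : ∃ l : List Λ, l.Nodup ∧ ∀ d ∈ Z, ht d ≤ N → ∃ r : PowerSeries ℤ,
      ι (Q d) - (l.map fun b => Eser κ T ι (oL b) (pL b) (cL b)).prod.co d = ι (X ^ B * r) := by
  classical
  refine ⟨(hfin N B).toFinset.toList, Finset.nodup_toList _, fun d hdZ hd => ?_⟩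
  have e := gser_cser κ cL pL oL hc0 hT hι Z hc hsym (hfin N B).toFinset.toList
    (Finset.nodup_toList _)
  have hdvd : (X : PowerSeries ℤ) ^ B ∣
      Q d - cser κ cL pL (Phi oL (hfin N B).toFinset.toList) d := by
    rw [X_pow_dvd_iff]
    intro n hn
    rw [map_sub, hQ d hdZ, cser, coeff_mk, fib_trunc ht hc hsym (N := N) (B := B) _ hd hn,
      sub_self]
    intro b h1 h2
    rw [Finset.mem_toList, Set.Finite.mem_toFinset]
    exact ⟨h1, h2⟩
  obtain ⟨r, hr⟩ := hdvd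
  refine ⟨r, ?_⟩
  rw [← hr, map_sub]
  congr 1
  unfold Eser
  rw [← e, gser_co]

/-- off `Z` products of `E`-series vanish. -/
theorem prod_off (hT : IsForm T κ) (hι : ι X = T.v) (hc : ∀ b, cL b ∈ Z)
    (hsym : ∀ d ∈ Z, ∀ e ∈ Z, κ d e = κ e d)
    (hc0 : ∀ b, ∀ m m' : ℕ, m • cL b = m' • cL b → m = m') (l : List Λ) (hl : l.Nodup) {d : M}
    (hd : d ∉ Z) : (l.map fun b => Eser κ T ι (oL b) (pL b) (cL b)).prod.co d = 0 := by
  have e := gser_cser κ cL pL oL hc0 hT hι Z hc hsym l hl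
  unfold Eser
  rw [← e, gser_co]
  have : cser κ cL pL (Phi oL l) d = 0 := by
    ext n
    rw [cser, coeff_mk, fib_off hc _ hd]
    simp
  rw [this, map_zero]

end trunc

end Crest.Agent.R059.Num469
end

-- ▼ part R059/NumOut_469
section

set_option autoImplicit false

/-!
Row 59 (S0081), leaf NUM, part 5: the numeric outputs of HILB, THEOREM A and THEOREM B give
`ABOut`.
-/

namespace Crest.Agent.R059.Num469

open Finset PowerSeries HasAntidiagonal

section defs

variable {I : Type} [Fintype I]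

/-- the natural number valued form `∑ k i j d_i e_j`. -/
noncomputable def kkN (k : I → I → ℕ) : (I →₀ ℕ) →+ (I →₀ ℕ) →+ ℕ where
  toFun d :=
    { toFun := fun e => ∑ i, ∑ j, k i j * d i * e j
      map_zero' := by simp
      map_add' := fun e f => by
        simp only [Finsupp.add_apply, mul_add, sum_add_distrib] }
  map_zero' := by ext e; simp
  map_add' d e := by
    apply AddMonoidHom.ext
    intro f
    simp only [AddMonoidHom.coe_mk, ZeroHom.coe_mk, AddMonoidHom.add_apply, Finsupp.add_apply,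
      mul_add, add_mul, sum_add_distrib]

@[simp] theorem kkN_apply (k : I → I → ℕ) (d e : I →₀ ℕ) :
    kkN k d e = ∑ i, ∑ j, k i j * d i * e j := rfl

theorem kk_eq (k : I → I → ℕ) (d e : I →₀ ℕ) : ABOut.kk k d e = (kkN k d e : ℤ) := by
  rw [ABOut.kk_apply, kkN_apply]; push_cast; rfl

theorem isForm_TW (k : I → I → ℕ) : IsForm (ABOut.TW k) (kkN k) := fun a b => kk_eq k a b

/-- parity: `true` = odd -/
noncomputable def par (k : I → I → ℕ) (c : I →₀ ℕ) : Bool := decide (ABOut.par k c = 1)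

/-- INPUT (HILB). -/
def HILB (H : (I →₀ ℕ) → PowerSeries ℤ) : Prop :=
  ∀ d, H d * ∏ i, qf (d i) = X ^ (∑ i, (d i).choose 2)

/-- INPUT (THA). -/
structure THA [DecidableEq I] (k : I → I → ℕ) (θ : I → ℤ) (H P Q : (I →₀ ℕ) → PowerSeries ℤ) : Prop where
  eq : ∀ d, H d = ∑ p ∈ antidiagonal d, X ^ (kkN k p.1 p.2) * (P p.1 * Q p.2)
  P0 : P 0 = 1
  Q0 : Q 0 = 1
  hP : ∀ a, P a ≠ 0 → a = 0 ∨ 0 < ABOut.th θ a
  hQ : ∀ b, Q b ≠ 0 → ABOut.th θ b ≤ 0

/-- the set of supermonomials of class `d` and degree `n` -/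
def SM (k : I → I → ℕ) {Λ : Type} [DecidableEq Λ] (cL : Λ → (I →₀ ℕ)) (pL : Λ → ℕ)
    (d : I →₀ ℕ) (n : ℕ) : Set (Multiset (Λ × ℕ)) :=
  {s | (∀ ℓ, par k (cL ℓ.1) = true → s.count ℓ ≤ 1) ∧ (s.map fun ℓ => cL ℓ.1).sum = d ∧
    2 * n + (s.map fun ℓ => kkN k (cL ℓ.1) (cL ℓ.1)).sum =
      2 * (s.map fun ℓ => pL ℓ.1 + ℓ.2).sum + kkN k d d}

/-- INPUT (THB). -/
def THB (k : I → I → ℕ) (θ : I → ℤ) (Q : (I →₀ ℕ) → PowerSeries ℤ) : Prop :=
  ∃ (Λ : Type) (_ : DecidableEq Λ) (cL : Λ → (I →₀ ℕ)) (pL : Λ → ℕ),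
    (∀ b, cL b ≠ 0 ∧ ABOut.th θ (cL b) = 0) ∧
    (∀ c p, {b | cL b = c ∧ pL b = p}.Finite) ∧
    ∀ d, ABOut.th θ d = 0 → ∀ n, coeff n (Q d) = ((SM k cL pL d n).ncard : ℤ)

end defs

section bind

variable {I : Type} [Fintype I]

/-- finitely many classes of bounded height -/
theorem finite_height (N : ℕ) : {c : I →₀ ℕ | Finsupp.degree c ≤ N}.Finite := by
  classical
  have : {c : I →₀ ℕ | Finsupp.degree c ≤ N} ⊆
      Set.Iic (Finsupp.equivFunOnFinite.symm (fun _ : I => N)) := by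
    intro c hc
    rw [Set.mem_Iic]
    intro i
    have h1 : c i ≤ Finsupp.degree c := Finsupp.le_degree i c
    have h2 : Finsupp.degree c ≤ N := hc
    simp only [Finsupp.equivFunOnFinite_symm_apply_apply]
    omega
  exact (Set.finite_Iic _).subset this

theorem finite_letters {Λ : Type} {cL : Λ → (I →₀ ℕ)} {pL : Λ → ℕ}
    (hfin : ∀ c p, {b | cL b = c ∧ pL b = p}.Finite) (N B : ℕ) :
    {b | Finsupp.degree (cL b) ≤ N ∧ pL b < B}.Finite := by
  have : {b | Finsupp.degree (cL b) ≤ N ∧ pL b < B} ⊆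
      ⋃ c ∈ {c : I →₀ ℕ | Finsupp.degree c ≤ N}, ⋃ p ∈ Set.Iio B, {b | cL b = c ∧ pL b = p} := by
    rintro b ⟨h1, h2⟩
    simp only [Set.mem_iUnion]
    exact ⟨cL b, h1, pL b, h2, rfl, rfl⟩
  refine Set.Finite.subset ?_ this
  refine (finite_height N).biUnion fun c _ => ?_
  exact (Set.finite_Iio B).biUnion fun p _ => hfin c p

/-- the quiver series is `ι H` -/
theorem gser_eq (k : I → I → ℕ) {H : (I →₀ ℕ) → PowerSeries ℤ} (hH : HILB H) :
    ABOut.gser k = gser (ABOut.TW k) Iota217.iota H := by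
  apply TPS.ext
  funext d
  rw [gser_co]
  change ∏ i, TPS.eco vv 1 0 (d i) = _
  have h1 : ∀ i, TPS.eco vv 1 0 (d i) * Iota217.iota (qf (d i)) =
      (vv : KK) ^ (2 * (d i).choose 2) := by
    intro i
    have e := Iota217.coeff_EE_two true 0 (d i)
    have e2 := TPS.coeff_EE_eq_eco vv (1 : ZMod 2) (2 * ((0 : ℕ) : ℤ)) (d i)
    have e3 : (decide ((1 : ZMod 2) = 1)) = true := by decide
    rw [e3, e] at e2
    have e4 : (2 * ((0 : ℕ) : ℤ)) = 0 := by norm_num
    rw [e4] at e2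
    rw [← e2, ← map_mul]
    simp only [zero_mul, pow_zero, one_mul]
    rw [ee_mul_qf]
    simp only [if_true]
    exact Iota217.iota_X_pow _
  have h2 : Iota217.iota (H d) * ∏ i, Iota217.iota (qf (d i)) =
      (vv : KK) ^ (2 * ∑ i, (d i).choose 2) := by
    rw [← map_prod, ← map_mul, hH d, Iota217.iota_X_pow]
  have h3 : (∏ i, TPS.eco vv 1 0 (d i)) * ∏ i, Iota217.iota (qf (d i)) =
      (vv : KK) ^ (2 * ∑ i, (d i).choose 2) := by
    rw [← prod_mul_distrib, prod_congr rfl (fun i _ => h1 i), prod_pow_eq_pow_sum, mul_sum]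
  have h4 : (∏ i, Iota217.iota (qf (d i))) ≠ 0 := by
    rw [prod_ne_zero_iff]
    intro i _
    rw [Iota217.iota_qf]
    exact Iota217.qpv_ne _
  exact mul_right_cancel₀ h4 (h3.trans h2.symm)

/-- the `E`-series is 883's letter -/
theorem Eser_eq_letter (k : I → I → ℕ) {c : I →₀ ℕ} (hc : c ≠ 0) (p : ℕ) :
    Eser (kkN k) (ABOut.TW k) Iota217.iota (par k c) p c = ABOut.letter k c p := by
  have hinj : Function.Injective (fun m : ℕ => m • c) := TPS.nsmul_inj hc
  apply TPS.ext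
  funext d
  rw [Eser, gser_co, ABOut.letter, TPS.ray]
  by_cases h : ∃ m : ℕ, m • c = d
  · obtain ⟨m, rfl⟩ := h
    rw [rayF_smul _ _ _ (fun m m' h => hinj h)]
    have e1 := hinj.extend_apply (fun m => TPS.eco vv (ABOut.par k c) (2 * p) m *
      ((vv ^ (ABOut.kk k c c * (m * (m - 1) : ℕ)) : KKˣ) : KK)) (0 : (I →₀ ℕ) → KK) m
    refine Eq.trans ?_ e1.symm
    rw [← TPS.coeff_EE_eq_eco]
    change _ = coeff m (Dilog344.EE vv (par k c) (2 * p)) * _
    rw [Iota217.coeff_EE_two, pow_add, mul_right_comm, map_mul, pow_mul, ← pow_mul]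
    congr 1
    rw [Iota217.iota_X_pow, kk_eq]
    have h2 := two_choose m
    have h3 : 2 * m.choose 2 = m * (m - 1) := Iota217.choose_two_two m
    rw [← h3]
    rw [← zpow_natCast (vv : KK)]
    have : ((vv ^ ((kkN k c c : ℤ) * ((2 * m.choose 2 : ℕ) : ℤ)) : KKˣ) : KK) =
      (vv : KK) ^ ((kkN k c c : ℤ) * ((2 * m.choose 2 : ℕ) : ℤ)) := by
      rw [Units.val_zpow_eq_zpow_val]
    rw [this]
    congr 1
    push_cast
    ring
  · rw [rayF_off _ _ _ h, map_zero]
    exact (Function.extend_apply' (fun m => TPS.eco vv (ABOut.par k c) (2 * p) m *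
      ((vv ^ (ABOut.kk k c c * (m * (m - 1) : ℕ)) : KKˣ) : KK)) (0 : (I →₀ ℕ) → KK) d h).symm

/-- **NUM**: the numeric outputs give the closure statement for one `(k, θ)`. -/
theorem num_closure [DecidableEq I] (k : I → I → ℕ) (θ : I → ℤ)
    (hsym : ∀ d e : I →₀ ℕ, ABOut.th θ d = 0 → ABOut.th θ e = 0 → ABOut.kk k d e = ABOut.kk k e d)
    {H P Q : (I →₀ ℕ) → PowerSeries ℤ} (hH : HILB H) (hA : THA k θ H P Q) (hB : THB k θ Q) :
    TPS.zer (ABOut.th θ) (ABOut.gser k) ∈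
      closure (Submonoid.closure (ABOut.Letters k θ) : Set (TPS (ABOut.TW k))) := by
  classical
  obtain ⟨Λ, _, cL, pL, hc, hfin, hcount⟩ := hB
  have hιv : Iota217.iota X = ((ABOut.TW k).v : KK) := by
    rw [Iota217.iota_X]
    change _ = ((vv ^ 2 : KKˣ) : KK)
    rw [Units.val_pow_eq_pow_val]
  -- factorisation
  have hfac : gser (ABOut.TW k) Iota217.iota P * gser (ABOut.TW k) Iota217.iota Q =
      ABOut.gser k := by
    rw [gser_mul (isForm_TW k) hιv, gser_eq k hH]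
    congr 1
    funext d
    exact (hA.eq d).symm
  have hPin : TPS.In1 (fun d => 0 < ABOut.th θ d) (gser (ABOut.TW k) Iota217.iota P) := by
    refine ⟨by rw [gser_co, hA.P0, map_one], fun d hd hn => ?_⟩
    rw [gser_co]
    by_cases h : P d = 0
    · rw [h, map_zero]
    · exact absurd ((hA.hP d h).resolve_left hd) hn
  have hQin : TPS.In1 (fun d => ABOut.th θ d ≤ 0) (gser (ABOut.TW k) Iota217.iota Q) := by
    refine ⟨by rw [gser_co, hA.Q0, map_one], fun d hd hn => ?_⟩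
    rw [gser_co]
    by_cases h : Q d = 0
    · rw [h, map_zero]
    · exact absurd (hA.hQ d h) hn
  have hnpos : TPS.npos (ABOut.th θ) (ABOut.gser k) = gser (ABOut.TW k) Iota217.iota Q := by
    rw [← hfac]
    exact (TPS.pos_npos_unique (ABOut.th θ) hPin hQin).2
  have hzer : ∀ d, ABOut.th θ d = 0 →
      (TPS.zer (ABOut.th θ) (ABOut.gser k)).co d = Iota217.iota (Q d) := by
    intro d hd
    rw [← gser_co (ABOut.TW k) Iota217.iota Q d, ← hnpos,
      ← TPS.zer_mul_neg (ABOut.th θ) (ABOut.gser k), TPS.co_mul, Finset.sum_eq_single (d, 0)]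
    · rw [TPS.wt_zero_right, TPS.neg_co_zero, mul_one, one_mul]
    · rintro ⟨a, b⟩ hab hne
      rw [HasAntidiagonal.mem_antidiagonal] at hab
      simp only at hab
      by_cases hb : b = 0
      · subst hb
        rw [add_zero] at hab
        exact absurd (by rw [hab]) hne
      · by_cases ha : ABOut.th θ a = 0
        · have h2 : ABOut.th θ b = 0 := by
            have := congrArg (ABOut.th θ) hab
            rw [map_add, ha, zero_add, hd] at this
            exact this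
          rw [(TPS.in1_neg (ABOut.th θ) (ABOut.gser k)).supp b hb (by rw [h2]; exact lt_irrefl 0)]
          simp
        · by_cases ha0 : a = 0
          · subst ha0; exact absurd (map_zero _) ha
          · rw [(TPS.in1_zer (ABOut.th θ) (ABOut.gser k)).supp a ha0 ha]
            simp
    · intro h
      exact absurd (by rw [HasAntidiagonal.mem_antidiagonal]; simp) h
  -- closure
  rw [mem_closure_iff_coeff]
  intro S n
  set Z : AddSubmonoid (I →₀ ℕ) := AddMonoidHom.mker (ABOut.th θ) with hZ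
  have hmemZ : ∀ d, d ∈ Z ↔ ABOut.th θ d = 0 := fun d => by rw [hZ, AddMonoidHom.mem_mker]
  have hcZ : ∀ b, cL b ∈ Z := fun b => (hmemZ _).2 (hc b).2
  have hsymZ : ∀ d ∈ Z, ∀ e ∈ Z, kkN k d e = kkN k e d := by
    intro d hd e he
    have := hsym d e ((hmemZ d).1 hd) ((hmemZ e).1 he)
    rw [kk_eq, kk_eq] at this
    exact_mod_cast this
  have hc0 : ∀ b, ∀ m m' : ℕ, m • cL b = m' • cL b → m = m' :=
    fun b m m' h => TPS.nsmul_inj (hc b).1 h
  have hQc : ∀ d ∈ Z, ∀ n, coeff n (Q d) =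
      ((fib (kkN k) cL pL (PhiAll (fun b => par k (cL b))) d n).ncard : ℤ) := by
    intro d hd n
    rw [hcount d ((hmemZ d).1 hd) n]
    congr 2
    ext s
    simp only [SM, fib, PhiAll, OddOk, Rel, cls, sA, sC, Set.mem_ofPred_eq]
    constructor
    · rintro ⟨h1, h2, h3⟩
      exact ⟨h1, h2, by rw [h2]; exact h3⟩
    · rintro ⟨h1, h2, h3⟩
      exact ⟨h1, h2, by rw [h2] at h3; exact h3⟩
  obtain ⟨l, hlnd, hl⟩ := num_trunc (κ := kkN k) (T := ABOut.TW k) (ι := Iota217.iota)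
    (oL := fun b => par k (cL b)) (pL := pL) (isForm_TW k) hιv
    Finsupp.degree hcZ hsymZ hc0 (finite_letters hfin) hQc
    (S.sup Finsupp.degree) n.toNat
  refine ⟨(l.map fun b => Eser (kkN k) (ABOut.TW k) Iota217.iota (par k (cL b)) (pL b)
    (cL b)).prod, ?_, ?_⟩
  · apply Submonoid.list_prod_mem
    intro x hx
    rw [List.mem_map] at hx
    obtain ⟨b, _, rfl⟩ := hx
    apply Submonoid.subset_closure
    exact ⟨cL b, pL b, (hc b).1, (hc b).2, Eser_eq_letter k (hc b).1 _⟩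
  · intro d hdS j hj
    by_cases hd : ABOut.th θ d = 0
    · obtain ⟨r, hr⟩ := hl d ((hmemZ d).2 hd) (Finset.le_sup (f := Finsupp.degree) hdS)
      rw [hzer d hd]
      have h1 : HahnSeries.coeff (Iota217.iota (X ^ n.toNat * r)) j = 0 := by
        apply Iota217.coeff_iota_X_pow_mul
        omega
      rw [← hr] at h1
      rw [HahnSeries.coeff_sub, sub_eq_zero] at h1
      exact h1.symm
    · have h1 := prod_off (κ := kkN k) (T := ABOut.TW k) (ι := Iota217.iota)
        (oL := fun b => par k (cL b)) (pL := pL) (isForm_TW k) hιv hcZ hsymZ hc0 l hlnd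
        (d := d) (fun h => hd ((hmemZ d).1 h))
      rw [h1]
      have hd0 : d ≠ 0 := by rintro rfl; exact hd (map_zero _)
      rw [(TPS.in1_zer (ABOut.th θ) (ABOut.gser k)).supp d hd0 hd]

/-- **NUM**: numeric Theorems A + B + HILB give `ABOut`. -/
theorem abOut_of
    (h : ∀ (I : Type) [Fintype I] [DecidableEq I] (k : I → I → ℕ) (θ : I → ℤ),
      (∀ d e : I →₀ ℕ, ABOut.th θ d = 0 → ABOut.th θ e = 0 →
        ABOut.kk k d e = ABOut.kk k e d) →
      ∃ H P Q : (I →₀ ℕ) → PowerSeries ℤ, HILB H ∧ THA k θ H P Q ∧ THB k θ Q) : ABOut := by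
  intro I _ _ k θ hsym
  obtain ⟨H, P, Q, hH, hA, hB⟩ := h I k θ hsym
  exact num_closure k θ hsym hH hA hB

end bind

end Crest.Agent.R059.Num469
end

-- ▼ part R059/NumBind_469
section

set_option autoImplicit false

/-!
Row 59 (S0081), leaf NUM, part 6: the literal numeric Prop `ABNum` (naturals only, 217) gives
`ABOut`.
-/

namespace Crest.Agent.R059.Num469

open Finset PowerSeries HasAntidiagonal

variable {I : Type} [Fintype I]

theorem kkN_eq (k : I → I → ℕ) (d e : I →₀ ℕ) : NumA217.kkN k d e = kkN k d e := rfl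

theorem par_iff (k : I → I → ℕ) (c : I →₀ ℕ) :
    par k c = true ↔ Odd ((∑ i, c i) + NumA217.kkN k c c) := by
  rw [par, decide_eq_true_iff, ABOut.par, kk_eq, kkN_eq, ← ZMod.natCast_eq_one_iff_odd]
  push_cast
  rfl

theorem sm_eq (k : I → I → ℕ) {Λ : Type} [DecidableEq Λ] (cL : Λ → (I →₀ ℕ)) (pL : Λ → ℕ)
    (d : I →₀ ℕ) (n : ℕ) :
    SM k cL pL d n = NumForm217.SMm (A := Λ × ℕ)
      (fun x => Odd ((∑ i, cL x.1 i) + NumA217.kkN k (cL x.1) (cL x.1)))
      (fun x => cL x.1)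
      (fun x => NumA217.kkN k (cL x.1) (cL x.1))
      (fun x => pL x.1 + x.2)
      (NumA217.kkN k d d) d n := by
  ext s
  constructor
  · rintro ⟨h1, h2, h3⟩
    exact ⟨fun x _ hx => h1 x ((par_iff k _).2 hx), h2, h3⟩
  · rintro ⟨h1, h2, h3⟩
    refine ⟨fun x hx => ?_, h2, h3⟩
    by_cases hm : x ∈ s
    · exact h1 x hm ((par_iff k _).1 hx)
    · rw [Multiset.count_eq_zero_of_notMem hm]; exact Nat.zero_le _

/-- **the numeric output of Theorems A + B gives `ABOut`**. -/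
theorem abOut_of_abNum (h : ABNum) : ABOut := by
  classical
  refine abOut_of fun I _ _ k θ hsym => ?_
  obtain ⟨D⟩ := h I k θ hsym
  refine ⟨fun d => NumA217.hs (D.h d), fun d => NumA217.hs (D.hg d),
    fun d => NumA217.hs (D.hl d), D.hilb, ⟨?_, ?_, ?_, ?_, ?_⟩, ?_⟩
  · intro d
    exact NumA217.hs_of_thA (fun a b => NumA217.kkN k a b) D.h D.hg D.hl d (D.thA d)
  · exact NumA217.hs_eq_one D.hg_zero
  · exact NumA217.hs_eq_one D.hl_zero
  · intro a ha
    by_contra hcon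
    rw [not_or, not_lt] at hcon
    exact ha (NumA217.hs_eq_zero (D.hg_supp a hcon.1 hcon.2))
  · intro b hb
    by_contra hcon
    rw [not_le] at hcon
    exact hb (NumA217.hs_eq_zero (D.hl_supp b hcon))
  · refine ⟨D.Lam, Classical.decEq _, D.cL, D.pL, fun b => ⟨D.cL_ne b, D.cL_th b⟩, D.fin, ?_⟩
    intro d hd n
    rw [NumA217.coeff_hs, D.thB _ d hd n, sm_eq]

end Crest.Agent.R059.Num469
end

-- ▼ part R059/Cnt2_231
section

/-!
# Row 59 (helper231): `ABOut` from the basis theorem (Theorem B in basis form)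
-/

set_option autoImplicit false

namespace Crest.Agent.R059.Cnt231

open MvPolynomial Finset PL547

/-- the basis theorem: one global choice of letters, the admissible words are a basis of the
alternating polynomials modulo `J0` for every `d` of weight zero. -/
def BasisThm : Prop :=
  ∀ (I : Type) [Fintype I] [DecidableEq I] (k : I → I → ℕ) (θ : I → ℤ),
    (∀ c e : I → ℕ, thc θ c = 0 → thc θ e = 0 → kk k c e = kk k e c) →
    ∃ 𝓖 : GLet k θ, ∀ d : I → ℕ, thc θ d = 0 → ∃ pt : ∀ t : TT θ d, Vt (TT.cl t),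
      LinearIndependent ℚ (fun x : AW 𝓖 d => (J0s k θ (colV d)).mkQ (x.2.1.el pt)) ∧
      Anti (colV d) ≤ J0s k θ (colV d) ⊔
        Submodule.span ℚ (Set.range fun x : AW 𝓖 d => x.2.1.el pt)

theorem abOut_of_basis (h : BasisThm) : ABOut :=
  Num469.abOut_of_abNum (abNum_of_basis h)

end Crest.Agent.R059.Cnt231
end

-- ▼ part R059/PL8_547

/-!
# Row 59, Theorem B, half 2 (helper547): the basis theorem
-/

set_option autoImplicit false
set_option linter.unusedSectionVars false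

namespace Crest.Agent.R059.PL547

open MvPolynomial Finset Thin613 Deg359

attribute [local instance] Letters.lo

section basis

variable {I : Type} [Fintype I] [DecidableEq I] {k : I → I → ℕ} {θ : I → ℤ}
  {T : Type} [Fintype T] [LinearOrder T] {cl : T → I → ℕ} {d : I → ℕ} {𝓛 : Letters k θ cl}

theorem finite_Pl (hcl0 : ∀ t, cl t ≠ 0) : Finite (Pl cl d) := by
  have h : ∀ (m : Pl cl d) (t : T), m.1 t < (∑ i, d i) + 1 := by
    intro m t
    obtain ⟨i, hi⟩ := Function.ne_iff.1 (hcl0 t)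
    have h1 : 0 < cl t i := Nat.pos_of_ne_zero hi
    have h2 : m.1 t ≤ m.1 t * cl t i := Nat.le_mul_of_pos_right _ h1
    have h3 : m.1 t * cl t i ≤ ∑ t, m.1 t * cl t i :=
      Finset.single_le_sum (f := fun t => m.1 t * cl t i) (fun _ _ => Nat.zero_le _)
        (Finset.mem_univ t)
    have h4 := m.2 i
    have h5 : d i ≤ ∑ i, d i :=
      Finset.single_le_sum (f := fun i => d i) (fun _ _ => Nat.zero_le _) (Finset.mem_univ i)
    omega
  refine Finite.of_injective (fun m : Pl cl d => fun t => (⟨m.1 t, h m t⟩ : Fin _)) ?_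
  intro m m' hmm
  apply Subtype.ext
  funext t
  have := congrFun hmm t
  simpa using this

variable (k θ cl d) in
/-- the growth data -/
noncomputable def growth : Eng830.Growth ℚ (MvPolynomial (Vt d) ℚ) (Pl cl d) where
  card := Pl.card
  Gr m g := Gr k θ (colV d) (lab cl d m) g
  mono m := Gr_mono _ _

/-- the index set: places and admissible words -/
abbrev Ix (𝓛 : Letters k θ cl) (d : I → ℕ) : Type :=
  Σ m : Pl cl d, {φ : Wd 𝓛 m.1 // φ.Adm}

variable (hinj : Function.Injective cl) (hcl0 : ∀ t, cl t ≠ 0) (hcl : ∀ t, thc θ (cl t) = 0)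
  (hk : ∀ c e : I → ℕ, thc θ c = 0 → thc θ e = 0 → kk k c e = kk k e c)
  (pt : ∀ t, Vt (cl t))

/-- the family -/
noncomputable def family (𝓛 : Letters k θ cl) (d : I → ℕ) :
    Eng830.Fam (growth k θ cl d) (Ix 𝓛 d) where
  e x := x.2.1.el pt
  k x := x.2.1.tot
  p x := x.1
  mem x m' := el_mem hcl hk pt x.1 m' x.2.1
  memlt x m' hne hc := el_lt hinj hcl0 hcl hk pt x.1 m' hne hc x.2.1

/-- the local data at a place and a level -/
noncomputable def LD (𝓛 : Letters k θ cl) (m : Pl cl d) (g : ℕ) :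
    Loc830.Loc ℚ (MvPolynomial (Vt d) ℚ) (Sy k θ (colV d) (lab cl d m)) (GS (colV d))
      {φ : Wd 𝓛 m.1 // φ.tot = g} {φ : {φ : Wd 𝓛 m.1 // φ.tot = g} // φ.1.Adm} :=
  locD pt (fun t t' => hk _ _ (hcl t) (hcl t')) m g
    (fun φ => by
      have h := Kh_mem hcl hk pt m (w := 1) (fun _ => rfl) (Places494.good_lab hcl m) φ
      have h1 : rename (⇑(1 : Equiv.Perm (Vt d))) (rename (Em cl d m) (φ.Kh pt)) =
          rename (Em cl d m) (φ.Kh pt) := by
        have : (⇑(1 : Equiv.Perm (Vt d))) = id := rfl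
        rw [this, rename_id_apply]
      rwa [h1] at h)
    (fun φ => T_Mo m (PLloc830.sym_col hk _) (PLloc830.good_model m.1 hcl) pt φ
      (PLloc830.inV_lp hcl hk φ))
    (fun w hw hN φ => Kh_lt hcl hk pt m hw (Places494.good_lab hcl m)
      (fun hf => hN (exists_NN hinj pt m hw hf)) φ)
    (indep_eW m g)

theorem P_LD (m : Pl cl d) (g : ℕ) (t : {φ : {φ : Wd 𝓛 m.1 // φ.tot = g} // φ.1.Adm}) :
    Loc830.P (LD hinj hcl hk pt 𝓛 m g) t = t.1.1.el pt := by
  unfold Wd.el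
  rw [PLloc830.alt_eq_sum]
  rfl

/-- the index of a local word -/
def ixOf (m : Pl cl d) (g : ℕ) (t : {φ : {φ : Wd 𝓛 m.1 // φ.tot = g} // φ.1.Adm}) : Ix 𝓛 d :=
  ⟨m, ⟨t.1.1, t.2⟩⟩

theorem ixOf_inj (m : Pl cl d) (g : ℕ) : Function.Injective (ixOf (𝓛 := 𝓛) m g) := by
  intro t t' h
  unfold ixOf at h
  simp only [Sigma.mk.injEq, heq_eq_eq, true_and, Subtype.mk.injEq] at h
  exact Subtype.ext (Subtype.ext h)

theorem mem_range_ixOf (m : Pl cl d) (g : ℕ) (x : Ix 𝓛 d) (h1 : x.1 = m) (h2 : x.2.1.tot = g) :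
    x ∈ Set.range (ixOf (𝓛 := 𝓛) m g) := by
  obtain ⟨m', φ, hφ⟩ := x
  change m' = m at h1
  subst h1
  exact ⟨⟨⟨φ, h2⟩, hφ⟩, rfl⟩

include hinj hcl0 hcl hk in
/-- **independence** -/
theorem indep_basis : LinearIndependent ℚ
    (fun x : Ix 𝓛 d => (J0s k θ (colV d)).mkQ (x.2.1.el pt)) := by
  refine Eng830.ind_quot (family hinj hcl0 hcl hk pt 𝓛 d) (J0s k θ (colV d))
    (fun m g => J0s_le_Gr _ _ (Places494.good_lab hcl m) g) ?_
  intro m g c hc hsum
  have hrange : (c.support : Set (Ix 𝓛 d)) ⊆ Set.range (ixOf (𝓛 := 𝓛) m g) := by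
    intro x hx
    exact mem_range_ixOf m g x (hc x hx).1 (hc x hx).2
  have hmap := Finsupp.mapDomain_comapDomain _ (ixOf_inj (𝓛 := 𝓛) m g) c hrange
  have h0 : c.comapDomain (ixOf m g) (ixOf_inj m g).injOn = 0 := by
    apply Loc830.LI (LD hinj hcl hk pt 𝓛 m g)
    have h1 : ((c.comapDomain (ixOf m g) (ixOf_inj m g).injOn).sum
        fun t x => x • Loc830.P (LD hinj hcl hk pt 𝓛 m g) t) =
        c.sum fun t a => a • (family hinj hcl0 hcl hk pt 𝓛 d).e t := by
      have h2 := Finsupp.sum_mapDomain_index (f := ixOf (𝓛 := 𝓛) m g)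
        (s := c.comapDomain (ixOf m g) (ixOf_inj m g).injOn)
        (h := fun (t : Ix 𝓛 d) (a : ℚ) => a • (family hinj hcl0 hcl hk pt 𝓛 d).e t)
        (fun t => zero_smul ℚ _) (fun t a b => add_smul a b _)
      rw [hmap] at h2
      refine Eq.trans ?_ h2.symm
      refine Finsupp.sum_congr fun t _ => ?_
      rw [P_LD]
      rfl
    rw [h1]
    exact hsum
  rw [← hmap, h0, Finsupp.mapDomain_zero]

include hinj hcl0 hcl hk in
/-- **spanning** -/
theorem span_basis (hT : Places494.AllTypes θ cl d) (hd : thc θ d = 0) :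
    Anti (colV d) ≤ J0s k θ (colV d) ⊔
      Submodule.span ℚ (Set.range fun x : Ix 𝓛 d => x.2.1.el pt) := by
  have := finite_Pl (d := d) hcl0
  have : Fintype (Pl cl d) := Fintype.ofFinite _
  refine Eng830.span_all (family hinj hcl0 hcl hk pt 𝓛 d) (Anti (colV d)) (J0s k θ (colV d))
    (fun x => alt_mem _ _) (fun f _ => Places494.exists_growth_Pl f)
    (fun f hf h => Places494.mem_J0s_of_Pl hT hd hf h) ?_
  intro m g f hf h1 h2
  have hTf := mem_span_eW (𝓛 := 𝓛) hT hcl0 hcl hk m g hf h1 h2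
  obtain ⟨h, hh, hB⟩ := Loc830.LS (LD hinj hcl hk pt 𝓛 m g) (h1 m) (fun w _ => hf w w.2) hTf
  refine ⟨h, ?_, hB⟩
  refine (Submodule.span_mono ?_) hh
  rintro _ ⟨t, rfl⟩
  refine ⟨ixOf m g t, ⟨rfl, t.1.2⟩, ?_⟩
  rw [P_LD]
  rfl

end basis

/-- **Theorem B in basis form** -/
theorem basisThm : Cnt231.BasisThm := by
  intro I _ _ k θ hk
  refine ⟨(exists_letters k θ (T := I → ℕ) (fun c => c)).some, fun d hd => ?_⟩
  obtain ⟨pt⟩ := Cnt231.TT.exists_pt (θ := θ) d
  refine ⟨pt, ?_, ?_⟩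
  · exact indep_basis Cnt231.TT.cl_inj Cnt231.TT.cl_ne Cnt231.TT.cl_th hk pt
  · exact span_basis Cnt231.TT.cl_inj Cnt231.TT.cl_ne Cnt231.TT.cl_th hk pt
      (fun c h0 h1 h2 => Cnt231.TT.all c h0 h1 (fun i => h2 i)) hd

theorem abOut : ABOut := Cnt231.abOut_of_basis basisThm

end Crest.Agent.R059.PL547
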